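import Vale.Agent.P026.MelA

/-! A Gamma quotient and inverse Mellin transforms of functions with Gaussian decay in strips. -/

namespace Vale.Agent.P006

open Vale.Agent.P026 Complex MeasureTheory Filter Topology
open scoped ComplexConjugate FourierTransform

theorem ann_step {w : ℂ} {x : ℝ} (hw : w.re = x) (hx : 1 / 2 ≤ x) :
    ‖w‖ ^ 2 * ((x - 1 / 2) / x) ≤ (x + 1 - 1 / 2) / (x + 1) * (‖w - 1 / 2‖ * ‖w + 1 / 2‖) := by
  have h1 : ‖w‖ ^ 2 - 1 / 4 ≤ ‖w - 1 / 2‖ * ‖w + 1 / 2‖ := by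
    rw [← norm_mul, show (w - 1 / 2) * (w + 1 / 2) = w ^ 2 - 1 / 4 by ring, ← norm_pow]
    simpa only [norm_div, norm_one, Complex.norm_ofNat] using norm_sub_norm_le (w ^ 2) (1 / 4)
  have h2 : x ^ 2 ≤ ‖w‖ ^ 2 := by
    rw [← hw]
    exact sq_le_sq' (by linarith [norm_nonneg w]) (re_le_norm w)
  refine le_trans ?_ (mul_le_mul_of_nonneg_left h1 (by apply div_nonneg <;> linarith))
  rw [← mul_div_assoc, div_mul_eq_mul_div, div_le_div_iff₀ (by linarith) (by linarith)]
  nlinarith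

theorem ann_prod {z : ℂ} (hz : z.re = 3 / 4) (n : ℕ) :
    ‖∏ j ∈ Finset.range n, (z + j)‖ ^ 2 ≤ 3 * ((3 / 4 + n - 1 / 2) / (3 / 4 + n)) *
      (‖∏ j ∈ Finset.range n, (z - 1 / 2 + j)‖ * ‖∏ j ∈ Finset.range n, (z + 1 / 2 + j)‖) := by
  induction n with
  | zero => norm_num
  | succ n ih =>
    have hn : (0 : ℝ) ≤ n := Nat.cast_nonneg n
    have h := ann_step (w := z + n) (x := 3 / 4 + n) (by simp [hz]) (by linarith)
    simp only [Finset.prod_range_succ, norm_mul, mul_pow]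
    rw [show z - 1 / 2 + n = z + n - 1 / 2 by ring, show z + 1 / 2 + n = z + n + 1 / 2 by ring]
    push_cast
    rw [← add_assoc]
    have h3 := mul_le_mul_of_nonneg_left h (show 0 ≤ 3 * (‖∏ j ∈ Finset.range n, (z - 1 / 2 + j)‖ *
      ‖∏ j ∈ Finset.range n, (z + 1 / 2 + j)‖) by positivity)
    have h4 := mul_le_mul_of_nonneg_right ih (sq_nonneg ‖z + n‖)
    linarith

theorem ann_seq {s : ℂ} {n : ℕ} (hn : 0 < n) :
    ‖GammaSeq s n‖ = (n : ℝ) ^ s.re * n.factorial / ‖∏ j ∈ Finset.range (n + 1), (s + j)‖ := by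
  rw [GammaSeq, norm_div, norm_mul, norm_natCast_cpow_of_pos hn, norm_natCast]

theorem ann_ne {s : ℂ} (hs : 0 < s.re) (n : ℕ) : 0 < ‖∏ j ∈ Finset.range n, (s + j)‖ :=
  norm_pos_iff.2 (Finset.prod_ne_zero_iff.2 fun j _ h => by
    have := congrArg re h
    have hj : (0 : ℝ) ≤ j := Nat.cast_nonneg j
    simp at this
    linarith)

theorem ann_gam {z : ℂ} (hz : z.re = 3 / 4) :
    ‖Gamma (z - 1 / 2)‖ * ‖Gamma (z + 1 / 2)‖ ≤ 3 * ‖Gamma z‖ ^ 2 := by
  refine le_of_tendsto_of_tendsto ((GammaSeq_tendsto_Gamma _).norm.mul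
    (GammaSeq_tendsto_Gamma _).norm) (((GammaSeq_tendsto_Gamma z).norm.pow 2).const_mul 3) ?_
  filter_upwards [eventually_gt_atTop 0] with n hn
  have n0 : (0 : ℝ) < n := by exact_mod_cast hn
  have p1 := ann_ne (s := z - 1 / 2) (by norm_num [hz]) (n + 1)
  have p2 := ann_ne (s := z + 1 / 2) (by norm_num [hz]) (n + 1)
  have p3 := ann_ne (s := z) (by norm_num [hz]) (n + 1)
  have h := ann_prod hz (n + 1)
  have h2 : (3 / 4 + ((n + 1 : ℕ) : ℝ) - 1 / 2) / (3 / 4 + ((n + 1 : ℕ) : ℝ)) ≤ 1 :=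
    (div_le_one (by positivity)).2 (by linarith)
  have e : (n : ℝ) ^ (z - 1 / 2).re * (n : ℝ) ^ (z + 1 / 2).re = ((n : ℝ) ^ z.re) ^ 2 := by
    rw [pow_two, ← Real.rpow_add n0, ← Real.rpow_add n0]
    congr 1
    simp
  rw [ann_seq hn, ann_seq hn, ann_seq hn, div_mul_div_comm, mul_mul_mul_comm, e, div_pow, mul_pow,
    ← pow_two, ← mul_div_assoc, div_le_div_iff₀ (by positivity) (by positivity), mul_comm 3,
    mul_assoc _ 3]
  refine mul_le_mul_of_nonneg_left (h.trans ?_) (by positivity)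
  exact mul_le_mul_of_nonneg_right (by linarith) (by positivity)

theorem ann_quarter (τ : ℝ) :
    ‖Gamma (1 / 4 + τ * I) * (Gamma (3 / 4 - τ * I))⁻¹‖ ≤ 4 * (1 + |τ|) ^ (-(1 / 2) : ℝ) := by
  have h := ann_gam (z := 3 / 4 + τ * I) (by simp)
  have n0 : (1 / 4 + τ * I : ℂ) ≠ 0 := fun j => by
    have := congrArg re j
    norm_num at this
  rw [show (3 / 4 + τ * I - 1 / 2 : ℂ) = 1 / 4 + τ * I by ring,
    show (3 / 4 + τ * I + 1 / 2 : ℂ) = 1 / 4 + τ * I + 1 by ring, Gamma_add_one _ n0, norm_mul] at h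
  have e : (3 / 4 - τ * I : ℂ) = conj (3 / 4 + τ * I) := by
    simp only [map_add, map_div₀, map_ofNat, map_mul, conj_ofReal, conj_I]
    ring
  have g0 : 0 < ‖Gamma (3 / 4 + τ * I)‖ :=
    norm_pos_iff.2 (Gamma_ne_zero_of_re_pos (by norm_num))
  have a1 : 1 / 4 ≤ ‖(1 / 4 + τ * I : ℂ)‖ := by simpa using re_le_norm (1 / 4 + τ * I : ℂ)
  have a2 : |τ| ≤ ‖(1 / 4 + τ * I : ℂ)‖ := by simpa using abs_im_le_norm (1 / 4 + τ * I : ℂ)
  have a3 : 0 < 1 + |τ| := by positivity
  rw [e, Gamma_conj, norm_mul, norm_inv, Complex.norm_conj, Real.rpow_neg a3.le,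
    ← Real.sqrt_eq_rpow, ← div_eq_mul_inv, ← div_eq_mul_inv,
    div_le_div_iff₀ g0 (Real.sqrt_pos.2 a3)]
  refine le_of_sq_le_sq ?_ (by positivity)
  rw [mul_pow, Real.sq_sqrt a3.le]
  nlinarith [sq_nonneg ‖Gamma (1 / 4 + τ * I)‖, sq_nonneg ‖Gamma (3 / 4 + τ * I)‖]

/-- Entire functions with Gaussian decay of width T in vertical strips. -/
structure AnnGS (T : ℝ) (f : ℂ → ℂ) : Prop where
  pos : 0 < T
  diff : Differentiable ℂ f
  bd : ∀ M : ℝ, ∃ C : ℝ, ∀ s : ℂ, |s.re| ≤ M → ‖f s‖ ≤ C * Real.exp (-(1 / 8) * (s.im / T) ^ 2)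

namespace AnnGS

variable {T : ℝ} {f : ℂ → ℂ}

theorem int (h : AnnGS T f) (σ : ℝ) : Integrable fun τ : ℝ => f (σ + τ * I) := by
  obtain ⟨C, hC⟩ := h.bd |σ|
  have := h.diff.continuous
  refine ((melA_int_gauss C).comp_div h.pos.ne').mono' (by fun_prop)
    (Eventually.of_forall fun τ => ?_)
  simpa using hC (σ + τ * I) (by simp)

theorem shift_le (h : AnnGS T f) {a b : ℝ} (hab : a ≤ b) :
    ∫ τ : ℝ, f (a + τ * I) = ∫ τ : ℝ, f (b + τ * I) := by
  have hT := h.pos
  obtain ⟨C, hC⟩ := h.bd (|a| + |b|)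
  have hd := h.diff
  have key := melA_shift (f := fun s => f (T * s)) (a := a / T) (b := b / T) (C := C)
    (by fun_prop) (by gcongr) fun σ hσ τ => by
      have := hC (T * (σ + τ * I)) (by
        have h1 := (div_le_iff₀' hT).1 hσ.1
        have h2 := (le_div_iff₀' hT).1 hσ.2
        simp only [mul_re, ofReal_re, add_re, I_re, mul_zero, ofReal_im, I_im, mul_one, sub_self,
          add_zero, zero_mul, sub_zero]
        rw [abs_le]
        constructor <;> linarith [neg_abs_le a, le_abs_self b, abs_nonneg a, abs_nonneg b])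
      simpa [mul_div_cancel_left₀ _ hT.ne'] using this
  have e : ∀ c : ℝ, ∫ τ : ℝ, f (T * ((c / T : ℝ) + τ * I)) = |T⁻¹| • ∫ τ : ℝ, f (c + τ * I) :=
    fun c => by
      rw [← Measure.integral_comp_mul_left (fun τ : ℝ => f (c + τ * I)) T]
      congr 1
      ext τ
      congr 1
      have : (T : ℂ) ≠ 0 := ofReal_ne_zero.2 hT.ne'
      push_cast
      field_simp
  rw [e, e] at key
  exact smul_right_injective ℂ (by positivity) key

theorem shift (h : AnnGS T f) (a b : ℝ) : ∫ τ : ℝ, f (a + τ * I) = ∫ τ : ℝ, f (b + τ * I) :=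
  (le_total a b).elim h.shift_le fun j => (h.shift_le j).symm

theorem cpow (h : AnnGS T f) {x : ℝ} (hx : 0 < x) : AnnGS T fun s => (x : ℂ) ^ (-s) * f s := by
  refine ⟨h.pos, (differentiable_id.neg.const_cpow (Or.inl (ofReal_ne_zero.2 hx.ne'))).mul h.diff,
    fun M => ?_⟩
  obtain ⟨C, hC⟩ := h.bd M
  refine ⟨Real.exp (|Real.log x| * M) * C, fun s hs => ?_⟩
  rw [norm_mul, norm_cpow_eq_rpow_re_of_pos hx, Real.rpow_def_of_pos hx, mul_assoc]
  refine mul_le_mul (Real.exp_le_exp.2 ((le_abs_self _).trans ?_)) (hC s hs) (norm_nonneg _)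
    (Real.exp_pos _).le
  rw [abs_mul, neg_re, abs_neg]
  exact mul_le_mul_of_nonneg_left hs (abs_nonneg _)

theorem inv_eq (h : AnnGS T f) (a b : ℝ) {x : ℝ} (hx : 0 < x) :
    mellinInv a f x = mellinInv b f x :=
  congrArg (fun z : ℂ => (1 / (2 * Real.pi)) • z) ((h.cpow hx).shift a b)

theorem norm_inv (h : AnnGS T f) (σ : ℝ) :
    ∃ A : ℝ, ∀ x : ℝ, 0 < x → ‖mellinInv 0 f x‖ ≤ A * x ^ (-σ) := by
  refine ⟨1 / (2 * Real.pi) * ∫ τ : ℝ, ‖f (σ + τ * I)‖, fun x hx => ?_⟩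
  rw [h.inv_eq 0 σ hx, mellinInv, norm_smul, Real.norm_of_nonneg (by positivity), mul_assoc,
    ← integral_mul_const]
  refine mul_le_mul_of_nonneg_left ((norm_integral_le_integral_norm _).trans (le_of_eq ?_))
    (by positivity)
  congr 1
  ext τ
  rw [norm_smul, norm_cpow_eq_rpow_re_of_pos hx, mul_comm]
  simp

theorem meas (h : AnnGS T f) : Measurable (mellinInv 0 f) := by
  have := h.diff.continuous
  have m : Measurable fun p : ℝ × ℝ =>
      (p.1 : ℂ) ^ (-(((0 : ℝ) : ℂ) + p.2 * I)) • f (((0 : ℝ) : ℂ) + p.2 * I) := by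
    fun_prop
  exact (m.stronglyMeasurable.integral_prod_right').measurable.const_smul _

theorem mellin_inv (h : AnnGS T f) (σ : ℝ) : mellin (mellinInv 0 f) σ = f σ := by
  set g : ℝ → ℂ := fun y => f (σ + 2 * Real.pi * y * I) with hg
  have hc := h.diff.continuous
  have gi : Integrable g := by
    have := (h.int σ).comp_mul_left' (R := 2 * Real.pi) (by positivity)
    simpa [hg] using this
  have e : ∀ u : ℝ, Real.exp (-σ * u) • mellinInv 0 f (Real.exp (-u)) = 𝓕⁻ g u := fun u => by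
    rw [h.inv_eq 0 σ (Real.exp_pos _), mellinInv_eq_fourierInv _ _ (Real.exp_pos _), Real.log_exp,
      neg_neg, ← ofReal_neg, ← ofReal_cpow (Real.exp_pos _).le, ← Real.exp_mul, Complex.coe_smul,
      smul_smul, ← Real.exp_add]
    simp [hg, mul_comm]
  obtain ⟨A, hA⟩ := h.norm_inv (σ + 1)
  obtain ⟨B, hB⟩ := h.norm_inv (σ - 1)
  have n : ∀ u c C : ℝ, (∀ x : ℝ, 0 < x → ‖mellinInv 0 f x‖ ≤ C * x ^ (-(σ + c))) →
      ‖𝓕⁻ g u‖ ≤ |C| * Real.exp (c * u) := fun u c C hC => by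
    rw [← e, norm_smul, Real.norm_of_nonneg (Real.exp_pos _).le]
    refine (mul_le_mul_of_nonneg_left ((hC _ (Real.exp_pos _)).trans (mul_le_mul_of_nonneg_right
      (le_abs_self C) (by positivity))) (Real.exp_pos _).le).trans (le_of_eq ?_)
    rw [← Real.exp_mul, mul_left_comm, ← Real.exp_add]
    congr 2
    ring
  have fc : Continuous (𝓕⁻ g) := by
    have : 𝓕⁻ g = fun u => 𝓕 g (-u) := funext fun u => Real.fourierInv_eq_fourier_neg g u
    rw [this]
    exact (VectorFourier.fourierIntegral_continuous Real.continuous_fourierChar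
      (by fun_prop) gi).comp continuous_neg
  have fi : Integrable (𝓕⁻ g) := by
    rw [← integrableOn_univ, ← Set.Iic_union_Ioi (a := (0 : ℝ)), integrableOn_union]
    refine ⟨((integrableOn_exp_Iic 0).const_mul |A|).mono' fc.aestronglyMeasurable
      (Eventually.of_forall fun u => ?_), ((integrableOn_exp_neg_Ioi 0).const_mul |B|).mono'
      fc.aestronglyMeasurable (Eventually.of_forall fun u => ?_)⟩
    · simpa using n u 1 A hA
    · simpa using n u (-1) B hB
  have fi' : Integrable (𝓕 g) := by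
    have := fi.comp_neg
    simpa [Real.fourierInv_eq_fourier_neg] using this
  rw [mellin_eq_fourier]
  simp only [ofReal_re, ofReal_im, e, zero_div]
  rw [gi.fourier_fourierInv_eq fi' (by fun_prop)]
  simp [hg]

theorem parseval (h : AnnGS T f) (σ : ℝ) {g : ℝ → ℂ} (hm : Measurable g)
    (hg : MellinConvergent g (1 - σ)) :
    ∫ M in Set.Ioi (0 : ℝ), mellinInv 0 f M * g M =
      (1 / (2 * Real.pi) : ℝ) * ∫ τ : ℝ, f (σ + τ * I) * mellin g (1 - (σ + τ * I)) := by
  have hc := h.diff.continuous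
  have hi : Integrable (Function.uncurry fun M τ : ℝ =>
      f (σ + τ * I) * ((M : ℂ) ^ (1 - (σ + τ * I) - 1) • g M))
      ((volume.restrict (Set.Ioi 0)).prod volume) := by
    refine (hg.norm.mul_prod (h.int σ).norm).mono' (Measurable.aestronglyMeasurable ?_) ?_
    · unfold Function.uncurry
      fun_prop
    · rw [Measure.ae_prod_iff_ae_ae]
      · refine (ae_restrict_iff' measurableSet_Ioi).2 (Eventually.of_forall fun M hM =>
          Eventually.of_forall fun τ => le_of_eq ?_)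
        simp only [Function.uncurry, norm_mul, norm_smul, norm_cpow_eq_rpow_re_of_pos hM]
        simp [mul_comm]
      · unfold Function.uncurry
        exact measurableSet_le (by fun_prop) (by fun_prop)
  simp only [mellin, ← integral_const_mul (f _)]
  rw [← integral_integral_swap hi, ← integral_const_mul]
  refine setIntegral_congr_fun measurableSet_Ioi fun M hM => ?_
  rw [h.inv_eq 0 σ hM]
  simp only [mellinInv, real_smul, smul_eq_mul]
  rw [mul_assoc, ← integral_mul_const]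
  congr 2
  ext τ
  rw [show 1 - (σ + τ * I) - 1 = -(σ + τ * I : ℂ) by ring]
  ring

end AnnGS

end Vale.Agent.P006
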