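import Vale.Agent.P006.LCA

/-! Abel summation with weights over the Eisenstein integers. -/

namespace Vale.Agent.P006

open Vale.Agent.P026 Eis Complex MeasureTheory Filter Topology
open scoped Classical ComplexConjugate

theorem gg_eq (σ t c Y : ℝ) {n : Eis} (hn : n ≠ 0) :
    gg (σ + t * I) c Y (N n) = ((N n ^ σ * lg c (N n / Y) : ℝ) : ℂ) * nit t n := by
  rw [gg, cpow_add _ _ (ofReal_ne_zero.2 (N_pos hn).ne'), nit_eq_cpow t hn,
    ← ofReal_cpow (N_nonneg n)]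
  push_cast
  ring

theorem lc_gg (s : ℂ) (c Y : ℝ) {x : ℝ} (hx : 0 < x) :
    gg s c Y x = cexp (s * (Real.log x : ℝ) - c * (Real.log (x / Y) : ℝ) ^ 2) := by
  rw [gg, lg, cpow_def_of_ne_zero (ofReal_ne_zero.2 hx.ne'), ← ofReal_log hx.le, ofReal_exp,
    ← Complex.exp_add]
  congr 1
  push_cast
  ring

theorem lc_gg_exp (s : ℂ) (c : ℝ) {Y : ℝ} (hY : 0 < Y) (u : ℝ) :
    gg s c Y (Y * Real.exp u) = (Y : ℂ) ^ s * cexp (s * u - c * u ^ 2) := by
  rw [lc_gg s c Y (by positivity), mul_div_cancel_left₀ _ hY.ne', Real.log_exp,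
    Real.log_mul hY.ne' (Real.exp_pos u).ne', Real.log_exp,
    cpow_def_of_ne_zero (ofReal_ne_zero.2 hY.ne'), ← ofReal_log hY.le, ← Complex.exp_add]
  congr 1
  push_cast
  ring

theorem int_gg (s : ℂ) {c Y : ℝ} (hc : 0 < c) (hY : 0 < Y) :
    ∫ x in Set.Ioi (0 : ℝ), gg s c Y x =
      (√(Real.pi / c) : ℝ) * cexp ((s + 1) ^ 2 / (4 * c)) * (Y : ℂ) ^ (s + 1) := by
  have e : ∀ u : ℝ, (Y * Real.exp u) • gg s c Y (Y * Real.exp u) =
      (Y : ℂ) ^ (s + 1) * cexp (-(c : ℂ) * u ^ 2 + (s + 1) * u + 0) := fun u => by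
    rw [lc_gg_exp s c hY, real_smul, cpow_add _ _ (ofReal_ne_zero.2 hY.ne'), cpow_one,
      show -(c : ℂ) * u ^ 2 + (s + 1) * u + 0 = u + (s * u - c * u ^ 2) by ring, Complex.exp_add]
    push_cast
    ring
  have e2 : ((Real.pi : ℂ) / - -(c : ℂ)) ^ (1 / 2 : ℂ) = (√(Real.pi / c) : ℝ) := by
    rw [Real.sqrt_eq_rpow, ofReal_cpow (div_pos Real.pi_pos hc).le, neg_neg]
    push_cast
    rfl
  rw [(lc_sub _ hY).2, funext e, integral_const_mul,
    integral_cexp_quadratic (by simpa using hc), e2, mul_comm]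
  congr 3
  rw [mul_neg, div_neg, zero_sub, neg_neg]

/-- The derivative of gg. -/
noncomputable def lcD (s : ℂ) (c Y x : ℝ) : ℂ :=
  gg s c Y x * ((s - 2 * c * (Real.log (x / Y) : ℝ)) / x)

theorem lc_deriv (s : ℂ) (c : ℝ) {Y : ℝ} (hY : 0 < Y) (x : ℝ) (hx : 0 < x) :
    HasDerivAt (gg s c Y) (lcD s c Y x) x := by
  have h1 := (Real.hasDerivAt_log hx.ne').ofReal_comp
  have h2 := (((hasDerivAt_id x).div_const Y).log (div_pos hx hY).ne').ofReal_comp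
  have h3 := ((h1.const_mul s).sub ((h2.fun_pow 2).const_mul (c : ℂ))).cexp
  refine (h3.congr_of_eventuallyEq ((lt_mem_nhds hx).mono fun y hy => lc_gg s c Y hy)).congr_deriv ?_
  have a : (x : ℂ) ≠ 0 := ofReal_ne_zero.2 hx.ne'
  have b : (Y : ℂ) ≠ 0 := ofReal_ne_zero.2 hY.ne'
  rw [lcD, lc_gg s c Y hx]
  simp only [Pi.sub_apply, id]
  congr 1
  push_cast
  field_simp

theorem lc_cont (s : ℂ) (c : ℝ) {Y : ℝ} (hY : 0 < Y) : ContinuousOn (lcD s c Y) (Set.Ioi 0) := by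
  intro x hx
  have hx : 0 < x := hx
  refine ContinuousAt.continuousWithinAt ((lc_deriv s c hY x hx).continuousAt.mul
    (ContinuousAt.div (continuousAt_const.sub (continuousAt_const.mul ?_))
      continuous_ofReal.continuousAt (ofReal_ne_zero.2 hx.ne')))
  exact continuous_ofReal.continuousAt.comp
    ((continuousAt_id.div_const Y).log (div_pos hx hY).ne')

theorem lc_norm_gg (s : ℂ) (c Y : ℝ) {x : ℝ} (hx : 0 < x) :
    ‖gg s c Y x‖ = x ^ s.re * lg c (x / Y) := by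
  rw [gg, norm_mul, norm_cpow_eq_rpow_re_of_pos hx, norm_real, Real.norm_of_nonneg (lg_pos _ _).le]

theorem lc_zero (s : ℂ) {c Y : ℝ} (hc : 0 < c) (hY : 0 < Y) : Tendsto (gg s c Y) atTop (𝓝 0) := by
  refine squeeze_zero_norm' (a := fun x => Real.exp ((-(s.re + 1)) ^ 2 / (4 * c)) *
    Y ^ (s.re + 1) * x⁻¹) ((eventually_gt_atTop 0).mono fun x hx => ?_)
    (by simpa only [mul_zero] using (tendsto_inv_atTop_zero (𝕜 := ℝ)).const_mul _)
  rw [lc_norm_gg s c Y hx]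
  refine (mul_le_mul_of_nonneg_left (lg_le_rpow hc (-(s.re + 1)) (div_pos hx hY))
    (Real.rpow_nonneg hx.le _)).trans (le_of_eq ?_)
  have := Real.rpow_pos_of_pos hx s.re
  rw [Real.div_rpow hx.le hY.le, Real.rpow_neg hx.le, Real.rpow_neg hY.le, Real.rpow_add hx,
    Real.rpow_one]
  field_simp

theorem lc_pt {s : ℂ} {a c : ℝ} (hc : 1 / 12 ≤ c) (ha : |a| ≤ 7) (u : ℝ) :
    Real.exp (a * u - c * u ^ 2) * ‖s - 2 * c * u‖ ≤
      Real.exp 294 * (‖s‖ + 2 * √c) * Real.exp (-(c / 4) * u ^ 2) := by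
  have c0 : 0 < c := by linarith
  have h1 : a * u - c * u ^ 2 ≤ 294 + (-(c / 4) * u ^ 2 + -(c / 4 * u ^ 2)) := by
    have : a ^ 2 ≤ 49 := by nlinarith [abs_nonneg a, sq_abs a]
    nlinarith [sq_nonneg (u - 12 * a), mul_nonneg (sub_nonneg.2 hc) (sq_nonneg u)]
  have h2 : ‖s - 2 * c * u‖ ≤ (‖s‖ + 2 * √c) * Real.exp (c / 4 * u ^ 2) := by
    have a1 : ‖(2 * c * u : ℂ)‖ = 2 * √c * (√c * |u|) := by
      rw [norm_mul, norm_mul, norm_real, norm_real, Real.norm_of_nonneg c0.le, Real.norm_eq_abs,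
        mul_assoc 2 √c, ← mul_assoc √c, Real.mul_self_sqrt c0.le, Complex.norm_two, mul_assoc]
    have a2 : √c * |u| ≤ Real.exp (c / 4 * u ^ 2) := by
      have : (√c * |u|) ^ 2 = c * u ^ 2 := by rw [mul_pow, Real.sq_sqrt c0.le, sq_abs]
      nlinarith [Real.add_one_le_exp (c / 4 * u ^ 2), sq_nonneg (√c * |u| - 2)]
    have a3 : 1 ≤ Real.exp (c / 4 * u ^ 2) := Real.one_le_exp (by positivity)
    have a4 := norm_sub_le s (2 * c * u)
    have a5 := mul_le_mul_of_nonneg_left a2 (show 0 ≤ 2 * √c by positivity)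
    nlinarith [norm_nonneg s]
  refine (mul_le_mul (Real.exp_le_exp.2 h1) h2 (norm_nonneg _) (Real.exp_pos _).le).trans
    (le_of_eq ?_)
  rw [Real.exp_add, Real.exp_add, Real.exp_neg (c / 4 * u ^ 2)]
  field_simp

theorem lc_mom : ∃ C : ℝ, 0 < C ∧ ∀ (s : ℂ) (θ c Y : ℝ), 0 ≤ θ → θ ≤ 2 → 1 / 12 ≤ c →
    |s.re| ≤ 5 → 0 < Y → IntegrableOn (fun x => ‖lcD s c Y x‖ * x ^ θ) (Set.Ioi 0) ∧
      ∫ x in Set.Ioi (0 : ℝ), ‖lcD s c Y x‖ * x ^ θ ≤ C * (1 + |s.im|) * Y ^ (θ + s.re) := by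
  have hp := Real.pi_pos
  refine ⟨Real.exp 294 * (7 * √(48 * Real.pi)), by positivity, fun s θ c Y t0 t2 hc hs hY => ?_⟩
  have c0 : 0 < c := by linarith
  have e : ∀ u : ℝ, (Y * Real.exp u) • (‖lcD s c Y (Y * Real.exp u)‖ * (Y * Real.exp u) ^ θ) =
      Y ^ (θ + s.re) * (Real.exp ((θ + s.re) * u - c * u ^ 2) * ‖s - 2 * c * u‖) := fun u => by
    have x0 : 0 < Y * Real.exp u := by positivity
    rw [lcD, norm_mul, lc_norm_gg s c Y x0, mul_div_cancel_left₀ _ hY.ne', Real.log_exp, lg_exp,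
      norm_div, norm_real, Real.norm_of_nonneg x0.le, smul_eq_mul,
      Real.mul_rpow hY.le (Real.exp_pos u).le, Real.mul_rpow hY.le (Real.exp_pos u).le,
      ← Real.exp_mul, ← Real.exp_mul, Real.rpow_add hY,
      show (θ + s.re) * u - c * u ^ 2 = u * θ + u * s.re + -(c * u ^ 2) by ring, Real.exp_add,
      Real.exp_add]
    field_simp
  have ha : |θ + s.re| ≤ 7 := by
    rw [abs_le] at hs ⊢
    constructor <;> linarith
  have i1 := (integrable_exp_neg_mul_sq (show 0 < c / 4 by positivity)).const_mul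
    (Real.exp 294 * (‖s‖ + 2 * √c))
  have i2 : Integrable fun u : ℝ => Real.exp ((θ + s.re) * u - c * u ^ 2) * ‖s - 2 * c * u‖ :=
    i1.mono' (by fun_prop) (ae_of_all _ fun u => by
      rw [Real.norm_of_nonneg (by positivity)]
      exact lc_pt hc ha u)
  obtain ⟨k1, k2⟩ := lc_sub (fun x => ‖lcD s c Y x‖ * x ^ θ) hY
  simp only [e] at k1 k2
  refine ⟨k1.2 (i2.const_mul _), ?_⟩
  rw [k2, integral_const_mul, mul_comm]
  refine mul_le_mul_of_nonneg_right ((integral_mono i2 i1 (lc_pt hc ha)).trans ?_)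
    (Real.rpow_nonneg hY.le _)
  rw [integral_const_mul, integral_gaussian, mul_assoc, mul_assoc]
  refine mul_le_mul_of_nonneg_left ?_ (Real.exp_pos _).le
  have b1 : √(Real.pi / (c / 4)) ≤ √(48 * Real.pi) := Real.sqrt_le_sqrt (by
    rw [div_le_iff₀ (by positivity)]
    nlinarith)
  have b2 : √c * √(Real.pi / (c / 4)) ≤ √(48 * Real.pi) := by
    rw [← Real.sqrt_mul c0.le]
    refine Real.sqrt_le_sqrt ?_
    rw [show c * (Real.pi / (c / 4)) = 4 * Real.pi by field_simp]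
    linarith
  have b3 := (norm_le_abs_re_add_abs_im s).trans (add_le_add hs le_rfl)
  have b4 := mul_le_mul b3 b1 (Real.sqrt_nonneg _) (by positivity)
  nlinarith [mul_nonneg (abs_nonneg s.im) (Real.sqrt_nonneg (48 * Real.pi))]

theorem lc_hi {g' : ℝ → ℂ} (h1 : IntegrableOn (fun x => ‖g' x‖ * x ^ (1 : ℝ)) (Set.Ioi 0))
    (h2 : IntegrableOn (fun x => ‖g' x‖ * x ^ (2 : ℝ)) (Set.Ioi 0)) :
    IntegrableOn (fun x => ‖g' x‖ * (x + x ^ 2)) (Set.Ioi 0) := by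
  simp only [Real.rpow_one, Real.rpow_two] at h1 h2
  simp only [mul_add]
  exact h1.add h2

/-- Logarithmic Gaussian weights, uniformly in c ≥ 1 / 12. -/
theorem lcg : ∃ C : ℝ, 0 < C ∧ ∀ (F : Eis → ℂ) (m s : ℂ) (M B θ c Y : ℝ),
    (∀ n, ‖F n‖ ≤ M * N n) → 0 ≤ B → 0 ≤ θ → θ ≤ 1 → 1 / 12 ≤ c → |s.re| ≤ 5 → 0 < Y →
    (∀ x, 0 < x → ‖∑ n ∈ ball x, F n - m * x‖ ≤ B * x ^ θ) →
      ‖∑' n, F n * gg s c Y (N n) - m * ∫ x in Set.Ioi (0 : ℝ), gg s c Y x‖ ≤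
        C * B * (1 + |s.im|) * Y ^ (θ + s.re) := by
  obtain ⟨C, hC, h⟩ := lc_mom
  refine ⟨C, hC, fun F m s M B θ c Y hF hB t0 t1 hc hs hY hE => ?_⟩
  obtain ⟨k1, k2⟩ := h s θ c Y t0 (by linarith) hc hs hY
  have e : (fun x => ‖lcD s c Y x‖ * (B * x ^ θ)) = fun x => B * (‖lcD s c Y x‖ * x ^ θ) :=
    funext fun x => mul_left_comm _ _ _
  have k := (lc hF (lc_deriv s c hY) (lc_cont s c hY)
    (lc_hi (h s 1 c Y zero_le_one one_le_two hc hs hY).1 (h s 2 c Y zero_le_two le_rfl hc hs hY).1)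
    (lc_zero s (by linarith) hY) hE (by rw [e]; exact k1.const_mul B)).2.2
  rw [e, integral_const_mul] at k
  exact k.trans ((mul_le_mul_of_nonneg_left k2 hB).trans (le_of_eq (by ring)))

theorem abelg : ∃ C : ℝ, 0 < C ∧ ∀ (F : Eis → ℂ) (s : ℂ) (M B1 B2 c Y : ℝ),
    (∀ n, ‖F n‖ ≤ M * N n) → 0 ≤ B1 → 0 ≤ B2 → 1 / 12 ≤ c → |s.re| ≤ 5 → 0 < Y →
    (∀ x, 0 < x → ‖∑ n ∈ ball x, F n‖ ≤ B1 * x + B2 * √x) →
      ‖∑' n, F n * gg s c Y (N n)‖ ≤ C * (1 + |s.im|) * (B1 * Y + B2 * √Y) * Y ^ s.re := by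
  obtain ⟨C, hC, h⟩ := lc_mom
  refine ⟨C, hC, fun F s M B1 B2 c Y hF h1 h2 hc hs hY hE => ?_⟩
  obtain ⟨k1, k2⟩ := h s 1 c Y zero_le_one one_le_two hc hs hY
  obtain ⟨k3, k4⟩ := h s (1 / 2) c Y (by norm_num) (by norm_num) hc hs hY
  have e : (fun x => ‖lcD s c Y x‖ * (B1 * x + B2 * √x)) = fun x =>
      B1 * (‖lcD s c Y x‖ * x ^ (1 : ℝ)) + B2 * (‖lcD s c Y x‖ * x ^ (1 / 2 : ℝ)) :=
    funext fun x => by rw [Real.rpow_one, Real.sqrt_eq_rpow]; ring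
  have k := (lc (m := 0) hF (lc_deriv s c hY) (lc_cont s c hY)
    (lc_hi k1 (h s 2 c Y zero_le_two le_rfl hc hs hY).1) (lc_zero s (by linarith) hY)
    (fun x hx => by simpa using hE x hx)
    (by rw [e]; exact (k1.const_mul B1).add (k3.const_mul B2))).2.2
  rw [e, integral_add (k1.const_mul B1) (k3.const_mul B2), integral_const_mul, integral_const_mul,
    zero_mul, sub_zero] at k
  refine k.trans ((add_le_add (mul_le_mul_of_nonneg_left k2 h1)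
    (mul_le_mul_of_nonneg_left k4 h2)).trans (le_of_eq ?_))
  rw [Real.rpow_add hY, Real.rpow_add hY, Real.rpow_one, Real.sqrt_eq_rpow]
  ring

theorem lc_emom {s Y θ : ℝ} (h : 0 < θ + s) (hY : 0 < Y) {g' : ℝ → ℂ}
    (hc : ContinuousOn g' (Set.Ioi 0)) (hg : ∀ x, 0 < x → g' x =
      (((s * x ^ (s - 1) - x ^ s / Y) * Real.exp (-(x / Y)) : ℝ) : ℂ)) :
    IntegrableOn (fun x => ‖g' x‖ * x ^ θ) (Set.Ioi 0) ∧ ∫ x in Set.Ioi (0 : ℝ), ‖g' x‖ * x ^ θ ≤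
      (|s| * Real.Gamma (θ + s) + Real.Gamma (θ + s + 1)) * Y ^ (θ + s) := by
  obtain ⟨a1, a2⟩ := lc_gam h hY
  obtain ⟨b1, b2⟩ := lc_gam (show 0 < θ + s + 1 by linarith) hY
  have i := (a1.const_mul |s|).add (b1.const_mul Y⁻¹)
  have k : ∀ x ∈ Set.Ioi (0 : ℝ), ‖g' x‖ * x ^ θ ≤ |s| * (x ^ (θ + s - 1) * Real.exp (-(x / Y))) +
      Y⁻¹ * (x ^ (θ + s + 1 - 1) * Real.exp (-(x / Y))) := fun x hx => by
    have hx : 0 < x := hx
    have j := abs_sub (s * x ^ (s - 1)) (x ^ s / Y)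
    rw [abs_mul, abs_of_pos (Real.rpow_pos_of_pos hx _), abs_of_pos (a := x ^ s / Y)
      (by positivity)] at j
    rw [hg x hx, norm_real, Real.norm_eq_abs, abs_mul, abs_of_pos (Real.exp_pos _),
      add_sub_cancel_right, add_sub_assoc, Real.rpow_add hx, Real.rpow_add hx]
    refine (mul_le_mul_of_nonneg_right (mul_le_mul_of_nonneg_right j (Real.exp_pos _).le)
      (Real.rpow_nonneg hx.le _)).trans (le_of_eq (by ring))
  have i2 : IntegrableOn (fun x => ‖g' x‖ * x ^ θ) (Set.Ioi 0) :=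
    i.mono' ((hc.norm.mul (continuousOn_id.rpow_const fun x hx =>
      Or.inl (ne_of_gt hx))).aestronglyMeasurable measurableSet_Ioi)
      ((ae_restrict_mem measurableSet_Ioi).mono fun x hx => by
        rw [Real.norm_of_nonneg (mul_nonneg (norm_nonneg _) (Real.rpow_nonneg (le_of_lt hx) _))]
        exact k x hx)
  refine ⟨i2, (setIntegral_mono_on i2 i measurableSet_Ioi k).trans (le_of_eq ?_)⟩
  simp only [Pi.add_apply]
  rw [integral_add (a1.const_mul |s|) (b1.const_mul Y⁻¹), integral_const_mul, integral_const_mul,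
    a2, b2, Real.rpow_add hY (θ + s), Real.rpow_one]
  field_simp

/-- Exponential weights. -/
theorem lce {θ s : ℝ} (h1 : θ ≤ 1) (h2 : 0 < θ + s) (h3 : s ≤ 0) : ∃ C : ℝ, 0 < C ∧
    ∀ (F : Eis → ℂ) (m : ℂ) (M B Y : ℝ), (∀ n, ‖F n‖ ≤ M * N n) → 0 ≤ B → 0 < Y →
    (∀ x, 0 < x → ‖∑ n ∈ ball x, F n - m * x‖ ≤ B * x ^ θ) →
      ‖∑' n, F n * ((N n ^ s * Real.exp (-(N n / Y)) : ℝ) : ℂ) -
        m * ((Real.Gamma (s + 1) * Y ^ (s + 1) : ℝ) : ℂ)‖ ≤ C * B * Y ^ (θ + s) := by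
  have g1 := Real.Gamma_pos_of_pos h2
  have g2 := Real.Gamma_pos_of_pos (show 0 < θ + s + 1 by linarith)
  refine ⟨|s| * Real.Gamma (θ + s) + Real.Gamma (θ + s + 1), by positivity,
    fun F m M B Y hF hB hY hE => ?_⟩
  obtain ⟨g', hg'⟩ : ∃ g' : ℝ → ℂ, g' = fun x =>
    (((s * x ^ (s - 1) - x ^ s / Y) * Real.exp (-(x / Y)) : ℝ) : ℂ) := ⟨_, rfl⟩
  have hd : ∀ x, 0 < x → HasDerivAt (fun x : ℝ => ((x ^ s * Real.exp (-(x / Y)) : ℝ) : ℂ))
      (g' x) x := fun x hx => by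
    refine ((Real.hasDerivAt_rpow_const (p := s) (Or.inl hx.ne')).mul
      ((hasDerivAt_id x).div_const Y).neg.exp).ofReal_comp.congr_deriv ?_
    rw [hg']
    simp only [id, Pi.neg_apply]
    congr 1
    ring
  have hc : ContinuousOn g' (Set.Ioi 0) := by
    have a : ∀ p : ℝ, ContinuousOn (fun x : ℝ => x ^ p) (Set.Ioi 0) := fun p =>
      continuousOn_id.rpow_const fun x hx => Or.inl (ne_of_gt hx)
    rw [hg']
    exact continuous_ofReal.comp_continuousOn ((((a _).const_mul s).sub ((a _).div_const Y)).mul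
      (by fun_prop))
  have hm := fun (θ : ℝ) (h : 0 < θ + s) => lc_emom h hY hc fun x _ => by rw [hg']
  have h0 : Tendsto (fun x : ℝ => ((x ^ s * Real.exp (-(x / Y)) : ℝ) : ℂ)) atTop (𝓝 0) := by
    refine squeeze_zero_norm' (a := fun x => Real.exp (-(x / Y)))
      ((eventually_ge_atTop 1).mono fun x hx => ?_) (Real.tendsto_exp_neg_atTop_nhds_zero.comp
        (tendsto_id.atTop_div_const hY))
    rw [norm_real, Real.norm_of_nonneg (by positivity)]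
    exact mul_le_of_le_one_left (Real.exp_pos _).le (Real.rpow_le_one_of_one_le_of_nonpos hx h3)
  have e : (fun x => ‖g' x‖ * (B * x ^ θ)) = fun x => B * (‖g' x‖ * x ^ θ) :=
    funext fun x => mul_left_comm _ _ _
  have k := (lc hF hd hc (lc_hi (hm 1 (by linarith)).1 (hm 2 (by linarith)).1) h0 hE
    (by rw [e]; exact (hm θ h2).1.const_mul B)).2.2
  have e2 := (lc_gam (show 0 < s + 1 by linarith) hY).2
  rw [add_sub_cancel_right] at e2
  rw [e, integral_const_mul, integral_complex_ofReal, e2] at k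
  exact k.trans ((mul_le_mul_of_nonneg_left (hm θ h2).2 hB).trans (le_of_eq (by ring)))

theorem lc_F (n : Eis) : ‖(if n = 0 then 0 else 1 : ℂ)‖ ≤ 1 * N n := by
  split_ifs with h
  · simp [N_nonneg]
  · simpa using one_le_N h

theorem lc_card (x : ℝ) : ∑ n ∈ ball x, (if n = 0 then 0 else 1 : ℂ) = (((ball x).card : ℝ) : ℂ) := by
  rw [Finset.sum_congr rfl fun n hn => if_neg (mem_ball.1 hn).1]
  simp

theorem lc_gc : ∃ C : ℝ, 0 < C ∧ ∀ x : ℝ, 0 < x → ‖∑ n ∈ ball x, (if n = 0 then 0 else 1 : ℂ) -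
    ((2 * Real.pi / √3 : ℝ) : ℂ) * x‖ ≤ C * x ^ (1 / 2 : ℝ) := by
  obtain ⟨C, hC, h⟩ := gc_one
  refine ⟨C, hC, fun x hx => ?_⟩
  rw [lc_card, ← ofReal_mul, ← ofReal_sub, norm_real, ← Real.sqrt_eq_rpow]
  exact h x hx

/-- Lattice points in a thin annulus (lcg with gc_one). -/
theorem ac : ∃ C : ℝ, 0 < C ∧ ∀ c Y : ℝ, 1 / 12 ≤ c → 0 < Y → ∀ S : Finset Eis, (0 : Eis) ∉ S →
    ∑ n ∈ S, lg c (N n / Y) ≤ C * (Y / √c + √Y) := by
  obtain ⟨C, hC, h⟩ := lcg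
  obtain ⟨B, hB, hg⟩ := lc_gc
  have hp := Real.pi_pos
  obtain ⟨A, hA⟩ : ∃ A : ℝ, A = 2 * Real.pi / √3 * (√Real.pi * Real.exp 3) := ⟨_, rfl⟩
  have A0 : 0 < A := by rw [hA]; positivity
  refine ⟨C * B + A, by positivity, fun c Y hc hY S hS => ?_⟩
  have c0 : 0 < c := by linarith
  have k := h _ _ 0 1 B (1 / 2) c Y lc_F hB.le (by norm_num) (by norm_num) hc (by simp) hY hg
  have e : ∀ n : Eis, (if n = 0 then 0 else 1 : ℂ) * gg 0 c Y (N n) =
      ((if n = 0 then 0 else lg c (N n / Y) : ℝ) : ℂ) := fun n => by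
    split_ifs <;> simp [gg]
  have n0 : ∀ n : Eis, 0 ≤ (if n = 0 then 0 else lg c (N n / Y) : ℝ) := fun n => by
    split_ifs
    exacts [le_rfl, (lg_pos _ _).le]
  have hs : Summable fun n : Eis => (if n = 0 then 0 else lg c (N n / Y) : ℝ) := by
    refine (summable_lg c0 0 hY).of_nonneg_of_le n0 fun n => ?_
    rw [Real.rpow_zero, one_mul]
    split_ifs
    exacts [(lg_pos _ _).le, le_rfl]
  have e2 : cexp ((0 + 1) ^ 2 / (4 * (c : ℂ))) = (Real.exp (1 / (4 * c)) : ℝ) := by simp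
  rw [funext e, ← ofReal_tsum, int_gg 0 c0 hY, e2, zero_add, cpow_one, ← ofReal_mul, ← ofReal_mul,
    ← ofReal_mul, ← ofReal_sub, norm_real, Real.norm_eq_abs, zero_im, zero_re, abs_zero, add_zero,
    add_zero, mul_one, ← Real.sqrt_eq_rpow] at k
  have k1 := hs.sum_le_tsum S fun n _ => n0 n
  rw [Finset.sum_congr rfl fun n hn => if_neg (wt_ne hS hn)] at k1
  have k2 : Real.exp (1 / (4 * c)) ≤ Real.exp 3 := Real.exp_le_exp.2 (by
    rw [div_le_iff₀ (by positivity)]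
    linarith)
  have k3 : 2 * Real.pi / √3 * (√(Real.pi / c) * Real.exp (1 / (4 * c)) * Y) ≤ A * (Y / √c) := by
    rw [hA, Real.sqrt_div hp.le, show 2 * Real.pi / √3 * (√Real.pi * Real.exp 3) * (Y / √c) =
      2 * Real.pi / √3 * (√Real.pi / √c * Real.exp 3 * Y) by ring]
    gcongr
  have k4 : 0 ≤ C * B * (Y / √c) := by positivity
  have k5 : 0 ≤ A * √Y := by positivity
  linarith [(abs_le.1 k).2]

theorem lc_cmom {θ : ℝ} (t0 : 0 ≤ θ) (t2 : θ ≤ 2) :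
    IntegrableOn (fun y : ℝ => 4 * y ^ 2 * (1 + y ^ 3) ^ (-(4 / 3) - 1 : ℝ) * y ^ θ) (Set.Ioi 0) := by
  refine Integrable.mono' ((integrable_inv_one_add_sq.const_mul 16).integrableOn)
    (Measurable.aestronglyMeasurable (by fun_prop))
    ((ae_restrict_mem measurableSet_Ioi).mono fun y hy => ?_)
  have hy : 0 < y := hy
  have a : (1 + y ^ 3) ^ (-(4 / 3) - 1 : ℝ) ≤ ((1 + y ^ 3) ^ 2)⁻¹ := by
    rw [← Real.rpow_two, ← Real.rpow_neg (by positivity)]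
    exact Real.rpow_le_rpow_of_exponent_le (by linarith [pow_pos hy 3]) (by norm_num)
  have b : y ^ θ ≤ 1 + y ^ 2 := by
    rcases le_total y 1 with h | h
    · linarith [Real.rpow_le_one hy.le h t0, sq_nonneg y]
    · have := Real.rpow_le_rpow_of_exponent_le h t2
      rw [Real.rpow_two] at this
      linarith
  rw [Real.norm_of_nonneg (by positivity)]
  refine le_trans (show _ ≤ 4 * y ^ 2 * ((1 + y ^ 3) ^ 2)⁻¹ * (1 + y ^ 2) by gcongr) ?_
  rw [mul_right_comm, ← div_eq_mul_inv, ← div_eq_mul_inv, div_le_div_iff₀ (by positivity)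
    (by positivity)]
  nlinarith [pow_pos hy 3, sq_nonneg (y ^ 2 - 1), mul_nonneg (sq_nonneg y) (sq_nonneg (y ^ 2 - 1)),
    sq_nonneg (y ^ 3)]

theorem lc_cint : ∫ y in Set.Ioi (0 : ℝ), (1 + y ^ 3) ^ (-(4 / 3) : ℝ) = 1 := by
  have h1 : ∀ y ∈ Set.Ici (0 : ℝ), HasDerivAt (fun y : ℝ => y * (1 + y ^ 3) ^ (-(1 / 3) : ℝ))
      ((1 + y ^ 3) ^ (-(4 / 3) : ℝ)) y := fun y hy => by
    have p : 0 < 1 + y ^ 3 := by linarith [pow_nonneg (Set.mem_Ici.1 hy) 3]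
    refine ((hasDerivAt_id y).mul (((hasDerivAt_pow 3 y).const_add 1).rpow_const
      (p := -(1 / 3)) (Or.inl p.ne'))).congr_deriv ?_
    rw [show (-(1 / 3) : ℝ) = -(4 / 3) + 1 by norm_num, Real.rpow_add p, Real.rpow_one,
      add_sub_cancel_right, id]
    push_cast
    ring
  have h2 : Tendsto (fun y : ℝ => y * (1 + y ^ 3) ^ (-(1 / 3) : ℝ)) atTop (𝓝 1) := by
    have a := (((tendsto_inv_atTop_zero (𝕜 := ℝ)).pow 3).add_const 1).rpow_const
      (p := -(1 / 3)) (Or.inl (by norm_num))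
    rw [zero_pow three_ne_zero, zero_add, Real.one_rpow] at a
    refine a.congr' ((eventually_gt_atTop 0).mono fun y hy => ?_)
    have e : y⁻¹ ^ 3 + 1 = y⁻¹ ^ 3 * (1 + y ^ 3) := by field_simp
    dsimp only
    rw [e, Real.mul_rpow (by positivity) (by positivity), ← Real.rpow_natCast,
      ← Real.rpow_mul (by positivity), Real.inv_rpow hy.le, ← Real.rpow_neg hy.le]
    norm_num
  rw [integral_Ioi_of_hasDerivAt_of_nonneg' h1 (fun y hy => Real.rpow_nonneg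
    (by linarith [pow_pos (Set.mem_Ioi.1 hy) 3]) _) h2, zero_mul, sub_zero]

theorem lc_scale (G : ℝ → ℝ) {R : ℝ} (hR : 0 < R) :
    (IntegrableOn G (Set.Ioi 0) → IntegrableOn (fun x => G (x / R)) (Set.Ioi 0)) ∧
      ∫ x in Set.Ioi (0 : ℝ), G (x / R) = R * ∫ x in Set.Ioi (0 : ℝ), G x := by
  have h1 := integrableOn_Ioi_comp_mul_right_iff G 0 (inv_pos.2 hR)
  have h2 := integral_comp_mul_right_Ioi G 0 (inv_pos.2 hR)
  simp only [zero_div, inv_inv, smul_eq_mul, ← div_eq_mul_inv] at h1 h2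
  exact ⟨h1.2, h2⟩

/-- x (1 + x ^ 3) ^ (-1/3) is a primitive of (1 + x ^ 3) ^ (-4/3). -/
theorem cube_sum : ∃ C : ℝ, 0 < C ∧ ∀ R : ℝ, 0 < R →
    Summable (fun m : Eis => if m = 0 then 0 else (1 + (N m / R) ^ 3) ^ (-(4 / 3) : ℝ)) ∧
    |∑' m : Eis, (if m = 0 then 0 else (1 + (N m / R) ^ 3) ^ (-(4 / 3) : ℝ)) -
      2 * Real.pi / √3 * R| ≤ C * √R ∧
    ∑' m : Eis, (if m = 0 then 0 else (1 + (N m / R) ^ 3) ^ (-(4 / 3) : ℝ)) ≤ C * R := by
  obtain ⟨B, hB, hg⟩ := lc_gc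
  obtain ⟨J, hJ⟩ : ∃ J : ℝ → ℝ, J = fun θ => ∫ y in Set.Ioi (0 : ℝ),
    4 * y ^ 2 * (1 + y ^ 3) ^ (-(4 / 3) - 1 : ℝ) * y ^ θ := ⟨_, rfl⟩
  refine ⟨B * |J (1 / 2)| + 16 * |J 1| + 1, by positivity, fun R hR => ?_⟩
  obtain ⟨g', hg'⟩ : ∃ g' : ℝ → ℂ, g' = fun x =>
    ((-(4 * (x / R) ^ 2 * (1 + (x / R) ^ 3) ^ (-(4 / 3) - 1 : ℝ) / R) : ℝ) : ℂ) := ⟨_, rfl⟩
  have p : ∀ x : ℝ, 0 < x → 0 < 1 + (x / R) ^ 3 := fun x hx => by positivity
  have hd : ∀ x, 0 < x → HasDerivAt (fun x : ℝ => (((1 + (x / R) ^ 3) ^ (-(4 / 3) : ℝ) : ℝ) : ℂ))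
      (g' x) x := fun x hx => by
    refine (((((hasDerivAt_id x).div_const R).fun_pow 3).const_add 1).rpow_const
      (p := -(4 / 3)) (Or.inl (p x hx).ne')).ofReal_comp.congr_deriv ?_
    rw [hg']
    simp only [id]
    congr 1
    push_cast
    ring
  have hc : ContinuousOn g' (Set.Ioi 0) := by
    rw [hg']
    exact continuous_ofReal.comp_continuousOn (((ContinuousOn.mul (by fun_prop)
      (ContinuousOn.rpow_const (by fun_prop) fun x hx => Or.inl (p x hx).ne')).div_const R).neg)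
  have hm : ∀ θ : ℝ, 0 ≤ θ → θ ≤ 2 → ∀ D : ℝ,
      IntegrableOn (fun x => ‖g' x‖ * (D * x ^ θ)) (Set.Ioi 0) ∧
      ∫ x in Set.Ioi (0 : ℝ), ‖g' x‖ * (D * x ^ θ) = D * J θ * R ^ θ := fun θ t0 t2 D => by
    obtain ⟨a, b⟩ := lc_scale
      (fun y => 4 * y ^ 2 * (1 + y ^ 3) ^ (-(4 / 3) - 1 : ℝ) * y ^ θ) hR
    have e : ∀ x ∈ Set.Ioi (0 : ℝ), D * R ^ θ / R * (4 * (x / R) ^ 2 *
        (1 + (x / R) ^ 3) ^ (-(4 / 3) - 1 : ℝ) * (x / R) ^ θ) = ‖g' x‖ * (D * x ^ θ) :=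
      fun x hx => by
        have hx : 0 < x := hx
        have := p x hx
        have := Real.rpow_pos_of_pos hR θ
        rw [hg', norm_real, norm_neg, Real.norm_of_nonneg (by positivity),
          Real.div_rpow hx.le hR.le]
        field_simp
    refine ⟨((a (lc_cmom t0 t2)).const_mul _).congr
      ((ae_restrict_mem measurableSet_Ioi).mono e), ?_⟩
    rw [← setIntegral_congr_fun measurableSet_Ioi e, integral_const_mul, b, hJ]
    field_simp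
  have hi := lc_hi (g' := g') (by simpa only [one_mul] using (hm 1 zero_le_one one_le_two 1).1)
    (by simpa only [one_mul] using (hm 2 zero_le_two le_rfl 1).1)
  have h0 : Tendsto (fun x : ℝ => (((1 + (x / R) ^ 3) ^ (-(4 / 3) : ℝ) : ℝ) : ℂ)) atTop (𝓝 0) := by
    have a := (tendsto_rpow_neg_atTop (show (0 : ℝ) < 4 / 3 by norm_num)).comp
      (tendsto_atTop_add_const_left _ 1 ((tendsto_pow_atTop three_ne_zero).comp
        (tendsto_id.atTop_div_const hR)))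
    exact (continuous_ofReal.tendsto 0).comp a
  obtain ⟨k1, -, k2⟩ := lc lc_F hd hc hi h0 hg (hm _ (by norm_num) (by norm_num) B).1
  have k3 := (lc (m := 0) lc_F hd hc hi h0 (E := fun x => 16 * x ^ (1 : ℝ)) (fun x hx => by
    rw [zero_mul, sub_zero, lc_card, norm_real, Real.norm_of_nonneg (Nat.cast_nonneg _),
      Real.rpow_one]
    exact card_ball_le hx.le) (hm _ zero_le_one one_le_two 16).1).2.2
  have e : ∀ n : Eis, (if n = 0 then 0 else 1 : ℂ) *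
      (((1 + (N n / R) ^ 3) ^ (-(4 / 3) : ℝ) : ℝ) : ℂ) =
      ((if n = 0 then 0 else (1 + (N n / R) ^ 3) ^ (-(4 / 3) : ℝ) : ℝ) : ℂ) := fun n => by
    split_ifs <;> simp
  rw [funext e] at k1 k2 k3
  rw [(hm _ (by norm_num) (by norm_num) B).2, ← ofReal_tsum, integral_complex_ofReal,
    (lc_scale (fun y => (1 + y ^ 3) ^ (-(4 / 3) : ℝ)) hR).2, lc_cint, mul_one, ← ofReal_mul,
    ← ofReal_sub, norm_real, Real.norm_eq_abs, ← Real.sqrt_eq_rpow] at k2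
  rw [(hm _ zero_le_one one_le_two 16).2, zero_mul, sub_zero, ← ofReal_tsum, norm_real,
    Real.norm_eq_abs, Real.rpow_one] at k3
  have j1 := mul_le_mul_of_nonneg_left (le_abs_self (J (1 / 2))) hB.le
  have j2 := le_abs_self (J 1)
  have j3 := abs_nonneg (J 1)
  have j4 := mul_nonneg hB.le (abs_nonneg (J (1 / 2)))
  exact ⟨summable_ofReal.1 k1, k2.trans (mul_le_mul_of_nonneg_right (by linarith)
    (Real.sqrt_nonneg R)), (le_abs_self _).trans (k3.trans (mul_le_mul_of_nonneg_right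
      (by linarith) hR.le))⟩

end Vale.Agent.P006
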