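import Vale.Agent.P006.Ker
import Vale.Agent.P006.LC
import Vale.Agent.P026.MelA
import Vale.Agent.P006.AnnA

/-! Poisson summation for a thin annulus. -/

namespace Vale.Agent.P006

open Vale.Agent.P026 Eis Complex MeasureTheory Filter Topology
open scoped Classical ComplexConjugate

/-- With z = 3/4 + i τ the quotient Gamma (z - 1/2) Gamma (z + 1/2) / Gamma z ^ 2 is the limit
(Complex.GammaSeq_tendsto_Gamma) of the products of (z + j) ^ 2 / ((z + j) ^ 2 - 1/4), whose factors have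
norm at most x ^ 2 / (x ^ 2 - 1/4), x = j + 3/4; the real product is bounded. Then use
Gamma (z + 1/2) = (z - 1/2) Gamma (z - 1/2) and ‖Gamma (conj z)‖ = ‖Gamma z‖. -/
theorem gamma_quarter : ∃ C : ℝ, 0 < C ∧ ∀ τ : ℝ,
    ‖Gamma (1 / 4 + τ * I) * (Gamma (3 / 4 - τ * I))⁻¹‖ ≤ C * (1 + |τ|) ^ (-(1 / 2) : ℝ) :=
  ⟨4, by norm_num, ann_quarter⟩

/-- The Mellin transform of the weight. -/
noncomputable def annE (T : ℝ) (s : ℂ) : ℂ :=
  ((√(2 * Real.pi) / T : ℝ) : ℂ) * cexp (s ^ 2 / (2 * T ^ 2))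
/-- The Mellin transform of the mixing density. -/
noncomputable def annP (T : ℝ) (s : ℂ) : ℂ := (Real.pi : ℂ) ^ s * annE T s * (Gamma s)⁻¹
/-- The dual kernel. -/
noncomputable def annK (T y : ℝ) : ℂ :=
  ∫ M in Set.Ioi (0 : ℝ), mellinInv 0 (annP T) M *
    (((2 / √3 : ℝ) : ℂ) * (Real.exp (-(4 * Real.pi / 3 * y * M)) : ℂ))

theorem ann_normE {T : ℝ} (hT : 0 < T) (s : ℂ) :
    ‖annE T s‖ = √(2 * Real.pi) / T * Real.exp ((s.re ^ 2 - s.im ^ 2) / (2 * T ^ 2)) := by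
  rw [annE, norm_mul, norm_real, Real.norm_of_nonneg (by positivity), norm_exp,
    show (2 * T ^ 2 : ℂ) = ((2 * T ^ 2 : ℝ) : ℂ) by push_cast; rfl, div_ofReal_re, pow_two s, mul_re,
    ← pow_two, ← pow_two]

theorem ann_GS {T : ℝ} (hT : 0 < T) : AnnGS T (annP T) := by
  have hp : (Real.pi : ℂ) ≠ 0 := ofReal_ne_zero.2 Real.pi_pos.ne'
  refine ⟨hT, ((differentiable_id.const_cpow (Or.inl hp)).mul ?_).mul differentiable_one_div_Gamma,
    fun M => ?_⟩
  · unfold annE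
    fun_prop
  obtain ⟨C, hC0, hC⟩ := melA_inv_Gamma M
  refine ⟨Real.pi ^ M * (√(2 * Real.pi) / T) * C *
    Real.exp (M ^ 2 / (2 * T ^ 2) + (Real.pi * T) ^ 2), fun s hs => ?_⟩
  have h1 : Real.pi ^ s.re ≤ Real.pi ^ M :=
    Real.rpow_le_rpow_of_exponent_le (by linarith [Real.pi_gt_three]) ((le_abs_self _).trans hs)
  have h2 : (s.re ^ 2 - s.im ^ 2) / (2 * T ^ 2) + Real.pi * |s.im| ≤
      M ^ 2 / (2 * T ^ 2) + (Real.pi * T) ^ 2 + -(1 / 8) * (s.im / T) ^ 2 := by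
    have a1 : s.re ^ 2 / (2 * T ^ 2) ≤ M ^ 2 / (2 * T ^ 2) :=
      div_le_div_of_nonneg_right (sq_le_sq' (abs_le.1 hs).1 (abs_le.1 hs).2) (by positivity)
    have a2 : s.im ^ 2 / (2 * T ^ 2) = (|s.im| / T) ^ 2 / 2 := by
      rw [div_pow, sq_abs]; ring
    have a3 : (s.im / T) ^ 2 = (|s.im| / T) ^ 2 := by rw [div_pow, div_pow, sq_abs]
    have a4 : Real.pi * |s.im| = Real.pi * T * (|s.im| / T) := by field_simp
    rw [sub_div, a2, a3, a4]
    nlinarith [sq_nonneg (Real.pi * T - |s.im| / T / 2), sq_nonneg (|s.im| / T)]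
  rw [annP, norm_mul, norm_mul, norm_cpow_eq_rpow_re_of_pos Real.pi_pos, ann_normE hT]
  calc _ ≤ Real.pi ^ M * (√(2 * Real.pi) / T * Real.exp ((s.re ^ 2 - s.im ^ 2) / (2 * T ^ 2))) *
        (C * Real.exp (Real.pi * |s.im|)) := by gcongr; exact hC s hs
    _ = Real.pi ^ M * (√(2 * Real.pi) / T) * C *
        Real.exp ((s.re ^ 2 - s.im ^ 2) / (2 * T ^ 2) + Real.pi * |s.im|) := by
        rw [Real.exp_add]; ring
    _ ≤ _ := by
        rw [mul_assoc _ (Real.exp _), ← Real.exp_add]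
        gcongr

theorem ann_ex {a : ℝ} (ha : 0 < a) {s : ℂ} (hs : 0 < s.re) :
    MellinConvergent (fun t => (Real.exp (-(a * t)) : ℂ)) s ∧
      mellin (fun t => (Real.exp (-(a * t)) : ℂ)) s = (a : ℂ) ^ (-s) * Gamma s := by
  refine ⟨(MellinConvergent.comp_mul_left (f := fun t => (Real.exp (-t) : ℂ)) ha).2 ?_, ?_⟩
  · simpa only [MellinConvergent, smul_eq_mul, mul_comm] using GammaIntegral_convergent hs
  · rw [mellin_comp_mul_left (fun t => (Real.exp (-t) : ℂ)) s ha, ← GammaIntegral_eq_mellin,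
      Gamma_eq_integral hs, smul_eq_mul]

theorem ann_gauss {T : ℝ} (hT : 0 < T) (σ L : ℝ) :
    ∫ τ : ℝ, cexp ((σ + τ * I) ^ 2 / (2 * T ^ 2) - (σ + τ * I) * L) =
      ((√(2 * Real.pi) * T * Real.exp (-(T ^ 2 / 2 * L ^ 2)) : ℝ) : ℂ) := by
  have T0 : (T : ℂ) ≠ 0 := ofReal_ne_zero.2 hT.ne'
  have h := integral_cexp_quadratic (b := ((-(1 / (2 * T ^ 2)) : ℝ) : ℂ))
    (by rw [ofReal_re]; exact neg_neg_of_pos (by positivity))
    (I * (σ / T ^ 2 - L)) (σ ^ 2 / (2 * T ^ 2) - σ * L)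
  have e1 : ∀ τ : ℝ, (σ + τ * I) ^ 2 / (2 * T ^ 2) - (σ + τ * I) * L =
      ((-(1 / (2 * T ^ 2)) : ℝ) : ℂ) * (τ : ℂ) ^ 2 + I * (σ / T ^ 2 - L) * τ +
        (σ ^ 2 / (2 * T ^ 2) - σ * L) := fun τ => by
    push_cast
    linear_combination (τ : ℂ) ^ 2 / (2 * T ^ 2) * I_sq
  simp only [e1]
  rw [h, ofReal_mul (_ * T)]
  congr 1
  · have : (Real.pi : ℂ) / -((-(1 / (2 * T ^ 2)) : ℝ) : ℂ) = ((2 * Real.pi * T ^ 2 : ℝ) : ℂ) := by
      push_cast
      field_simp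
    rw [this, show (1 / 2 : ℂ) = ((1 / 2 : ℝ) : ℂ) by push_cast; rfl,
      ← ofReal_cpow (by positivity), ← Real.sqrt_eq_rpow, Real.sqrt_mul (by positivity),
      Real.sqrt_sq hT.le]
  · rw [ofReal_exp]
    congr 1
    push_cast
    rw [mul_pow, I_sq]
    field_simp
    ring

theorem ann_w {T : ℝ} (hT : 0 < T) {x : ℝ} (hx : 0 ≤ x) :
    ∫ M in Set.Ioi (0 : ℝ), mellinInv 0 (annP T) M *
      ((M : ℂ) ^ (-1 : ℂ) • (Real.exp (-(Real.pi * x * M⁻¹)) : ℂ)) =
      if x = 0 then 0 else (lg (T ^ 2 / 2) x : ℂ) := by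
  split_ifs with h0
  · have := (ann_GS hT).mellin_inv 0
    simp only [mellin, annP, ofReal_zero, Gamma_zero, inv_zero, mul_zero, zero_sub,
      smul_eq_mul] at this
    simpa [h0, mul_comm] using this
  have x0 : 0 < x := lt_of_le_of_ne hx (Ne.symm h0)
  have ha : 0 < Real.pi * x := by positivity
  have hc : MellinConvergent (fun M : ℝ => (M : ℂ) ^ (-1 : ℂ) •
      (Real.exp (-(Real.pi * x * M⁻¹)) : ℂ)) (1 - (1 : ℝ)) := by
    have := (MellinConvergent.comp_rpow (f := fun t => (Real.exp (-(Real.pi * x * t)) : ℂ))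
      (s := 1 - (1 : ℝ) + -1) (a := -1) (by norm_num)).2 (ann_ex ha (by simp)).1
    simp only [Real.rpow_neg_one] at this
    exact MellinConvergent.cpow_smul.2 this
  rw [(ann_GS hT).parseval 1 (by fun_prop) hc]
  have e : ∀ τ : ℝ, annP T ((1 : ℝ) + τ * I) * mellin (fun M : ℝ => (M : ℂ) ^ (-1 : ℂ) •
      (Real.exp (-(Real.pi * x * M⁻¹)) : ℂ)) (1 - ((1 : ℝ) + τ * I)) =
      ((√(2 * Real.pi) / T : ℝ) : ℂ) * cexp (((1 : ℝ) + τ * I) ^ 2 / (2 * T ^ 2) -
        ((1 : ℝ) + τ * I) * Real.log x) := fun τ => by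
    have hs : 0 < (((1 : ℝ) : ℂ) + τ * I).re := by simp
    generalize ((1 : ℝ) : ℂ) + τ * I = s at hs
    have g0 := Gamma_ne_zero_of_re_pos hs
    have p0 : (Real.pi : ℂ) ^ s ≠ 0 := by simp [Real.pi_pos.ne']
    rw [mellin_cpow_smul, mellin_comp_inv (fun t => (Real.exp (-(Real.pi * x * t)) : ℂ)),
      show -(1 - s + -1) = s by ring, (ann_ex ha hs).2, annP, annE, ofReal_mul,
      mul_cpow_ofReal_nonneg Real.pi_pos.le hx, cpow_neg, sub_eq_add_neg, Complex.exp_add,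
      cpow_def_of_ne_zero (ofReal_ne_zero.2 h0), ← ofReal_log hx,
      show (Real.log x : ℂ) * -s = -(s * Real.log x) by ring]
    field_simp
  simp only [e]
  rw [integral_const_mul, ann_gauss hT, ← ofReal_mul, ← ofReal_mul, lg]
  congr 1
  have := Real.mul_self_sqrt (show 0 ≤ 2 * Real.pi by positivity)
  have := Real.pi_pos
  field_simp
  nlinarith

theorem ann_K0 {T : ℝ} (hT : 1 ≤ T) : ‖annK T 0‖ ≤ 40 * (2 * Real.pi * Real.exp 2) / T := by
  have T0 : 0 < T := by linarith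
  have h := (ann_GS T0).mellin_inv 1
  have e : annK T 0 = ((2 / √3 : ℝ) : ℂ) * annP T (1 : ℝ) := by
    rw [← h, mellin, annK, ← integral_const_mul]
    simp [mul_comm]
  have h3 : 2 / √3 ≤ (2 : ℝ) := div_le_self (by norm_num) (Real.one_le_sqrt.2 (by norm_num))
  have h4 : √(2 * Real.pi) ≤ 40 := Real.sqrt_le_iff.2 ⟨by norm_num, by linarith [Real.pi_lt_four]⟩
  have h5 : (1 : ℝ) / (2 * T ^ 2) ≤ 2 := (div_le_iff₀ (by positivity)).2 (by nlinarith)
  rw [e, annP, norm_mul, norm_mul, norm_mul, ann_normE T0, norm_real,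
    Real.norm_of_nonneg (by positivity)]
  simp only [ofReal_one, Gamma_one, inv_one, norm_one, mul_one, cpow_one, norm_real, one_re, one_im,
    Real.norm_of_nonneg Real.pi_pos.le, one_pow, ne_eq, OfNat.ofNat_ne_zero, not_false_eq_true,
    zero_pow, sub_zero]
  calc _ ≤ 2 * (Real.pi * (40 / T * Real.exp 2)) := by gcongr
    _ = _ := by ring

theorem ann_rep {T σ : ℝ} (hT : 1 ≤ T) (h0 : 0 < σ) (h1 : σ ≤ 3) {ρ : ℝ → ℝ}
    (hρ : ∀ τ : ℝ, 2 * Real.pi * Real.exp 2 * (dens T τ *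
      ‖Gamma (σ + τ * I) * (Gamma (1 - (σ + τ * I)))⁻¹‖) ≤ ρ τ) : Rep (annK T) σ ρ := by
  have T0 : 0 < T := by linarith
  have hp := Real.pi_pos
  have hs : ∀ τ : ℝ, 0 < ((σ : ℂ) + τ * I).re := fun τ => by simpa using h0
  have e1 : ∀ τ : ℝ, ((1 - σ : ℝ) : ℂ) + (-τ : ℝ) * I = 1 - (σ + τ * I) := fun τ => by
    push_cast; ring
  have n1 : ∀ τ : ℝ, ‖((4 * Real.pi / 3 : ℝ) : ℂ) ^ (-((σ : ℂ) + τ * I))‖ ≤ 1 := fun τ => by
    rw [norm_cpow_eq_rpow_re_of_pos (by positivity)]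
    exact Real.rpow_le_one_of_one_le_of_nonpos (by linarith [Real.pi_gt_three])
      (by simpa using h0.le)
  refine ⟨fun τ => ((1 / (2 * Real.pi) * (2 / √3) : ℝ) : ℂ) * (annP T (1 - (σ + τ * I)) *
    (((4 * Real.pi / 3 : ℝ) : ℂ) ^ (-((σ : ℂ) + τ * I)) * Gamma (σ + τ * I))), ?_, fun τ => ?_,
    fun y hy => ?_⟩
  · have i1 := ((ann_GS T0).int (1 - σ)).comp_neg
    simp only [e1] at i1
    have c1 : Continuous fun τ : ℝ => Gamma (σ + τ * I) := continuous_iff_continuousAt.2 fun τ =>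
      ContinuousAt.comp (f := fun τ : ℝ => (σ : ℂ) + τ * I) (g := Gamma)
        (differentiableAt_Gamma _ fun m j => by
          have := hs τ
          rw [j] at this
          simp at this
          linarith [Nat.cast_nonneg (α := ℝ) m]).continuousAt (by fun_prop)
    refine (i1.mul_bdd (c := Real.Gamma σ) (Measurable.aestronglyMeasurable ?_)
      (Eventually.of_forall fun τ => ?_)).const_mul _
    · have := c1.measurable
      fun_prop
    · rw [norm_mul]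
      refine (mul_le_of_le_one_left (norm_nonneg _) (n1 τ)).trans ?_
      simpa using melA_norm_Gamma_le (hs τ)
  · refine le_trans ?_ (hρ τ)
    have h3 : 2 / √3 ≤ (2 : ℝ) := div_le_self (by norm_num) (Real.one_le_sqrt.2 (by norm_num))
    have h4 : Real.pi ^ (1 - σ) ≤ Real.pi := by
      simpa using Real.rpow_le_rpow_of_exponent_le (x := Real.pi) (y := 1 - σ) (z := 1)
        (by linarith [Real.pi_gt_three]) (by linarith)
    have h5 : ((1 - σ) ^ 2 - τ ^ 2) / (2 * T ^ 2) ≤ 2 + -(τ ^ 2 / (2 * T ^ 2)) := by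
      rw [sub_div, ← sub_eq_add_neg]
      exact sub_le_sub_right ((div_le_iff₀ (by positivity)).2 (by nlinarith)) _
    have h6 : √(2 * Real.pi) / T = 2 * Real.pi * (√(2 * Real.pi) * T)⁻¹ := by
      have := Real.mul_self_sqrt (show 0 ≤ 2 * Real.pi by positivity)
      have : 0 < √(2 * Real.pi) := by positivity
      field_simp
      nlinarith
    simp only [annP, norm_mul, ann_normE T0, norm_real, norm_cpow_eq_rpow_re_of_pos hp]
    rw [Real.norm_of_nonneg (by positivity), Real.norm_of_nonneg (by positivity), h6, dens]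
    simp only [sub_re, one_re, add_re, ofReal_re, mul_re, I_re, mul_zero, ofReal_im, I_im, mul_one,
      sub_self, add_zero, sub_im, one_im, add_im, mul_im, zero_add, zero_sub, even_two,
      Even.neg_pow]
    calc _ ≤ 1 / (2 * Real.pi) * 2 * (Real.pi * (2 * Real.pi * (√(2 * Real.pi) * T)⁻¹ *
          Real.exp (2 + -(τ ^ 2 / (2 * T ^ 2)))) * ‖(Gamma (1 - (σ + τ * I)))⁻¹‖ *
          (1 * ‖Gamma (σ + τ * I)‖)) := by gcongr; exact n1 τ
      _ = _ := by rw [Real.exp_add]; field_simp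
  · have ha : 0 < 4 * Real.pi / 3 * y := by positivity
    have hc : MellinConvergent (fun M : ℝ => ((2 / √3 : ℝ) : ℂ) *
        (Real.exp (-(4 * Real.pi / 3 * y * M)) : ℂ)) (1 - (1 - σ : ℝ)) :=
      (ann_ex ha (by simpa using h0)).1.const_smul ((2 / √3 : ℝ) : ℂ)
    rw [annK, (ann_GS T0).parseval (1 - σ) (by fun_prop) hc, ← integral_const_mul,
      ← integral_neg_eq_self]
    refine integral_congr_ae (Eventually.of_forall fun τ => ?_)
    have := mellin_const_smul (fun M : ℝ => (Real.exp (-(4 * Real.pi / 3 * y * M)) : ℂ))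
      (σ + τ * I) ((2 / √3 : ℝ) : ℂ)
    simp only [smul_eq_mul] at this
    simp only [e1, sub_sub_cancel]
    rw [this, (ann_ex ha (hs τ)).2, ofReal_mul _ y, mul_cpow_ofReal_nonneg (by positivity) hy.le,
      ofReal_mul]
    ring

theorem ann_PP {w k w' k' : ℝ → ℂ} (h : PP w k) (hw : ∀ x, 0 ≤ x → w x = w' x)
    (hk : ∀ y, k y = k' y) : PP w' k' := by
  obtain rfl : k = k' := funext hk
  have e : ∀ m, w' (N m) = w (N m) := fun m => (hw _ (N_nonneg m)).symm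
  simpa only [PP, e] using h

theorem ann_int {T Y : ℝ} (hT : 0 < T) (hY : 0 < Y) :
    IntegrableOn (fun M : ℝ => ‖mellinInv 0 (annP T) (M / Y) / M‖ * (1 + M)) (Set.Ioi 0) := by
  have hm := (ann_GS hT).meas
  have hb : ∀ j : ℝ, ∃ A : ℝ, ∀ M : ℝ, 0 < M → ‖mellinInv 0 (annP T) (M / Y)‖ * M ^ j ≤ A := by
    intro j
    obtain ⟨A, hA⟩ := (ann_GS hT).norm_inv j
    refine ⟨A * Y ^ j, fun M hM => ?_⟩
    refine (mul_le_mul_of_nonneg_right (hA _ (div_pos hM hY)) (by positivity)).trans (le_of_eq ?_)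
    rw [Real.rpow_neg (div_pos hM hY).le, Real.div_rpow hM.le hY.le]
    have := Real.rpow_pos_of_pos hM j
    field_simp
  obtain ⟨A0, h0⟩ := hb (-1)
  obtain ⟨A1, h1⟩ := hb 0
  obtain ⟨A2, h2⟩ := hb 1
  obtain ⟨A3, h3⟩ := hb 2
  refine (integrable_inv_one_add_sq.const_mul (A0 + A1 + A2 + A3)).integrableOn.mono'
    (Measurable.aestronglyMeasurable (by fun_prop))
    ((ae_restrict_iff' measurableSet_Ioi).2 (Eventually.of_forall fun M hM => ?_))
  have M0 : 0 < M := hM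
  have := add_le_add (add_le_add (add_le_add (h0 M M0) (h1 M M0)) (h2 M M0)) (h3 M M0)
  rw [Real.rpow_neg_one, Real.rpow_zero, Real.rpow_one, Real.rpow_two] at this
  rw [Real.norm_of_nonneg (by positivity), ← div_eq_mul_inv, le_div_iff₀ (by positivity), norm_div,
    norm_real, Real.norm_of_nonneg M0.le]
  refine le_trans (le_of_eq ?_) this
  field_simp
  ring

theorem ann_scale (F : ℝ → ℂ) {Y : ℝ} (hY : 0 < Y) :
    ∫ M in Set.Ioi (0 : ℝ), F M = ∫ M in Set.Ioi (0 : ℝ), Y * F (Y * M) := by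
  rw [integral_const_mul, integral_comp_mul_left_Ioi F 0 hY, mul_zero, real_smul, ofReal_inv,
    mul_inv_cancel_left₀ (ofReal_ne_zero.2 hY.ne')]

theorem ann_pp {T Y : ℝ} (hT : 0 < T) (hY : 0 < Y) :
    PP (fun x => if x = 0 then 0 else (lg (T ^ 2 / 2) (x / Y) : ℂ))
      (fun y => (Y : ℂ) * annK T (Y * y)) := by
  have hm := (ann_GS hT).meas
  have Y0 : (Y : ℂ) ≠ 0 := ofReal_ne_zero.2 hY.ne'
  refine ann_PP (pp_mix (φ := fun M => mellinInv 0 (annP T) (M / Y) / M) (by fun_prop)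
    (ann_int hT hY)) (fun x hx => ?_) fun y => ?_
  · have e := ann_w hT (div_nonneg hx hY.le)
    simp only [div_eq_zero_iff, hY.ne', or_false] at e
    rw [← e, ann_scale _ hY]
    refine setIntegral_congr_fun measurableSet_Ioi fun M hM => ?_
    have M0 : (M : ℂ) ≠ 0 := ofReal_ne_zero.2 (ne_of_gt hM)
    simp only [mul_div_cancel_left₀ _ hY.ne', cpow_neg_one, smul_eq_mul]
    rw [show Real.pi * x / (Y * M) = Real.pi * (x / Y) * M⁻¹ by ring, ofReal_mul Y]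
    field_simp
  · rw [annK, ← integral_const_mul, ann_scale _ hY]
    refine setIntegral_congr_fun measurableSet_Ioi fun M hM => ?_
    have M0 : (M : ℂ) ≠ 0 := ofReal_ne_zero.2 (ne_of_gt hM)
    simp only [mul_div_cancel_left₀ _ hY.ne']
    rw [show 4 * Real.pi / 3 * (Y * M) * y = 4 * Real.pi / 3 * (Y * y) * M by ring,
      show 2 * (Y * M) / √3 = 2 / √3 * (Y * M) by ring, ofReal_mul (2 / √3), ofReal_mul Y]
    field_simp

/-- Let E s = √(2 π) / T * exp (s ^ 2 / (2 T ^ 2)) be the Mellin transform of lg (T ^ 2 / 2), ψ s =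
π ^ s E s / Gamma s (entire, Gaussian decay in strips: melA_inv_Gamma), φ M = (2 π)⁻¹ ∫ ψ (σ + i τ)
M ^ (-σ - i τ) dτ, independent of σ (rescale melA_shift, or copy its proof), hence O (M ^ a) for every a.
Use pp_mix with φ (M / Y) / M. Fubini on the line σ = 1 gives ∫ φ M exp (- π x / M) dM / M =
lg (T ^ 2 / 2) x for x > 0, and 0 at x = 0 by continuity. The kernel is
k y = ∫ φ M (2 M / √3) exp (- 4 π M y / 3) dM / M with Mellin transform
(2 / √3) Gamma s (4 π / 3) ^ (-s) ψ (1 - s), Re s > 0 (Fubini on the line 1 - Re s). Ratios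
Gamma s / Gamma (1 - s): gamma_quarter, Gamma_conj, melA_ratio with z = 1/2 + i τ, m = 2. Finally
k 0 = (2 / √3) ∫ φ = (2 π / √3) ∫ lg (T ^ 2 / 2) x dx by Fubini in the formula for lg (int_gg). -/
theorem pb0 : ∃ C : ℝ, 0 < C ∧ ∀ T : ℝ, 1 ≤ T → ∃ k : ℝ → ℂ,
    (∀ Y : ℝ, 0 < Y → PP (fun x => if x = 0 then 0 else (lg (T ^ 2 / 2) (x / Y) : ℂ))
      (fun y => (Y : ℂ) * k (Y * y))) ∧ ‖k 0‖ ≤ C / T ∧
    Rep k (1 / 4) (fun τ => C * (dens T τ * (1 + |τ|) ^ (-(1 / 2) : ℝ))) ∧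
    Rep k (1 / 2) (fun τ => C * dens T τ) ∧
    Rep k (5 / 2) (fun τ => C * (dens T τ * (1 + |τ|) ^ 4)) := by
  have hp := Real.pi_pos
  refine ⟨40 * (2 * Real.pi * Real.exp 2), by positivity, fun T hT => ⟨annK T,
    fun Y hY => ann_pp (by linarith) hY, ann_K0 hT, ?_, ?_, ?_⟩⟩
  all_goals
    have hd : ∀ τ, 0 ≤ dens T τ := fun τ => by unfold dens; positivity
    refine ann_rep hT (by norm_num) (by norm_num) fun τ => ?_
    rw [mul_comm 40, mul_assoc _ 40]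
    refine mul_le_mul_of_nonneg_left ?_ (by positivity)
  · rw [mul_left_comm]
    refine mul_le_mul_of_nonneg_left ?_ (hd τ)
    have := ann_quarter τ
    rw [show (3 / 4 - τ * I : ℂ) = 1 - ((1 / 4 : ℝ) + τ * I) by push_cast; ring,
      show (1 / 4 : ℂ) = (1 / 4 : ℝ) by push_cast; rfl] at this
    exact this.trans (by gcongr; norm_num)
  · rw [mul_comm 40]
    refine mul_le_mul_of_nonneg_left ?_ (hd τ)
    have := melA_ratio (1 - ((1 / 2 : ℝ) + τ * I)) (by norm_num) 0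
    rw [show conj (1 - ((1 / 2 : ℝ) + τ * I : ℂ)) + (0 : ℕ) = (1 / 2 : ℝ) + τ * I by
      simp only [map_sub, map_add, map_mul, map_one, conj_ofReal, conj_I]; push_cast; ring] at this
    simp only [Nat.cast_zero, sub_zero, mul_zero, pow_zero] at this
    linarith
  · rw [mul_left_comm]
    refine mul_le_mul_of_nonneg_left ?_ (hd τ)
    have := melA_ratio (1 / 2 - τ * I) (by norm_num) 2
    rw [show conj (1 / 2 - τ * I : ℂ) + (2 : ℕ) = (5 / 2 : ℝ) + τ * I by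
      simp only [map_sub, map_div₀, map_mul, map_one, map_ofNat, conj_ofReal, conj_I]
      push_cast; ring,
      show (1 / 2 - τ * I : ℂ) - (2 : ℕ) = 1 - ((5 / 2 : ℝ) + τ * I) by push_cast; ring] at this
    have h1 : ‖(1 / 2 - τ * I : ℂ)‖ ≤ 1 / 2 + |τ| := by
      simpa using norm_sub_le (1 / 2 : ℂ) (τ * I)
    have h2 := abs_nonneg τ
    calc _ ≤ (‖(1 / 2 - τ * I : ℂ)‖ + (2 : ℕ)) ^ (2 * 2) := this
      _ ≤ (5 / 2 * (1 + |τ|)) ^ (2 * 2) := by gcongr; push_cast; linarith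
      _ = (5 / 2) ^ 4 * (1 + |τ|) ^ 4 := by ring
      _ ≤ _ := by gcongr; norm_num

end Vale.Agent.P006
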