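import Vale.Agent.P006.GaussP

/-! Cube free kernels and nontriviality of cubic characters. -/

namespace Vale.Agent.P006

open Vale.Agent.P026 Eis Complex MeasureTheory Filter Topology
open scoped Classical ComplexConjugate

theorem ari_mem_S9 {s : Eis} : s ∈ S9 ↔ ∃ i a : ℕ, i < 3 ∧ a < 3 ∧ s = om ^ i * lam ^ a := by
  simp only [S9, Finset.mem_image, Finset.mem_product, Finset.mem_range, Prod.exists]
  constructor
  · rintro ⟨i, a, ⟨hi, ha⟩, rfl⟩
    exact ⟨i, a, hi, ha, rfl⟩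
  · rintro ⟨i, a, hi, ha, rfl⟩
    exact ⟨i, a, ⟨hi, ha⟩, rfl⟩

theorem ari_om_pow (i : ℕ) : om ^ i = om ^ (i % 3) := by
  conv_lhs => rw [← Nat.div_add_mod i 3, pow_add, pow_mul, sym_om_cube, one_pow, one_mul]

theorem ari_unit {u : Eis} (hu : IsUnit u) :
    ∃ i : ℕ, i < 3 ∧ ∃ e : Eis, (e = 1 ∨ e = -1) ∧ u = om ^ i * e := by
  rcases isUnit_iff.1 hu with rfl | rfl | rfl | rfl | rfl | rfl
  · exact ⟨0, by omega, 1, Or.inl rfl, by ring⟩
  · exact ⟨0, by omega, -1, Or.inr rfl, by ring⟩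
  · exact ⟨1, by omega, 1, Or.inl rfl, by ring⟩
  · exact ⟨1, by omega, -1, Or.inr rfl, by ring⟩
  · exact ⟨2, by omega, 1, Or.inl rfl, by ring⟩
  · exact ⟨2, by omega, -1, Or.inr rfl, by ring⟩

theorem card_S9 : S9.card ≤ 9 :=
  Finset.card_image_le.trans (by simp)
theorem S9_spec {s : Eis} (hs : s ∈ S9) : s ≠ 0 ∧ s ∣ 3 ∧ N s ≤ 9 := by
  obtain ⟨i, a, hi, ha, rfl⟩ := ari_mem_S9.1 hs
  have h3 : om ^ i * lam ^ a ∣ 3 := by
    refine (sym_om_unit.pow i).mul_left_dvd.2 ((pow_dvd_pow lam (by omega : a ≤ 2)).trans ?_)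
    rw [lam_sq]; exact neg_dvd.2 dvd_rfl
  have h0 : (3 : Eis) ≠ 0 := by decide
  refine ⟨ne_zero_of_dvd_ne_zero h0 h3, h3, (N_le_of_dvd h0 h3).trans ?_⟩
  have := N_natCast 3
  norm_num at this
  exact this.le
theorem Ker.ne_zero {q : Eis} (h : Ker q) : q ≠ 0 := by
  obtain ⟨s, hs, k1, k2, h1, h2, -, rfl⟩ := h
  exact mul_ne_zero (mul_ne_zero (S9_spec hs).1 h1.ne_zero) (pow_ne_zero _ h2.ne_zero)
theorem mem_KQ {Q : ℝ} {q : Eis} : q ∈ KQ Q ↔ Ker q ∧ N q ≤ Q := by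
  rw [KQ, Finset.mem_filter, mem_ball]
  exact ⟨fun h => ⟨h.2, h.1.2⟩, fun h => ⟨⟨h.1.ne_zero, h.2⟩, h.1⟩⟩
theorem card_KQ_le {Q : ℝ} (hQ : 0 ≤ Q) : ((KQ Q).card : ℝ) ≤ 16 * Q :=
  le_trans (by exact_mod_cast Finset.card_filter_le _ _) (card_ball_le hQ)
theorem KerF.ker {F : ℝ} {q : Eis} (h : KerF F q) : Ker q := by
  obtain ⟨s, hs, k1, k2, h1, h2, h3, h4, -⟩ := h
  exact ⟨s, hs, k1, k2, h1, h2, h3, h4⟩

theorem ari_prim {x : Eis} (hx : Prim x) :
    ∃ k1 k2 m, PS k1 ∧ PS k2 ∧ IsCoprime k1 k2 ∧ Prim m ∧ x = k1 * k2 ^ 2 * m ^ 3 := by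
  refine Prim.induction (Pr := fun x => ∃ k1 k2 m, PS k1 ∧ PS k2 ∧ IsCoprime k1 k2 ∧ Prim m ∧
    x = k1 * k2 ^ 2 * m ^ 3) ⟨1, 1, 1, PS.one, PS.one, isCoprime_one_left, Prim.one, by ring⟩ ?_ hx
  rintro p x hp h1 - ⟨k1, k2, m, a1, a2, a3, a4, rfl⟩
  have hP := PS.of_prime hp h1
  by_cases b1 : p ∣ k1
  · obtain ⟨k, rfl⟩ := b1
    obtain ⟨-, c1, c2⟩ := PS.of_mul h1 a1
    exact ⟨k, p * k2, m, c1, hP.mul a2 a3.of_mul_left_left, c2.symm.mul_right a3.of_mul_left_right,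
      a4, by ring⟩
  by_cases b2 : p ∣ k2
  · obtain ⟨k, rfl⟩ := b2
    exact ⟨k1, k, p * m, a1, (PS.of_mul h1 a2).2.1, a3.of_mul_right_right, h1.mul a4, by ring⟩
  · exact ⟨p * k1, k2, m, hP.mul a1 (ga_cop hp b1).symm, a2, (ga_cop hp b2).symm.mul_left a3, a4,
      by ring⟩

theorem exists_ker {h : Eis} (hh : h ≠ 0) : ∃ q l, Ker q ∧ l ≠ 0 ∧ h = q * l ^ 3 := by
  obtain ⟨u, k, x, hu, hx, rfl⟩ := exists_three_part hh
  obtain ⟨i, hi, e, he, rfl⟩ := ari_unit hu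
  obtain ⟨k1, k2, m, a1, a2, a3, a4, rfl⟩ := ari_prim hx
  have e3 : e = e ^ 3 := by rcases he with rfl | rfl <;> ring
  have e0 : e ≠ 0 := by rcases he with rfl | rfl <;> decide
  refine ⟨om ^ i * lam ^ (k % 3) * k1 * k2 ^ 2, e * lam ^ (k / 3) * m,
    ⟨_, ari_mem_S9.2 ⟨i, k % 3, hi, by omega, rfl⟩, k1, k2, a1, a2, a3, rfl⟩,
    mul_ne_zero (mul_ne_zero e0 (pow_ne_zero _ prime_lam.ne_zero)) a4.ne_zero, ?_⟩
  conv_lhs => rw [← Nat.div_add_mod k 3, e3]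
  ring

theorem ari_val {p k : Eis} (hp : Prime p) (hk : PS k) :
    ∃ e : ℕ, ∃ y, e ≤ 1 ∧ (e = 1 ↔ p ∣ k) ∧ ¬ p ∣ y ∧ k = p ^ e * y := by
  by_cases h : p ∣ k
  · obtain ⟨y, rfl⟩ := h
    exact ⟨1, y, le_rfl, by simp, fun j => hp.not_isUnit (hk.2 p (mul_dvd_mul_left p j)), by ring⟩
  · exact ⟨0, k, by omega, by simp [h], h, by ring⟩

theorem ari_dvd {k k' : Eis} (hk : PS k) (h : ∀ p, Prime p → p ∣ k → p ∣ k') : k ∣ k' :=
  PS.induction (Pr := fun x => x ∣ k → x ∣ k') (fun _ => one_dvd _)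
    (fun p x hp _ _ hpx ih hd => (hp.coprime_iff_not_dvd.2 hpx).mul_dvd
      (h p hp ((dvd_mul_right p x).trans hd)) (ih ((dvd_mul_left x p).trans hd))) hk dvd_rfl

theorem ari_main {k1 k2 k1' k2' x : Eis} (h1 : PS k1) (h2 : PS k2) (h : IsCoprime k1 k2)
    (h1' : PS k1') (h2' : PS k2') (h' : IsCoprime k1' k2') (hx : x ≠ 0)
    (e : k1 * k2 ^ 2 * (k1' * k2' ^ 2) ^ 2 = x ^ 3) : k1 = k1' ∧ k2 = k2' := by
  have key : ∀ p, Prime p → (p ∣ k1 ↔ p ∣ k1') ∧ (p ∣ k2 ↔ p ∣ k2') := by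
    intro p hp
    obtain ⟨a1, y1, b1, c1, d1, e1⟩ := ari_val hp h1
    obtain ⟨a2, y2, b2, c2, d2, e2⟩ := ari_val hp h2
    obtain ⟨a3, y3, b3, c3, d3, e3⟩ := ari_val hp h1'
    obtain ⟨a4, y4, b4, c4, d4, e4⟩ := ari_val hp h2'
    obtain ⟨c, z, hz, rfl⟩ := WfDvdMonoid.max_power_factor hx hp.irreducible
    have n1 : ¬ (a1 = 1 ∧ a2 = 1) := fun j =>
      hp.not_isUnit (h.isUnit_of_dvd' (c1.1 j.1) (c2.1 j.2))
    have n2 : ¬ (a3 = 1 ∧ a4 = 1) := fun j =>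
      hp.not_isUnit (h'.isUnit_of_dvd' (c3.1 j.1) (c4.1 j.2))
    have := bs_pow_inj hp (x := y1 * y2 ^ 2 * (y3 * y4 ^ 2) ^ 2) (y := z ^ 3)
      (a := a1 + 2 * a2 + 2 * a3 + 4 * a4) (b := 3 * c)
      (hp.not_dvd_mul (hp.not_dvd_mul d1 fun j => d2 (hp.dvd_of_dvd_pow j)) fun j =>
        hp.not_dvd_mul d3 (fun j => d4 (hp.dvd_of_dvd_pow j)) (hp.dvd_of_dvd_pow j))
      (fun j => hz (hp.dvd_of_dvd_pow j)) (by rw [e1, e2, e3, e4] at e; linear_combination e)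
    rw [← c1, ← c2, ← c3, ← c4]
    omega
  exact ⟨h1.1.eq_of_associated h1'.1 (associated_of_dvd_dvd
      (ari_dvd h1 fun p hp => (key p hp).1.1) (ari_dvd h1' fun p hp => (key p hp).1.2)),
    h2.1.eq_of_associated h2'.1 (associated_of_dvd_dvd
      (ari_dvd h2 fun p hp => (key p hp).2.1) (ari_dvd h2' fun p hp => (key p hp).2.2))⟩

/-- Compare valuations modulo three at lam and at the primary primes; a unit cube is 1 or -1. -/
theorem ker_cube {q q' : Eis} (hq : Ker q) (hq' : Ker q') (h : Cube (q * q' ^ 2)) : q = q' := by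
  have h0 : q * q' ^ 2 ≠ 0 := mul_ne_zero hq.ne_zero (pow_ne_zero _ hq'.ne_zero)
  obtain ⟨s, hs, k1, k2, h1, h2, h3, rfl⟩ := hq
  obtain ⟨s', hs', k1', k2', h1', h2', h3', rfl⟩ := hq'
  obtain ⟨i, a, hi, ha, rfl⟩ := ari_mem_S9.1 hs
  obtain ⟨i', a', hi', ha', rfl⟩ := ari_mem_S9.1 hs'
  obtain ⟨m, hm⟩ := h
  have m0 : m ≠ 0 := by
    rintro rfl
    exact h0 (by rw [hm]; ring)
  obtain ⟨u, k, x, hu, hx, rfl⟩ := exists_three_part m0
  obtain ⟨e1, e2, e3⟩ := three_part_unique (u := om ^ (i + 2 * i')) (u' := u ^ 3)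
    (k := a + 2 * a') (k' := 3 * k) (x := k1 * k2 ^ 2 * (k1' * k2' ^ 2) ^ 2) (x' := x ^ 3)
    (sym_om_unit.pow _) (hu.pow _) ((h1.1.mul (h2.1.pow 2)).mul ((h1'.1.mul (h2'.1.pow 2)).pow 2))
    (hx.pow 3) (by linear_combination hm)
  obtain ⟨rfl, rfl⟩ := ari_main h1 h2 h3 h1' h2' h3' hx.ne_zero e3
  obtain rfl : a = a' := by omega
  obtain ⟨j, -, e, he, rfl⟩ := ari_unit hu
  rw [mul_pow, ← pow_mul, mul_comm j, pow_mul, sym_om_cube, one_pow, one_mul] at e1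
  obtain rfl : i = i' := by
    by_contra hne
    revert e1
    interval_cases i <;> interval_cases i' <;> rcases he with rfl | rfl <;> first
      | exact absurd rfl hne
      | decide
  rfl
theorem ker_rep_unique {s s' k1 k2 k1' k2' : Eis} (hs : s ∈ S9) (hs' : s' ∈ S9) (h1 : PS k1)
    (h2 : PS k2) (h : IsCoprime k1 k2) (h1' : PS k1') (h2' : PS k2') (h' : IsCoprime k1' k2')
    (e : s * k1 * k2 ^ 2 = s' * k1' * k2' ^ 2) : s = s' ∧ k1 = k1' ∧ k2 = k2' := by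
  obtain ⟨i, a, hi, ha, rfl⟩ := ari_mem_S9.1 hs
  obtain ⟨i', a', hi', ha', rfl⟩ := ari_mem_S9.1 hs'
  have p1 := h1.1.mul (h2.1.pow 2)
  obtain ⟨e1, rfl, e3⟩ := three_part_unique (u := om ^ i) (u' := om ^ i') (k := a) (k' := a')
    (sym_om_unit.pow _) (sym_om_unit.pow _) p1 (h1'.1.mul (h2'.1.pow 2)) (by linear_combination e)
  exact ⟨by rw [e1], ari_main h1 h2 h h1' h2' h' p1.ne_zero (by rw [← e3]; ring)⟩
theorem cube_mul_iff {q l : Eis} (hl : l ≠ 0) : Cube (q * l ^ 3) ↔ Cube q := by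
  constructor
  · rintro ⟨m, hm⟩
    obtain ⟨y, rfl⟩ : l ∣ m := (UniqueFactorizationMonoid.pow_dvd_pow_iff_dvd three_ne_zero).1
      ⟨q, by rw [← hm]; ring⟩
    exact ⟨y, mul_right_cancel₀ (pow_ne_zero 3 hl) (by rw [hm]; ring)⟩
  · rintro ⟨m, rfl⟩
    exact ⟨m * l, by ring⟩
theorem cub_cube_left (l : Eis) {n : Eis} (hn : Prim n) : cub (l ^ 3) n = cop l n := by
  rw [cub_pow_left _ hn.not_lam_dvd, cop]
  split_ifs with h
  · exact cub_cube h.symm
  · rw [(cub_eq_zero hn.ne_zero).2 fun j => h j.symm]; ring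
theorem cub_mul_cube (q l : Eis) {n : Eis} (hn : Prim n) : cub (q * l ^ 3) n = cub q n * cop l n := by
  rw [cub_mul_left _ _ hn.not_lam_dvd, cub_cube_left l hn]
theorem cub_of_cube {h n : Eis} (hh : Cube h) (hn : Prim n) : cub h n = cop n h := by
  obtain ⟨m, rfl⟩ := hh
  rw [cub_cube_left m hn, cop, cop]
  exact if_congr (by rw [IsCoprime.pow_left_iff (by norm_num), isCoprime_comm]) rfl rfl
theorem cub_mul_conj_eq (q q' : Eis) {n : Eis} (hn : Prim n) :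
    cub q n * conj (cub q' n) = cub (q * q' ^ 2) n := by
  rw [cub_mul_left _ _ hn.not_lam_dvd, cub_pow_left _ hn.not_lam_dvd, conj_cub]

theorem ari_fiber {m m' : Eis} (h : m' ^ 3 = m ^ 3) : m' = m ∨ m' = om * m ∨ m' = om ^ 2 * m := by
  have e : m' ^ 3 - m ^ 3 = (m' - m) * ((m' - om * m) * (m' - om ^ 2 * m)) := by
    linear_combination (m' ^ 2 * m - om * m' * m ^ 2 + (om - 1) * m ^ 3) * om_sq_add
  rwa [← sub_eq_zero, e, mul_eq_zero, mul_eq_zero, sub_eq_zero, sub_eq_zero, sub_eq_zero] at h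

/-- Each nonzero cube is the cube of exactly three elements. -/
theorem tsum_cube {f : Eis → ℂ} (hf : Summable fun m : Eis => f (m ^ 3)) :
    ∑' m : Eis, (if m = 0 then 0 else f (m ^ 3)) =
      3 * ∑' h : Eis, if h ≠ 0 ∧ Cube h then f h else 0 := by
  set F : Eis → ℂ := fun h => if h ≠ 0 ∧ Cube h then f h else 0 with hF
  obtain ⟨rt, hrt⟩ : ∃ rt : Eis → Eis, ∀ h, Cube h → h = rt h ^ 3 :=
    ⟨fun h => if hc : Cube h then hc.choose else 0, fun h hc => by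
      simp only [dif_pos hc]; exact hc.choose_spec⟩
  obtain ⟨S, hS⟩ : ∃ S : Eis → Eis → Prop, ∀ u m, S u m ↔ m ≠ 0 ∧ m = u * rt (m ^ 3) :=
    ⟨_, fun _ _ => Iff.rfl⟩
  have key : ∀ u : Eis, u ^ 3 = 1 →
      HasSum (fun m => if S u m then F (m ^ 3) else 0) (∑' h, F h) := by
    intro u hu
    have hs : Summable (fun m => if S u m then F (m ^ 3) else 0) := by
      refine hf.norm.of_norm_bounded fun m => ?_
      simp only [hF]
      split_ifs <;> simp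
    have := (st_hasSum_iff (φ := fun m : Eis => m ^ 3) (S := S u)
      (f := F) (fun a b ha hb e => ((hS u a).1 ha).2.trans
        ((congrArg (fun x => u * rt x) e).trans ((hS u b).1 hb).2.symm))
      fun y hy => ?_).1 hs.hasSum
    · rw [this.tsum_eq]; exact hs.hasSum
    have hy' : y ≠ 0 ∧ Cube y := by
      by_contra j
      exact hy (if_neg j)
    have e : (u * rt y) ^ 3 = y := by rw [mul_pow, hu, one_mul, ← hrt y hy'.2]
    refine ⟨u * rt y, (hS _ _).2 ⟨fun j => hy'.1 ?_, by rw [e]⟩, e⟩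
    rw [← e, j]; ring
  have h3 := ((key 1 (one_pow 3)).add (key om sym_om_cube)).add
    (key (om ^ 2) (by rw [← pow_mul, mul_comm, pow_mul, sym_om_cube, one_pow]))
  rw [show 3 * ∑' h, F h = ∑' h, F h + ∑' h, F h + ∑' h, F h by ring, ← h3.tsum_eq]
  refine tsum_congr fun m => ?_
  simp only [hS]
  by_cases h0 : m = 0
  · simp [h0]
  have hc : Cube (m ^ 3) := ⟨m, rfl⟩
  have e := hrt _ hc
  have eF : F (m ^ 3) = f (m ^ 3) := if_pos ⟨pow_ne_zero 3 h0, hc⟩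
  generalize rt (m ^ 3) = r at e
  have r0 : r ≠ 0 := by
    rintro rfl
    exact pow_ne_zero 3 h0 (by rw [e]; ring)
  have n : ∀ {u v : Eis}, u ≠ v → m = u * r → ¬ (m ≠ 0 ∧ m = v * r) := fun huv j k =>
    huv (mul_right_cancel₀ r0 (j.symm.trans k.2))
  rw [if_neg h0, eF]
  rcases ari_fiber e with j | j | j
  · have j' : m = 1 * r := by rw [one_mul]; exact j
    rw [if_pos ⟨h0, j'⟩, if_neg (n (by decide) j'), if_neg (n (by decide) j')]; ring
  · rw [if_neg (n (by decide) j), if_pos ⟨h0, j⟩, if_neg (n (by decide) j)]; ring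
  · rw [if_neg (n (by decide) j), if_neg (n (by decide) j), if_pos ⟨h0, j⟩]; ring

theorem ari_cop9 {x : Eis} (hx : Prim x) : IsCoprime x 9 := by
  rw [show (9 : Eis) = 3 ^ 2 by norm_num]; exact hx.coprime_three.pow_right

theorem ari_nine {c : Eis} (hc : c ≠ 0) : 9 * c ≠ 0 := mul_ne_zero (by decide) hc

theorem ari_crt {a b : Eis} (h : IsCoprime a b) (x y : Eis) : ∃ d, a ∣ d - x ∧ b ∣ d - y := by
  obtain ⟨u, v, e⟩ := h
  exact ⟨y * u * a + x * v * b, ⟨y * u - x * u, by linear_combination x * e⟩,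
    ⟨x * v - y * v, by linear_combination y * e⟩⟩

theorem ari_root {z : ℂ} (h3 : z ^ 3 = 1) (h1 : z ≠ 1) {k : ℕ} (hk : ¬ 3 ∣ k) : z ^ k ≠ 1 := by
  intro h
  rw [← Nat.div_add_mod k 3, pow_add, pow_mul, h3, one_pow, one_mul] at h
  obtain e | e : k % 3 = 1 ∨ k % 3 = 2 := by omega
  · exact h1 (by rwa [e, pow_one] at h)
  · rw [e] at h
    exact h1 (by linear_combination h3 - z * h)

theorem ari_case1 {p y : Eis} {k : ℕ} (hp : Prime p) (h1 : Prim p) (hy : ¬ p ∣ y) (hk : ¬ 3 ∣ k) :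
    ∃ d, Prim d ∧ IsCoprime d (p ^ k * y) ∧ cub (p ^ k * y) d ≠ 1 := by
  obtain ⟨a, ha, hc⟩ := exists_cub_ne hp h1.not_lam_dvd
  obtain ⟨d, e1, e2⟩ := ari_crt ((ari_cop9 h1).mul_right (ga_cop hp hy).symm) a 1
  have hd : Prim d := (show (3 : Eis) ∣ 9 * y from ⟨3 * y, by ring⟩).trans e2
  have c1 : IsCoprime d p := ga_cop hp fun j => ha ((kb_dvd_iff e1).1 j)
  have c2 : IsCoprime d y := by
    obtain ⟨t, ht⟩ := e2
    exact ⟨1, -(9 * t), by linear_combination ht⟩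
  refine ⟨d, hd, c1.pow_right.mul_right c2, ?_⟩
  rw [cub_mul_left _ _ hd.not_lam_dvd, cub_pow_left _ hd.not_lam_dvd, cub_recip h1 hd, cub_congr e1,
    cub_per hd ((dvd_mul_right 9 y).trans e2) ((dvd_mul_left y 9).trans e2), cub_one_right, mul_one]
  exact ari_root (cub_cube (ga_cop hp ha)) hc hk

theorem ari_om_ne : toC om ≠ 1 := fun h => by
  have : om = 1 := toC_inj (by rw [h, map_one])
  revert this; decide

theorem ari_seven : Prime (⟨1, 3⟩ : Eis) := by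
  refine Irreducible.prime ⟨by rw [isUnit_iff_nrm]; decide, fun a b h => ?_⟩
  have e : nrm a * nrm b = 7 := by rw [← nrm_mul, ← h]; decide
  have ha := nrm_nonneg a
  have hb := nrm_nonneg b
  rw [isUnit_iff_nrm, isUnit_iff_nrm]
  have h7 : Prime (7 : ℤ) := Int.prime_iff_natAbs_prime.2 (by norm_num)
  rcases h7.irreducible.isUnit_or_isUnit e.symm with j | j <;> rw [Int.isUnit_iff] at j <;> omega

theorem ari_case2 {s : Eis} (hs : s ∈ S9) (h1 : s ≠ 1) : ∃ d, Prim d ∧ cub s d ≠ 1 := by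
  obtain ⟨i, a, hi, ha, rfl⟩ := ari_mem_S9.1 hs
  by_cases h0 : i = 0
  · subst h0
    have hd : Prim (⟨1, 3⟩ : Eis) := bs_prim.2 (by decide)
    have n : ¬ (⟨1, 3⟩ : Eis) ∣ lam := by
      rintro ⟨t, ht⟩
      have := congrArg nrm ht
      rw [nrm_mul, show nrm lam = 3 by decide, show nrm ⟨1, 3⟩ = 7 by decide] at this
      omega
    have e : cub lam ⟨1, 3⟩ = toC om ^ 2 := by
      rw [cub_prime ari_seven, ← sym_toC_cubE, sym_cubE_eq ari_seven hd.not_lam_dvd (j := 2)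
        n ⟨⟨1, 1⟩, by decide⟩, map_pow]
    refine ⟨_, hd, ?_⟩
    rw [pow_zero, one_mul, cub_pow_left _ hd.not_lam_dvd, e, ← pow_mul]
    refine ari_root sym_om3 ari_om_ne fun j => h1 ?_
    obtain rfl : a = 0 := by omega
    ring
  · have hl := prim_neg_two.not_lam_dvd
    refine ⟨-2, prim_neg_two, ?_⟩
    rw [cub_mul_left _ _ hl, cub_pow_left _ hl, cub_pow_left _ hl, cub_om hl,
      cub_congr (a := lam) (b := 1) ⟨-om, by decide⟩, cub_one_left hl, one_pow, mul_one,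
      show ((nrm (-2)).natAbs - 1) / 3 = 1 by decide, pow_one]
    exact ari_root sym_om3 ari_om_ne (by omega)

/-- Nontriviality. Reduce to a kernel s k1 k2 ^ 2. If a prime p divides k1 k2 choose d ≡ 1 modulo 9
and modulo the other primes, and a nonresidue modulo p (exists_cub_ne, cub_recip, cub_per). Otherwise
use the primes -2 and 1 + 3 om (norms 4 and 7) as patterns modulo 9 and move d by the Chinese remainder
theorem (cub s d depends on d modulo 9 only). -/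
theorem exists_cub_ne_one {h : Eis} (hh : h ≠ 0) (hc : ¬ Cube h) :
    ∃ d, Prim d ∧ IsCoprime d h ∧ cub h d ≠ 1 := by
  obtain ⟨q, l, ⟨s, hs, k1, k2, h1, h2, h3, rfl⟩, hl, rfl⟩ := exists_ker hh
  have ns : ∀ p, Prime p → Prim p → ¬ p ∣ s := fun p hp hp1 j =>
    sym_not_three hp hp1.not_lam_dvd (j.trans (S9_spec hs).2.1)
  by_cases e1 : k1 = 1
  · by_cases e2 : k2 = 1
    · subst e1 e2
      obtain ⟨d0, hd0, hne⟩ := ari_case2 hs (by rintro rfl; exact hc ⟨l, by ring⟩)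
      obtain ⟨y, hy⟩ := kb_exists (ari_cop9 hd0) hh
      have hd : Prim (d0 + y * 9) := hd0.of_dvd_sub ⟨3 * y, by ring⟩
      have h9 : (9 : Eis) ∣ d0 + y * 9 - d0 := ⟨y, by ring⟩
      refine ⟨_, hd, hy.symm, ?_⟩
      rw [cub_mul_cube _ _ hd, cop, if_pos (IsCoprime.pow_right_iff (by norm_num : 0 < 3) |>.1
        hy.symm.of_mul_right_right), one_pow, mul_one, mul_one, mul_one,
        cub_per hd h9 (((S9_spec hs).2.1.trans ⟨3, by norm_num⟩).trans h9)]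
      exact hne
    · obtain ⟨p, hp, hp1, k, rfl⟩ := exists_prime_dvd h2.1 e2
      obtain ⟨c, z, hz, rfl⟩ := WfDvdMonoid.max_power_factor hl hp.irreducible
      have := ari_case1 (y := s * k1 * k ^ 2 * z ^ 3) (k := 3 * c + 2) hp hp1
        (hp.not_dvd_mul (hp.not_dvd_mul (hp.not_dvd_mul (ns p hp hp1)
          (ga_not_cop hp · h3.of_mul_right_left)) fun j => hp.not_isUnit
            (h2.2 p (mul_dvd_mul_left p (hp.dvd_of_dvd_pow j)))) fun j => hz (hp.dvd_of_dvd_pow j))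
        (by omega)
      rwa [show p ^ (3 * c + 2) * (s * k1 * k ^ 2 * z ^ 3) = s * k1 * (p * k) ^ 2 * (p ^ c * z) ^ 3
        by ring] at this
  · obtain ⟨p, hp, hp1, k, rfl⟩ := exists_prime_dvd h1.1 e1
    obtain ⟨c, z, hz, rfl⟩ := WfDvdMonoid.max_power_factor hl hp.irreducible
    have := ari_case1 (y := s * k * k2 ^ 2 * z ^ 3) (k := 3 * c + 1) hp hp1
      (hp.not_dvd_mul (hp.not_dvd_mul (hp.not_dvd_mul (ns p hp hp1) fun j => hp.not_isUnit
        (h1.2 p (mul_dvd_mul_left p j))) fun j => ga_not_cop hp (hp.dvd_of_dvd_pow j)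
          h3.of_mul_left_left.symm) fun j => hz (hp.dvd_of_dvd_pow j)) (by omega)
    rwa [show p ^ (3 * c + 1) * (s * k * k2 ^ 2 * z ^ 3) = s * (p * k) * k2 ^ 2 * (p ^ c * z) ^ 3
      by ring] at this
theorem per_prim_cub {h c : Eis} (hc : c ≠ 0) (k : ℕ) (hd : h ∣ c ^ k) :
    Per (9 * c) (fun n => (if Prim n then 1 else 0) * cub h n) := by
  refine Per.of_congr fun x y e => ?_
  have e3 : (3 : Eis) ∣ x - y := (show (3 : Eis) ∣ 9 * c from ⟨3 * c, by ring⟩).trans e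
  by_cases hx : Prim x
  · rw [if_pos hx, if_pos ((kb_prim_iff e3).1 hx), cub_per_rad hx k hd hc e]
  · rw [if_neg hx, if_neg fun j => hx ((kb_prim_iff e3).2 j), zero_mul, zero_mul]
/-- Multiply the variable by d from exists_cub_ne_one, moved to be coprime to c as well. -/
theorem sum_prim_cub {h c : Eis} (hc : c ≠ 0) (k : ℕ) (hd : h ∣ c ^ k) (hn : ¬ Cube h) :
    ∑ n ∈ res (9 * c), (if Prim n then 1 else 0) * cub h n = 0 := by
  have h0 : h ≠ 0 := ne_zero_of_dvd_ne_zero (pow_ne_zero k hc) hd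
  obtain ⟨d, hd1, hd2, hd3⟩ := exists_cub_ne_one (mul_ne_zero h0 (pow_ne_zero 3 hc))
    (mt (cube_mul_iff hc).1 hn)
  have dc : IsCoprime d c :=
    (IsCoprime.pow_right_iff (by norm_num : 0 < 3)).1 hd2.of_mul_right_right
  rw [cub_mul_cube _ _ hd1, cop, if_pos dc, mul_one] at hd3
  have e := sum_res_affine (ari_nine hc) (per_prim_cub hc k hd) ((ari_cop9 hd1).mul_right dc) 0
  have e2 : ∀ x, (if Prim (d * x + 0) then 1 else 0) * cub h (d * x + 0) =
      cub h d * ((if Prim x then 1 else 0) * cub h x) := fun x => by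
    rw [add_zero]
    by_cases hx : Prim x
    · rw [if_pos hx, if_pos (hd1.mul hx), cub_mul_right _ hd1.ne_zero hx.ne_zero]; ring
    · rw [if_neg hx, if_neg fun j => hx (hd1.of_mul j)]; ring
  simp only [e2, ← Finset.mul_sum] at e
  exact (mul_eq_zero.1 (show (cub h d - 1) * _ = 0 by linear_combination e)).resolve_left
    (sub_ne_zero.2 hd3)

theorem ari_om_shift {d : Eis} (hd : Prim d) (t : Eis) : cub om (d + 3 * lam * t) = cub om d := by
  have hd' : Prim (d + 3 * lam * t) := hd.of_dvd_sub ⟨lam * t, by ring⟩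
  have e : (9 : ℤ) ∣ nrm (d + 3 * lam * t) - nrm d :=
    ⟨d.b * t.a - d.a * t.b + 3 * nrm t, by simp [nrm]; ring⟩
  have a1 := sym_nrm_three hd.not_lam_dvd
  have a2 := sym_nrm_three hd'.not_lam_dvd
  have a3 := nrm_nonneg d
  have a4 := nrm_nonneg (d + 3 * lam * t)
  rw [cub_om hd.not_lam_dvd, cub_om hd'.not_lam_dvd, ← map_pow, ← map_pow, ari_om_pow,
    ari_om_pow (((nrm d).natAbs - 1) / 3)]
  congr 2
  omega

/-- Used for the support of the coefficients at the cusps (1, j). -/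
theorem cub_shift_lam {c d : Eis} (hd : Prim d) (y : Eis) :
    cub c (d + 3 * lam * c * y) = cub c d := by
  have hd' : Prim (d + 3 * lam * c * y) := hd.of_dvd_sub ⟨lam * c * y, by ring⟩
  by_cases hl : lam ∣ c
  · obtain ⟨t, rfl⟩ := hl
    exact cub_per hd' ⟨-(t * y), by linear_combination (3 * t * y) * lam_sq⟩ ⟨3 * lam * y, by ring⟩
  · obtain ⟨u, k, x, hu, hx, rfl⟩ := exists_three_part (r := c) (by rintro rfl; exact hl (dvd_zero _))
    obtain rfl : k = 0 := by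
      by_contra j
      exact hl (((dvd_pow_self lam j).mul_left u).mul_right x)
    obtain ⟨i, -, e, he, rfl⟩ := ari_unit hu
    have ee : ∀ n, Prim n → cub e n = 1 := fun n hn => by
      rcases he with rfl | rfl
      · exact cub_one_left hn.not_lam_dvd
      · rw [cub_neg_left _ hn.not_lam_dvd, cub_one_left hn.not_lam_dvd]
    rw [pow_zero, mul_one] at hd' ⊢
    rw [cub_mul_left _ _ hd'.not_lam_dvd, cub_mul_left _ _ hd'.not_lam_dvd,
      cub_pow_left _ hd'.not_lam_dvd, cub_mul_left _ _ hd.not_lam_dvd,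
      cub_mul_left _ _ hd.not_lam_dvd, cub_pow_left _ hd.not_lam_dvd, ee _ hd, ee _ hd',
      cub_recip hx hd', cub_recip hx hd, mul_assoc (3 * lam), ari_om_shift hd,
      cub_congr (b := d) (c := x) ⟨3 * lam * (om ^ i * e) * y, ?_⟩]
    ring

theorem ari_count {c D : Eis} (hc : c ≠ 0) (hD : Prim D) (h : D ∣ c) :
    ∑ n ∈ res (9 * c), (if Prim n ∧ D ∣ n then (1 : ℂ) else 0) = 9 * N c / N D := by
  obtain ⟨t, rfl⟩ := h
  obtain ⟨x, e1, e2⟩ := ari_crt hD.coprime_three.symm 1 0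
  have e : ∀ n, (Prim n ∧ D ∣ n) ↔ 3 * D ∣ 1 * n + -x := fun n => by
    rw [one_mul, ← sub_eq_add_neg]
    constructor
    · rintro ⟨a, b⟩
      refine hD.coprime_three.symm.mul_dvd ?_ (b.sub (by simpa using e2))
      simpa using dvd_sub a e1
    · intro j
      refine ⟨?_, ?_⟩
      · simpa [Prim] using ((dvd_mul_right 3 D).trans j).add e1
      · simpa using ((dvd_mul_left D 3).trans j).add e2
  have h3 : (3 : Eis) ≠ 0 := by decide
  have t0 := right_ne_zero_of_mul hc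
  have hP : Per (9 * (D * t)) fun u => if 3 * D ∣ u then (1 : ℂ) else 0 :=
    Per.of_congr fun u v j => if_congr (kb_dvd_iff (Dvd.dvd.trans ⟨3 * t, by ring⟩ j)) rfl rfl
  simp only [e]
  rw [sum_res_affine (ari_nine hc) hP isCoprime_one_left, show 9 * (D * t) = 3 * D * (3 * t) by ring,
    kb_count (mul_ne_zero h3 hD.ne_zero) (mul_ne_zero h3 t0), N_mul, N_mul]
  have : (N D : ℂ) ≠ 0 := by exact_mod_cast (N_pos hD.ne_zero).ne'
  have e9 : N 3 = 9 := by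
    have := N_natCast 3
    norm_num at this
    exact this
  rw [e9]
  push_cast
  field_simp

/-- Number of primary residues modulo 9 c coprime to c. -/
theorem sum_prim_cop {c : Eis} (hc : c ≠ 0) :
    ∑ n ∈ res (9 * c), (if Prim n then 1 else 0) * cop c n = ((9 * N c * phi c : ℝ) : ℂ) := by
  have e : ∀ n, (if Prim n then 1 else 0) * cop c n =
      ∑ D ∈ dv c, mu D * (if Prim n ∧ D ∣ n then (1 : ℂ) else 0) := fun n => by
    by_cases hn : Prim n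
    · rw [if_pos hn, one_mul, cop_eq_sum hn hc]
      simp [hn]
    · simp [hn]
  simp only [e]
  rw [Finset.sum_comm]
  push_cast
  rw [phi_eq, Finset.mul_sum]
  refine Finset.sum_congr rfl fun D hD => ?_
  obtain ⟨a, b⟩ := (mem_dv hc).1 hD
  rw [← Finset.mul_sum, ari_count hc a.1 b]
  ring
/-- Cubes modulo 3. -/
theorem cube_mod_three (m : Eis) : Ess (m ^ 3) := by
  have e : (3 : Eis) ∣ m ^ 3 - ((m.a ^ 3 + m.b ^ 3 : ℤ) : Eis) :=
    ⟨⟨-(m.a * m.b ^ 2), m.a ^ 2 * m.b - m.a * m.b ^ 2⟩, by ext <;> simp [pow_succ] <;> ring⟩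
  generalize m.a ^ 3 + m.b ^ 3 = n at e
  obtain ⟨t, rfl | rfl | rfl⟩ : ∃ t, n = 3 * t ∨ n = 3 * t + 1 ∨ n = 3 * t - 1 :=
    ⟨(n + 1) / 3, by omega⟩
  · exact Or.inl (by simpa using e.add (⟨t, by push_cast; ring⟩ : (3 : Eis) ∣ ((3 * t : ℤ) : Eis)))
  · refine Or.inr (Or.inl ?_)
    convert e.add (dvd_mul_right 3 (t : Eis)) using 1
    push_cast; ring
  · refine Or.inr (Or.inr ?_)
    convert e.add (dvd_mul_right 3 (t : Eis)) using 1
    push_cast; ring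

end Vale.Agent.P006
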