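import Vale.Agent.P006.Defs
import Vale.Agent.P026.LemPA
import Vale.Agent.P026.Count

/-! Basic facts on primary squarefree elements. Almost everything is a copy of the P0 / mu0 / divs
lemmas of P026.Basic, P026.LemPA, P026.LemPC, P026.Struct with P1 replaced by Prim. -/

namespace Vale.Agent.P006

open Vale.Agent.P026 Eis Complex MeasureTheory Filter Topology
open scoped Classical ComplexConjugate

theorem PS.one : PS 1 :=
  ⟨Prim.one, squarefree_one⟩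
theorem PS.ne_zero {x : Eis} (hx : PS x) : x ≠ 0 :=
  hx.1.ne_zero
theorem PS.mul {x y : Eis} (hx : PS x) (hy : PS y) (h : IsCoprime x y) : PS (x * y) :=
  ⟨hx.1.mul hy.1, squarefree_mul_iff.2 ⟨h.isRelPrime, hx.2, hy.2⟩⟩
theorem PS.of_mul {x y : Eis} (hx : Prim x) (hxy : PS (x * y)) :
    PS x ∧ PS y ∧ IsCoprime x y := by
  obtain ⟨h2, h3, h4⟩ := squarefree_mul_iff.1 hxy.2
  exact ⟨⟨hx, h3⟩, ⟨hx.of_mul hxy.1, h4⟩, isRelPrime_iff_isCoprime.1 h2⟩
theorem PS.of_prime {p : Eis} (hp : Prime p) (h : Prim p) : PS p :=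
  ⟨h, hp.squarefree⟩
theorem PS.of_dvd {x d : Eis} (hx : PS x) (hd : Prim d) (h : d ∣ x) :
    PS d ∧ PS (x / d) ∧ IsCoprime d (x / d) :=
  PS.of_mul hd (by rwa [lp_div_mul hd.ne_zero h])
theorem PS.cj {x : Eis} (hx : PS x) : PS (cj x) := by
  refine ⟨hx.1.cj, fun y ⟨z, hz⟩ => ?_⟩
  have h := hx.2 (Eis.cj y) ⟨Eis.cj z, by rw [← cj_mul, ← cj_mul, ← hz, cj_cj]⟩
  rwa [isUnit_iff_nrm, nrm_cj, ← isUnit_iff_nrm] at h
theorem PS.induction {Pr : Eis → Prop} (h1 : Pr 1)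
    (hm : ∀ p x, Prime p → Prim p → PS x → ¬ p ∣ x → Pr x → Pr (p * x)) {x : Eis} (hx : PS x) :
    Pr x :=
  Prim.induction (Pr := fun x => PS x → Pr x) (fun _ => h1) (fun p y hp h _ ih hpy =>
    have h' := PS.of_mul h hpy
    hm p y hp h h'.2.1 (hp.coprime_iff_not_dvd.1 h'.2.2) (ih h'.2.1)) hx.1 hx
theorem prim_div {d n : Eis} (hd : Prim d) (hn : Prim n) (h : d ∣ n) : Prim (n / d) :=
  hd.of_mul (by rwa [lp_div_mul hd.ne_zero h])
theorem prim_neg_two : Prim (-2) :=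
  ⟨-1, by norm_num⟩
theorem four_le_N {x : Eis} (hx : Prim x) (h1 : x ≠ 1) : 4 ≤ N x := by
  unfold N
  obtain ⟨a, b⟩ := x
  simp only [bs_prim, ne_eq, Eis.ext_iff, one_a, one_b] at hx h1
  have : (4 : ℤ) ≤ nrm ⟨a, b⟩ := by
    by_contra h
    simp only [nrm] at h
    have : -3 < a := by nlinarith [sq_nonneg (a - 2 * b), sq_nonneg (a + 3)]
    have : a < 3 := by nlinarith [sq_nonneg (a - 2 * b), sq_nonneg (a - 3)]
    have : -3 < b := by nlinarith [sq_nonneg (2 * a - b), sq_nonneg (b + 3)]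
    have : b < 3 := by nlinarith [sq_nonneg (2 * a - b), sq_nonneg (b - 3)]
    obtain rfl : b = 0 := by omega
    obtain rfl : a = -2 := by omega
    omega
  exact_mod_cast this
theorem exists_prime_dvd {x : Eis} (hx : Prim x) (h1 : x ≠ 1) :
    ∃ p, Prime p ∧ Prim p ∧ p ∣ x :=
  Prim.induction (Pr := fun x => x ≠ 1 → ∃ p, Prime p ∧ Prim p ∧ p ∣ x) (fun h => absurd rfl h)
    (fun p _ hp h _ _ _ => ⟨p, hp, h, dvd_mul_right _ _⟩) hx h1
/-- A prime divisor of a primary element has a primary associate. -/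
theorem exists_prim_prime {x p : Eis} (hx : Prim x) (hp : Prime p) (h : p ∣ x) :
    ∃ q, Prime q ∧ Prim q ∧ Associated p q := by
  obtain ⟨u, hu, h1⟩ := exists_prim_assoc (x := p) fun k => hx.not_lam_dvd (k.trans h)
  exact ⟨_, (associated_unit_mul_right p u hu).prime hp, h1, associated_unit_mul_right p u hu⟩
theorem not_cop_iff {x y : Eis} (hx : Prim x) :
    ¬ IsCoprime x y ↔ ∃ p, Prime p ∧ Prim p ∧ p ∣ x ∧ p ∣ y := by
  refine ⟨fun h => ?_, fun ⟨p, hp, _, h1, h2⟩ h => hp.not_isUnit (h.isUnit_of_dvd' h1 h2)⟩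
  rw [← EuclideanDomain.gcd_isUnit_iff] at h
  obtain ⟨p, hp, h1⟩ := WfDvdMonoid.exists_irreducible_factor h fun k =>
    hx.ne_zero (EuclideanDomain.gcd_eq_zero_iff.1 k).1
  obtain ⟨q, hq, hq', e⟩ := exists_prim_prime hx hp.prime
    (h1.trans (EuclideanDomain.gcd_dvd_left x y))
  exact ⟨q, hq, hq', (e.symm.dvd.trans h1).trans (EuclideanDomain.gcd_dvd_left x y),
    (e.symm.dvd.trans h1).trans (EuclideanDomain.gcd_dvd_right x y)⟩
theorem N_div {d n : Eis} (hd : d ≠ 0) (h : d ∣ n) : N (n / d) = N n / N d := by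
  rw [eq_div_iff (N_pos hd).ne', mul_comm, ← N_mul, lp_div_mul hd h]

theorem bas_mem {n d : Eis} (hn : n ≠ 0) (h : d ∣ n) : d ∈ ball (N n) :=
  mem_ball.2 ⟨ne_zero_of_dvd_ne_zero hn h, N_le_of_dvd hn h⟩

theorem mem_dv {n d : Eis} (hn : n ≠ 0) : d ∈ dv n ↔ PS d ∧ d ∣ n :=
  Finset.mem_filter.trans (and_iff_right_of_imp fun h => bas_mem hn h.2)
theorem mem_dp {n d : Eis} (hn : n ≠ 0) : d ∈ dp n ↔ Prim d ∧ d ∣ n :=
  Finset.mem_filter.trans (and_iff_right_of_imp fun h => bas_mem hn h.2)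
theorem mem_pf {n p : Eis} (hn : n ≠ 0) : p ∈ pf n ↔ Prime p ∧ Prim p ∧ p ∣ n :=
  Finset.mem_filter.trans (and_iff_right_of_imp fun h => bas_mem hn h.2.2)
theorem mem_sqd {h D : Eis} (hh : h ≠ 0) : D ∈ sqd h ↔ PS D ∧ D ^ 2 ∣ h := by
  rw [sqd, Finset.mem_filter, mem_dv hh]
  exact ⟨fun k => ⟨k.1.1, k.2⟩, fun k => ⟨⟨k.1, (dvd_pow_self D two_ne_zero).trans k.2⟩, k.2⟩⟩
theorem one_mem_sqd {h : Eis} (hh : h ≠ 0) : (1 : Eis) ∈ sqd h :=
  (mem_sqd hh).2 ⟨PS.one, by simp⟩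
theorem mem_PB {K : ℝ} {n : Eis} : n ∈ PB K ↔ PS n ∧ N n ≤ K := by
  rw [PB, Finset.mem_filter, mem_ball]
  exact ⟨fun h => ⟨h.2, h.1.2⟩, fun h => ⟨⟨h.1.ne_zero, h.2⟩, h.1⟩⟩
theorem mem_PD {K : ℝ} {n : Eis} : n ∈ PD K ↔ PS n ∧ K / 2 < N n ∧ N n ≤ K := by
  rw [PD, Finset.mem_filter, mem_PB]
  exact ⟨fun h => ⟨h.1.1, h.2, h.1.2⟩, fun h => ⟨⟨h.1, h.2.2⟩, h.2.1⟩⟩
theorem mem_pz {z : ℝ} {p : Eis} : p ∈ pz z ↔ Prime p ∧ Prim p ∧ N p ≤ z := by
  rw [pz, Finset.mem_filter, mem_ball]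
  exact ⟨fun h => ⟨h.2.1, h.2.2, h.1.2⟩, fun h => ⟨⟨h.1.ne_zero, h.2.2⟩, h.1, h.2.1⟩⟩
theorem PB_mono {K L : ℝ} (h : K ≤ L) : PB K ⊆ PB L :=
  Finset.filter_subset_filter _ (ball_mono h)
theorem PD_subset (K : ℝ) : PD K ⊆ PB K :=
  Finset.filter_subset _ _
theorem PB_subset (K : ℝ) : PB K ⊆ ball K :=
  Finset.filter_subset _ _
theorem card_PB_le {K : ℝ} (hK : 0 ≤ K) : ((PB K).card : ℝ) ≤ 16 * K :=
  (Nat.cast_le.2 (Finset.card_le_card (PB_subset K))).trans (card_ball_le hK)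
theorem dv_one : dv 1 = {1} := by
  ext D
  rw [mem_dv one_ne_zero, Finset.mem_singleton]
  exact ⟨fun h => h.1.1.eq_one_of_isUnit (isUnit_of_dvd_one h.2),
    fun h => by rw [h]; exact ⟨PS.one, dvd_rfl⟩⟩
theorem dv_subset_dp (n : Eis) : dv n ⊆ dp n :=
  fun _ hd => Finset.mem_filter.2 ⟨(Finset.mem_filter.1 hd).1, (Finset.mem_filter.1 hd).2.1.1,
    (Finset.mem_filter.1 hd).2.2⟩
theorem dv_eq_dp {n : Eis} (hn : PS n) : dv n = dp n := by
  ext d
  rw [mem_dv hn.ne_zero, mem_dp hn.ne_zero]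
  exact ⟨fun h => ⟨h.1.1, h.2⟩, fun h => ⟨(hn.of_dvd h.1 h.2).1, h.2⟩⟩

theorem mu_one : mu 1 = 1 := by
  simp [mu, PS.one]
theorem norm_mu_le (c : Eis) : ‖mu c‖ ≤ 1 := by
  unfold mu
  split_ifs <;> simp
theorem mu_ne_zero {c : Eis} : mu c ≠ 0 ↔ PS c := by
  unfold mu
  split_ifs with h <;> simp [h]
theorem mu_sq {c : Eis} (hc : PS c) : mu c * mu c = 1 := by
  rw [mu, if_pos hc, ← mul_pow]
  simp
theorem conj_mu (c : Eis) : conj (mu c) = mu c := by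
  unfold mu
  split_ifs <;> simp
theorem mu_prime {p : Eis} (hp : Prime p) (h : Prim p) : mu p = -1 := by
  rw [mu, if_pos (PS.of_prime hp h),
    UniqueFactorizationMonoid.card_factors_of_irreducible hp.irreducible, pow_one]
theorem mu_mul {x y : Eis} (hx : PS x) : mu (x * y) = mu x * mu y * cop x y := by
  by_cases h : PS (x * y)
  · obtain ⟨-, hy, hc⟩ := PS.of_mul hx.1 h
    rw [mu, mu, mu, cop, if_pos h, if_pos hx, if_pos hy, if_pos hc.symm, mul_one, ← pow_add,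
      Multiset.card_eq_card_of_rel (UniqueFactorizationMonoid.factors_mul hx.ne_zero hy.ne_zero),
      Multiset.card_add]
  · rw [mu, if_neg h]
    by_cases hy : PS y
    · rw [cop, if_neg fun hc => h (hx.mul hy hc.symm), mul_zero]
    · rw [show mu y = 0 from if_neg hy, mul_zero, zero_mul]
theorem mu0_eq (c : Eis) : mu0 c = if (2 : Eis) ∣ c then 0 else mu c := by
  unfold mu0 mu
  by_cases h : (2 : Eis) ∣ c
  · rw [if_pos h, if_neg fun k : P0 c => k.1.2 h]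
  · rw [if_neg h]
    exact if_congr ⟨fun k => ⟨k.1.1, k.2⟩, fun k => ⟨⟨k.1, h⟩, k.2⟩⟩ rfl rfl

theorem sum_dv_prime_mul {M : Type} [AddCommMonoid M] {p x : Eis} (hp : Prime p) (h1 : Prim p)
    (hx : x ≠ 0) (h : ¬ p ∣ x) (f : Eis → M) :
    ∑ D ∈ dv (p * x), f D = ∑ D ∈ dv x, (f D + f (p * D)) := by
  have hpx : p * x ≠ 0 := mul_ne_zero hp.ne_zero hx
  have hP := PS.of_prime hp h1
  rw [Finset.sum_add_distrib, ← Finset.sum_filter_add_sum_filter_not (dv (p * x))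
    (fun D => ¬ p ∣ D)]
  congr 1
  · refine Finset.sum_congr ?_ fun _ _ => rfl
    ext D
    simp only [Finset.mem_filter, mem_dv hpx, mem_dv hx]
    constructor
    · rintro ⟨⟨a, b⟩, c⟩
      exact ⟨a, ((hp.coprime_iff_not_dvd.2 c).symm).dvd_of_dvd_mul_left b⟩
    · rintro ⟨a, b⟩
      exact ⟨⟨a, b.mul_left p⟩, fun c => h (c.trans b)⟩
  · symm
    refine Finset.sum_bij (fun D _ => p * D) ?_ ?_ ?_ fun _ _ => rfl
    · intro D hD
      obtain ⟨a, b⟩ := (mem_dv hx).1 hD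
      simp only [Finset.mem_filter, mem_dv hpx, not_not]
      exact ⟨⟨hP.mul a (hp.coprime_iff_not_dvd.2 fun c => h (c.trans b)), mul_dvd_mul_left p b⟩,
        dvd_mul_right _ _⟩
    · intro D _ E _ e
      exact mul_left_cancel₀ hp.ne_zero e
    · intro D hD
      simp only [Finset.mem_filter, mem_dv hpx, not_not] at hD
      obtain ⟨⟨a, b⟩, E, rfl⟩ := hD
      exact ⟨E, (mem_dv hx).2 ⟨(PS.of_mul h1 a).2.1,
        (mul_dvd_mul_iff_left hp.ne_zero).1 b⟩, rfl⟩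
theorem dv_prime_mul_of_dvd {p x : Eis} (hp : Prime p) (hx : x ≠ 0) (h : p ∣ x) :
    dv (p * x) = dv x := by
  ext d
  rw [mem_dv (mul_ne_zero hp.ne_zero hx), mem_dv hx]
  refine and_congr_right fun hd => ⟨fun k => (hd.2.dvd_pow_iff_dvd two_ne_zero).1 ?_,
    fun k => k.mul_left p⟩
  rw [pow_two]
  exact k.trans (mul_dvd_mul_right h x)
theorem pf_prime_mul {p x : Eis} (hp : Prime p) (h1 : Prim p) (hx : x ≠ 0) :
    pf (p * x) = insert p (pf x) := by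
  ext q
  rw [Finset.mem_insert, mem_pf (mul_ne_zero hp.ne_zero hx), mem_pf hx]
  constructor
  · rintro ⟨a, b, c⟩
    exact (a.dvd_or_dvd c).imp (fun k => b.eq_of_associated h1 (a.associated_of_dvd hp k))
      fun k => ⟨a, b, k⟩
  · rintro (rfl | ⟨a, b, c⟩)
    · exact ⟨hp, h1, dvd_mul_right _ _⟩
    · exact ⟨a, b, c.mul_left p⟩
theorem bas_three {r : Eis} (hr : r ≠ 0) :
    ∃ u : Eis, ∃ k : ℕ, ∃ x, IsUnit u ∧ Prim x ∧ r = u * lam ^ k * x := by
  obtain ⟨a, x, h1, rfl⟩ := WfDvdMonoid.max_power_factor hr prime_lam.irreducible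
  obtain ⟨_, ⟨u, rfl⟩, h3⟩ := exists_prim_assoc h1
  exact ⟨(u⁻¹ : Eisˣ), a, u * x, (u⁻¹).isUnit, h3,
    by linear_combination (-(lam ^ a * x)) * u.inv_mul⟩

theorem bas_red {n : Eis} (hn : n ≠ 0) :
    ∃ x, Prim x ∧ x ∣ n ∧ dv n = dv x ∧ pf n = pf x := by
  obtain ⟨u, k, x, hu, hx, rfl⟩ := bas_three hn
  have key : ∀ d, Prim d → (d ∣ u * lam ^ k * x ↔ d ∣ x) := fun d hd => by
    rw [mul_assoc, hu.dvd_mul_left]
    exact ⟨(prime_lam.coprime_iff_not_dvd.2 hd.not_lam_dvd).symm.pow_right.dvd_of_dvd_mul_left,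
      fun h => h.mul_left _⟩
  refine ⟨x, hx, dvd_mul_left _ _, Finset.ext fun d => ?_, Finset.ext fun d => ?_⟩
  · rw [mem_dv hn, mem_dv hx.ne_zero]
    exact and_congr_right fun h => key d h.1
  · rw [mem_pf hn, mem_pf hx.ne_zero]
    exact and_congr_right fun _ => and_congr_right fun h => key d h

theorem bas_pf_one : pf 1 = ∅ :=
  Finset.eq_empty_of_forall_notMem fun _ h =>
    ((mem_pf one_ne_zero).1 h).1.not_dvd_one ((mem_pf one_ne_zero).1 h).2.2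

/-- Euler product over the squarefree divisors. -/
theorem sum_dv_eq_prod {R : Type} [CommSemiring R] {n : Eis} (hn : n ≠ 0) (f : Eis → R)
    (h1 : f 1 = 1) (hf : ∀ x y, PS x → PS y → IsCoprime x y → f (x * y) = f x * f y) :
    ∑ d ∈ dv n, f d = ∏ p ∈ pf n, (1 + f p) := by
  obtain ⟨x, hx, -, e1, e2⟩ := bas_red hn
  rw [e1, e2]
  refine Prim.induction (Pr := fun x => ∑ d ∈ dv x, f d = ∏ p ∈ pf x, (1 + f p))
    (by rw [dv_one, bas_pf_one, Finset.sum_singleton, Finset.prod_empty, h1])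
    (fun p y hp h hy ih => ?_) hx
  rw [pf_prime_mul hp h hy.ne_zero]
  by_cases k : p ∣ y
  · rw [dv_prime_mul_of_dvd hp hy.ne_zero k, ih,
      Finset.insert_eq_of_mem ((mem_pf hy.ne_zero).2 ⟨hp, h, k⟩)]
  · rw [sum_dv_prime_mul hp h hy.ne_zero k,
      Finset.prod_insert fun j => k ((mem_pf hy.ne_zero).1 j).2.2, ← ih, Finset.mul_sum]
    refine Finset.sum_congr rfl fun D hD => ?_
    obtain ⟨a, b⟩ := (mem_dv hy.ne_zero).1 hD
    rw [hf p D (PS.of_prime hp h) a (hp.coprime_iff_not_dvd.2 fun j => k (j.trans b)), add_mul,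
      one_mul]
theorem card_dv_eq {n : Eis} (hn : n ≠ 0) : (dv n).card = 2 ^ (pf n).card := by
  simpa using sum_dv_eq_prod hn (fun _ => (1 : ℕ)) rfl fun _ _ _ _ _ => rfl
theorem prod_pf {n : Eis} (hn : PS n) : ∏ p ∈ pf n, p = n := by
  refine PS.induction (Pr := fun n => ∏ p ∈ pf n, p = n) (by rw [bas_pf_one, Finset.prod_empty])
    (fun p y hp h hy k ih => ?_) hn
  rw [pf_prime_mul hp h hy.ne_zero, Finset.prod_insert fun j => k ((mem_pf hy.ne_zero).1 j).2.2, ih]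
theorem sum_mu {n : Eis} (hn : n ≠ 0) :
    ∑ d ∈ dv n, mu d = if (∀ p, Prime p → Prim p → ¬ p ∣ n) then 1 else 0 := by
  rw [sum_dv_eq_prod hn mu mu_one fun x y hx _ h => by rw [mu_mul hx, cop, if_pos h.symm, mul_one]]
  split_ifs with h
  · exact Finset.prod_eq_one fun p hp =>
      absurd ((mem_pf hn).1 hp).2.2 (h p ((mem_pf hn).1 hp).1 ((mem_pf hn).1 hp).2.1)
  · push Not at h
    obtain ⟨p, a, b, c⟩ := h
    exact Finset.prod_eq_zero ((mem_pf hn).2 ⟨a, b, c⟩) (by rw [mu_prime a b, add_neg_cancel])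
theorem sum_mu_prim {n : Eis} (hn : Prim n) : ∑ d ∈ dv n, mu d = if n = 1 then 1 else 0 := by
  rw [sum_mu hn.ne_zero]
  refine if_congr ⟨fun h => by_contra fun h1 => ?_, fun h p hp _ => h ▸ hp.not_dvd_one⟩ rfl rfl
  obtain ⟨p, h2, h3, h4⟩ := exists_prime_dvd hn h1
  exact h p h2 h3 h4
theorem bas_sum_mu {c l : Eis} (hl : l ≠ 0) : ∑ d ∈ dv l, (if d ∣ c then mu d else 0) =
    if (∃ p, Prime p ∧ Prim p ∧ p ∣ c ∧ p ∣ l) then 0 else 1 := by
  have hg : EuclideanDomain.gcd c l ≠ 0 := fun h => hl (EuclideanDomain.gcd_eq_zero_iff.1 h).2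
  have e : {d ∈ dv l | d ∣ c} = dv (EuclideanDomain.gcd c l) := by
    ext d
    rw [Finset.mem_filter, mem_dv hl, mem_dv hg]
    exact ⟨fun h => ⟨h.1.1, EuclideanDomain.dvd_gcd h.2 h.1.2⟩, fun h =>
      ⟨⟨h.1, h.2.trans (EuclideanDomain.gcd_dvd_right c l)⟩,
        h.2.trans (EuclideanDomain.gcd_dvd_left c l)⟩⟩
  rw [← Finset.sum_filter, e, sum_mu hg, ← ite_not]
  refine if_congr ⟨fun h => by_contra fun k => h fun p a b j => k ⟨p, a, b,
    j.trans (EuclideanDomain.gcd_dvd_left c l), j.trans (EuclideanDomain.gcd_dvd_right c l)⟩,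
    fun ⟨p, a, b, j, k⟩ h => h p a b (EuclideanDomain.dvd_gcd j k)⟩ rfl rfl

theorem cop_eq_sum {c l : Eis} (hc : Prim c) (hl : l ≠ 0) :
    cop l c = ∑ d ∈ dv l, if d ∣ c then mu d else 0 := by
  rw [bas_sum_mu hl, cop, ← ite_not]
  exact if_congr (not_cop_iff hc) rfl rfl
theorem cop_eq_sum' {m : Eis} (hm : Prim m) (u : Eis) :
    cop m u = ∑ d ∈ dv m, if d ∣ u then mu d else 0 := by
  rw [bas_sum_mu hm.ne_zero, cop, ← ite_not, isCoprime_comm]
  exact if_congr ((not_cop_iff hm).trans (exists_congr fun p => by rw [and_comm (a := p ∣ m)]))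
    rfl rfl
theorem cop_comm (x y : Eis) : cop x y = cop y x :=
  if_congr isCoprime_comm rfl rfl
theorem norm_cop_le (x y : Eis) : ‖cop x y‖ ≤ 1 := by
  unfold cop
  split_ifs <;> simp
theorem split_PS {c1 c2 : Eis} (h1 : PS c1) (h2 : PS c2) :
    ∃ g x y, PS g ∧ PS x ∧ PS y ∧ c1 = g * x ∧ c2 = g * y ∧ IsCoprime g x ∧ IsCoprime g y ∧
      IsCoprime x (g * y) := by
  obtain ⟨u, hu, hg⟩ := exists_prim_assoc (x := EuclideanDomain.gcd c1 c2) fun h =>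
    h1.1.not_lam_dvd (h.trans (EuclideanDomain.gcd_dvd_left c1 c2))
  obtain ⟨x, e⟩ := hu.mul_left_dvd.2 (EuclideanDomain.gcd_dvd_left c1 c2)
  obtain ⟨y, e'⟩ := hu.mul_left_dvd.2 (EuclideanDomain.gcd_dvd_right c1 c2)
  obtain ⟨k1, k2, k3⟩ := PS.of_mul hg (e ▸ h1)
  obtain ⟨-, k4, k5⟩ := PS.of_mul hg (e' ▸ h2)
  refine ⟨_, x, y, k1, k2, k4, e, e', k3, k5, e' ▸ isRelPrime_iff_isCoprime.1 fun d j1 j2 =>
    k3.isUnit_of_dvd' ((EuclideanDomain.dvd_gcd (j1.trans (Dvd.intro_left _ e.symm))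
      j2).mul_left u) j1⟩
theorem bas_dvd {k k' l l' : Eis} (hk : PS k) (hl : l ≠ 0) (hl' : l' ≠ 0)
    (h : k * l ^ 3 = k' * l' ^ 3) : k ∣ k' := by
  refine PS.induction (Pr := fun x => x ∣ k → x ∣ k') (fun _ => one_dvd _)
    (fun p x hp _ _ hpx ih hd => (hp.coprime_iff_not_dvd.2 hpx).mul_dvd ?_
      (ih ((dvd_mul_left x p).trans hd))) hk dvd_rfl
  obtain ⟨k, rfl⟩ := (dvd_mul_right p x).trans hd
  obtain ⟨a, l, h3, rfl⟩ := WfDvdMonoid.max_power_factor hl hp.irreducible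
  obtain ⟨b, l', h4, rfl⟩ := WfDvdMonoid.max_power_factor hl' hp.irreducible
  by_contra h5
  have := bs_pow_inj hp (x := k * l ^ 3) (y := k' * l' ^ 3) (a := 3 * a + 1) (b := 3 * b)
    (hp.not_dvd_mul (fun h => hp.not_isUnit (hk.2 p (mul_dvd_mul_left p h)))
      fun h => h3 (hp.dvd_of_dvd_pow h))
    (hp.not_dvd_mul h5 fun h => h4 (hp.dvd_of_dvd_pow h)) (by linear_combination h)
  omega

theorem cube_unique' {e e' d d' : Eis} (he : PS e) (he' : PS e') (hd : Prim d) (hd' : Prim d')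
    (h : e * d ^ 3 = e' * d' ^ 3) : e = e' ∧ d = d' := by
  obtain rfl : e = e' := he.1.eq_of_associated he'.1 (associated_of_dvd_dvd
    (bas_dvd he hd.ne_zero hd'.ne_zero h) (bas_dvd he' hd'.ne_zero hd.ne_zero h.symm))
  have h3 := mul_left_cancel₀ he.ne_zero h
  exact ⟨rfl, hd.eq_of_associated hd' (associated_of_dvd_dvd
    ((UniqueFactorizationMonoid.pow_dvd_pow_iff_dvd three_ne_zero).1 h3.dvd)
    ((UniqueFactorizationMonoid.pow_dvd_pow_iff_dvd three_ne_zero).1 h3.symm.dvd))⟩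
theorem cube_or' {x : Eis} (hx : Prim x) : (∃ e d, PS e ∧ Prim d ∧ x = e * d ^ 3) ∨
    (∃ p y : Eis, ∃ k : ℕ, Prime p ∧ Prim p ∧ Prim y ∧ ¬ p ∣ y ∧ x = y * p ^ 2 * (p ^ 3) ^ k) := by
  induction x using WellFounded.induction (wellFounded_dvdNotUnit (α := Eis)) with
  | _ x ih =>
  by_cases h1 : x = 1
  · exact Or.inl ⟨1, 1, PS.one, Prim.one, by simp [h1]⟩
  obtain ⟨p, hp, hp1, hpx⟩ := exists_prime_dvd hx h1
  obtain ⟨m, y, hy, rfl⟩ := WfDvdMonoid.max_power_factor hx.ne_zero hp.irreducible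
  have hy1 := (hp1.pow m).of_mul hx
  have hm : m ≠ 0 := by
    rintro rfl
    exact hy (by simpa using hpx)
  rcases ih y ⟨hy1.ne_zero, p ^ m, fun h => hp.not_isUnit ((isUnit_pow_iff hm).1 h), mul_comm _ _⟩
    hy1 with ⟨e, d, he, hd, rfl⟩ | ⟨q, z, k, hq, hq1, hz, hqz, rfl⟩
  · obtain ⟨j, rfl | rfl | rfl⟩ : ∃ j, m = 3 * j ∨ m = 3 * j + 1 ∨ m = 3 * j + 2 :=
      ⟨m / 3, by omega⟩
    · exact Or.inl ⟨e, d * p ^ j, he, hd.mul (hp1.pow j), by ring⟩
    · exact Or.inl ⟨p * e, d * p ^ j, (PS.of_prime hp hp1).mul he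
        (hp.coprime_iff_not_dvd.2 fun h => hy (h.mul_right _)), hd.mul (hp1.pow j), by ring⟩
    · exact Or.inr ⟨p, _, j, hp, hp1, hy1, hy, by ring⟩
  · refine Or.inr ⟨q, z * p ^ m, k, hq, hq1, hz.mul (hp1.pow m), fun h => ?_, by ring⟩
    have := (hq.associated_of_dvd hp (hq.dvd_of_dvd_pow ((hq.dvd_or_dvd h).resolve_left hqz))).symm
    exact hy (((this.dvd.pow two_ne_zero).mul_left z).mul_right _)
/-- Every nonzero element is a unit times a power of lam times a primary element. -/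
theorem exists_three_part {r : Eis} (hr : r ≠ 0) :
    ∃ u : Eis, ∃ k : ℕ, ∃ x, IsUnit u ∧ Prim x ∧ r = u * lam ^ k * x :=
  bas_three hr
theorem three_part_unique {u u' x x' : Eis} {k k' : ℕ} (hu : IsUnit u) (hu' : IsUnit u')
    (hx : Prim x) (hx' : Prim x') (h : u * lam ^ k * x = u' * lam ^ k' * x') :
    u = u' ∧ k = k' ∧ x = x' := by
  obtain rfl : k = k' := bs_pow_inj prime_lam (x := u * x) (y := u' * x')
    (fun j => hx.not_lam_dvd (hu.dvd_mul_left.1 j)) (fun j => hx'.not_lam_dvd (hu'.dvd_mul_left.1 j))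
    (by linear_combination h)
  have e : u * x = u' * x' :=
    mul_left_cancel₀ (pow_ne_zero k prime_lam.ne_zero) (by linear_combination h)
  obtain rfl : x = x' := hx.eq_of_associated hx' (((associated_unit_mul_right x u hu).trans
    (Associated.of_eq e)).trans (associated_unit_mul_left x' u' hu'))
  exact ⟨mul_right_cancel₀ hx.ne_zero e, rfl, rfl⟩

theorem card_dp_le {e : ℝ} (he : 0 < e) :
    ∃ C : ℝ, 0 < C ∧ ∀ n : Eis, n ≠ 0 → ((dp n).card : ℝ) ≤ C * N n ^ e := by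
  obtain ⟨C, hC, h⟩ := card_dvd_le he
  exact ⟨C, hC, fun n hn => le_trans (Nat.cast_le.2 (Finset.card_le_card fun d hd =>
    Finset.mem_filter.2 ⟨(Finset.mem_filter.1 hd).1, (Finset.mem_filter.1 hd).2.2⟩)) (h n hn)⟩
theorem card_dv_le {e : ℝ} (he : 0 < e) :
    ∃ C : ℝ, 0 < C ∧ ∀ n : Eis, n ≠ 0 → ((dv n).card : ℝ) ≤ C * N n ^ e := by
  obtain ⟨C, hC, h⟩ := card_dp_le he
  exact ⟨C, hC, fun n hn => (Nat.cast_le.2 (Finset.card_le_card (dv_subset_dp n))).trans (h n hn)⟩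
theorem card_dv_le_N {n : Eis} (hn : n ≠ 0) : ((dv n).card : ℝ) ≤ N n := by
  obtain ⟨x, hx, k, e, -⟩ := bas_red hn
  rw [e]
  refine le_trans ?_ (N_le_of_dvd hn k)
  refine Prim.induction (Pr := fun x => ((dv x).card : ℝ) ≤ N x) (by simp [dv_one])
    (fun p y hp h hy ih => ?_) hx
  have h2 := mul_le_mul (cnt_two_le hp) ih (Nat.cast_nonneg _) (N_nonneg p)
  rw [N_mul]
  refine le_trans ?_ h2
  by_cases j : p ∣ y
  · rw [dv_prime_mul_of_dvd hp hy.ne_zero j]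
    linarith [Nat.cast_nonneg (α := ℝ) (dv y).card]
  · have := sum_dv_prime_mul hp h hy.ne_zero j fun _ => (1 : ℝ)
    simp only [Finset.sum_const, nsmul_eq_mul] at this
    linarith

/-- Sums over multiples of D. -/
theorem sum_filter_dvd {M : Type} [AddCommMonoid M] {D : Eis} (hD : D ≠ 0) (S : Finset Eis)
    (f : Eis → M) : ∑ n ∈ S.filter (fun n => D ∣ n), f n =
      ∑ m ∈ (S.filter (fun n => D ∣ n)).image (fun n => n / D), f (D * m) := by
  rw [Finset.sum_image fun a ha b hb e => by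
    rw [← lp_div_mul hD (Finset.mem_filter.1 ha).2, ← lp_div_mul hD (Finset.mem_filter.1 hb).2]
    exact congrArg (D * ·) e]
  exact Finset.sum_congr rfl fun n hn => by rw [lp_div_mul hD (Finset.mem_filter.1 hn).2]
theorem sum_ball_dvd {M : Type} [AddCommMonoid M] {D : Eis} (hD : D ≠ 0) (K : ℝ) (f : Eis → M) :
    ∑ n ∈ (ball K).filter (fun n => D ∣ n), f n = ∑ m ∈ ball (K / N D), f (D * m) := by
  symm
  refine Finset.sum_bij (fun m _ => D * m) (fun m hm => ?_)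
    (fun _ _ _ _ e => mul_left_cancel₀ hD e) (fun n hn => ?_) fun _ _ => rfl
  · obtain ⟨a, b⟩ := mem_ball.1 hm
    refine Finset.mem_filter.2 ⟨mem_ball.2 ⟨mul_ne_zero hD a, ?_⟩, dvd_mul_right _ _⟩
    rwa [N_mul, ← le_div_iff₀' (N_pos hD)]
  · obtain ⟨a, m, rfl⟩ := Finset.mem_filter.1 hn
    obtain ⟨b, c⟩ := mem_ball.1 a
    refine ⟨m, mem_ball.2 ⟨right_ne_zero_of_mul b, ?_⟩, rfl⟩
    rwa [le_div_iff₀' (N_pos hD), ← N_mul]
theorem image_div_subset {D : Eis} (hD : Prim D) {K : ℝ} {S : Finset Eis} (hS : S ⊆ PB K) :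
    (S.filter (fun n => D ∣ n)).image (fun n => n / D) ⊆ PB (K / N D) := by
  intro m hm
  obtain ⟨n, hn, rfl⟩ := Finset.mem_image.1 hm
  obtain ⟨a, b⟩ := Finset.mem_filter.1 hn
  obtain ⟨c, d⟩ := mem_PB.1 (hS a)
  refine mem_PB.2 ⟨(c.of_dvd hD b).2.1, ?_⟩
  rw [N_div hD.ne_zero b]
  exact div_le_div_of_nonneg_right d (N_nonneg D)
theorem sum_sqd_swap {M : Type} [AddCommMonoid M] (K : ℝ) (F : Eis → Eis → M) :
    ∑ h ∈ ball K, ∑ D ∈ sqd h, F h D = ∑ D ∈ PB K, ∑ h ∈ ball (K / N D ^ 2), F (h * D ^ 2) D := by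
  rw [Finset.sum_sigma', Finset.sum_sigma']
  symm
  refine Finset.sum_bij (fun x _ => ⟨x.2 * x.1 ^ 2, x.1⟩) ?_ ?_ ?_ fun _ _ => rfl
  · rintro ⟨D, h⟩ hx
    simp only [Finset.mem_sigma, mem_PB, mem_ball] at hx ⊢
    obtain ⟨⟨hD, -⟩, h0, hK⟩ := hx
    have n0 : h * D ^ 2 ≠ 0 := mul_ne_zero h0 (pow_ne_zero 2 hD.ne_zero)
    refine ⟨⟨n0, ?_⟩, (mem_sqd n0).2 ⟨hD, dvd_mul_left _ _⟩⟩
    rwa [N_mul, N_pow, ← le_div_iff₀ (pow_pos (N_pos hD.ne_zero) 2)]
  · rintro ⟨D, h⟩ hx ⟨D', h'⟩ - e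
    simp only [Finset.mem_sigma, mem_PB, mem_ball] at hx
    simp only [Sigma.mk.injEq, heq_eq_eq] at e ⊢
    obtain ⟨e1, rfl⟩ := e
    exact ⟨rfl, mul_right_cancel₀ (pow_ne_zero 2 hx.1.1.ne_zero) e1⟩
  · rintro ⟨h, D⟩ hx
    simp only [Finset.mem_sigma, mem_ball] at hx
    obtain ⟨⟨h0, hK⟩, hD'⟩ := hx
    obtain ⟨hD, h', rfl⟩ := (mem_sqd h0).1 hD'
    refine ⟨⟨D, h'⟩, ?_, by simp only [mul_comm]⟩
    simp only [Finset.mem_sigma, mem_PB, mem_ball]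
    refine ⟨⟨hD, le_trans (N_le_of_dvd h0 ?_) hK⟩, right_ne_zero_of_mul h0, ?_⟩
    · exact (dvd_pow_self D two_ne_zero).mul_right _
    · rwa [le_div_iff₀ (pow_pos (N_pos hD.ne_zero) 2), mul_comm, ← N_pow, ← N_mul]
/-- Interchange of a divisor sum. -/
theorem sum_dv_swap {M : Type} [AddCommMonoid M] {K : ℝ} {S : Finset Eis} (hS : S ⊆ ball K)
    (F : Eis → Eis → M) :
    ∑ n ∈ S, ∑ D ∈ dv n, F n D = ∑ D ∈ PB K, ∑ n ∈ S.filter (fun n => D ∣ n), F n D := by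
  refine Finset.sum_comm' fun n D => ?_
  rw [Finset.mem_filter, mem_PB]
  constructor
  · rintro ⟨a, b⟩
    obtain ⟨c, d⟩ := mem_ball.1 (hS a)
    obtain ⟨e, f⟩ := (mem_dv c).1 b
    exact ⟨⟨a, f⟩, e, (N_le_of_dvd c f).trans d⟩
  · rintro ⟨⟨a, b⟩, c, -⟩
    exact ⟨a, (mem_dv (mem_ball.1 (hS a)).1).2 ⟨c, b⟩⟩
/-- Moebius inversion for a double series, as st_moebius in P026.Struct. -/
theorem hasSum_moebius {g : Eis → ℂ} {C : ℝ} (h0 : ∀ n, ¬ Prim n → g n = 0)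
    (hg : ∀ n, ‖g n‖ ≤ C * N n ^ (-2 : ℝ)) :
    HasSum (fun p : Eis × Eis => mu p.1 * g (p.1 * p.2)) (g 1) := by
  have hs := summable_N_rpow (s := 2) (by norm_num)
  have h1 : Summable (fun p : Eis × Eis => mu p.1 * g (p.1 * p.2)) := by
    refine ((hs.mul_of_nonneg hs (fun c => Real.rpow_nonneg (N_nonneg c) _)
      fun c => Real.rpow_nonneg (N_nonneg c) _).mul_left C).of_norm_bounded fun p => ?_
    rw [norm_mul, ← Real.mul_rpow (N_nonneg _) (N_nonneg _), ← N_mul]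
    exact (mul_le_of_le_one_left (norm_nonneg _) (norm_mu_le _)).trans (hg _)
  have h2 := ((Equiv.sigmaFiberEquiv fun p : Eis × Eis => p.1 * p.2).hasSum_iff.2
    h1.hasSum).sigma (g := fun n => if n = 1 then g 1 else 0) fun n => by
      by_cases hn : Prim n
      · have e : (if n = 1 then g 1 else 0) = ∑ d ∈ dv n, mu d * g n := by
          rw [← Finset.sum_mul, sum_mu_prim hn]
          split_ifs with h <;> simp [h]
        have h3 : HasSum (fun d : Eis => if d ∣ n then mu d * g n else 0)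
            (∑ d ∈ dv n, mu d * g n) := by
          rw [← Finset.sum_congr rfl fun d (hd : d ∈ dv n) =>
            (if_pos ((mem_dv hn.ne_zero).1 hd).2 :
              (if d ∣ n then mu d * g n else 0) = mu d * g n)]
          refine hasSum_sum_of_ne_finset_zero fun d hd => ?_
          split_ifs with h
          · rw [show mu d = 0 from if_neg fun k => hd ((mem_dv hn.ne_zero).2 ⟨k, h⟩), zero_mul]
          · rfl
        have h4 : Function.Injective (fun a : {p : Eis × Eis // p.1 * p.2 = n} => a.1.1) := by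
          rintro ⟨⟨a, b⟩, h⟩ ⟨⟨a', b'⟩, h'⟩ (rfl : a = a')
          obtain rfl : b = b' := mul_left_cancel₀
            (left_ne_zero_of_mul (h.trans_ne hn.ne_zero)) (h.trans h'.symm)
          rfl
        rw [e]
        refine (congrArg (HasSum · _) (funext fun a => ?_)).mp ((h4.hasSum_iff fun d hd =>
          if_neg fun ⟨b, hb⟩ => hd ⟨⟨(d, b), hb.symm⟩, rfl⟩).2 h3)
        obtain ⟨⟨a, b⟩, rfl⟩ := a
        exact if_pos (dvd_mul_right _ _)
      · rw [if_neg fun h : n = 1 => hn (h ▸ Prim.one)]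
        refine (congrArg (HasSum · _) (funext fun a => ?_)).mp hasSum_zero
        obtain ⟨⟨a, b⟩, rfl⟩ := a
        exact ((congrArg (mu a * ·) (h0 _ hn)).trans (mul_zero _)).symm
  rw [← h2.unique (hasSum_ite_eq 1 (g 1))]
  exact h1.hasSum
theorem bas_exh : Tendsto (fun K : ℝ => insert 0 (ball K)) atTop atTop :=
  tendsto_atTop_finset_of_monotone (fun _ _ h => Finset.insert_subset_insert _ (ball_mono h))
    fun x => ⟨N x, Finset.mem_insert.2 (or_iff_not_imp_left.2 fun h => mem_ball.2 ⟨h, le_rfl⟩)⟩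

theorem bas_zero (K : ℝ) : (0 : Eis) ∉ ball K := fun h => (mem_ball.1 h).1 rfl

/-- Exhaustion of a series by balls. -/
theorem tendsto_sum_ball {M : Type} [NormedAddCommGroup M] {f : Eis → M} {a : M}
    (hf : HasSum f a) : Tendsto (fun K : ℝ => ∑ n ∈ ball K, f n) atTop (𝓝 (a - f 0)) := by
  refine ((Tendsto.comp hf bas_exh).sub_const (f 0)).congr fun K => ?_
  rw [Function.comp_apply, Finset.sum_insert (bas_zero K), add_sub_cancel_left]
theorem summable_of_ball {m : Eis → ℝ} {C : ℝ} (m0 : ∀ h, 0 ≤ m h)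
    (hm : ∀ K, ∑ h ∈ ball K, m h ≤ C) : Summable m ∧ ∑' h, m h ≤ m 0 + C := by
  have h : ∀ t : Finset Eis, ∑ h ∈ t, m h ≤ m 0 + C := fun t => by
    obtain ⟨K, hK⟩ := (bas_exh.eventually_ge_atTop t).exists
    refine (Finset.sum_le_sum_of_subset_of_nonneg hK fun h _ _ => m0 h).trans ?_
    rw [Finset.sum_insert (bas_zero K)]
    linarith [hm K]
  exact ⟨summable_of_sum_le m0 h, Real.tsum_le_of_sum_le m0 h⟩

end Vale.Agent.P006
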