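import Vale.Agent.P006.Bas
import Vale.Agent.P026.KubA
import Vale.Agent.P026.Struct

/-! Cubic Gauss sums for all primary moduli (the prime -2 included), the functions G, Dl, th, phi.
The first lemmas are copies of P026.GaussA / P026.Gauss with P1 replaced by Prim. -/

namespace Vale.Agent.P006

open Vale.Agent.P026 Eis Complex MeasureTheory Filter Topology
open scoped Classical ComplexConjugate

theorem gauss_cub_mul {c d : Eis} (hc : Prim c) (hd : Prim d) (hcd : IsCoprime c d) (h : Eis) :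
    gauss (fun x => cub x (c * d)) (c * d) h =
      cub c d * cub d c * gauss (fun x => cub x c) c h * gauss (fun x => cub x d) d h := by
  have hc0 := hc.ne_zero
  have hd0 := hd.ne_zero
  unfold gauss
  rw [sum_res_crt hc0 hd0 hcd ((ga_cub.per (c * d)).mul (per_psi (c * d) h)), mul_assoc,
    Finset.sum_mul_sum, Finset.mul_sum]
  refine Finset.sum_congr rfl fun u _ => ?_
  rw [Finset.mul_sum]
  refine Finset.sum_congr rfl fun v _ => ?_
  have e1 : cub (d * u + c * v) c = cub d c * cub u c := by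
    rw [← cub_mul_left _ _ hc.not_lam_dvd]; exact cub_congr ⟨v, by ring⟩
  have e2 : cub (d * u + c * v) d = cub c d * cub v d := by
    rw [← cub_mul_left _ _ hd.not_lam_dvd]; exact cub_congr ⟨u, by ring⟩
  have e3 : psi (c * d) (h * (d * u + c * v)) = psi c (h * u) * psi d (h * v) := by
    rw [show h * (d * u + c * v) = d * (h * u) + c * (h * v) by ring, psi_add,
      psi_mul_left hd0, mul_comm c d, psi_mul_left hc0]
  rw [cub_mul_right _ hc0 hd0, e1, e2, e3]; ring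
theorem gp_prime {p : Eis} (hp : Prime p) (h1 : Prim p) (h : Eis) :
    gauss (fun x => cub x p) p h = conj (cub h p) * gauss (fun x => cub x p) p 1 := by
  by_cases hh : p ∣ h
  · have z := ga_sum_cub_pow hp h1 (k := 1) (by norm_num)
    simp only [pow_one] at z
    rw [(cub_eq_zero hp.ne_zero).2 (ga_not_cop hp hh), map_zero, zero_mul, ← z]
    refine Finset.sum_congr rfl fun x _ => ?_
    rw [psi_of_dvd (hh.mul_right x), mul_one]
  · have e := sum_res_affine hp.ne_zero ((ga_cub.per p).mul (per_psi p 1)) (ga_cop hp hh) 0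
    simp only [add_zero, cub_mul_left _ _ h1.not_lam_dvd, one_mul] at e
    unfold gauss
    simp only [one_mul]
    rw [← e, Finset.mul_sum]
    refine Finset.sum_congr rfl fun x _ => ?_
    have := ga_mul_conj (norm_cub (ga_cop hp hh))
    linear_combination (-(cub x p * psi p (h * x))) * this

theorem gp_eq {c : Eis} (hc : PS c) (h : Eis) :
    gauss (fun x => cub x c) c h = conj (cub h c) * gauss (fun x => cub x c) c 1 := by
  refine PS.induction (Pr := fun c => gauss (fun x => cub x c) c h =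
    conj (cub h c) * gauss (fun x => cub x c) c 1) ?_ ?_ hc
  · show gauss (fun x => cub x 1) 1 h = conj (cub h 1) * gauss (fun x => cub x 1) 1 1
    rw [ga_cub.gauss_one, ga_cub.gauss_one, cub_one_right, map_one, mul_one]
  · intro p x hp h1 hx hpx ih
    have hcop := (ga_cop hp hpx).symm
    rw [gauss_cub_mul h1 hx.1 hcop, gauss_cub_mul h1 hx.1 hcop, gp_prime hp h1 h, ih,
      cub_mul_right _ hp.ne_zero hx.ne_zero, map_mul]
    ring

theorem gp_conj (F : Eis → ℂ) (c h : Eis) :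
    gauss (fun x => conj (F x)) c h = conj (gauss F c (-h)) := by
  rw [gauss, gauss, map_sum]
  refine Finset.sum_congr rfl fun x _ => ?_
  rw [map_mul, neg_mul, psi_neg, Complex.conj_conj]

theorem gp_mul_conj {c : Eis} (hc : PS c) :
    gauss (fun x => cub x c) c 1 * conj (gauss (fun x => cub x c) c 1) = N c := by
  have hc0 := hc.ne_zero
  have e1 : gauss (fun x => cub x c) c 1 * conj (gauss (fun x => cub x c) c 1) =
      ∑ y ∈ res c, gauss (fun x => cub x c) c y * psi c (-y) := by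
    have e0 : conj (gauss (fun x => cub x c) c 1) = ∑ y ∈ res c, conj (cub y c) * psi c (-y) := by
      rw [gauss, map_sum]
      refine Finset.sum_congr rfl fun y _ => ?_
      rw [map_mul, one_mul, psi_neg]
    rw [e0, Finset.mul_sum]
    refine Finset.sum_congr rfl fun y _ => ?_
    rw [gp_eq hc y]
    ring
  have e2 : ∑ y ∈ res c, gauss (fun x => cub x c) c y * psi c (-y) =
      ∑ x ∈ res c, cub x c * ∑ y ∈ res c, psi c ((x - 1) * y) := by
    simp only [gauss, Finset.sum_mul, Finset.mul_sum]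
    rw [Finset.sum_comm]
    refine Finset.sum_congr rfl fun x _ => Finset.sum_congr rfl fun y _ => ?_
    rw [mul_assoc, ← psi_add]
    congr 2; ring
  rw [e1, e2]
  simp only [sum_psi hc0, mul_ite, mul_zero]
  rw [ga_pick hc0 ((ga_cub.per c).mul (G := fun _ => (N c : ℂ)) fun _ _ => rfl) 1,
    cub_one_left hc.1.not_lam_dvd, one_mul]

theorem gauss_cub' {c : Eis} (hc : PS c) (h : Eis) :
    gauss (fun x => cub x c) c h = conj (cub h c) * (ab c : ℂ) * g3 c := by
  rw [gp_eq hc h, g3, mul_assoc, mul_div_cancel₀ _ (ga_ab_ne hc.ne_zero)]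
theorem gauss_conj_cub {c : Eis} (hc : PS c) (h : Eis) :
    gauss (fun x => conj (cub x c)) c h = cub h c * (ab c : ℂ) * conj (g3 c) := by
  rw [gp_conj, gauss_cub' hc, cub_neg_left _ hc.1.not_lam_dvd, map_mul, map_mul, Complex.conj_conj,
    Complex.conj_ofReal]
theorem norm_g3' {c : Eis} (hc : PS c) : ‖g3 c‖ = 1 := by
  have h := gp_mul_conj hc
  rw [mul_conj, normSq_eq_norm_sq, ← ab_sq] at h
  have h2 : ‖gauss (fun x => cub x c) c 1‖ ^ 2 = ab c ^ 2 := by exact_mod_cast h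
  have h3 := (pow_left_inj₀ (norm_nonneg _) (ab_nonneg c) two_ne_zero).1 h2
  rw [g3, norm_div, h3, norm_real, Real.norm_of_nonneg (ab_nonneg c),
    div_self (ab_pos hc.ne_zero).ne']
theorem g3_mul' {c d : Eis} (hc : PS c) (hd : PS d) (h : IsCoprime c d) :
    g3 (c * d) = g3 c * g3 d * cub c d ^ 2 := by
  unfold g3
  rw [gauss_cub_mul hc.1 hd.1 h, ab_mul, cub_recip hd.1 hc.1]
  have := ga_ab_ne hc.ne_zero
  have := ga_ab_ne hd.ne_zero
  push_cast
  field_simp
theorem gauss_prime_pow' {p : Eis} (hp : Prime p) (h1 : Prim p) {k : ℕ} (hk : 1 ≤ k) (r : Eis) :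
    gauss (fun u => cub u p ^ k) (p ^ k) r = if p ^ (k - 1) ∣ r then
      (N p : ℂ) ^ (k - 1) * gauss (fun u => cub u p ^ k) p (r / p ^ (k - 1)) else 0 := by
  obtain ⟨m, rfl⟩ : ∃ m, k = m + 1 := ⟨k - 1, by omega⟩
  have h0 := h1.ne_zero
  have hm : p ^ m ≠ 0 := pow_ne_zero _ hp.ne_zero
  rw [Nat.add_sub_cancel, show p ^ (m + 1) = p * p ^ m by ring]
  have hF : Per (p * p ^ m) fun u => cub u p ^ (m + 1) :=
    Per.of_congr fun x y h => by rw [cub_congr (dvd_of_mul_right_dvd h)]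
  have e1 : gauss (fun u => cub u p ^ (m + 1)) (p * p ^ m) r =
      ∑ u ∈ res p, cub u p ^ (m + 1) * psi (p * p ^ m) (r * u) *
        if p ^ m ∣ r then (N (p ^ m) : ℂ) else 0 := by
    rw [gauss, sum_res_mul h0 hm (hF.mul (per_psi _ r))]
    refine Finset.sum_congr rfl fun u _ => ?_
    rw [← sum_psi hm, Finset.mul_sum]
    refine Finset.sum_congr rfl fun v _ => ?_
    rw [cub_congr (a := u + p * v) (b := u) (by simp),
      show r * (u + p * v) = r * u + p * (r * v) by ring, psi_add, mul_comm p (p ^ m),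
      psi_mul_left h0]
    ring
  rw [e1]
  split_ifs with h
  · obtain ⟨s, rfl⟩ := h
    rw [mul_div_cancel_left₀ _ hm, gauss, Finset.mul_sum, N_pow]
    refine Finset.sum_congr rfl fun u _ => ?_
    rw [mul_assoc (p ^ m), psi_mul_left hm]
    push_cast; ring
  · simp
theorem gauss_prime_cube' {p : Eis} (hp : Prime p) (h1 : Prim p) {k : ℕ} (hk : 1 ≤ k)
    (h3 : 3 ∣ k) (r : Eis) :
    gauss (fun u => cub u p ^ k) p r = if p ∣ r then (N p : ℂ) - 1 else -1 := by
  have h0 := h1.ne_zero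
  obtain ⟨m, rfl⟩ := h3
  have e1 : gauss (fun u => cub u p ^ (3 * m)) p r =
      ∑ u ∈ res p, (psi p (r * u) - if p ∣ u - 0 then psi p (r * u) else 0) := by
    refine Finset.sum_congr rfl fun u _ => ?_
    beta_reduce
    rw [sub_zero]
    split_ifs with h
    · rw [(cub_eq_zero h0).2 (ga_not_cop hp h), zero_pow (by omega)]; simp
    · rw [pow_mul, cub_cube (ga_cop hp h)]; simp
  rw [e1, Finset.sum_sub_distrib, sum_psi h0, ga_pick h0 (per_psi p r) 0]
  split_ifs <;> simp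
theorem gauss_prime_zero' {p : Eis} (hp : Prime p) (h1 : Prim p) {k : ℕ} (h3 : ¬ 3 ∣ k) {r : Eis}
    (hr : p ∣ r) : gauss (fun u => cub u p ^ k) p r = 0 := by
  rw [← ga_sum_cub_pow hp h1 h3]
  refine Finset.sum_congr rfl fun x _ => ?_
  rw [psi_of_dvd (hr.mul_right x), mul_one]
/-- The Gauss sum at frequency one vanishes for moduli that are not squarefree. -/
theorem gauss_cub_one {c : Eis} (hc : Prim c) :
    cub 3 c * gauss (fun x => cub x c) c 1 = (ab c : ℂ) * G c := by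
  unfold G
  split_ifs with h
  · rw [g3, mul_left_comm, mul_div_cancel₀ _ (ga_ab_ne hc.ne_zero)]
  · have hs : ¬ Squarefree c := fun k => h ⟨hc, k⟩
    rw [squarefree_iff_no_irreducibles hc.ne_zero] at hs
    push Not at hs
    obtain ⟨q, hq, hqc⟩ := hs
    obtain ⟨p, hp, h1, ha⟩ := exists_prim_prime hc hq.prime ((dvd_mul_right q q).trans hqc)
    have h2 : p ^ 2 ∣ c := by
      rw [pow_two]; exact (ha.symm.mul_mul ha.symm).dvd.trans hqc
    obtain ⟨k, y, hy, rfl⟩ := WfDvdMonoid.max_power_factor hc.ne_zero hp.irreducible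
    have hk : 2 ≤ k := by
      by_contra hk
      have h3 : p ^ (k + 1) ∣ p ^ k * y := (pow_dvd_pow p (by omega)).trans h2
      rw [pow_succ, mul_dvd_mul_iff_left (pow_ne_zero _ hp.ne_zero)] at h3
      exact hy h3
    rw [gauss_cub_mul (h1.pow k) ((h1.pow k).of_mul hc) (ga_cop hp hy).symm.pow_left]
    simp only [cub_pow_right _ hp.ne_zero]
    rw [gauss_prime_pow' hp h1 (by omega), if_neg fun j =>
      hp.not_dvd_one ((dvd_pow_self p (by omega)).trans j)]
    simp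
theorem gauss_conj (F : Eis → ℂ) (c h : Eis) :
    gauss (fun x => conj (F x)) c h = conj (gauss F c (-h)) :=
  gp_conj F c h
/-- Restriction to primary elements (lp_gauss_crt with moduli 3 and q). -/
theorem gauss_prim {q : Eis} (hq : Prim q) {F : Eis → ℂ} (hF : Per q F) (h : Eis) :
    gauss (fun x => (if Prim x then 1 else 0) * F x) (3 * q) h =
      psi 3 h * gauss (fun x => F (3 * x)) q h := by
  have h3 : (3 : Eis) ≠ 0 := by decide
  have p3 : Per 3 fun x => if Prim x then (1 : ℂ) else 0 :=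
    Per.of_congr fun x y k => by rw [kb_prim_iff k]
  rw [lp_gauss_crt h3 hq.ne_zero hq.coprime_three.symm p3 hF]
  congr 1
  have e : ∀ x, ((if Prim (q * x) then (1 : ℂ) else 0) * psi 3 (h * x)) =
      if (3 : Eis) ∣ x - 1 then psi 3 (h * x) else 0 := fun x => by
    rw [ite_mul, one_mul, zero_mul]
    exact if_congr ⟨hq.of_mul, hq.mul⟩ rfl rfl
  simp only [gauss, e]
  rw [ga_pick h3 (per_psi 3 h) 1, mul_one]
theorem psi_three_cube (m : Eis) : psi 3 (m ^ 3) = 1 := by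
  rw [psi_congr (y := ((m.a ^ 3 + m.b ^ 3 : ℤ) : Eis))
    ⟨⟨-(m.a * m.b ^ 2), m.a ^ 2 * m.b - m.a * m.b ^ 2⟩, by ext <;> simp [pow_succ] <;> ring⟩]
  generalize m.a ^ 3 + m.b ^ 3 = n
  simp [psi]
theorem cub_mul_conj {a c : Eis} (hc : c ≠ 0) : cub a c * conj (cub a c) = cop c a := by
  unfold cop
  split_ifs with h
  · exact ga_mul_conj (norm_cub h)
  · rw [(cub_eq_zero hc).2 h, zero_mul]

theorem cs_pos : 0 < cs := by
  have := Real.Gamma_pos_of_pos (s := 2 / 3) (by norm_num)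
  have := Real.pi_pos
  unfold cs
  positivity
theorem G_of_not {c : Eis} (h : ¬ PS c) : G c = 0 :=
  if_neg h
theorem G_one : G 1 = 1 := by
  rw [G, if_pos PS.one, cub_one_right, g3_one, mul_one]
theorem norm_G {c : Eis} (hc : PS c) : ‖G c‖ = 1 := by
  rw [G, if_pos hc, norm_mul, norm_g3' hc, norm_cub hc.1.coprime_three.symm, mul_one]
theorem norm_G_le (c : Eis) : ‖G c‖ ≤ 1 := by
  by_cases h : PS c
  · exact (norm_G h).le
  · simp [G_of_not h]
theorem G_mul {a b : Eis} (ha : Prim a) (hb : Prim b) :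
    G (a * b) = G a * G b * conj (cub a b) := by
  by_cases h : PS (a * b)
  · obtain ⟨h1, h2, h3⟩ := PS.of_mul ha h
    rw [G, G, G, if_pos h, if_pos h1, if_pos h2, g3_mul' h1 h2 h3, conj_cub,
      cub_mul_right _ ha.ne_zero hb.ne_zero]
    ring
  · rw [G_of_not h]
    by_cases h1 : PS a
    · by_cases h2 : PS b
      · rw [(cub_eq_zero hb.ne_zero).2 fun k => h (h1.mul h2 k), map_zero, mul_zero]
      · rw [G_of_not h2, mul_zero, zero_mul]
    · rw [G_of_not h1, zero_mul, zero_mul]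
theorem gp_N_cj (c : Eis) : N (cj c) = N c := by rw [N, N, nrm_cj]

theorem gp_ab_cj (c : Eis) : ab (cj c) = ab c := by rw [ab, ab, gp_N_cj]

theorem G_cj (c : Eis) : G (cj c) = conj (G c) := by
  by_cases h : PS c
  · have l := h.1.not_lam_dvd
    have e1 : cub 3 (cj c) = conj (cub 3 c) := by
      rw [← cub_cj _ l]; rfl
    have e2 := resid_sum h.cj.ne_zero ((ga_cub.per (cj c)).mul (per_psi (cj c) 1)) (res c) cj
      (fun i hi j hj k => res_unique hi hj (sym_cj_dvd.1 (k.trans (map_sub cjH i j).symm.dvd)))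
      (by rw [card_res h.ne_zero, gp_N_cj])
    rw [G, G, if_pos h, if_pos h.cj, e1, map_mul, g3, g3, gp_ab_cj, map_div₀, Complex.conj_ofReal,
      gauss, gauss, ← e2, map_sum]
    simp only [one_mul, cub_cj _ l, psi_cj, map_mul]
  · rw [G_of_not h, G_of_not fun k => h (by simpa only [cj_cj] using k.cj), map_zero]
theorem Dl_of_not {c : Eis} (h : ¬ PS c) : Dl c = 0 := by
  rw [Dl, G_of_not h, if_neg h, sub_zero]
theorem norm_Dl_le (c : Eis) : ‖Dl c‖ ≤ 1 + cs := by
  refine (norm_sub_le _ _).trans (add_le_add (norm_G_le c) ?_)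
  split_ifs with h
  · rw [Complex.norm_real, Real.norm_of_nonneg
      (mul_nonneg cs_pos.le (Real.rpow_nonneg (N_nonneg c) _))]
    exact mul_le_of_le_one_right cs_pos.le
      (Real.rpow_le_one_of_one_le_of_nonpos (one_le_N h.ne_zero) (by norm_num))
  · simpa using cs_pos.le
theorem Dl_mul {a b : Eis} (ha : PS a) (hb : PS b) : Dl (a * b) = G a * G b * conj (cub a b) -
    ((cs * N a ^ (-(1 / 6) : ℝ) * N b ^ (-(1 / 6) : ℝ) : ℝ) : ℂ) * cop a b := by
  rw [Dl, G_mul ha.1 hb.1, cop]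
  by_cases h : IsCoprime b a
  · rw [if_pos h, if_pos (ha.mul hb h.symm), N_mul, Real.mul_rpow (N_nonneg a) (N_nonneg b),
      mul_one, mul_assoc cs]
  · rw [if_neg h, if_neg fun k => h (PS.of_mul ha.1 k).2.2.symm, mul_zero]

theorem th_eq {e d : Eis} (he : PS e) (hd : Prim d) : th (e * d ^ 3) = conj (G e) * (ab d : ℂ) := by
  have h0 : e * d ^ 3 ≠ 0 := mul_ne_zero he.ne_zero (pow_ne_zero _ hd.ne_zero)
  rw [th, Finset.sum_eq_single_of_mem d (Finset.mem_filter.2 ⟨bas_mem h0 ⟨e * d ^ 2, by ring⟩, hd,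
    dvd_mul_left _ _⟩), mul_div_cancel_right₀ _ (pow_ne_zero _ hd.ne_zero)]
  intro d' hd' hne
  obtain ⟨-, h1, h2⟩ := Finset.mem_filter.1 hd'
  rw [G_of_not, map_zero, zero_mul]
  intro k
  exact hne (cube_unique' k he h1 hd (by rw [mul_comm, lp_div_mul (pow_ne_zero _ h1.ne_zero) h2])).2
theorem th_ne_zero {n : Eis} (h : th n ≠ 0) : ∃ e d, PS e ∧ Prim d ∧ n = e * d ^ 3 := by
  obtain ⟨d, hd, h1⟩ := Finset.exists_ne_zero_of_sum_ne_zero h
  obtain ⟨-, h2, h3⟩ := Finset.mem_filter.1 hd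
  refine ⟨n / d ^ 3, d, by_contra fun k => h1 ?_, h2, ?_⟩
  · rw [G_of_not k, map_zero, zero_mul]
  · rw [mul_comm, lp_div_mul (pow_ne_zero _ h2.ne_zero) h3]
theorem th_of_not {n : Eis} (h : ¬ Prim n) : th n = 0 := by
  by_contra k
  obtain ⟨e, d, he, hd, rfl⟩ := th_ne_zero k
  exact h (he.1.mul (hd.pow 3))
theorem th_PS {n : Eis} (h : PS n) : th n = conj (G n) := by
  have := th_eq h Prim.one
  rwa [one_pow, mul_one, ga_ab_one, Complex.ofReal_one, mul_one] at this
theorem gp_norm_th {e d : Eis} (he : PS e) (hd : Prim d) : ‖th (e * d ^ 3)‖ = ab d := by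
  rw [th_eq he hd, norm_mul, Complex.norm_conj, norm_G he, one_mul, Complex.norm_real,
    Real.norm_of_nonneg (ab_nonneg d)]

theorem norm_th_le (n : Eis) : ‖th n‖ ≤ N n ^ (1 / 6 : ℝ) := by
  by_cases k : th n = 0
  · rw [k, norm_zero]; exact Real.rpow_nonneg (N_nonneg n) _
  obtain ⟨e, d, he, hd, rfl⟩ := th_ne_zero k
  rw [gp_norm_th he hd, ab, Real.sqrt_eq_rpow, show (1 / 2 : ℝ) = (3 : ℕ) * (1 / 6) by norm_num,
    Real.rpow_natCast_mul (N_nonneg d), ← N_pow]
  exact Real.rpow_le_rpow (N_nonneg _) (N_le_of_dvd (he.1.mul (hd.pow 3)).ne_zero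
    (dvd_mul_left _ _)) (by norm_num)
theorem norm_th_le_ab (n : Eis) : ‖th n‖ ≤ ab n := by
  by_cases k : th n = 0
  · rw [k, norm_zero]; exact ab_nonneg n
  obtain ⟨e, d, he, hd, rfl⟩ := th_ne_zero k
  rw [gp_norm_th he hd]
  exact Real.sqrt_le_sqrt (N_le_of_dvd (he.1.mul (hd.pow 3)).ne_zero ⟨e * d ^ 2, by ring⟩)
theorem gp_cj_cube (e d : Eis) : cj (e * d ^ 3) = cj e * cj d ^ 3 := by
  rw [cj_mul]; exact congrArg _ (map_pow cjH d 3)

theorem th_cj (n : Eis) : th (cj n) = conj (th n) := by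
  by_cases k : ∃ e d, PS e ∧ Prim d ∧ n = e * d ^ 3
  · obtain ⟨e, d, he, hd, rfl⟩ := k
    rw [gp_cj_cube, th_eq he.cj hd.cj, th_eq he hd, G_cj, gp_ab_cj, map_mul, Complex.conj_ofReal]
  · have h1 : th n = 0 := by_contra fun j => k (th_ne_zero j)
    have h2 : th (cj n) = 0 := by_contra fun j => by
      obtain ⟨e, d, he, hd, h⟩ := th_ne_zero j
      exact k ⟨cj e, cj d, he.cj, hd.cj, by rw [← gp_cj_cube, ← h, cj_cj]⟩
    rw [h1, h2, map_zero]
/-- Reindexing of a series supported on the elements e d ^ 3. -/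
theorem hasSum_cube_iff {F : Eis → ℂ} {x : ℂ}
    (hF : ∀ n, F n ≠ 0 → ∃ e d, PS e ∧ Prim d ∧ n = e * d ^ 3) :
    HasSum (fun p : Eis × Eis => if PS p.1 ∧ Prim p.2 then F (p.1 * p.2 ^ 3) else 0) x ↔
      HasSum F x := by
  have := st_hasSum_iff (φ := fun p : Eis × Eis => p.1 * p.2 ^ 3) (S := fun p => PS p.1 ∧ Prim p.2)
    (f := F) (x := x) (fun a b ha hb h => Prod.ext (cube_unique' ha.1 hb.1 ha.2 hb.2 h).1
      (cube_unique' ha.1 hb.1 ha.2 hb.2 h).2) fun y hy => by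
        obtain ⟨e, d, he, hd, h⟩ := hF y hy
        exact ⟨(e, d), ⟨he, hd⟩, h.symm⟩
  rw [← this]
  exact iff_of_eq (congrArg (HasSum · x) (funext fun p => by congr))
theorem sum_ball_cube {M : Type} [AddCommMonoid M] {F : Eis → M}
    (hF : ∀ n, F n ≠ 0 → ∃ e d, PS e ∧ Prim d ∧ n = e * d ^ 3) (K : ℝ) :
    ∑ n ∈ ball K, F n =
      ∑ d ∈ (ball K).filter Prim, ∑ e ∈ PB (K / N d ^ 3), F (e * d ^ 3) := by
  rw [Finset.sum_sigma']
  symm
  have key : ∀ e d : Eis, Prim d → (N (e * d ^ 3) ≤ K ↔ N e ≤ K / N d ^ 3) := fun e d hd => by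
    rw [N_mul, N_pow, le_div_iff₀ (pow_pos (N_pos hd.ne_zero) 3)]
  refine Finset.sum_bij_ne_zero (fun p _ _ => p.2 * p.1 ^ 3) (fun p hp _ => ?_)
    (fun p hp _ q hq _ h => ?_) (fun n hn h => ?_) fun _ _ _ => rfl
  · obtain ⟨h1, h2⟩ := Finset.mem_sigma.1 hp
    have hd := (Finset.mem_filter.1 h1).2
    obtain ⟨h3, h4⟩ := mem_PB.1 h2
    exact mem_ball.2 ⟨(h3.1.mul (hd.pow 3)).ne_zero, (key _ _ hd).2 h4⟩
  · obtain ⟨h1, h2⟩ := Finset.mem_sigma.1 hp
    obtain ⟨h3, h4⟩ := Finset.mem_sigma.1 hq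
    obtain ⟨a, b⟩ := cube_unique' (mem_PB.1 h2).1 (mem_PB.1 h4).1 (Finset.mem_filter.1 h1).2
      (Finset.mem_filter.1 h3).2 h
    exact Sigma.ext b (heq_of_eq a)
  · obtain ⟨e, d, he, hd, rfl⟩ := hF n h
    obtain ⟨h1, h2⟩ := mem_ball.1 hn
    exact ⟨⟨d, e⟩, Finset.mem_sigma.2 ⟨Finset.mem_filter.2 ⟨mem_ball.2 ⟨hd.ne_zero,
      (N_le_of_dvd h1 ⟨e * d ^ 2, by ring⟩).trans h2⟩, hd⟩, mem_PB.2 ⟨he, (key _ _ hd).1 h2⟩⟩,
      h, rfl⟩

theorem phi_eq (c : Eis) : (phi c : ℂ) = ∑ d ∈ dv c, mu d / (N d : ℂ) := by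
  refine Complex.conj_eq_iff_re.1 ?_
  rw [map_sum]
  refine Finset.sum_congr rfl fun d _ => ?_
  rw [map_div₀, conj_mu, Complex.conj_ofReal]
theorem phi_eq_prod {c : Eis} (hc : c ≠ 0) : phi c = ∏ p ∈ pf c, (1 - (N p)⁻¹) := by
  apply Complex.ofReal_injective
  rw [phi_eq, sum_dv_eq_prod hc (fun d => mu d / (N d : ℂ)) (by simp [mu_one])
    fun x y hx _ h => by
      rw [mu_mul hx, cop, if_pos h.symm, N_mul]; push_cast; ring, Complex.ofReal_prod]
  refine Finset.prod_congr rfl fun p hp => ?_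
  obtain ⟨h1, h2, -⟩ := (mem_pf hc).1 hp
  rw [mu_prime h1 h2]; push_cast; ring
theorem gp_inv_lt {c p : Eis} (hc : c ≠ 0) (hp : p ∈ pf c) : 0 < (N p)⁻¹ ∧ (N p)⁻¹ < 1 := by
  obtain ⟨h1, h2, -⟩ := (mem_pf hc).1 hp
  have := four_le_N h2 h1.ne_one
  exact ⟨inv_pos.2 (by linarith), inv_lt_one_of_one_lt₀ (by linarith)⟩

theorem gp_prod {ι : Type} (s : Finset ι) (x : ι → ℝ) (h : ∀ i ∈ s, 0 ≤ x i ∧ x i ≤ 1) :
    1 - ∏ i ∈ s, (1 - x i) ≤ ∑ i ∈ s, x i := by
  induction s using Finset.induction_on with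
  | empty => simp
  | insert a s ha ih =>
    have h1 := h a (Finset.mem_insert_self _ _)
    have h2 := fun i hi => h i (Finset.mem_insert_of_mem hi)
    have h3 : ∏ i ∈ s, (1 - x i) ≤ 1 :=
      Finset.prod_le_one (fun i hi => sub_nonneg.2 (h2 i hi).2) fun i hi => by
        linarith [(h2 i hi).1]
    rw [Finset.prod_insert ha, Finset.sum_insert ha]
    nlinarith [ih h2]

theorem phi_pos {c : Eis} (hc : c ≠ 0) : 0 < phi c := by
  rw [phi_eq_prod hc]
  exact Finset.prod_pos fun p hp => sub_pos.2 (gp_inv_lt hc hp).2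
theorem phi_le_one {c : Eis} (hc : c ≠ 0) : phi c ≤ 1 := by
  rw [phi_eq_prod hc]
  exact Finset.prod_le_one (fun p hp => sub_nonneg.2 (gp_inv_lt hc hp).2.le) fun p hp => by
    linarith [(gp_inv_lt hc hp).1]
theorem phi_one : phi 1 = 1 := by
  rw [phi_eq_prod one_ne_zero, bas_pf_one, Finset.prod_empty]
theorem one_sub_phi_le {c : Eis} {z u : ℝ} (hz : 0 < z) (hc : Ro z c)
    (hu : ((pf c).card : ℝ) ≤ u) : 1 - phi c ≤ u / z := by
  have h0 := hc.1.ne_zero
  rw [phi_eq_prod h0]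
  refine (gp_prod _ _ fun p hp => ⟨(gp_inv_lt h0 hp).1.le, (gp_inv_lt h0 hp).2.le⟩).trans ?_
  refine (Finset.sum_le_card_nsmul _ _ z⁻¹ fun p hp => ?_).trans ?_
  · obtain ⟨h1, -, h3⟩ := (mem_pf h0).1 hp
    exact inv_anti₀ hz (hc.2 p h1 h3).le
  · rw [nsmul_eq_mul, div_eq_mul_inv]
    exact mul_le_mul_of_nonneg_right hu (inv_pos.2 hz).le
/-- phi only depends on the primary prime divisors. -/
theorem phi_congr {c d : Eis} (hc : c ≠ 0) (hd : d ≠ 0)
    (h : ∀ p, Prime p → Prim p → (p ∣ c ↔ p ∣ d)) : phi c = phi d := by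
  rw [phi_eq_prod hc, phi_eq_prod hd]
  refine Finset.prod_congr (Finset.ext fun p => ?_) fun _ _ => rfl
  rw [mem_pf hc, mem_pf hd]
  exact and_congr_right fun a => and_congr_right fun b => h p a b
theorem gp_ind {q r : Eis} (hq : q ≠ 0) (hr : r ≠ 0) (h : Eis) :
    ∑ x ∈ res (q * r), (if q ∣ x then 1 else 0) * psi (q * r) (h * x) =
      if r ∣ h then (N r : ℂ) else 0 := by
  have per : Per (q * r) fun x => (if q ∣ x then (1 : ℂ) else 0) := fun x y => by
    simp only [dvd_add_left ((dvd_mul_right q r).mul_right y)]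
  rw [sum_res_mul hq hr (per.mul (per_psi _ h)),
    Finset.sum_eq_single_of_mem (0 % q) (mod_mem_res hq 0), ← sum_psi hr h]
  · refine Finset.sum_congr rfl fun v _ => ?_
    rw [EuclideanDomain.zero_mod, zero_add, if_pos (dvd_mul_right _ _), one_mul,
      show h * (q * v) = q * (h * v) by ring, mul_comm q r, psi_mul_left hq]
  · intro u hu hne
    refine Finset.sum_eq_zero fun v _ => ?_
    rw [if_neg, zero_mul]
    intro c
    refine hne (res_unique hu (mod_mem_res hq 0) ?_)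
    rw [EuclideanDomain.zero_mod, sub_zero]
    exact (dvd_add_left (dvd_mul_right _ _)).1 c

/-- Ramanujan sums. -/
theorem gauss_cop_eq {b : Eis} (hb : Prim b) (r : Eis) :
    gauss (cop b) b r = ∑ d ∈ dv b, if b / d ∣ r then mu d * ((N b / N d : ℝ) : ℂ) else 0 := by
  simp only [gauss, cop_eq_sum' hb, Finset.sum_mul]
  rw [Finset.sum_comm]
  refine Finset.sum_congr rfl fun d hd => ?_
  obtain ⟨h1, e, rfl⟩ := (mem_dv hb.ne_zero).1 hd
  have he : e ≠ 0 := right_ne_zero_of_mul hb.ne_zero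
  have k := gp_ind h1.ne_zero he r
  rw [lp_mul_div h1.ne_zero, N_mul, mul_div_cancel_left₀ _ (N_pos h1.ne_zero).ne', ← mul_zero (mu d),
    ← mul_ite, ← k, Finset.mul_sum]
  refine Finset.sum_congr rfl fun x _ => ?_
  split_ifs <;> simp
theorem gauss_cop_zero {b : Eis} (hb : Prim b) : gauss (cop b) b 0 = ((N b * phi b : ℝ) : ℂ) := by
  rw [gauss_cop_eq hb, Complex.ofReal_mul, phi_eq, Finset.mul_sum]
  refine Finset.sum_congr rfl fun d _ => ?_
  rw [if_pos (dvd_zero _)]; push_cast; ring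
theorem norm_gauss_cop_le {b : Eis} (hb : PS b) (r : Eis) :
    ‖gauss (cop b) b r‖ ≤ ∑ d ∈ dv b, if d ∣ r then N d else 0 := by
  have h0 := hb.ne_zero
  have k1 : ∀ d ∈ dv b, b / d ∈ dv b ∧ b / (b / d) = d := fun d hd => by
    obtain ⟨h1, e, rfl⟩ := (mem_dv h0).1 hd
    rw [lp_mul_div h1.ne_zero, mul_div_cancel_right₀ _ (right_ne_zero_of_mul h0)]
    exact ⟨(mem_dv h0).2 ⟨(PS.of_mul h1.1 hb).2.1, dvd_mul_left _ _⟩, rfl⟩
  rw [gauss_cop_eq hb.1, ← Finset.sum_nbij' (s := dv b) (t := dv b) (fun d => b / d) (fun d => b / d)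
    (f := fun d => if b / d ∣ r then N (b / d) else 0) (g := fun d => if d ∣ r then N d else 0)
    (fun d hd => (k1 d hd).1) (fun d hd => (k1 d hd).1) (fun d hd => (k1 d hd).2)
    (fun d hd => (k1 d hd).2) fun _ _ => rfl]
  refine (norm_sum_le _ _).trans (Finset.sum_le_sum fun d hd => ?_)
  obtain ⟨h1, h2⟩ := (mem_dv h0).1 hd
  split_ifs
  · rw [norm_mul, ← N_div h1.ne_zero h2, Complex.norm_real, Real.norm_of_nonneg (N_nonneg _)]
    exact mul_le_of_le_one_left (N_nonneg _) (norm_mu_le d)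
  · simp

end Vale.Agent.P006
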