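import Vale.Agent.P006.Wt

/-! Quadratic set functions, dyadic decompositions, the Gaussian measures. -/

namespace Vale.Agent.P006

open Vale.Agent.P026 Eis Complex MeasureTheory Filter Topology
open scoped Classical ComplexConjugate

theorem subQ_norm_sq (F : Eis → ℂ) : SubQ (fun S => ‖∑ n ∈ S, F n‖ ^ 2) := by
  refine ⟨by simp, fun S T hd θ h0 h1 => ?_⟩
  dsimp only
  rw [Finset.sum_union hd]
  refine (pow_le_pow_left₀ (norm_nonneg _) (norm_add_le _ _) 2).trans ?_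
  generalize ‖∑ n ∈ S, F n‖ = a
  generalize ‖∑ n ∈ T, F n‖ = b
  have h2 : 0 < 1 - θ := by linarith
  have e : a ^ 2 / θ + b ^ 2 / (1 - θ) - (a + b) ^ 2 = ((1 - θ) * a - θ * b) ^ 2 / (θ * (1 - θ)) := by
    field_simp
    ring
  have : 0 ≤ ((1 - θ) * a - θ * b) ^ 2 / (θ * (1 - θ)) := by positivity
  linarith
theorem SubQ.zero : SubQ (fun _ => 0) :=
  ⟨le_rfl, fun _ _ _ _ _ _ => by simp⟩
theorem SubQ.add {Φ Ψ : Finset Eis → ℝ} (h1 : SubQ Φ) (h2 : SubQ Ψ) :
    SubQ (fun S => Φ S + Ψ S) := by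
  refine ⟨add_nonpos h1.1 h2.1, fun S T hd θ a b => ?_⟩
  have k1 := h1.2 S T hd θ a b
  have k2 := h2.2 S T hd θ a b
  dsimp only
  rw [add_div, add_div]
  linarith
theorem SubQ.const_mul {Φ : Finset Eis → ℝ} (h : SubQ Φ) {c : ℝ} (hc : 0 ≤ c) :
    SubQ (fun S => c * Φ S) := by
  refine ⟨mul_nonpos_of_nonneg_of_nonpos hc h.1, fun S T hd θ a b => ?_⟩
  dsimp only
  rw [mul_div_assoc, mul_div_assoc, ← mul_add]
  exact mul_le_mul_of_nonneg_left (h.2 S T hd θ a b) hc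
theorem SubQ.sum {ι : Type} (I : Finset ι) {Φ : ι → Finset Eis → ℝ} (h : ∀ i ∈ I, SubQ (Φ i)) :
    SubQ (fun S => ∑ i ∈ I, Φ i S) := by
  refine ⟨Finset.sum_nonpos fun i hi => (h i hi).1, fun S T hd θ a b => ?_⟩
  dsimp only
  rw [Finset.sum_div, Finset.sum_div, ← Finset.sum_add_distrib]
  exact Finset.sum_le_sum fun i hi => (h i hi).2 S T hd θ a b
theorem SubQ.ite {Φ : Finset Eis → ℝ} (h : SubQ Φ) (P : Prop) :
    SubQ (fun S => if P then Φ S else 0) := by
  by_cases hP : P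
  · simp only [if_pos hP]
    exact h
  · simp only [if_neg hP]
    exact SubQ.zero
theorem SubQ.integral {α : Type} [MeasurableSpace α] {μ : Measure α} {Φ : α → Finset Eis → ℝ}
    (h : ∀ x, SubQ (Φ x)) (hi : ∀ S, Integrable (fun x => Φ x S) μ) :
    SubQ (fun S => ∫ x, Φ x S ∂μ) := by
  refine ⟨integral_nonpos fun x => (h x).1, fun S T hd θ a b => ?_⟩
  dsimp only
  rw [← integral_div, ← integral_div, ← integral_add ((hi S).div_const _) ((hi T).div_const _)]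
  exact integral_mono (hi _) (((hi S).div_const _).add ((hi T).div_const _))
    fun x => (h x).2 S T hd θ a b
theorem subQ_qt (γ : Eis → ℂ) (h D : Eis) : SubQ (fun S => qt S γ h D) := by
  simp only [qt, Finset.sum_filter]
  exact (subQ_norm_sq _).const_mul (N_nonneg D)
theorem subQ_QC (γ : Eis → ℂ) (H : ℝ) : SubQ (fun S => QC S γ H) :=
  SubQ.sum (ball H) fun h _ => SubQ.sum (sqd h) fun D _ => subQ_qt γ h D
theorem subQ_wq (σ : ℝ) {H : ℝ} (hH : 0 < H) (γ : Eis → ℂ) (Hs : Finset Eis)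
    (P : Eis → Eis → Prop) : SubQ (fun S => wq σ H S γ Hs P) :=
  SubQ.sum Hs fun h _ => SubQ.sum (sqd h) fun D _ => ((subQ_qt γ h D).const_mul
    (Real.rpow_nonneg (div_nonneg (N_nonneg h) hH.le) _)).ite (P h D)
/-- Weighted Cauchy-Schwarz for a finite disjoint union (induction on J). -/
theorem SubQ.biUnion {Φ : Finset Eis → ℝ} (h : SubQ Φ) {ι : Type} (J : Finset ι)
    (S : ι → Finset Eis) (hd : ∀ i ∈ J, ∀ j ∈ J, i ≠ j → Disjoint (S i) (S j)) (c : ι → ℝ)
    (hc : ∀ i ∈ J, 0 < c i) :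
    Φ (J.biUnion S) ≤ (∑ i ∈ J, c i) * ∑ i ∈ J, Φ (S i) / c i := by
  induction J using Finset.induction_on with
  | empty => simpa using h.1
  | insert j J hj ih =>
    have hcj := hc j (Finset.mem_insert_self _ _)
    rcases J.eq_empty_or_nonempty with rfl | hJ
    · simp only [insert_empty_eq, Finset.singleton_biUnion, Finset.sum_singleton]
      exact le_of_eq (by field_simp)
    have hs : 0 < ∑ i ∈ J, c i := Finset.sum_pos (fun i hi => hc i (Finset.mem_insert_of_mem hi)) hJ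
    have k := ih (fun a ha b hb => hd a (Finset.mem_insert_of_mem ha) b (Finset.mem_insert_of_mem hb))
      fun i hi => hc i (Finset.mem_insert_of_mem hi)
    have hdj : Disjoint (S j) (J.biUnion S) := (Finset.disjoint_biUnion_right _ _ _).2 fun i hi =>
      hd j (Finset.mem_insert_self _ _) i (Finset.mem_insert_of_mem hi) fun e => hj (e ▸ hi)
    rw [Finset.biUnion_insert, Finset.sum_insert hj, Finset.sum_insert hj]
    generalize ∑ i ∈ J, c i = σ at hs k ⊢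
    generalize ∑ i ∈ J, Φ (S i) / c i = U at k ⊢
    refine (h.2 _ _ hdj (c j / (c j + σ)) (by positivity)
      ((div_lt_one (by positivity)).2 (by linarith))).trans ?_
    have e : 1 - c j / (c j + σ) = σ / (c j + σ) := by
      field_simp
      ring
    rw [e, mul_add]
    refine add_le_add (le_of_eq (by field_simp)) ?_
    rw [div_div_eq_mul_div, div_le_iff₀ hs]
    nlinarith [mul_le_mul_of_nonneg_right k (add_pos hcj hs).le]

/-- Decomposition along the fibres of an index map. -/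
theorem wq_fib {Φ : Finset Eis → ℝ} (h : SubQ Φ) {ι : Type} [DecidableEq ι] (S : Finset Eis)
    (g : Eis → ι)
    (c : ι → ℝ) (m : Eis → ℝ) (hc : ∀ i, 0 ≤ c i) (hm : ∀ n, 0 ≤ m n)
    (H : ∀ i, Φ (S.filter (fun n => g n = i)) ≤ c i * ∑ n ∈ S.filter (fun n => g n = i), m n) :
    Φ S ≤ (∑ i ∈ S.image g, c i) * ∑ n ∈ S, m n := by
  have key : ∀ ε : ℝ, 0 < ε → Φ S ≤ (∑ i ∈ S.image g, (c i + ε)) * ∑ n ∈ S, m n := by
    intro ε hε
    have hp : ∀ i, 0 < c i + ε := fun i => add_pos_of_nonneg_of_pos (hc i) hε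
    have k := h.biUnion (S.image g) (fun i => S.filter (fun n => g n = i))
      (fun i _ j _ hij => Finset.disjoint_filter.2 fun n _ a b => hij (a.symm.trans b))
      (fun i => c i + ε) fun i _ => hp i
    rw [Finset.image_biUnion_filter_eq] at k
    refine k.trans (mul_le_mul_of_nonneg_left ?_ (Finset.sum_nonneg fun i _ => (hp i).le))
    rw [← Finset.sum_fiberwise_of_maps_to (fun n hn => Finset.mem_image_of_mem g hn) m]
    refine Finset.sum_le_sum fun i _ => (div_le_iff₀' (hp i)).2 ((H i).trans ?_)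
    exact mul_le_mul_of_nonneg_right (by linarith) (Finset.sum_nonneg fun n _ => hm n)
  have hcont : Continuous fun ε : ℝ => (∑ i ∈ S.image g, (c i + ε)) * ∑ n ∈ S, m n := by
    fun_prop
  have ht := (hcont.tendsto 0).mono_left (nhdsWithin_le_nhds (s := Set.Ioi 0))
  simp only [add_zero] at ht
  exact ge_of_tendsto ht (eventually_nhdsWithin_of_forall key)

/-- Dyadic decomposition with a geometric gain: blocks PD (K / 2 ^ j), weights
c j = A + B 2 ^ (- j θ). -/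
theorem dy {θ : ℝ} (hθ : 0 < θ) : ∃ C : ℝ, 0 < C ∧ ∀ (Φ : Finset Eis → ℝ), SubQ Φ →
    ∀ (S : Finset Eis) (a : Eis → ℂ) (K A B : ℝ), 0 < K → 0 ≤ A → 0 ≤ B → S ⊆ PB K →
      (∀ K' : ℝ, 0 < K' → K' ≤ K → ∀ S' : Finset Eis, S' ⊆ S → S' ⊆ PD K' →
        Φ S' ≤ (A + B * (K' / K) ^ θ) * sq S' a) →
      Φ S ≤ C * (A * Real.log (2 + K) + B) * sq S a := by
  have hq0 : (0 : ℝ) ≤ (2⁻¹ : ℝ) ^ θ := by positivity
  have hq1 : (2⁻¹ : ℝ) ^ θ < 1 := Real.rpow_lt_one (by norm_num) (by norm_num) hθ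
  have hl : 0 < Real.log 2 := Real.log_pos one_lt_two
  have hq2 : 0 < (1 - (2⁻¹ : ℝ) ^ θ)⁻¹ := inv_pos.2 (sub_pos.2 hq1)
  refine ⟨2 / Real.log 2 + (1 - (2⁻¹ : ℝ) ^ θ)⁻¹, by positivity,
    fun Φ hΦ S a K A B hK hA hB hS H => ?_⟩
  have ex : ∀ n : Eis, ∃ j : ℕ, n ∈ S → n ∈ PD (K / 2 ^ j) ∧ (2 : ℝ) ^ j ≤ K := by
    intro n
    by_cases hn : n ∈ S
    · obtain ⟨h1, h2⟩ := mem_PB.1 (hS hn)
      have hp := N_pos h1.ne_zero
      obtain ⟨j, h3, h4⟩ := exists_nat_pow_near ((one_le_div hp).2 h2) (one_lt_two (α := ℝ))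
      refine ⟨j, fun _ => ⟨mem_PD.2 ⟨h1, ?_, ?_⟩, h3.trans (div_le_self hK.le (one_le_N h1.ne_zero))⟩⟩
      · rw [div_lt_iff₀ hp] at h4
        rw [div_div, ← pow_succ, div_lt_iff₀ (by positivity)]
        linarith
      · rw [le_div_iff₀ hp] at h3
        rw [le_div_iff₀ (by positivity)]
        linarith
    · exact ⟨0, fun k => absurd k hn⟩
  choose g hg using ex
  have k := wq_fib hΦ S g (fun j => A + B * ((2⁻¹ : ℝ) ^ θ) ^ j) (fun n => ‖a n‖ ^ 2)
    (fun j => by positivity) (fun n => sq_nonneg _) fun j => by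
      have h1 := H (K / 2 ^ j) (by positivity) (div_le_self hK.le (one_le_pow₀ one_le_two))
        (S.filter (fun n => g n = j)) (Finset.filter_subset _ _) fun n hn => by
          obtain ⟨h2, rfl⟩ := Finset.mem_filter.1 hn
          exact (hg n h2).1
      rwa [div_div_cancel_left' hK.ne', ← inv_pow, ← Real.rpow_pow_comm (by norm_num)] at h1
  refine k.trans (mul_le_mul_of_nonneg_right ?_ (sq_nonneg' S a))
  have hL : Real.log 2 ≤ Real.log (2 + K) := Real.log_le_log two_pos (by linarith)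
  have h1 : S.image g ⊆ Finset.range (⌊Real.log (2 + K) / Real.log 2⌋₊ + 1) := by
    intro j hj
    obtain ⟨n, hn, rfl⟩ := Finset.mem_image.1 hj
    refine Finset.mem_range.2 (Nat.lt_succ_of_le (Nat.le_floor ?_))
    rw [le_div_iff₀ hl, ← Real.log_pow]
    exact Real.log_le_log (by positivity) (by linarith [(hg n hn).2])
  have h2 : ((S.image g).card : ℝ) ≤ 2 / Real.log 2 * Real.log (2 + K) := by
    have h3 := Finset.card_le_card h1
    rw [Finset.card_range, ← Nat.cast_le (α := ℝ), Nat.cast_add, Nat.cast_one] at h3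
    have h4 := Nat.floor_le (div_nonneg (hl.le.trans hL) hl.le)
    have h5 := (one_le_div hl).2 hL
    have e : 2 / Real.log 2 * Real.log (2 + K) = 2 * (Real.log (2 + K) / Real.log 2) := by ring
    linarith
  have h3 := (summable_geometric_of_lt_one hq0 hq1).sum_le_tsum (S.image g) fun j _ => by positivity
  rw [tsum_geometric_of_lt_one hq0 hq1] at h3
  rw [Finset.sum_add_distrib, Finset.sum_const, nsmul_eq_mul, ← Finset.mul_sum]
  have h4 := mul_le_mul_of_nonneg_right h2 hA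
  have h5 := mul_le_mul_of_nonneg_left h3 hB
  have h6 : 0 ≤ 2 / Real.log 2 * B := by positivity
  have h7 : 0 ≤ (1 - (2⁻¹ : ℝ) ^ θ)⁻¹ * (A * Real.log (2 + K)) :=
    mul_nonneg hq2.le (mul_nonneg hA (hl.le.trans hL))
  nlinarith

theorem wq_summable : Summable fun j : ℤ => ((2 : ℝ) ^ j + ((2 : ℝ) ^ j)⁻¹)⁻¹ := by
  have h : Summable fun n : ℕ => ((2 : ℝ) ^ n + ((2 : ℝ) ^ n)⁻¹)⁻¹ := by
    refine Summable.of_nonneg_of_le (fun n => by positivity) (fun n => ?_) summable_geometric_two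
    rw [one_div, inv_pow]
    exact inv_anti₀ (by positivity) (le_add_of_nonneg_right (by positivity))
  refine Summable.of_nat_of_neg (h.congr fun n => ?_) (h.congr fun n => ?_)
  · rw [zpow_natCast]
  · rw [zpow_neg, zpow_natCast, inv_inv, add_comm]

theorem wq_vp {x y : ℝ} (hx : 0 < x) (hy : 0 < y) (h1 : y ≤ 2 * x) (h2 : x ≤ y) :
    (y + y⁻¹) ^ 3 ≤ 128 * (y + y⁻¹)⁻¹ * vp x := by
  have h3 : y⁻¹ ≤ x⁻¹ := inv_anti₀ hx h2
  have h4 : 0 < x⁻¹ := inv_pos.2 hx
  have h5 : 0 < y + y⁻¹ := by positivity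
  have h6 : (y + y⁻¹) ^ 4 ≤ (2 * (x + x⁻¹)) ^ 4 := pow_le_pow_left₀ h5.le (by linarith) 4
  have h7 := add_pow_le hx.le h4.le 4
  rw [mul_assoc, mul_left_comm, le_inv_mul_iff₀ h5, ← pow_succ']
  unfold vp
  rw [mul_pow] at h6
  norm_num at h6 h7 ⊢
  linarith

/-- Two-sided dyadic decomposition against the weight vp: blocks PD (B 2 ^ j), j an integer. -/
theorem dyw : ∃ C : ℝ, 0 < C ∧ ∀ (Φ : Finset Eis → ℝ), SubQ Φ →
    ∀ (S : Finset Eis) (a : Eis → ℂ) (B F : ℝ), 0 < B → 0 ≤ F → (∀ n ∈ S, PS n) →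
      (∀ K : ℝ, 0 < K → ∀ S' : Finset Eis, S' ⊆ S → S' ⊆ PD K →
        Φ S' ≤ F * (K / B + B / K) ^ 3 * sq S' a) →
      Φ S ≤ C * F * nw S a B := by
  have hT : 0 ≤ ∑' j : ℤ, ((2 : ℝ) ^ j + ((2 : ℝ) ^ j)⁻¹)⁻¹ := tsum_nonneg fun j => by positivity
  refine ⟨128 * (∑' j : ℤ, ((2 : ℝ) ^ j + ((2 : ℝ) ^ j)⁻¹)⁻¹) + 1, by positivity,
    fun Φ hΦ S a B F hB hF hS H => ?_⟩
  have ex : ∀ n : Eis, ∃ j : ℤ, n ∈ S → (2 : ℝ) ^ j < 2 * (N n / B) ∧ N n / B ≤ 2 ^ j := by
    intro n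
    by_cases hn : n ∈ S
    · obtain ⟨j, h3, h4⟩ := exists_mem_Ioc_zpow (div_pos (N_pos (hS n hn).ne_zero) hB)
        (one_lt_two (α := ℝ))
      refine ⟨j + 1, fun _ => ⟨?_, h4⟩⟩
      rw [zpow_add_one₀ two_ne_zero]
      linarith
    · exact ⟨0, fun k => absurd k hn⟩
  choose g hg using ex
  have k := wq_fib hΦ S g (fun j => F * (128 * ((2 : ℝ) ^ j + ((2 : ℝ) ^ j)⁻¹)⁻¹))
    (fun n => ‖a n‖ ^ 2 * vp (N n / B))
    (fun j => by positivity) (fun n => mul_nonneg (sq_nonneg _) (vp_nonneg _)) fun j => by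
      have hj : (0 : ℝ) < 2 ^ j := by positivity
      have h1 := H (B * 2 ^ j) (by positivity) (S.filter (fun n => g n = j))
        (Finset.filter_subset _ _) fun n hn => by
          obtain ⟨h2, rfl⟩ := Finset.mem_filter.1 hn
          obtain ⟨h3, h4⟩ := hg n h2
          rw [← mul_div_assoc, lt_div_iff₀ hB] at h3
          rw [div_le_iff₀ hB] at h4
          exact mem_PD.2 ⟨hS n h2, by linarith, by linarith⟩
      rw [mul_div_cancel_left₀ _ hB.ne', div_mul_cancel_left₀ hB.ne'] at h1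
      refine h1.trans ?_
      rw [mul_assoc, mul_assoc F, sq, Finset.mul_sum, Finset.mul_sum _ _ (128 * _)]
      refine mul_le_mul_of_nonneg_left (Finset.sum_le_sum fun n hn => ?_) hF
      obtain ⟨h2, rfl⟩ := Finset.mem_filter.1 hn
      rw [mul_comm (‖a n‖ ^ 2), ← mul_assoc]
      exact mul_le_mul_of_nonneg_right (wq_vp (div_pos (N_pos (hS n h2).ne_zero) hB) hj
        (hg n h2).1.le (hg n h2).2) (sq_nonneg _)
  refine k.trans (mul_le_mul_of_nonneg_right ?_ (nw_nonneg S a B))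
  rw [← Finset.mul_sum, ← Finset.mul_sum, mul_comm]
  refine mul_le_mul_of_nonneg_right ?_ hF
  have h3 := wq_summable.sum_le_tsum (S.image g) fun j _ => by positivity
  linarith

instance (T : ℝ) : IsProbabilityMeasure (muT T) := by unfold muT; infer_instance
theorem muT_neg (T : ℝ) : (muT T).map (fun τ => -τ) = muT T := by
  rw [muT, ProbabilityTheory.gaussianReal_map_neg, neg_zero]
theorem dens_pos {T : ℝ} (hT : 0 < T) (τ : ℝ) : 0 < dens T τ := by
  have := Real.pi_pos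
  unfold dens
  positivity
theorem dens_neg (T τ : ℝ) : dens T (-τ) = dens T τ := by
  rw [dens, dens, neg_sq]
theorem continuous_dens (T : ℝ) : Continuous (dens T) := by
  unfold dens
  fun_prop
theorem wq_var {T : ℝ} (hT : 0 < T) : Real.toNNReal (T ^ 2) ≠ 0 :=
  (Real.toNNReal_pos.2 (by positivity)).ne'
theorem wq_pdf {T : ℝ} (hT : 0 < T) (τ : ℝ) :
    ProbabilityTheory.gaussianPDFReal 0 (Real.toNNReal (T ^ 2)) τ = dens T τ := by
  rw [ProbabilityTheory.gaussianPDFReal, dens, Real.coe_toNNReal _ (sq_nonneg T),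
    Real.sqrt_mul' _ (sq_nonneg T), Real.sqrt_sq hT.le, sub_zero, neg_div]
theorem integral_muT {T : ℝ} (hT : 0 < T) (f : ℝ → ℝ) :
    ∫ τ, f τ ∂muT T = ∫ τ, dens T τ * f τ := by
  rw [muT, ProbabilityTheory.integral_gaussianReal_eq_integral_smul (wq_var hT)]
  simp only [wq_pdf hT, smul_eq_mul]
theorem integral_nit_muT (T x : ℝ) :
    ∫ τ, cexp (I * ((τ * x : ℝ) : ℂ)) ∂muT T = (Real.exp (-(T ^ 2 * x ^ 2 / 2)) : ℂ) := by
  have h := ProbabilityTheory.charFun_gaussianReal (μ := 0) (v := Real.toNNReal (T ^ 2)) x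
  rw [charFun_apply_real, Real.coe_toNNReal _ (sq_nonneg T)] at h
  rw [muT]
  refine Eq.trans (integral_congr_ae (ae_of_all _ fun τ => ?_)) (h.trans ?_)
  · push_cast
    ring_nf
  · push_cast
    ring_nf
theorem wq_int {T : ℝ} (hT : 0 < T) : Integrable (dens T) :=
  (ProbabilityTheory.integrable_gaussianPDFReal 0 (Real.toNNReal (T ^ 2))).congr
    (ae_of_all _ (wq_pdf hT))
theorem wq_one {T : ℝ} (hT : 0 < T) : ∫ τ, dens T τ = 1 := by
  have := integral_muT hT fun _ => 1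
  simp only [mul_one, integral_const, probReal_univ, smul_eq_mul] at this
  exact this.symm
theorem wq_pow {T M : ℝ} (hT : 0 < T) (h1 : 1 ≤ M) (h2 : T ≤ M) (k : ℕ) (τ : ℝ) :
    dens T τ * (1 + |τ|) ^ k ≤ 2 * Real.exp (k ^ 2) * M ^ k * dens (2 * T) τ := by
  have hp := Real.pi_pos
  set u := |τ| / T with hu
  have hu0 : 0 ≤ u := by positivity
  have e0 : |τ| = T * u := by rw [hu]; field_simp
  have e1 : τ ^ 2 / (2 * T ^ 2) = u ^ 2 / 2 := by
    rw [← sq_abs τ, e0]; field_simp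
  have e2 : τ ^ 2 / (2 * (2 * T) ^ 2) = u ^ 2 / 8 := by
    rw [← sq_abs τ, e0]; field_simp; norm_num
  have a1 : 1 + |τ| ≤ M * Real.exp u := by
    have := Real.add_one_le_exp u
    rw [e0]
    nlinarith [mul_le_mul_of_nonneg_right h2 hu0]
  have a2 := pow_le_pow_left₀ (by positivity) a1 k
  rw [mul_pow, ← Real.exp_nat_mul] at a2
  have a3 : Real.exp (-(u ^ 2 / 2)) * Real.exp (k * u) ≤ Real.exp (k ^ 2) * Real.exp (-(u ^ 2 / 8)) := by
    rw [← Real.exp_add, ← Real.exp_add]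
    exact Real.exp_le_exp.2 (by nlinarith [sq_nonneg (u - 2 * k), sq_nonneg u])
  rw [dens, dens, e1, e2]
  refine (mul_le_mul_of_nonneg_left a2 (by positivity)).trans ?_
  have e3 : (√(2 * Real.pi) * (2 * T))⁻¹ = (√(2 * Real.pi) * T)⁻¹ / 2 := by field_simp
  rw [e3]
  have a4 := mul_le_mul_of_nonneg_left a3 (by positivity : 0 ≤ (√(2 * Real.pi) * T)⁻¹ * M ^ k)
  linarith
theorem integrable_dens_pow {T : ℝ} (hT : 0 < T) (k : ℕ) :
    Integrable (fun τ => dens T τ * (1 + |τ|) ^ k) := by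
  refine ((wq_int (T := 2 * T) (by positivity)).const_mul
    (2 * Real.exp (k ^ 2) * (1 + T) ^ k)).mono' ?_ (ae_of_all _ fun τ => ?_)
  · exact ((continuous_dens T).mul (by fun_prop)).aestronglyMeasurable
  · rw [Real.norm_of_nonneg (mul_nonneg (dens_pos hT τ).le (by positivity))]
    exact wq_pow hT (by linarith) (by linarith) k τ
theorem integral_dens_pow (k : ℕ) : ∃ C : ℝ, 0 < C ∧ ∀ T : ℝ, 1 ≤ T →
    ∫ τ, dens T τ * (1 + |τ|) ^ k ≤ C * T ^ k := by
  refine ⟨2 * Real.exp (k ^ 2), by positivity, fun T h => ?_⟩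
  have hT : 0 < T := by linarith
  refine (integral_mono (integrable_dens_pow hT k) ((wq_int (T := 2 * T) (by positivity)).const_mul
    (2 * Real.exp (k ^ 2) * T ^ k)) fun τ => wq_pow hT h le_rfl k τ).trans (le_of_eq ?_)
  rw [integral_const_mul, wq_one (by positivity), mul_one]
theorem wq_half {T τ : ℝ} (hT : 0 < T) (hτ : 0 < τ) :
    dens T τ * (1 + τ) ^ (-(1 / 2) : ℝ) ≤ (√(2 * Real.pi))⁻¹ * T⁻¹ * T ^ (-(1 / 2) : ℝ) *
      ((τ / T) ^ (-(1 / 2) : ℝ) * Real.exp (-(1 / 2) * (τ / T) ^ 2)) := by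
  have a1 : (1 + τ) ^ (-(1 / 2) : ℝ) ≤ T ^ (-(1 / 2) : ℝ) * (τ / T) ^ (-(1 / 2) : ℝ) := by
    rw [← Real.mul_rpow hT.le (by positivity), mul_div_cancel₀ _ hT.ne']
    exact Real.rpow_le_rpow_of_nonpos hτ (by linarith) (by norm_num)
  refine (mul_le_mul_of_nonneg_left a1 (dens_pos hT τ).le).trans (le_of_eq ?_)
  have e : -(τ ^ 2 / (2 * T ^ 2)) = -(1 / 2) * (τ / T) ^ 2 := by field_simp
  rw [dens, e, mul_inv]
  ring
theorem integral_dens_half : ∃ C : ℝ, 0 < C ∧ ∀ T : ℝ, 1 ≤ T →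
    Integrable (fun τ => dens T τ * (1 + |τ|) ^ (-(1 / 2) : ℝ)) ∧
    ∫ τ, dens T τ * (1 + |τ|) ^ (-(1 / 2) : ℝ) ≤ C * T ^ (-(1 / 2) : ℝ) := by
  obtain ⟨G, hG, hG0, h1⟩ : ∃ G : ℝ → ℝ, Integrable G ∧ (∀ u, 0 ≤ G u) ∧
      ∀ u, |u| ^ (-(1 / 2) : ℝ) * Real.exp (-(1 / 2) * |u| ^ 2) ≤ G u := by
    have hf := (integrable_rpow_mul_exp_neg_mul_sq (b := 1 / 2) (s := -(1 / 2)) (by norm_num)
      (by norm_num)).norm
    refine ⟨_, hf.add hf.comp_neg, fun u => add_nonneg (norm_nonneg _) (norm_nonneg _),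
      fun u => ?_⟩
    rcases le_total 0 u with h | h
    · rw [abs_of_nonneg h]
      exact (le_abs_self _).trans (le_add_of_nonneg_right (norm_nonneg _))
    · rw [abs_of_nonpos h]
      exact (le_abs_self _).trans (le_add_of_nonneg_left (norm_nonneg _))
  have hI : 0 ≤ ∫ u, G u := integral_nonneg hG0
  refine ⟨(√(2 * Real.pi))⁻¹ * (∫ u, G u) + 1, by positivity, fun T h => ?_⟩
  have hT : 0 < T := by linarith
  have h0 : ∀ τ : ℝ, 0 ≤ dens T τ * (1 + |τ|) ^ (-(1 / 2) : ℝ) := fun τ =>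
    mul_nonneg (dens_pos hT τ).le (by positivity)
  constructor
  · refine (wq_int hT).mono' ?_ (ae_of_all _ fun τ => ?_)
    · exact ((continuous_dens T).mul ((continuous_const.add continuous_abs).rpow_const
        fun τ => Or.inl (add_pos_of_pos_of_nonneg one_pos (abs_nonneg τ)).ne')).aestronglyMeasurable
    · rw [Real.norm_of_nonneg (h0 τ)]
      exact mul_le_of_le_one_right (dens_pos hT τ).le
        (Real.rpow_le_one_of_one_le_of_nonpos (by linarith [abs_nonneg τ]) (by norm_num))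
  · have h2 : ∀ᵐ τ : ℝ, dens T τ * (1 + |τ|) ^ (-(1 / 2) : ℝ) ≤
        (√(2 * Real.pi))⁻¹ * T⁻¹ * T ^ (-(1 / 2) : ℝ) * G (τ / T) := by
      filter_upwards [compl_mem_ae_iff.2 (measure_singleton (0 : ℝ))] with τ hτ
      have h3 := wq_half hT (abs_pos.2 hτ)
      have h4 := h1 (τ / T)
      rw [abs_div, abs_of_pos hT] at h4
      have e : dens T |τ| = dens T τ := by rw [dens, dens, sq_abs]
      rw [e] at h3
      exact h3.trans (mul_le_mul_of_nonneg_left h4 (by positivity))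
    refine (integral_mono_of_nonneg (ae_of_all _ h0) ((hG.comp_div hT.ne').const_mul _) h2).trans ?_
    rw [integral_const_mul, Measure.integral_comp_div, abs_of_pos hT, smul_eq_mul]
    have e : (√(2 * Real.pi))⁻¹ * T⁻¹ * T ^ (-(1 / 2) : ℝ) * (T * ∫ u, G u) =
        (√(2 * Real.pi))⁻¹ * (∫ u, G u) * T ^ (-(1 / 2) : ℝ) := by field_simp
    rw [e]
    exact mul_le_mul_of_nonneg_right (by linarith) (by positivity)
theorem wq_low {T τ : ℝ} (hT : 0 < T) (h0 : 0 ≤ τ) (h1 : τ ≤ T) : 1 ≤ 5 * T * dens T τ := by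
  have hp := Real.pi_pos
  have a1 : √(2 * Real.pi) ≤ 2.6 := Real.sqrt_le_iff.2 ⟨by norm_num, by linarith [Real.pi_lt_d2]⟩
  have a2 : τ ^ 2 / (2 * T ^ 2) ≤ 1 / 2 := by
    rw [div_le_iff₀ (by positivity)]
    nlinarith
  have a3 : Real.exp (-(1 / 4)) * Real.exp (-(1 / 4)) ≤ Real.exp (-(τ ^ 2 / (2 * T ^ 2))) := by
    rw [← Real.exp_add]
    exact Real.exp_le_exp.2 (by linarith)
  have a4 := Real.add_one_le_exp (-(1 / 4))
  have e : 5 * T * dens T τ = 5 * Real.exp (-(τ ^ 2 / (2 * T ^ 2))) / √(2 * Real.pi) := by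
    unfold dens
    field_simp
  rw [e, one_le_div (by positivity)]
  nlinarith
/-- A window of length T is dominated by the Gaussian average. -/
theorem window_le {T : ℝ} (hT : 0 < T) (t0 : ℝ) (f : ℝ → ENNReal) :
    ∫⁻ t in Set.Icc t0 (t0 + T), f t ≤ ENNReal.ofReal (5 * T) * ∫⁻ τ, f (t0 + τ) ∂muT T := by
  have e : (fun τ => t0 + τ) ⁻¹' Set.Icc t0 (t0 + T) = Set.Icc 0 T := by
    ext τ
    simp
  rw [← (measurePreserving_add_left volume t0).setLIntegral_comp_preimage_emb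
    (measurableEmbedding_addLeft t0), e, ← smul_eq_mul, ← lintegral_smul_measure]
  refine lintegral_mono' ?_ le_rfl
  rw [muT, ProbabilityTheory.gaussianReal_of_var_ne_zero _ (wq_var hT),
    ← withDensity_smul _ (ProbabilityTheory.measurable_gaussianPDF _ _),
    ← withDensity_indicator_one measurableSet_Icc]
  refine withDensity_mono (ae_of_all _ fun τ => ?_)
  by_cases h : τ ∈ Set.Icc 0 T
  · rw [Set.indicator_of_mem h, Pi.smul_apply, smul_eq_mul, ProbabilityTheory.gaussianPDF,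
      wq_pdf hT, ← ENNReal.ofReal_mul (by positivity), Pi.one_apply, ← ENNReal.ofReal_one]
    exact ENNReal.ofReal_le_ofReal (wq_low hT h.1 h.2)
  · rw [Set.indicator_of_notMem h]
    exact zero_le
theorem wq_cont (S : Finset Eis) (γ f : Eis → ℂ) :
    Continuous fun τ => ‖∑ n ∈ S, tw γ τ n * f n‖ ^ 2 :=
  (continuous_finsetSum _ fun n _ =>
    (continuous_const.mul (continuous_nit n)).mul continuous_const).norm.pow 2
theorem continuous_qt (S : Finset Eis) (γ : Eis → ℂ) (h D : Eis) :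
    Continuous fun τ => qt S (tw γ τ) h D :=
  continuous_const.mul (wq_cont _ γ fun n => cub h (n / D))
theorem qt_nonneg (S : Finset Eis) (γ : Eis → ℂ) (h D : Eis) : 0 ≤ qt S γ h D :=
  mul_nonneg (N_nonneg D) (sq_nonneg _)
theorem qt_tw_le (S : Finset Eis) (γ : Eis → ℂ) (τ : ℝ) (h D : Eis) :
    qt S (tw γ τ) h D ≤ N D * (∑ n ∈ S, ‖γ n‖) ^ 2 := by
  refine mul_le_mul_of_nonneg_left (pow_le_pow_left₀ (norm_nonneg _) ((norm_sum_le _ _).trans
    (le_trans (Finset.sum_le_sum fun n _ => ?_) (Finset.sum_le_sum_of_subset_of_nonneg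
      (Finset.filter_subset _ _) fun n _ _ => norm_nonneg (γ n)))) 2) (N_nonneg D)
  rw [norm_mul, norm_tw]
  exact mul_le_of_le_one_right (norm_nonneg _) (norm_cub_le _ _)
theorem integrable_tw (μ : Measure ℝ) [IsFiniteMeasure μ] (S : Finset Eis) (γ f : Eis → ℂ) :
    Integrable (fun τ => ‖∑ n ∈ S, tw γ τ n * f n‖ ^ 2) μ := by
  refine (integrable_const ((∑ n ∈ S, ‖γ n‖ * ‖f n‖) ^ 2)).mono'
    (wq_cont S γ f).aestronglyMeasurable (ae_of_all _ fun τ => ?_)
  rw [Real.norm_of_nonneg (sq_nonneg _)]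
  refine pow_le_pow_left₀ (norm_nonneg _) ((norm_sum_le _ _).trans (le_of_eq ?_)) 2
  exact Finset.sum_congr rfl fun n _ => by rw [norm_mul, norm_tw]
theorem integrable_qt (μ : Measure ℝ) [IsFiniteMeasure μ] (S : Finset Eis) (γ : Eis → ℂ)
    (h D : Eis) : Integrable (fun τ => qt S (tw γ τ) h D) μ :=
  (integrable_tw μ _ γ fun n => cub h (n / D)).const_mul (N D)
theorem integrable_QC (μ : Measure ℝ) [IsFiniteMeasure μ] (S : Finset Eis) (γ : Eis → ℂ)
    (H : ℝ) : Integrable (fun τ => QC S (tw γ τ) H) μ :=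
  integrable_finsetSum _ fun h _ => integrable_finsetSum _ fun D _ => integrable_qt μ S γ h D
theorem QC_eq (S : Finset Eis) (γ : Eis → ℂ) (H Q0 D0 : ℝ) :
    QC S γ H = NEAR S γ H Q0 D0 + FAR S γ H Q0 D0 := by
  rw [QC, NEAR, FAR, ← Finset.sum_add_distrib]
  refine Finset.sum_congr rfl fun h _ => ?_
  rw [← Finset.sum_add_distrib]
  refine Finset.sum_congr rfl fun D _ => ?_
  split_ifs
  · exact (zero_add _).symm
  · exact (add_zero _).symm
theorem QC_mono (S : Finset Eis) (γ : Eis → ℂ) {H H' : ℝ} (h : H ≤ H') : QC S γ H ≤ QC S γ H' :=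
  Finset.sum_le_sum_of_subset_of_nonneg (ball_mono h) fun k _ _ =>
    Finset.sum_nonneg fun D _ => qt_nonneg S γ k D
theorem QA_dirac (S : Finset Eis) (γ : Eis → ℂ) (H : ℝ) :
    QA (Measure.dirac 0) S γ H = QC S γ H := by
  rw [QA, integral_dirac, tw_zero]
theorem le_QC (S : Finset Eis) (γ : Eis → ℂ) (H : ℝ) :
    ∑ h ∈ ball H, ‖∑ n ∈ S, γ n * cub h n‖ ^ 2 ≤ QC S γ H := by
  refine Finset.sum_le_sum fun h hh => le_trans (le_of_eq ?_)
    (Finset.single_le_sum (f := fun D => qt S γ h D) (fun D _ => qt_nonneg S γ h D)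
      (one_mem_sqd (mem_ball.1 hh).1))
  simp only [qt, N_one, one_mul, one_dvd, Finset.filter_true, EuclideanDomain.div_one]

end Vale.Agent.P006
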