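import Vale.Agent.P006.LS
import Vale.Agent.P006.WtQ
import Vale.Agent.P006.GaussP

/-! Bilinear forms in Dl from the large sieve. -/

namespace Vale.Agent.P006

open Vale.Agent.P026 Eis Complex MeasureTheory Filter Topology
open scoped Classical ComplexConjugate

/-- Only squarefree elements matter. -/
theorem Bil_filter {S T : Finset Eis} (hS : ∀ a ∈ S, Prim a) (hT : ∀ b ∈ T, Prim b)
    (α β : Eis → ℂ) : Bil S T α β = Bil (S.filter PS) (T.filter PS) α β := by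
  have _ := hT
  unfold Bil
  simp only [Finset.sum_filter]
  refine Finset.sum_congr rfl fun a ha => ?_
  have key : ∀ b, ¬ (PS a ∧ PS b) → α a * β b * Dl (a * b) = 0 := fun b h => by
    rw [Dl_of_not fun h1 => h ⟨(PS.of_mul (hS a ha) h1).1, (PS.of_mul (hS a ha) h1).2.1⟩, mul_zero]
  split_ifs with h
  · refine Finset.sum_congr rfl fun b _ => ?_
    split_ifs with h'
    · rfl
    · exact key b fun h1 => h' h1.2
  · exact Finset.sum_eq_zero fun b _ => key b fun h1 => h h1.1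
theorem Bil_comm (S T : Finset Eis) (α β : Eis → ℂ) : Bil S T α β = Bil T S β α := by
  unfold Bil
  rw [Finset.sum_comm]
  refine Finset.sum_congr rfl fun b _ => Finset.sum_congr rfl fun a _ => ?_
  rw [mul_comm a b, mul_comm (α a)]

theorem bil_one_le_ell {Z : ℝ} (hZ : 0 ≤ Z) : 1 ≤ ell Z :=
  Real.one_le_rpow (ls_one_le_log hZ) (by norm_num)

theorem bil_zero {S : Finset Eis} (hS : ∀ a ∈ S, Prim a) : (0 : Eis) ∉ S :=
  fun h => (hS 0 h).ne_zero rfl

theorem bil_scale {K A : ℝ} (hK : 0 < K) (hA : 0 < A) :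
    1 ≤ K / A + A / K ∧ K ≤ A * (K / A + A / K) := by
  constructor
  · rcases le_total A K with h | h
    · exact le_add_of_le_of_nonneg ((one_le_div hA).2 h) (by positivity)
    · exact le_add_of_nonneg_of_le (by positivity) ((one_le_div hK).2 h)
  · rw [mul_add, mul_div_cancel₀ _ hA.ne']
    exact le_add_of_nonneg_right (by positivity)

theorem bil_alg {K L A B x y : ℝ} (hK : 0 < K) (hL : 0 < L) (hA : 0 < A) (hB : 0 < B)
    (hx : 1 ≤ x) (hy : 1 ≤ y) (h1 : K ≤ A * x) (h2 : L ≤ B * y) :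
    K + L + (K * L) ^ (2 / 3 : ℝ) ≤ (A + B + (A * B) ^ (2 / 3 : ℝ)) * x ^ 3 * y ^ 3 := by
  have hxy : 1 ≤ x * y := one_le_mul_of_one_le_of_one_le hx hy
  have h3 : x * y ≤ x ^ 3 * y ^ 3 := by
    rw [← mul_pow]; exact le_self_pow₀ hxy three_ne_zero
  have h4 : x ≤ x * y := le_mul_of_one_le_right (by linarith) hy
  have h5 : y ≤ x * y := le_mul_of_one_le_left (by linarith) hx
  have h6 : (K * L) ^ (2 / 3 : ℝ) ≤ (A * B) ^ (2 / 3 : ℝ) * (x * y) := by
    calc (K * L) ^ (2 / 3 : ℝ) ≤ (A * B * (x * y)) ^ (2 / 3 : ℝ) := by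
          refine Real.rpow_le_rpow (by positivity) ?_ (by norm_num)
          calc K * L ≤ A * x * (B * y) := mul_le_mul h1 h2 hL.le (by positivity)
            _ = _ := by ring
      _ = (A * B) ^ (2 / 3 : ℝ) * (x * y) ^ (2 / 3 : ℝ) :=
          Real.mul_rpow (by positivity) (by positivity)
      _ ≤ _ := mul_le_mul_of_nonneg_left (Real.rpow_le_self_of_one_le hxy (by norm_num))
          (by positivity)
  have h7 : K ≤ A * (x * y) := h1.trans (mul_le_mul_of_nonneg_left h4 hA.le)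
  have h8 : L ≤ B * (x * y) := h2.trans (mul_le_mul_of_nonneg_left h5 hB.le)
  calc _ ≤ (A + B + (A * B) ^ (2 / 3 : ℝ)) * (x * y) := by linarith
    _ ≤ (A + B + (A * B) ^ (2 / 3 : ℝ)) * (x ^ 3 * y ^ 3) :=
        mul_le_mul_of_nonneg_left h3 (by positivity)
    _ = _ := by ring

theorem bil_block : ∃ C : ℝ, 0 < C ∧ ∀ (S T : Finset Eis) (α β : Eis → ℂ) (K L Z : ℝ), 0 < K →
    0 < L → 0 < Z → S ⊆ PB K → S ⊆ PB Z → T ⊆ PB L →
      ‖∑ b ∈ T, ∑ a ∈ S, α a * β b * (G a * G b * conj (cub a b))‖ ^ 2 ≤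
        C * ell Z * (K + L + (K * L) ^ (2 / 3 : ℝ)) * sq S α * sq T β := by
  obtain ⟨C, hC, h⟩ := ls0
  refine ⟨C, hC, fun S T α β K L Z hK hL hZ h1 h2 h3 => ?_⟩
  obtain ⟨γ, hγ⟩ : ∃ γ : Eis → ℂ, ∀ b, γ b = if b ∈ T then conj (β b * G b) else 0 :=
    ⟨_, fun _ => rfl⟩
  have hM : 0 < min K Z := lt_min hK hZ
  have h4 := h (min K Z) L γ hM hL
  have h5 : sq (PB L) γ ≤ sq T β := by
    unfold sq
    rw [← Finset.sum_subset h3 fun b _ hb => by rw [hγ, if_neg hb, norm_zero, zero_pow two_ne_zero]]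
    refine Finset.sum_le_sum fun b hb => pow_le_pow_left₀ (norm_nonneg _) ?_ 2
    rw [hγ, if_pos hb, Complex.norm_conj, norm_mul]
    exact mul_le_of_le_one_right (norm_nonneg _) (norm_G_le b)
  have h6 : ∀ a, ∑ b ∈ T, α a * β b * (G a * G b * conj (cub a b)) =
      α a * G a * conj (∑ b ∈ PB L, γ b * cub a b) := by
    intro a
    rw [← Finset.sum_subset h3 fun b _ hb => by rw [hγ, if_neg hb, zero_mul], map_sum,
      Finset.mul_sum]
    refine Finset.sum_congr rfl fun b hb => ?_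
    rw [hγ, if_pos hb, map_mul, conj_conj]
    ring
  have h7 : ‖∑ b ∈ T, ∑ a ∈ S, α a * β b * (G a * G b * conj (cub a b))‖ ^ 2 ≤
      sq S α * QL (min K Z) (PB L) γ := by
    rw [Finset.sum_comm, Finset.sum_congr rfl fun a _ => h6 a]
    refine (pow_le_pow_left₀ (norm_nonneg _) (norm_sum_le _ _) 2).trans ?_
    refine le_trans ?_ (mul_le_mul_of_nonneg_left (Finset.sum_le_sum_of_subset_of_nonneg
      (ls_min h1 h2) fun _ _ _ => sq_nonneg _) (sq_nonneg' _ _))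
    refine Finset.sum_sq_le_sum_mul_sum_of_sq_le_mul S (fun _ _ => sq_nonneg _)
      (fun _ _ => sq_nonneg _) fun a _ => ?_
    rw [← mul_pow, norm_mul, norm_mul, Complex.norm_conj]
    refine pow_le_pow_left₀ (by positivity) (mul_le_mul_of_nonneg_right ?_ (norm_nonneg _)) 2
    exact mul_le_of_le_one_right (norm_nonneg _) (norm_G_le a)
  have h8 : ell (min (min K Z) L) ≤ ell Z :=
    ls_ell_mono (le_min hM.le hL.le) ((min_le_left _ _).trans (min_le_right _ _))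
  have h9 := ls_ell_nonneg hZ.le
  have h10 := sq_nonneg' S α
  have h11 := sq_nonneg' (PB L) γ
  have h12 := min_le_left K Z
  refine h7.trans ((mul_le_mul_of_nonneg_left (h4.trans ?_) h10).trans_eq
    (show sq S α * (C * ell Z * (K + L + (K * L) ^ (2 / 3 : ℝ)) * sq T β) = _ by ring))
  gcongr

theorem bil_gauss : ∃ C : ℝ, 0 < C ∧ ∀ (S T : Finset Eis) (α β : Eis → ℂ) (A B Z : ℝ), 0 < A →
    0 < B → 0 < Z → S ⊆ PB Z → (∀ b ∈ T, PS b) →
      ‖∑ a ∈ S, ∑ b ∈ T, α a * β b * (G a * G b * conj (cub a b))‖ ^ 2 ≤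
        C * ell Z * (A + B + (A * B) ^ (2 / 3 : ℝ)) * nw S α A * nw T β B := by
  obtain ⟨C, hC, h⟩ := bil_block
  obtain ⟨D, hD, hd⟩ := dyw
  refine ⟨D * D * C, by positivity, fun S T α β A B Z hA hB hZ hS hT => ?_⟩
  have h1 := ls_ell_nonneg hZ.le
  have h2 := nw_nonneg T β B
  refine (hd _ (subQ_norm_sq _) S α A
    (D * (C * ell Z * (A + B + (A * B) ^ (2 / 3 : ℝ))) * nw T β B) hA (by positivity)
    (fun n hn => (mem_PB.1 (hS hn)).1) fun K hK S' hS1 hS2 => ?_).trans_eq (by ring)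
  have h3 := sq_nonneg' S' α
  rw [Finset.sum_comm]
  refine (hd _ (subQ_norm_sq _) T β B
    (C * ell Z * (A + B + (A * B) ^ (2 / 3 : ℝ)) * (K / A + A / K) ^ 3 * sq S' α) hB
    (by positivity) hT fun L hL T' _ hT2 => ?_).trans_eq (by ring)
  refine (h S' T' α β K L Z hK hL hZ (hS2.trans (PD_subset K)) (hS1.trans hS)
    (hT2.trans (PD_subset L))).trans ?_
  have h4 := bil_alg hK hL hA hB (bil_scale hK hA).1 (bil_scale hL hB).1 (bil_scale hK hA).2
    (bil_scale hL hB).2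
  have h5 := sq_nonneg' T' β
  refine le_trans (b := C * ell Z * ((A + B + (A * B) ^ (2 / 3 : ℝ)) * (K / A + A / K) ^ 3 *
    (L / B + B / L) ^ 3) * sq S' α * sq T' β) (by gcongr) (le_of_eq (by ring))

theorem bil_third {A B : ℝ} (hA : 0 < A) (hB : 0 < B) :
    (A ^ (-(1 / 6) + 1 / 2 : ℝ) * B ^ (-(1 / 6) + 1 / 2 : ℝ)) ^ 2 = (A * B) ^ (2 / 3 : ℝ) := by
  rw [← Real.mul_rpow hA.le hB.le, ← Real.rpow_natCast, ← Real.rpow_mul (by positivity)]
  norm_num

theorem bil_model : ∃ C : ℝ, 0 < C ∧ ∀ (S T : Finset Eis) (α β : Eis → ℂ) (A B : ℝ), 0 < A →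
    0 < B → (0 : Eis) ∉ S → (0 : Eis) ∉ T →
      ‖∑ a ∈ S, ∑ b ∈ T, α a * β b *
        (((cs * N a ^ (-(1 / 6) : ℝ) * N b ^ (-(1 / 6) : ℝ) : ℝ) : ℂ) * cop a b)‖ ^ 2 ≤
        C * (A * B) ^ (2 / 3 : ℝ) * nw S α A * nw T β B := by
  obtain ⟨C, hC, h⟩ := l1_le (b := -(1 / 6)) (by norm_num) (by norm_num)
  have hcs := cs_pos
  refine ⟨(cs * C * C) ^ 2, by positivity, fun S T α β A B hA hB hS hT => ?_⟩
  have h0 : ∀ (γ : Eis → ℂ) (n : Eis), 0 ≤ ‖γ n‖ * N n ^ (-(1 / 6) : ℝ) := fun γ n =>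
    mul_nonneg (norm_nonneg _) (Real.rpow_nonneg (N_nonneg n) _)
  have h1 : ‖∑ a ∈ S, ∑ b ∈ T, α a * β b *
      (((cs * N a ^ (-(1 / 6) : ℝ) * N b ^ (-(1 / 6) : ℝ) : ℝ) : ℂ) * cop a b)‖ ≤
      cs * ((∑ a ∈ S, ‖α a‖ * N a ^ (-(1 / 6) : ℝ)) * ∑ b ∈ T, ‖β b‖ * N b ^ (-(1 / 6) : ℝ)) := by
    rw [Finset.sum_mul_sum, Finset.mul_sum]
    refine (norm_sum_le _ _).trans (Finset.sum_le_sum fun a _ => ?_)
    rw [Finset.mul_sum]
    refine (norm_sum_le _ _).trans (Finset.sum_le_sum fun b _ => ?_)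
    have h2 := Real.rpow_nonneg (N_nonneg a) (-(1 / 6))
    have h3 := Real.rpow_nonneg (N_nonneg b) (-(1 / 6))
    rw [norm_mul, norm_mul, norm_mul, norm_real, Real.norm_of_nonneg (by positivity)]
    refine (mul_le_mul_of_nonneg_left (mul_le_of_le_one_right (by positivity) (norm_cop_le a b))
      (by positivity)).trans_eq (by ring)
  have h2 := mul_le_mul (h A hA S α hS) (h B hB T β hT) (Finset.sum_nonneg fun n _ => h0 β n)
    (by positivity)
  refine (pow_le_pow_left₀ (norm_nonneg _) (h1.trans (mul_le_mul_of_nonneg_left h2 hcs.le))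
    2).trans_eq ?_
  rw [← bil_third hA hB]
  have e1 := Real.sq_sqrt (nw_nonneg S α A)
  have e2 := Real.sq_sqrt (nw_nonneg T β B)
  calc _ = (cs * C * C) ^ 2 * (A ^ (-(1 / 6) + 1 / 2 : ℝ) * B ^ (-(1 / 6) + 1 / 2 : ℝ)) ^ 2 *
        √(nw S α A) ^ 2 * √(nw T β B) ^ 2 := by ring
    _ = _ := by rw [e1, e2]

/-- Dl_mul. Gauss sum part: dyw in both variables, Cauchy-Schwarz and ls0 on blocks
(a block of S lies in PB (min K Z)). Model part: l1_le with b = -1/6. -/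
theorem bilw : ∃ C : ℝ, 0 < C ∧ ∀ (S T : Finset Eis) (α β : Eis → ℂ) (A B Z : ℝ), 0 < A → 0 < B →
    0 < Z → (∀ a ∈ S, Prim a ∧ N a ≤ Z) → (∀ b ∈ T, Prim b) →
      ‖Bil S T α β‖ ^ 2 ≤ C * ell Z * (A + B + (A * B) ^ (2 / 3 : ℝ)) * nw S α A * nw T β B := by
  obtain ⟨C, hC, h⟩ := bil_gauss
  obtain ⟨D, hD, hd⟩ := bil_model
  refine ⟨2 * (C + D), by positivity, fun S T α β A B Z hA hB hZ hS hT => ?_⟩
  have hS1 : ∀ a ∈ S.filter PS, PS a := fun a ha => (Finset.mem_filter.1 ha).2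
  have hT1 : ∀ b ∈ T.filter PS, PS b := fun a ha => (Finset.mem_filter.1 ha).2
  have h1 := h (S.filter PS) (T.filter PS) α β A B Z hA hB hZ
    (fun a ha => mem_PB.2 ⟨hS1 a ha, (hS a (Finset.mem_filter.1 ha).1).2⟩) hT1
  have h2 := hd (S.filter PS) (T.filter PS) α β A B hA hB (bil_zero fun a ha => (hS1 a ha).1)
    (bil_zero fun a ha => (hT1 a ha).1)
  have h3 : nw (S.filter PS) α A * nw (T.filter PS) β B ≤ nw S α A * nw T β B :=
    mul_le_mul (nw_mono (Finset.filter_subset _ _) (fun _ _ => le_rfl) A)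
      (nw_mono (Finset.filter_subset _ _) (fun _ _ => le_rfl) B) (nw_nonneg _ _ _)
      (nw_nonneg _ _ _)
  have h4 := mul_nonneg (nw_nonneg (S.filter PS) α A) (nw_nonneg (T.filter PS) β B)
  have h5 := bil_one_le_ell hZ.le
  have h6 : (A * B) ^ (2 / 3 : ℝ) ≤ ell Z * (A + B + (A * B) ^ (2 / 3 : ℝ)) :=
    le_trans (by linarith) (le_mul_of_one_le_left (by positivity) h5)
  rw [Bil_filter (fun a ha => (hS a ha).1) hT, Bil, Finset.sum_congr rfl fun a ha =>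
    Finset.sum_congr rfl fun b hb => by rw [Dl_mul (hS1 a ha) (hT1 b hb), mul_sub]]
  simp only [Finset.sum_sub_distrib]
  rw [mul_assoc, mul_assoc C] at h1
  rw [mul_assoc] at h2
  have h7 := h2.trans (mul_le_mul (mul_le_mul_of_nonneg_left h6 hD.le) h3 h4 (by positivity))
  have h8 := h1.trans (mul_le_mul_of_nonneg_left h3 (by positivity))
  refine (pow_le_pow_left₀ (norm_nonneg _) (norm_sub_le _ _) 2).trans
    ((add_sq_le.trans (mul_le_mul_of_nonneg_left (add_le_add h8 h7) zero_le_two)).trans_eq ?_)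
  ring

theorem bil_nw : ∃ C : ℝ, 0 < C ∧ ∀ (T : Finset Eis) (b : Eis → ℂ) (Y t : ℝ), 0 < Y → Bd1 b →
    (0 : Eis) ∉ T → nw T (fun e => b e * W Y t e) Y ≤ C * (Y * min 1 (Y ^ 10)) := by
  obtain ⟨C, hC, h⟩ := sum_lg_le (c := 1) (k := 0) one_pos (by norm_num)
  obtain ⟨D, hD, hd⟩ := sum_lg_small (c := 1) one_pos 0 11
  refine ⟨2 * Real.exp (4 / 1) * (C + D), by positivity, fun T b Y t hY hb hT => ?_⟩
  have h1 : nw T (fun e => b e * W Y t e) Y ≤
      2 * Real.exp (4 / 1) * ∑ n ∈ T, N n ^ (0 : ℝ) * lg 1 (N n / Y) := by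
    rw [Finset.mul_sum]
    refine Finset.sum_le_sum fun n hn => ?_
    have h2 := lg_mul_vp one_pos (div_pos (N_pos (wt_ne hT hn)) hY)
    have h3 := (lg_pos 1 (N n / Y)).le
    have h4 : ‖b n * W Y t n‖ ≤ lg 1 (N n / Y) := by
      rw [norm_mul, norm_W, lg_one]
      exact mul_le_of_le_one_left (lg_one _ ▸ h3) (hb n)
    rw [Real.rpow_zero, one_mul]
    calc _ ≤ lg 1 (N n / Y) ^ 2 * vp (N n / Y) :=
          mul_le_mul_of_nonneg_right (pow_le_pow_left₀ (norm_nonneg _) h4 2) (vp_nonneg _)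
      _ = lg 1 (N n / Y) * vp (N n / Y) * lg 1 (N n / Y) := by ring
      _ ≤ _ := mul_le_mul_of_nonneg_right h2 h3
  refine h1.trans ?_
  rw [mul_assoc (2 * _)]
  refine mul_le_mul_of_nonneg_left ?_ (by positivity)
  rcases le_total Y 1 with h2 | h2
  · rw [min_eq_right (pow_le_one₀ hY.le h2), ← pow_succ']
    refine (hd Y hY h2 T hT).trans ?_
    rw [show (11 : ℝ) = ((10 + 1 : ℕ) : ℝ) by norm_num, Real.rpow_natCast]
    exact mul_le_mul_of_nonneg_right (by linarith) (by positivity)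
  · rw [min_eq_left (one_le_pow₀ h2), mul_one]
    refine (h Y hY T hT).trans ?_
    rw [zero_add, Real.rpow_one]
    exact mul_le_mul_of_nonneg_right (by linarith) hY.le

/-- Limit of bilw over balls; the weighted norm of b W Y t is ≤ C Y, and ≤ C Y ^ 11 for Y ≤ 1. -/
theorem bilW : ∃ C : ℝ, 0 < C ∧ ∀ (S : Finset Eis) (α b : Eis → ℂ) (A Y Z t : ℝ), 0 < A → 0 < Y →
    0 < Z → (∀ a ∈ S, Prim a ∧ N a ≤ Z) → Bd1 b →
      ‖∑ a ∈ S, α a * ∑' e, b e * W Y t e * Dl (a * e)‖ ^ 2 ≤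
        C * ell Z * (A + Y + (A * Y) ^ (2 / 3 : ℝ)) * nw S α A * (Y * min 1 (Y ^ 10)) := by
  obtain ⟨C, hC, h⟩ := bilw
  obtain ⟨D, hD, hd⟩ := bil_nw
  refine ⟨C * D, by positivity, fun S α b A Y Z t hA hY hZ hS hb => ?_⟩
  have h1 : ∀ a, Summable fun e => b e * W Y t e * Dl (a * e) := by
    intro a
    refine Summable.of_norm_bounded ((summable_lg one_pos 0 hY).mul_right (1 + cs)) fun e => ?_
    rw [norm_mul, norm_mul, norm_W, Real.rpow_zero, one_mul, lg_one]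
    exact mul_le_mul (mul_le_of_le_one_left (Real.exp_pos _).le (hb e)) (norm_Dl_le _)
      (norm_nonneg _) (Real.exp_pos _).le
  have h2 : ∀ a, Tendsto (fun K : ℝ => ∑ e ∈ ball K, b e * W Y t e * Dl (a * e)) atTop
      (𝓝 (∑' e, b e * W Y t e * Dl (a * e))) := by
    intro a
    have h3 := tendsto_sum_ball (h1 a).hasSum
    rwa [mul_zero, Dl_of_not fun h => PS.ne_zero h rfl, mul_zero, sub_zero] at h3
  have h3 := ((tendsto_finsetSum S fun a _ => (h2 a).const_mul (α a)).norm).pow 2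
  refine le_of_tendsto' h3 fun K => ?_
  have hT : ∀ e ∈ (ball K).filter Prim, Prim e := fun e he => (Finset.mem_filter.1 he).2
  have e1 : ∑ a ∈ S, α a * ∑ e ∈ ball K, b e * W Y t e * Dl (a * e) =
      Bil S ((ball K).filter Prim) α fun e => b e * W Y t e := by
    refine Finset.sum_congr rfl fun a ha => ?_
    rw [Finset.mul_sum, Finset.sum_filter]
    refine Finset.sum_congr rfl fun e _ => ?_
    split_ifs with he
    · ring
    · rw [Dl_of_not fun h4 => he ((hS a ha).1.of_mul h4.1), mul_zero, mul_zero]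
  rw [e1]
  refine (h S _ α _ A Y Z hA hY hZ hS hT).trans ?_
  have h4 := nw_nonneg S α A
  have h5 := ls_ell_nonneg hZ.le
  exact (mul_le_mul_of_nonneg_left (hd _ b Y t hY hb (bil_zero hT)) (by positivity)).trans_eq
    (by ring)

theorem bil_fib {ι : Type} (S : Finset ι) (u : ι → ℝ) (hu : ∀ a, 0 ≤ u a) (k : ι → ℕ)
    (g : ℕ → ℕ) (hg : Function.Injective g) (R : Finset ℕ) :
    ∑ i ∈ R, ∑ a ∈ S.filter (fun a => k a = g i), u a ≤ ∑ a ∈ S, u a := by
  simp only [Finset.sum_filter]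
  rw [Finset.sum_comm]
  refine Finset.sum_le_sum fun a _ => ?_
  by_cases h : ∃ i ∈ R, k a = g i
  · obtain ⟨i, hi, e⟩ := h
    rw [Finset.sum_eq_single_of_mem i hi fun j _ hj => if_neg fun h => hj (hg (h.symm.trans e)),
      if_pos e]
  · rw [Finset.sum_eq_zero fun i hi => if_neg fun h1 => h ⟨i, hi, h1⟩]
    exact hu a

theorem bil_diag {ι κ : Type} (S : Finset ι) (T : Finset κ) (F : ι → κ → ℂ) (u : ι → ℝ)
    (v : κ → ℝ) (hu : ∀ a, 0 ≤ u a) (hv : ∀ b, 0 ≤ v b) {Δ : ℝ} (hΔ : 0 ≤ Δ)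
    (h : ∀ S' ⊆ S, ∀ T' ⊆ T, ‖∑ a ∈ S', ∑ b ∈ T', F a b‖ ≤
      Δ * √(∑ a ∈ S', u a) * √(∑ b ∈ T', v b))
    (k1 : ι → ℕ) (k2 : κ → ℕ) (n : ℕ) (h1 : ∀ a ∈ S, k1 a < n) :
    ‖∑ a ∈ S, ∑ b ∈ T, if k1 a = k2 b + 1 ∧ k2 b % 2 = 0 then F a b else 0‖ ≤
      Δ * √(∑ a ∈ S, u a) * √(∑ b ∈ T, v b) := by
  have e : (∑ a ∈ S, ∑ b ∈ T, if k1 a = k2 b + 1 ∧ k2 b % 2 = 0 then F a b else 0) =
      ∑ i ∈ Finset.range n, ∑ a ∈ S.filter (fun a => k1 a = 2 * i + 1),
        ∑ b ∈ T.filter (fun b => k2 b = 2 * i), F a b := by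
    simp only [Finset.sum_filter]
    rw [Finset.sum_comm (s := Finset.range n)]
    refine Finset.sum_congr rfl fun a ha => ?_
    have h2 := h1 a ha
    rw [Finset.sum_eq_single_of_mem (k1 a / 2) (Finset.mem_range.2 (by omega))
      fun j _ hj => if_neg (by omega)]
    split_ifs with h3
    · exact Finset.sum_congr rfl fun b _ => if_congr (by omega) rfl rfl
    · exact Finset.sum_eq_zero fun b _ => if_neg (by omega)
  rw [e]
  refine (norm_sum_le _ _).trans ((Finset.sum_le_sum fun i _ =>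
    h _ (Finset.filter_subset _ _) _ (Finset.filter_subset _ _)).trans ?_)
  simp only [mul_assoc]
  rw [← Finset.mul_sum]
  refine mul_le_mul_of_nonneg_left ((Real.sum_sqrt_mul_sqrt_le _
    (fun i => Finset.sum_nonneg fun a _ => hu a) fun i => Finset.sum_nonneg fun b _ => hv b).trans
    (mul_le_mul (Real.sqrt_le_sqrt ?_) (Real.sqrt_le_sqrt ?_) (Real.sqrt_nonneg _)
      (Real.sqrt_nonneg _))) hΔ
  · exact bil_fib S u hu k1 (fun i => 2 * i + 1) (fun i j h => by simp only at h; omega) _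
  · exact bil_fib T v hv k2 (fun i => 2 * i) (fun i j h => by simp only at h; omega) _

/-- Triangular truncation. κ2 b < κ1 a iff for exactly one level i < J and one v we have
κ1 a / 2 ^ i = 2 v + 1 and κ2 b / 2 ^ i = 2 v; Cauchy-Schwarz over v. -/
theorem tri {ι κ : Type} (S : Finset ι) (T : Finset κ) (F : ι → κ → ℂ) (u : ι → ℝ) (v : κ → ℝ)
    (hu : ∀ a, 0 ≤ u a) (hv : ∀ b, 0 ≤ v b) {Δ : ℝ} (hΔ : 0 ≤ Δ)
    (h : ∀ S' ⊆ S, ∀ T' ⊆ T, ‖∑ a ∈ S', ∑ b ∈ T', F a b‖ ≤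
      Δ * √(∑ a ∈ S', u a) * √(∑ b ∈ T', v b))
    (k1 : ι → ℕ) (k2 : κ → ℕ) (J : ℕ) (h1 : ∀ a ∈ S, k1 a < 2 ^ J) :
    ‖∑ a ∈ S, ∑ b ∈ T, if k2 b < k1 a then F a b else 0‖ ≤
      J * Δ * √(∑ a ∈ S, u a) * √(∑ b ∈ T, v b) := by
  induction J generalizing k1 k2 with
  | zero =>
    rw [Finset.sum_eq_zero fun a ha => Finset.sum_eq_zero fun b _ =>
      if_neg (by have := h1 a ha; omega)]
    simp
  | succ J ih =>
    have h2 := ih (fun a => k1 a / 2) (fun b => k2 b / 2) fun a ha => by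
      have := h1 a ha
      rw [pow_succ] at this
      omega
    have h3 := bil_diag S T F u v hu hv hΔ h k1 k2 _ h1
    have e : (∑ a ∈ S, ∑ b ∈ T, if k2 b < k1 a then F a b else 0) =
        (∑ a ∈ S, ∑ b ∈ T, if k2 b / 2 < k1 a / 2 then F a b else 0) +
        ∑ a ∈ S, ∑ b ∈ T, if k1 a = k2 b + 1 ∧ k2 b % 2 = 0 then F a b else 0 := by
      simp only [← Finset.sum_add_distrib]
      refine Finset.sum_congr rfl fun a _ => Finset.sum_congr rfl fun b _ => ?_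
      split_ifs <;> first | omega | simp
    rw [e]
    refine (norm_add_le _ _).trans ((add_le_add h2 h3).trans_eq ?_)
    push_cast
    ring
/-- Pairs that are not coprime: for each prime p of b use sum_rpow_div_vp at scale A / N p. -/
theorem schur {x : ℝ} (h1 : -5 < x) (h2 : x < 3) : ∃ C : ℝ, 0 < C ∧ ∀ (S : Finset Eis) (b : Eis)
    (A z u : ℝ), 0 < A → 0 < z → (0 : Eis) ∉ S → Ro z b → ((pf b).card : ℝ) ≤ u →
      ∑ a ∈ S, (if IsCoprime a b then 0 else N a ^ x / vp (N a / A)) ≤ C * A ^ (x + 1) * u / z := by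
  obtain ⟨C, hC, h⟩ := sum_rpow_div_vp h1 h2
  refine ⟨C, hC, fun S b A z u hA hz hS hb hu => ?_⟩
  have hb0 := hb.1.ne_zero
  have h0 : ∀ a : Eis, 0 ≤ N a ^ x / vp (N a / A) := fun a =>
    div_nonneg (Real.rpow_nonneg (N_nonneg a) _) (vp_nonneg _)
  have h3 : ∀ p ∈ pf b, ∑ a ∈ S.filter (fun a => p ∣ a), N a ^ x / vp (N a / A) ≤
      C * A ^ (x + 1) / z := by
    intro p hp
    obtain ⟨hp1, -, hp3⟩ := (mem_pf hb0).1 hp
    have hp0 := N_pos hp1.ne_zero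
    have h4 := h (A / N p) (by positivity) ((S.filter fun n => p ∣ n).image fun n => n / p) (by
      intro h5
      obtain ⟨n, hn, e⟩ := Finset.mem_image.1 h5
      obtain ⟨hn1, m, rfl⟩ := Finset.mem_filter.1 hn
      rw [mul_div_cancel_left₀ _ hp1.ne_zero] at e
      rw [e, mul_zero] at hn1
      exact hS hn1)
    rw [sum_filter_dvd hp1.ne_zero]
    calc _ = N p ^ x * ∑ m ∈ (S.filter fun n => p ∣ n).image fun n => n / p,
          N m ^ x / vp (N m / (A / N p)) := by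
          rw [Finset.mul_sum]
          refine Finset.sum_congr rfl fun m _ => ?_
          rw [N_mul, Real.mul_rpow hp0.le (N_nonneg m), div_div_eq_mul_div, mul_comm (N m),
            mul_div_assoc]
      _ ≤ N p ^ x * (C * (A / N p) ^ (x + 1)) := mul_le_mul_of_nonneg_left h4 (by positivity)
      _ = C * A ^ (x + 1) / N p := by
          rw [Real.div_rpow hA.le hp0.le, Real.rpow_add_one hp0.ne']
          field_simp
      _ ≤ _ := div_le_div_of_nonneg_left (by positivity) hz (hb.2 p hp1 hp3).le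
  calc _ ≤ ∑ a ∈ S, ∑ p ∈ pf b, if p ∣ a then N a ^ x / vp (N a / A) else 0 := by
        refine Finset.sum_le_sum fun a _ => ?_
        have h4 : ∀ p ∈ pf b, 0 ≤ if p ∣ a then N a ^ x / vp (N a / A) else 0 := fun p _ => by
          split_ifs
          exacts [h0 a, le_rfl]
        split_ifs with h5
        · exact Finset.sum_nonneg h4
        · obtain ⟨p, p1, p2, p3, p4⟩ := (not_cop_iff hb.1).1 fun h6 => h5 h6.symm
          exact (if_pos p4).symm.trans_le (Finset.single_le_sum h4 ((mem_pf hb0).2 ⟨p1, p2, p3⟩))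
    _ = ∑ p ∈ pf b, ∑ a ∈ S.filter (fun a => p ∣ a), N a ^ x / vp (N a / A) := by
        rw [Finset.sum_comm]
        simp only [Finset.sum_filter]
    _ ≤ (pf b).card * (C * A ^ (x + 1) / z) :=
        (Finset.sum_le_card_nsmul _ _ _ h3).trans_eq (nsmul_eq_mul _ _)
    _ ≤ u * (C * A ^ (x + 1) / z) := mul_le_mul_of_nonneg_right hu (by positivity)
    _ = _ := by ring
theorem ncop_le : ∃ C : ℝ, 0 < C ∧ ∀ (S T : Finset Eis) (α β : Eis → ℂ) (A B z u : ℝ), 0 < A →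
    0 < B → 0 < z → 0 ≤ u → (0 : Eis) ∉ S → (∀ b ∈ T, Ro z b ∧ ((pf b).card : ℝ) ≤ u) →
      (∑ a ∈ S, ∑ b ∈ T, if IsCoprime a b then 0 else
        ‖α a‖ * N a ^ (-(1 / 6) : ℝ) * (‖β b‖ * N b ^ (-(1 / 6) : ℝ))) ^ 2 ≤
        C * (A * B) ^ (2 / 3 : ℝ) * (u / z) * nw S α A * nw T β B := by
  obtain ⟨C, hC, h⟩ := schur (x := -(1 / 3)) (by norm_num) (by norm_num)
  obtain ⟨D, hD, hd⟩ := sum_rpow_div_vp (a := -(1 / 3)) (by norm_num) (by norm_num)
  refine ⟨C * D, by positivity, fun S T α β A B z u hA hB hz hu hS hT => ?_⟩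
  have hT0 : (0 : Eis) ∉ T := bil_zero fun b hb => (hT b hb).1.1
  have h0 : ∀ (a : Eis) (K : ℝ), 0 ≤ N a ^ (-(1 / 3) : ℝ) / vp (N a / K) := fun a K =>
    div_nonneg (Real.rpow_nonneg (N_nonneg a) _) (vp_nonneg _)
  have h1 : ∀ (γ : Eis → ℂ) (a : Eis) (K : ℝ), a ≠ 0 → 0 < K →
      (‖γ a‖ * N a ^ (-(1 / 6) : ℝ)) ^ 2 =
        ‖γ a‖ ^ 2 * vp (N a / K) * (N a ^ (-(1 / 3) : ℝ) / vp (N a / K)) := by
    intro γ a K ha hK
    have h2 := two_le_vp (div_pos (N_pos ha) hK)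
    rw [mul_pow, ← Real.rpow_natCast (N a ^ _), ← Real.rpow_mul (N_nonneg a), mul_assoc,
      mul_div_cancel₀ _ (by linarith)]
    norm_num
  rw [← Finset.sum_product']
  refine (Finset.sum_sq_le_sum_mul_sum_of_sq_le_mul (S ×ˢ T)
    (f := fun p => ‖α p.1‖ ^ 2 * vp (N p.1 / A) * (‖β p.2‖ ^ 2 * vp (N p.2 / B)))
    (g := fun p => (if IsCoprime p.1 p.2 then 0 else N p.1 ^ (-(1 / 3) : ℝ) / vp (N p.1 / A)) *
      (N p.2 ^ (-(1 / 3) : ℝ) / vp (N p.2 / B))) (fun p _ => ?_) (fun p _ => ?_)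
    fun p hp => ?_).trans ?_
  · exact mul_nonneg (mul_nonneg (sq_nonneg _) (vp_nonneg _))
      (mul_nonneg (sq_nonneg _) (vp_nonneg _))
  · refine mul_nonneg ?_ (h0 _ _)
    split_ifs
    exacts [le_rfl, h0 _ _]
  · obtain ⟨h2, h3⟩ := Finset.mem_product.1 hp
    split_ifs
    · simp
    · rw [mul_pow, h1 α _ A (wt_ne hS h2) hA, h1 β _ B (wt_ne hT0 h3) hB]
      exact le_of_eq (by ring)
  · have h2 : ∑ p ∈ S ×ˢ T, (if IsCoprime p.1 p.2 then 0 else
        N p.1 ^ (-(1 / 3) : ℝ) / vp (N p.1 / A)) * (N p.2 ^ (-(1 / 3) : ℝ) / vp (N p.2 / B)) ≤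
        C * A ^ (-(1 / 3) + 1 : ℝ) * u / z * (D * B ^ (-(1 / 3) + 1 : ℝ)) := by
      refine le_trans ?_ (mul_le_mul_of_nonneg_left (hd B hB T hT0) (by positivity))
      rw [Finset.sum_product_right, Finset.mul_sum]
      refine Finset.sum_le_sum fun b hb => ?_
      simp only [← Finset.sum_mul]
      exact mul_le_mul_of_nonneg_right (h S b A z u hA hz hS (hT b hb).1 (hT b hb).2) (h0 _ _)
    have e : ∑ p ∈ S ×ˢ T, ‖α p.1‖ ^ 2 * vp (N p.1 / A) * (‖β p.2‖ ^ 2 * vp (N p.2 / B)) =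
        nw S α A * nw T β B := by
      rw [nw, nw, Finset.sum_mul_sum, Finset.sum_product]
    rw [e]
    refine (mul_le_mul_of_nonneg_left h2
      (mul_nonneg (nw_nonneg S α A) (nw_nonneg T β B))).trans_eq ?_
    rw [Real.mul_rpow hA.le hB.le, show (-(1 / 3) + 1 : ℝ) = 2 / 3 by norm_num]
    ring

end Vale.Agent.P006
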