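import Vale.Agent.P006.BoxB

/-! Products of localised variables. -/

namespace Vale.Agent.P006

open Vale.Agent.P026 Eis Complex MeasureTheory Filter Topology
open scoped Classical ComplexConjugate

theorem box_zero (Z : ℝ) (Q : Eis → Prop) : (0 : Eis) ∉ (ball Z).filter Q :=
  fun h => (mem_ball.1 (Finset.mem_filter.1 h).1).1 rfl

theorem box_nv (X z : ℝ) (ty : Fin 3) (ρ : ℝ) : nv X z ty ρ ≤ ∑ n ∈ (ball (X ^ 2)).filter (Ro z),
    ((dp n).card : ℝ) ^ 5 * (lg 1 (N n / Real.exp ρ) * vp (N n / Real.exp ρ)) := by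
  rw [Finset.sum_filter]
  refine Finset.sum_le_sum fun n _ => ?_
  split_ifs with h
  · rw [← mul_assoc]
    refine mul_le_mul_of_nonneg_right (mul_le_mul_of_nonneg_right (mul_le_of_le_one_right
      (by positivity) (pow_le_one₀ (norm_nonneg _) (norm_gty_le _ _ _ _))) (lg_pos _ _).le)
      (vp_nonneg _)
  · rw [(by_contra fun k => h (gty_ro k) : gty X z ty n = 0)]
    simp

theorem box_rough {z : ℝ} (hz : 32 ≤ z) (X : ℝ) (ty : Fin 3) (ρ : ℝ) :
    nv X z ty ρ ≤ (2 * Real.exp 16) ^ 2 * Real.exp (ρ * (5 * Real.log 2 / Real.log z)) *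
      ∑ n ∈ (ball (X ^ 2)).filter (Ro z), lg (1 / 2) (N n / Real.exp ρ) := by
  have l2 := Real.log_pos one_lt_two
  have l5 : 5 * Real.log 2 ≤ Real.log z := by
    rw [show (5 : ℝ) = (5 : ℕ) by norm_num, ← Real.log_pow]
    exact Real.log_le_log (by norm_num) (by linarith)
  have d0 : 0 ≤ 5 * Real.log 2 / Real.log z := div_nonneg (by linarith) (by linarith)
  have d1 : 5 * Real.log 2 / Real.log z ≤ 1 := (div_le_one (by linarith)).2 l5
  rw [Finset.mul_sum]
  refine (box_nv X z ty ρ).trans (Finset.sum_le_sum fun n hn => ?_)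
  obtain ⟨k1, k2⟩ := Finset.mem_filter.1 hn
  have k3 := div_pos (N_pos (mem_ball.1 k1).1) (Real.exp_pos ρ)
  have k4 : ((dp n).card : ℝ) ^ 5 ≤
      Real.exp (ρ * (5 * Real.log 2 / Real.log z)) * vp (N n / Real.exp ρ) := by
    refine (pow_le_pow_left₀ (Nat.cast_nonneg _) (card_dp_rough (by linarith) k2) 5).trans ?_
    rw [← Real.rpow_natCast, ← Real.rpow_mul (N_nonneg n), wt_scale (Real.exp_pos ρ),
      Real.exp_mul, show Real.log 2 / Real.log z * (5 : ℕ) = 5 * Real.log 2 / Real.log z by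
        push_cast; ring]
    exact mul_le_mul_of_nonneg_left (rpow_le_vp k3 (by rw [abs_of_nonneg d0]; linarith))
      (by positivity)
  have k5 := lg_mul_vp (c := 1 / 4) (by norm_num) k3
  rw [show (4 : ℝ) / (1 / 4) = 16 by norm_num] at k5
  have k6 : lg 1 (N n / Real.exp ρ) = lg (1 / 4) (N n / Real.exp ρ) *
      lg (1 / 4) (N n / Real.exp ρ) * lg (1 / 2) (N n / Real.exp ρ) := by
    rw [lg_mul, lg_mul]
    norm_num
  have k7 := mul_nonneg (lg_pos (1 / 4) (N n / Real.exp ρ)).le (vp_nonneg (N n / Real.exp ρ))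
  have k8 := (lg_pos (1 / 2) (N n / Real.exp ρ)).le
  refine (mul_le_mul_of_nonneg_right k4 (mul_nonneg (lg_pos _ _).le (vp_nonneg _))).trans ?_
  calc _ = (lg (1 / 4) (N n / Real.exp ρ) * vp (N n / Real.exp ρ)) ^ 2 *
        Real.exp (ρ * (5 * Real.log 2 / Real.log z)) * lg (1 / 2) (N n / Real.exp ρ) := by
        rw [k6]
        ring
    _ ≤ _ := by gcongr

/-- card_dp_rough; sum_lg_le, sum_lg_small, and rough_count on the shells exp (ρ + j). -/
theorem nv_rough : ∃ C : ℝ, 0 < C ∧ ∀ᶠ X : ℝ in atTop, ∀ (ty : Fin 3) (ρ : ℝ),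
    nv X (zz X) ty ρ ≤ C * Real.exp (ρ * (1 + 5 * Real.log 2 / Real.log (zz X))) *
      (if ρ ≤ 0 then Real.exp (10 * ρ) else
        if Real.log X / 7 ≤ ρ then (Real.log (zz X))⁻¹ else 1) := by
  obtain ⟨C1, c1, h1⟩ := sum_lg_small one_half_pos 0 11
  obtain ⟨C2, c2, h2⟩ := sum_lg_le (k := 0) one_half_pos (by norm_num)
  obtain ⟨C3, c3, h3⟩ := rough_count
  refine ⟨(2 * Real.exp 16) ^ 2 * (C1 + C2 + 8 * Real.exp 2 * C3), by positivity, ?_⟩
  filter_upwards [h3, le_zz 1, Real.tendsto_log_atTop.eventually_ge_atTop 32,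
    eventually_ge_atTop 1] with X x1 x2 x3 x4 ty ρ
  rw [Real.rpow_one] at x2
  have l0 : 0 < Real.log (zz X) := Real.log_pos (by linarith)
  have k1 : ∑ n ∈ (ball (X ^ 2)).filter (Ro (zz X)), lg (1 / 2) (N n / Real.exp ρ) ≤
      (C1 + C2 + 8 * Real.exp 2 * C3) * Real.exp ρ * (if ρ ≤ 0 then Real.exp (10 * ρ) else
        if Real.log X / 7 ≤ ρ then (Real.log (zz X))⁻¹ else 1) := by
    have e0 := Real.exp_pos ρ
    have e1 : 0 ≤ 8 * Real.exp 2 * C3 := by positivity
    split_ifs with r1 r2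
    · have k1 := h1 _ e0 (Real.exp_le_one_iff.2 r1) _ (box_zero (X ^ 2) (Ro (zz X)))
      simp only [Real.rpow_zero, one_mul] at k1
      rw [← Real.exp_mul] at k1
      rw [mul_assoc, ← Real.exp_add, show ρ + 10 * ρ = ρ * 11 by ring]
      exact k1.trans (mul_le_mul_of_nonneg_right (by linarith) (by positivity))
    · have k1 := box_shell (S := (ball (X ^ 2)).filter (Ro (zz X))) (u := fun _ => 1)
        (M := C3 / Real.log (zz X)) e0 (by positivity) (Finset.filter_subset _ _)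
        (fun _ => zero_le_one) fun x hx => by
          rw [div_mul_eq_mul_div, ← Finset.sum_filter, Finset.sum_const, nsmul_eq_mul, mul_one]
          refine le_trans (Nat.cast_le.2 (Finset.card_le_card fun n hn => ?_)) (x1 x
            (le_trans ?_ hx))
          · simp only [Finset.mem_filter, mem_ball] at hn ⊢
            exact ⟨⟨hn.1.1.1, hn.2⟩, hn.1.2⟩
          · rw [Real.rpow_def_of_pos (by linarith)]
            exact Real.exp_le_exp.2 (by linarith)
      simp only [one_mul] at k1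
      calc _ ≤ _ := k1
        _ = 8 * Real.exp 2 * C3 * Real.exp ρ * (Real.log (zz X))⁻¹ := by ring
        _ ≤ _ := by
          gcongr
          exact le_add_of_nonneg_left (by positivity)
    · have k1 := h2 _ e0 _ (box_zero (X ^ 2) (Ro (zz X)))
      simp only [Real.rpow_zero, one_mul, zero_add, Real.rpow_one] at k1
      rw [mul_one]
      exact k1.trans (mul_le_mul_of_nonneg_right (by linarith) e0.le)
  refine (box_rough (by linarith) X ty ρ).trans ((mul_le_mul_of_nonneg_left k1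
    (by positivity)).trans (le_of_eq ?_))
  rw [mul_add ρ, mul_one, Real.exp_add]
  ring

/-- sum_card_dp_pow on shells. -/
theorem nv_one : ∃ (C : ℝ) (k : ℕ), 0 < C ∧ ∀ X : ℝ, 3 ≤ X → ∀ (ty : Fin 3) (ρ : ℝ),
    nv X 1 ty ρ ≤ C * Real.exp ρ * Real.log X ^ k := by
  obtain ⟨C, k, c, h⟩ := sum_card_dp_pow
  refine ⟨2 * Real.exp 8 * (8 * Real.exp 2 * (C * 3 ^ k)), k, by positivity,
    fun X hX ty ρ => ?_⟩
  have e0 := Real.exp_pos ρ
  have l0 : 0 ≤ Real.log X := Real.log_nonneg (by linarith)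
  have k1 := box_shell (S := (ball (X ^ 2)).filter (Ro 1)) (u := fun n => ((dp n).card : ℝ) ^ 5)
    (M := C * (3 * Real.log X) ^ k) e0 (by positivity) (Finset.filter_subset _ _)
    (fun _ => by positivity) fun x hx => by
      have m0 : 0 < min x (X ^ 2) := lt_min (by linarith) (by positivity)
      rw [← Finset.sum_filter, mul_right_comm]
      refine le_trans (Finset.sum_le_sum_of_subset_of_nonneg (fun n hn => ?_) fun _ _ _ =>
        by positivity) ((h _ m0).trans ?_)
      · simp only [Finset.mem_filter, mem_ball, ro_one_iff, le_min_iff] at hn ⊢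
        exact ⟨⟨hn.1.1.1, hn.2, hn.1.1.2⟩, hn.1.2⟩
      · have k1 : Real.log (3 + min x (X ^ 2)) ≤ 3 * Real.log X := by
          rw [show (3 : ℝ) * Real.log X = (3 : ℕ) * Real.log X by norm_num, ← Real.log_pow]
          refine Real.log_le_log (by linarith) ?_
          nlinarith [min_le_right x (X ^ 2), sq_nonneg (X - 3)]
        have k2 := Real.log_nonneg (show 1 ≤ 3 + min x (X ^ 2) by linarith)
        have k3 := min_le_left x (X ^ 2)
        have k4 := e0.trans_le hx
        gcongr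
  refine (box_nv X 1 ty ρ).trans (le_trans ?_ ((mul_le_mul_of_nonneg_left k1
    (show 0 ≤ 2 * Real.exp 8 by positivity)).trans (le_of_eq (by ring))))
  rw [Finset.mul_sum]
  refine Finset.sum_le_sum fun n hn => ?_
  have k3 := lg_mul_vp one_half_pos (div_pos (N_pos (mem_ball.1 (Finset.mem_filter.1 hn).1).1) e0)
  rw [show (4 : ℝ) / (1 / 2) = 8 by norm_num] at k3
  rw [mul_left_comm (2 * Real.exp 8), ← add_halves (1 : ℝ), ← lg_mul, add_halves,
    mul_right_comm (lg _ _)]
  exact mul_le_mul_of_nonneg_left (mul_le_mul_of_nonneg_right k3 (lg_pos _ _).le) (by positivity)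

theorem box_l1 {X z : ℝ} {ty : Fin 3} {ρ t : ℝ} {g : Eis → ℝ} (h0 : ∀ n, 0 ≤ g n)
    (h : ∀ n, n ≠ 0 → gty X z ty n ≠ 0 → lg (1 / 2) (N n / Real.exp ρ) ≤ g n) :
    ∑ n ∈ (fb X z ty ρ t).coeff.support, ‖(fb X z ty ρ t).coeff n‖ ≤ ∑ n ∈ ball (X ^ 2), g n := by
  refine le_trans (Finset.sum_le_sum fun n hn => ?_) (Finset.sum_le_sum_of_subset_of_nonneg
    (fun n hn => (box_fb_ne (Finsupp.mem_support_iff.1 hn)).1) fun n _ _ => h0 n)
  obtain ⟨k1, k2⟩ := box_fb_ne (Finsupp.mem_support_iff.1 hn)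
  rw [box_fb, if_pos k1, norm_mul, norm_W2]
  exact (mul_le_of_le_one_left (lg_pos _ _).le (norm_gty_le _ _ _ _)).trans
    (h n (mem_ball.1 k1).1 k2)

/-- l1 norms. -/
theorem l1_fb : ∃ C : ℝ, 0 < C ∧ ∀ (X z : ℝ) (ty : Fin 3) (ρ t : ℝ),
    ∑ n ∈ (fb X z ty ρ t).coeff.support, ‖(fb X z ty ρ t).coeff n‖ ≤
      C * Real.exp ρ * (if ρ ≤ 0 then Real.exp (-(ρ ^ 2 / 4)) else 1) := by
  obtain ⟨C1, c1, h1⟩ := sum_lg_gauss one_half_pos 0
  obtain ⟨C2, c2, h2⟩ := sum_lg_le (k := 0) one_half_pos (by norm_num)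
  refine ⟨C1 * Real.exp 1 + C2, by positivity, fun X z ty ρ t => ?_⟩
  have e0 := Real.exp_pos ρ
  refine (box_l1 (fun _ => (lg_pos _ _).le) fun _ _ _ => le_rfl).trans ?_
  split_ifs with r
  · have k1 := h1 _ e0 (Real.exp_le_one_iff.2 r) _ (bas_zero (X ^ 2))
    simp only [Real.rpow_zero, one_mul, lg_exp] at k1
    refine k1.trans (le_trans ?_ (mul_le_mul_of_nonneg_right (mul_le_mul_of_nonneg_right
      (le_add_of_nonneg_right c2.le) e0.le) (Real.exp_pos _).le))
    rw [mul_assoc, mul_assoc, ← Real.exp_add, ← Real.exp_add]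
    exact mul_le_mul_of_nonneg_left (Real.exp_le_exp.2 (by nlinarith [sq_nonneg (1 + ρ / 2)])) c1.le
  · have k1 := h2 _ e0 _ (bas_zero (X ^ 2))
    simp only [Real.rpow_zero, one_mul, zero_add, Real.rpow_one] at k1
    rw [mul_one]
    exact k1.trans (mul_le_mul_of_nonneg_right (le_add_of_nonneg_left (by positivity)) e0.le)

/-- A long variable of type 0 or 2 makes the box negligible (norm_pr_prod_le, l1_fb). -/
theorem box_neg : ∀ᶠ X : ℝ in atTop, ∀ (z : ℝ) (ty : Fin 6 → Fin 3) (ρ : Fin 6 → ℝ) (t : ℝ)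
    (j : Fin 6), ∑ i, ρ i = Real.log X → ty j ≠ 1 → 2 / 5 * Real.log X ≤ ρ j →
      ‖Box X z ty ρ t‖ ≤ 1 := by
  obtain ⟨C, c, h⟩ := sum_lg_le (c := 1 / 4) (k := 0) (by norm_num) (by norm_num)
  filter_upwards [eventually_ge_atTop ((1 + cs) * C ^ 6), eventually_ge_atTop 1,
    Real.tendsto_log_atTop.eventually_ge_atTop 3200] with X x1 x2 x3 z ty ρ t j h1 h2 h3
  have x0 : 0 < X := by linarith
  have k1 : ∀ i, ∑ n ∈ (fb X z (ty i) (ρ i) t).coeff.support, ‖(fb X z (ty i) (ρ i) t).coeff n‖ ≤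
      C * Real.exp (ρ i) * if i = j then Real.exp (-(2 * Real.log X)) else 1 := fun i => by
    have k1 := h _ (Real.exp_pos (ρ i)) _ (bas_zero (X ^ 2))
    simp only [Real.rpow_zero, one_mul, zero_add, Real.rpow_one] at k1
    have k2 : 0 ≤ if i = j then Real.exp (-(2 * Real.log X)) else 1 := by positivity
    refine le_trans ?_ (mul_le_mul_of_nonneg_right k1 k2)
    rw [Finset.sum_mul]
    refine box_l1 (fun _ => mul_nonneg (lg_pos _ _).le k2) fun n n0 hn => ?_
    rw [show (1 / 2 : ℝ) = 1 / 4 + 1 / 4 by norm_num, ← lg_mul]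
    refine mul_le_mul_of_nonneg_left ?_ (lg_pos _ _).le
    split_ifs with e
    · have k3 : Real.log (N n) ≤ 7 / 20 * Real.log X := by
        rcases (box_gty hn).2 (e ▸ h2) with rfl | k3
        · rw [N_one, Real.log_one]
          linarith
        · rw [← Real.log_rpow x0]
          exact Real.log_le_log (N_pos n0) k3
      rw [box_lg _ _ n0, e]
      have k4 : Real.log X / 20 ≤ ρ j - Real.log (N n) := by linarith
      have k5 := pow_le_pow_left₀ (by linarith) k4 2
      exact Real.exp_le_exp.2 (by nlinarith)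
    · exact lg_le_one (by norm_num) _
  have c0 := cs_pos
  refine (norm_pr_prod_le _ _ _ norm_Dl_le).trans ((mul_le_mul_of_nonneg_left
    (Finset.prod_le_prod (fun _ _ => by positivity) fun i _ => k1 i) (by linarith)).trans ?_)
  rw [Finset.prod_mul_distrib, Finset.prod_mul_distrib, Finset.prod_const, Finset.card_univ,
    Fintype.card_fin, ← Real.exp_sum, h1, Finset.prod_ite_eq', if_pos (Finset.mem_univ _),
    mul_assoc (C ^ 6), ← Real.exp_add, ← mul_assoc, show Real.log X + -(2 * Real.log X) =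
      -Real.log X by ring, Real.exp_neg, Real.exp_log x0]
  exact (mul_inv_le_iff₀ x0).2 (by linarith)

end Vale.Agent.P006
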