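import Vale.Agent.P006.Bas

/-! Weights and weighted norms. -/

namespace Vale.Agent.P006

open Vale.Agent.P026 Eis Complex MeasureTheory Filter Topology
open scoped Classical ComplexConjugate

theorem two_le_vp {x : ℝ} (hx : 0 < x) : 2 ≤ vp x := by
  have h : x * x⁻¹ = 1 := mul_inv_cancel₀ hx.ne'
  have h2 : x ^ 2 * x⁻¹ ^ 2 = 1 := by rw [← mul_pow, h, one_pow]
  unfold vp
  nlinarith [sq_nonneg (x ^ 2 - x⁻¹ ^ 2)]
theorem vp_nonneg (x : ℝ) : 0 ≤ vp x := by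
  unfold vp
  positivity
theorem vp_one : vp 1 = 2 := by
  unfold vp
  norm_num
theorem vp_mul_le (x y : ℝ) : vp (x * y) ≤ vp x * vp y := by
  unfold vp
  rw [mul_inv, mul_pow, mul_pow]
  have h1 : 0 ≤ x ^ 4 * y⁻¹ ^ 4 := by positivity
  have h2 : 0 ≤ x⁻¹ ^ 4 * y ^ 4 := by positivity
  nlinarith
theorem wt_four {x : ℝ} (hx : 0 < x) : vp x = x ^ (4 : ℝ) + x ^ (-4 : ℝ) := by
  rw [vp, Real.rpow_neg hx.le, inv_pow, show (4 : ℝ) = ((4 : ℕ) : ℝ) by norm_num,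
    Real.rpow_natCast]
theorem rpow_le_vp {x a : ℝ} (hx : 0 < x) (ha : |a| ≤ 4) : x ^ a ≤ vp x := by
  rw [wt_four hx]
  obtain ⟨h1, h2⟩ := abs_le.1 ha
  rcases le_total 1 x with h | h
  · exact (Real.rpow_le_rpow_of_exponent_le h h2).trans
      (le_add_of_nonneg_right (Real.rpow_nonneg hx.le _))
  · exact (Real.rpow_le_rpow_of_exponent_ge hx h h1).trans
      (le_add_of_nonneg_left (Real.rpow_nonneg hx.le _))
theorem sq_nonneg' (S : Finset Eis) (a : Eis → ℂ) : 0 ≤ sq S a :=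
  Finset.sum_nonneg fun _ _ => sq_nonneg _
theorem nw_nonneg (S : Finset Eis) (a : Eis → ℂ) (K : ℝ) : 0 ≤ nw S a K :=
  Finset.sum_nonneg fun _ _ => mul_nonneg (sq_nonneg _) (vp_nonneg _)
theorem nw_mono {S T : Finset Eis} (h : S ⊆ T) {a b : Eis → ℂ} (hab : ∀ n ∈ S, ‖a n‖ ≤ ‖b n‖)
    (K : ℝ) : nw S a K ≤ nw T b K :=
  (Finset.sum_le_sum fun n hn => mul_le_mul_of_nonneg_right
    (pow_le_pow_left₀ (norm_nonneg _) (hab n hn) 2) (vp_nonneg _)).trans
    (Finset.sum_le_sum_of_subset_of_nonneg h fun _ _ _ => mul_nonneg (sq_nonneg _) (vp_nonneg _))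
theorem wt_ne {S : Finset Eis} (hS : (0 : Eis) ∉ S) {n : Eis} (hn : n ∈ S) : n ≠ 0 :=
  fun h => hS (h ▸ hn)
theorem sq_le_nw {S : Finset Eis} (hS : (0 : Eis) ∉ S) (a : Eis → ℂ) {K : ℝ} (hK : 0 < K) :
    sq S a ≤ nw S a K :=
  Finset.sum_le_sum fun _ hn => le_mul_of_one_le_right (sq_nonneg _)
    (one_le_two.trans (two_le_vp (div_pos (N_pos (wt_ne hS hn)) hK)))
theorem norm_tw (γ : Eis → ℂ) (τ : ℝ) (n : Eis) : ‖tw γ τ n‖ = ‖γ n‖ := by
  rw [tw, norm_mul, norm_nit, mul_one]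
theorem sq_tw (S : Finset Eis) (γ : Eis → ℂ) (τ : ℝ) : sq S (tw γ τ) = sq S γ :=
  Finset.sum_congr rfl fun n _ => by rw [norm_tw]
theorem nw_tw (S : Finset Eis) (γ : Eis → ℂ) (τ K : ℝ) : nw S (tw γ τ) K = nw S γ K :=
  Finset.sum_congr rfl fun n _ => by rw [norm_tw]
theorem tw_tw (γ : Eis → ℂ) (τ u : ℝ) : tw (tw γ τ) u = tw γ (τ + u) := by
  funext n
  rw [tw, tw, tw, nit_add, mul_assoc]
theorem tw_zero (γ : Eis → ℂ) : tw γ 0 = γ := by
  funext n
  simp [tw, nit]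
theorem conj_nit (t : ℝ) (c : Eis) : conj (nit t c) = nit (-t) c := by
  rw [nit, nit, ← Complex.exp_conj, map_mul, conj_I, conj_ofReal]
  congr 1
  push_cast
  ring
theorem continuous_nit (c : Eis) : Continuous fun t : ℝ => nit t c := by
  unfold nit
  fun_prop
theorem nit_eq_cpow (t : ℝ) {c : Eis} (hc : c ≠ 0) : nit t c = (N c : ℂ) ^ ((t : ℂ) * I) := by
  rw [nit, cpow_def_of_ne_zero (ofReal_ne_zero.2 (N_pos hc).ne'), ← ofReal_log (N_nonneg c)]
  congr 1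
  push_cast
  ring
theorem wt_rpow_abs {x M : ℝ} (hx : 0 < x) (h1 : x ≤ M) (h2 : x⁻¹ ≤ M) (a : ℝ) :
    x ^ a ≤ M ^ |a| := by
  rcases le_total 0 a with h | h
  · rw [abs_of_nonneg h]
    exact Real.rpow_le_rpow hx.le h1 h
  · rw [abs_of_nonpos h, ← neg_neg a, Real.rpow_neg hx.le, ← Real.inv_rpow hx.le, neg_neg]
    exact Real.rpow_le_rpow (inv_pos.2 hx).le h2 (by linarith)
/-- On a dyadic block the factor (N n / B) ^ a costs a power of K / B + B / K. -/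
theorem sq_sc_le {S : Finset Eis} {K B a : ℝ} (hK : 0 < K) (hB : 0 < B) (ha : |a| ≤ 2)
    (hS : S ⊆ PD K) (γ : Eis → ℂ) :
    sq S (sc γ B a) ≤ 16 * (K / B + B / K) ^ (2 * |a|) * sq S γ := by
  unfold sq
  rw [Finset.mul_sum]
  refine Finset.sum_le_sum fun n hn => ?_
  obtain ⟨h0, h1, h2⟩ := mem_PD.1 (hS hn)
  have hp := N_pos h0.ne_zero
  have hx : 0 < N n / B := div_pos hp hB
  have k1 : 0 < K / B := div_pos hK hB
  have k2 : 0 < B / K := div_pos hB hK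
  have e1 : N n / B ≤ 2 * (K / B + B / K) := by
    have := div_le_div_of_nonneg_right h2 hB.le
    linarith
  have e2 : (N n / B)⁻¹ ≤ 2 * (K / B + B / K) := by
    have : B / N n ≤ B / (K / 2) := div_le_div_of_nonneg_left hB.le (by linarith) h1.le
    rw [inv_div]
    have e : B / (K / 2) = 2 * (B / K) := by field_simp
    linarith
  have e3 := wt_rpow_abs hx e1 e2 (2 * a)
  rw [abs_mul, abs_two, Real.mul_rpow (by norm_num) (by positivity)] at e3
  have e4 : (2 : ℝ) ^ (2 * |a|) ≤ 16 :=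
    (Real.rpow_le_rpow_of_exponent_le one_le_two (by linarith : 2 * |a| ≤ 4)).trans
      (by norm_num)
  rw [sc, norm_mul, mul_pow, norm_real, Real.norm_eq_abs, sq_abs, mul_comm, ← Real.rpow_two,
    ← Real.rpow_mul hx.le, mul_comm a]
  refine mul_le_mul_of_nonneg_right (e3.trans ?_) (sq_nonneg _)
  exact mul_le_mul_of_nonneg_right e4 (by positivity)

/-- Two power bounds, one for small and one for large norms. -/
theorem wt_split {p q : ℝ} (hp : -1 < p) (hq : q < -1) : ∃ C : ℝ, 0 < C ∧ ∀ K : ℝ, 0 < K →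
    ∀ S : Finset Eis, (0 : Eis) ∉ S → ∀ (F : Eis → ℝ) (A : ℝ), 0 ≤ A →
      (∀ n ∈ S, F n ≤ A * (N n / K) ^ p) → (∀ n ∈ S, F n ≤ A * (N n / K) ^ q) →
      ∑ n ∈ S, F n ≤ C * A * K := by
  obtain ⟨C1, hC1, h1⟩ := sum_ball_rpow (s := -p) (by linarith)
  obtain ⟨C2, hC2, h2⟩ := cnt_tail (s := -q) (by linarith)
  refine ⟨C1 + C2, by positivity, fun K hK S hS F A hA f1 f2 => ?_⟩
  have h3 : ∀ n ∈ S, F n ≤ A * K ^ (-p) * (if n ∈ ball K then N n ^ (- -p) else 0) +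
      A * K ^ (-q) * (if K < N n then N n ^ (- -q) else 0) := by
    intro n hn
    have hn0 := wt_ne hS hn
    by_cases hx : K < N n
    · rw [if_pos hx, if_neg (fun h => absurd (mem_ball.1 h).2 (not_le.2 hx)), mul_zero, zero_add,
        neg_neg, Real.rpow_neg hK.le, mul_assoc, ← div_eq_inv_mul,
        ← Real.div_rpow (N_nonneg n) hK.le]
      exact f2 n hn
    · rw [if_neg hx, if_pos (mem_ball.2 ⟨hn0, not_lt.1 hx⟩), mul_zero, add_zero,
        neg_neg, Real.rpow_neg hK.le, mul_assoc, ← div_eq_inv_mul,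
        ← Real.div_rpow (N_nonneg n) hK.le]
      exact f1 n hn
  refine (Finset.sum_le_sum h3).trans ?_
  rw [Finset.sum_add_distrib, ← Finset.mul_sum, ← Finset.mul_sum]
  have h4 : ∑ n ∈ S, (if n ∈ ball K then N n ^ (- -p) else 0) ≤ C1 * K ^ (1 - -p) := by
    refine le_trans ?_ (h1 K hK)
    rw [← Finset.sum_filter]
    exact Finset.sum_le_sum_of_subset_of_nonneg (fun c hc => (Finset.mem_filter.1 hc).2)
      fun c _ _ => Real.rpow_nonneg (N_nonneg c) _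
  have e : ∀ r : ℝ, K ^ (-r) * K ^ (1 - -r) = K := fun r => by
    rw [← Real.rpow_add hK, show -r + (1 - -r) = 1 by ring, Real.rpow_one]
  refine (add_le_add (mul_le_mul_of_nonneg_left h4 (by positivity))
    (mul_le_mul_of_nonneg_left (h2 K hK S) (by positivity))).trans (le_of_eq ?_)
  linear_combination A * C1 * e p + A * C2 * e q

theorem wt_scale {K : ℝ} (hK : 0 < K) (n : Eis) (a : ℝ) : N n ^ a = K ^ a * (N n / K) ^ a := by
  rw [← Real.mul_rpow hK.le (div_nonneg (N_nonneg n) hK.le), mul_div_cancel₀ _ hK.ne']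

theorem sum_rpow_div_vp {a : ℝ} (h1 : -5 < a) (h2 : a < 3) : ∃ C : ℝ, 0 < C ∧ ∀ K : ℝ, 0 < K →
    ∀ S : Finset Eis, (0 : Eis) ∉ S → ∑ n ∈ S, N n ^ a / vp (N n / K) ≤ C * K ^ (a + 1) := by
  obtain ⟨C, hC, h⟩ := wt_split (p := a + 4) (q := a - 4) (by linarith) (by linarith)
  refine ⟨C, hC, fun K hK S hS => ?_⟩
  have key : ∀ n ∈ S, ∀ b : ℝ, |b| ≤ 4 →
      N n ^ a / vp (N n / K) ≤ K ^ a * (N n / K) ^ (a - b) := by
    intro n hn b hb
    have hx := div_pos (N_pos (wt_ne hS hn)) hK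
    rw [wt_scale hK n a, mul_div_assoc, Real.rpow_sub hx]
    exact mul_le_mul_of_nonneg_left (div_le_div_of_nonneg_left (Real.rpow_nonneg hx.le _)
      (Real.rpow_pos_of_pos hx _) (rpow_le_vp hx hb)) (by positivity)
  refine (h K hK S hS _ (K ^ a) (by positivity) (fun n hn => ?_)
    (fun n hn => key n hn 4 (by norm_num))).trans (le_of_eq ?_)
  · have := key n hn (-4) (by norm_num)
    rwa [sub_neg_eq_add] at this
  · rw [Real.rpow_add hK, Real.rpow_one, mul_assoc]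
/-- The l1 bound (Cauchy-Schwarz with the previous lemma for a = 2 b). -/
theorem l1_le {b : ℝ} (h1 : -5 / 2 < b) (h2 : b < 3 / 2) : ∃ C : ℝ, 0 < C ∧ ∀ K : ℝ, 0 < K →
    ∀ (S : Finset Eis) (a : Eis → ℂ), (0 : Eis) ∉ S →
      ∑ n ∈ S, ‖a n‖ * N n ^ b ≤ C * √(nw S a K) * K ^ (b + 1 / 2) := by
  obtain ⟨C, hC, h⟩ := sum_rpow_div_vp (a := 2 * b) (by linarith) (by linarith)
  refine ⟨√C, Real.sqrt_pos.2 hC, fun K hK S a hS => ?_⟩
  have hv : ∀ n ∈ S, 0 < vp (N n / K) := fun n hn =>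
    two_pos.trans_le (two_le_vp (div_pos (N_pos (wt_ne hS hn)) hK))
  have e1 : ∑ n ∈ S, ‖a n‖ * N n ^ b =
      ∑ n ∈ S, (‖a n‖ * √(vp (N n / K))) * (N n ^ b / √(vp (N n / K))) :=
    Finset.sum_congr rfl fun n hn => by
      have := Real.sqrt_pos.2 (hv n hn)
      field_simp
  have e2 : ∑ n ∈ S, (‖a n‖ * √(vp (N n / K))) ^ 2 = nw S a K :=
    Finset.sum_congr rfl fun n _ => by rw [mul_pow, Real.sq_sqrt (vp_nonneg _)]
  have e3 : ∑ n ∈ S, (N n ^ b / √(vp (N n / K))) ^ 2 = ∑ n ∈ S, N n ^ (2 * b) / vp (N n / K) :=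
    Finset.sum_congr rfl fun n _ => by
      rw [div_pow, Real.sq_sqrt (vp_nonneg _), ← Real.rpow_two, ← Real.rpow_mul (N_nonneg n),
        mul_comm b]
  rw [e1]
  refine (Real.sum_mul_le_sqrt_mul_sqrt S _ _).trans ?_
  rw [e2, e3, mul_comm (√C), mul_assoc]
  refine mul_le_mul_of_nonneg_left ((Real.sqrt_le_sqrt (h K hK S hS)).trans (le_of_eq ?_))
    (Real.sqrt_nonneg _)
  rw [Real.sqrt_mul hC.le, Real.sqrt_eq_rpow (K ^ _), ← Real.rpow_mul hK.le]
  congr 2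
  ring

theorem lg_pos (c x : ℝ) : 0 < lg c x := Real.exp_pos _
theorem lg_le_one {c : ℝ} (hc : 0 ≤ c) (x : ℝ) : lg c x ≤ 1 :=
  Real.exp_le_one_iff.2 (neg_nonpos.2 (mul_nonneg hc (sq_nonneg _)))
theorem lg_one (x : ℝ) : lg 1 x = w x := by
  rw [lg, w, one_mul]
theorem lg_mul (c d x : ℝ) : lg c x * lg d x = lg (c + d) x := by
  rw [lg, lg, lg, ← Real.exp_add]
  congr 1
  ring
theorem lg_anti {c d : ℝ} (h : c ≤ d) (x : ℝ) : lg d x ≤ lg c x :=
  Real.exp_le_exp.2 (neg_le_neg (mul_le_mul_of_nonneg_right h (sq_nonneg _)))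
theorem lg_exp (c u : ℝ) : lg c (Real.exp u) = Real.exp (-(c * u ^ 2)) := by
  rw [lg, Real.log_exp]
theorem lg_le_rpow {c : ℝ} (hc : 0 < c) (a : ℝ) {x : ℝ} (hx : 0 < x) :
    lg c x ≤ Real.exp (a ^ 2 / (4 * c)) * x ^ a := by
  rw [Real.rpow_def_of_pos hx, ← Real.exp_add]
  refine Real.exp_le_exp.2 ?_
  have e : a ^ 2 / (4 * c) + Real.log x * a + c * Real.log x ^ 2 =
      c * (Real.log x + a / (2 * c)) ^ 2 := by
    field_simp
    ring
  have := mul_nonneg hc.le (sq_nonneg (Real.log x + a / (2 * c)))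
  linarith
theorem lg_mul_vp {c : ℝ} (hc : 0 < c) {x : ℝ} (hx : 0 < x) :
    lg c x * vp x ≤ 2 * Real.exp (4 / c) := by
  have key : ∀ a : ℝ, a ^ 2 = 16 → lg c x * x ^ (-a) ≤ Real.exp (4 / c) := by
    intro a ha
    refine (mul_le_mul_of_nonneg_right (lg_le_rpow hc a hx) (Real.rpow_nonneg hx.le _)).trans
      (le_of_eq ?_)
    rw [mul_assoc, ← Real.rpow_add hx, add_neg_cancel, Real.rpow_zero, mul_one, ha]
    congr 1
    field_simp
    ring
  have h1 := key 4 (by norm_num)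
  have h2 := key (-4) (by norm_num)
  rw [neg_neg] at h2
  rw [wt_four hx, mul_add]
  linarith
theorem norm_W2 (Y t : ℝ) (c : Eis) : ‖W2 Y t c‖ = lg (1 / 2) (N c / Y) := by
  rw [W2, norm_mul, norm_nit, mul_one, norm_real, Real.norm_eq_abs]
  exact abs_of_pos (lg_pos _ _)
theorem wt_lg {c : ℝ} (hc : 0 < c) (k B : ℝ) {Y : ℝ} (hY : 0 < Y) {n : Eis} (hn : n ≠ 0) :
    N n ^ k * lg c (N n / Y) ≤ Real.exp (B ^ 2 / (4 * c)) * Y ^ B * N n ^ (k - B) := by
  have hp := N_pos hn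
  have h1 := lg_le_rpow hc (-B) (div_pos hp hY)
  rw [neg_sq, Real.div_rpow hp.le hY.le, Real.rpow_neg hY.le, div_inv_eq_mul] at h1
  refine (mul_le_mul_of_nonneg_left h1 (Real.rpow_nonneg hp.le k)).trans (le_of_eq ?_)
  rw [sub_eq_add_neg, Real.rpow_add hp]
  ring
theorem summable_lg {c : ℝ} (hc : 0 < c) (k : ℝ) {Y : ℝ} (hY : 0 < Y) :
    Summable (fun n : Eis => N n ^ k * lg c (N n / Y)) := by
  refine cnt_summable (fun n => mul_nonneg (Real.rpow_nonneg (N_nonneg n) k) (lg_pos _ _).le)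
    (Real.exp ((k + 2) ^ 2 / (4 * c)) * Y ^ (k + 2)) fun n hn => ?_
  have := wt_lg hc k (k + 2) hY hn
  rwa [show k - (k + 2) = -2 by ring] at this
theorem sum_lg_le {c k : ℝ} (hc : 0 < c) (hk : -1 < k) : ∃ C : ℝ, 0 < C ∧ ∀ Y : ℝ, 0 < Y →
    ∀ S : Finset Eis, (0 : Eis) ∉ S → ∑ n ∈ S, N n ^ k * lg c (N n / Y) ≤ C * Y ^ (k + 1) := by
  obtain ⟨C, hC, h⟩ := wt_split (p := k) (q := -2) hk (by norm_num)
  set E := Real.exp ((-(k + 2)) ^ 2 / (4 * c)) with hE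
  have hE1 : 1 ≤ E := Real.one_le_exp (by positivity)
  refine ⟨C * E, by positivity, fun Y hY S hS => ?_⟩
  refine (h Y hY S hS _ (E * Y ^ k) (by positivity) (fun n hn => ?_) (fun n hn => ?_)).trans
    (le_of_eq ?_)
  · have hx := div_pos (N_pos (wt_ne hS hn)) hY
    rw [mul_assoc, ← wt_scale hY n k, mul_comm]
    exact mul_le_mul_of_nonneg_right ((lg_le_one hc.le _).trans hE1)
      (Real.rpow_nonneg (N_nonneg n) _)
  · have hx := div_pos (N_pos (wt_ne hS hn)) hY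
    refine (mul_le_mul_of_nonneg_left (lg_le_rpow hc (-(k + 2)) hx)
      (Real.rpow_nonneg (N_nonneg n) _)).trans (le_of_eq ?_)
    rw [wt_scale hY n k, show (-2 : ℝ) = k + -(k + 2) by ring, Real.rpow_add hx]
    ring
  · rw [Real.rpow_add hY, Real.rpow_one]
    ring
theorem sum_lg_small {c : ℝ} (hc : 0 < c) (k A : ℝ) : ∃ C : ℝ, 0 < C ∧ ∀ Y : ℝ, 0 < Y → Y ≤ 1 →
    ∀ S : Finset Eis, (0 : Eis) ∉ S → ∑ n ∈ S, N n ^ k * lg c (N n / Y) ≤ C * Y ^ A := by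
  have hs := summable_N_rpow one_lt_two
  have hn : ∀ n : Eis, 0 ≤ N n ^ (-(2 : ℝ)) := fun n => Real.rpow_nonneg (N_nonneg n) _
  have hT : 0 ≤ ∑' n : Eis, N n ^ (-(2 : ℝ)) := tsum_nonneg hn
  set B := max A (k + 2) with hB
  refine ⟨Real.exp (B ^ 2 / (4 * c)) * (∑' n : Eis, N n ^ (-(2 : ℝ))) + 1, by positivity,
    fun Y hY hY1 S hS => ?_⟩
  have h1 : ∀ n ∈ S, N n ^ k * lg c (N n / Y)
      ≤ Real.exp (B ^ 2 / (4 * c)) * Y ^ A * N n ^ (-(2 : ℝ)) := by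
    intro n hn'
    have h0 := wt_ne hS hn'
    refine (wt_lg hc k B hY h0).trans ?_
    have a1 : Y ^ B ≤ Y ^ A := Real.rpow_le_rpow_of_exponent_ge hY hY1 (le_max_left _ _)
    have a2 : N n ^ (k - B) ≤ N n ^ (-(2 : ℝ)) :=
      Real.rpow_le_rpow_of_exponent_le (one_le_N h0) (by linarith [le_max_right A (k + 2)])
    have a3 := Real.rpow_nonneg (N_nonneg n) (k - B)
    gcongr
  refine (Finset.sum_le_sum h1).trans ?_
  rw [← Finset.mul_sum]
  have h3 : 0 < Y ^ A := Real.rpow_pos_of_pos hY A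
  have h2 := mul_le_mul_of_nonneg_left (hs.sum_le_tsum S fun n _ => hn n)
    (by positivity : 0 ≤ Real.exp (B ^ 2 / (4 * c)) * Y ^ A)
  nlinarith
/-- Gaussian decay for small scales. -/
theorem sum_lg_gauss {c : ℝ} (hc : 0 < c) (k : ℝ) : ∃ C : ℝ, 0 < C ∧ ∀ Y : ℝ, 0 < Y → Y ≤ 1 →
    ∀ S : Finset Eis, (0 : Eis) ∉ S → ∑ n ∈ S, N n ^ k * lg c (N n / Y) ≤ C * lg c Y := by
  obtain ⟨C, hC, h⟩ := sum_lg_small hc k 0
  refine ⟨C, hC, fun Y hY hY1 S hS => ?_⟩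
  have h1 := h 1 one_pos le_rfl S hS
  rw [Real.rpow_zero, mul_one] at h1
  refine le_trans ?_ (mul_le_mul_of_nonneg_right h1 (lg_pos c Y).le)
  rw [Finset.sum_mul]
  refine Finset.sum_le_sum fun n hn => ?_
  have h0 := wt_ne hS hn
  rw [mul_assoc, div_one]
  refine mul_le_mul_of_nonneg_left ?_ (Real.rpow_nonneg (N_nonneg n) _)
  rw [lg, lg, lg, ← Real.exp_add, Real.log_div (N_pos h0).ne' hY.ne']
  refine Real.exp_le_exp.2 ?_
  have a1 := Real.log_nonneg (one_le_N h0)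
  have a2 := Real.log_nonpos hY.le hY1
  nlinarith [mul_nonneg hc.le (mul_nonneg a1 (neg_nonneg.2 a2))]
/-- Tails. -/
theorem sum_lg_tail {c : ℝ} (hc : 0 < c) (k : ℝ) (hk : -1 < k) : ∃ C : ℝ, 0 < C ∧
    ∀ Y R : ℝ, 0 < Y → 1 ≤ R → ∀ S : Finset Eis, (∀ n ∈ S, R * Y ≤ N n) →
      ∑ n ∈ S, N n ^ k * lg c (N n / Y) ≤ C * Y ^ (k + 1) * lg (c / 2) R := by
  obtain ⟨C, hC, h⟩ := sum_lg_le (c := c / 2) (by positivity) hk
  refine ⟨C, hC, fun Y R hY hR S hS => ?_⟩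
  have h0 : (0 : Eis) ∉ S := fun k => by
    have := hS 0 k
    rw [N_zero] at this
    nlinarith
  refine le_trans ?_ (mul_le_mul_of_nonneg_right (h Y hY S h0) (lg_pos _ R).le)
  rw [Finset.sum_mul]
  refine Finset.sum_le_sum fun n hn => ?_
  rw [mul_assoc]
  refine mul_le_mul_of_nonneg_left ?_ (Real.rpow_nonneg (N_nonneg n) _)
  have e : lg c (N n / Y) = lg (c / 2) (N n / Y) * lg (c / 2) (N n / Y) := by
    rw [lg_mul, add_halves]
  rw [e]
  refine mul_le_mul_of_nonneg_left (Real.exp_le_exp.2 (neg_le_neg ?_)) (lg_pos _ _).le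
  refine mul_le_mul_of_nonneg_left (pow_le_pow_left₀ (Real.log_nonneg hR) ?_ 2) (by positivity)
  exact Real.log_le_log (by linarith) ((le_div_iff₀ hY).2 (hS n hn))
/-- Separation of variables in the box weight. -/
theorem lg_conv {x y Y : ℝ} (hx : 0 < x) (hy : 0 < y) (hY : 0 < Y) :
    Integrable (fun s : ℝ => lg 1 (x / Real.exp s) * lg 1 (y / (Y / Real.exp s))) ∧
    ∫ s : ℝ, lg 1 (x / Real.exp s) * lg 1 (y / (Y / Real.exp s)) =
      √(Real.pi / 2) * lg (1 / 2) (x * y / Y) := by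
  set m := (Real.log x - Real.log y + Real.log Y) / 2 with hm
  have e : (fun s : ℝ => lg 1 (x / Real.exp s) * lg 1 (y / (Y / Real.exp s))) =
      fun s => (fun u : ℝ => Real.exp (-2 * u ^ 2)) (s - m) * lg (1 / 2) (x * y / Y) := by
    funext s
    have hs := (Real.exp_pos s).ne'
    simp only [lg]
    rw [← Real.exp_add, ← Real.exp_add, Real.log_div hx.ne' hs,
      Real.log_div hy.ne' (div_pos hY (Real.exp_pos s)).ne', Real.log_div hY.ne' hs,
      Real.log_div (mul_pos hx hy).ne' hY.ne', Real.log_mul hx.ne' hy.ne', Real.log_exp, hm]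
    congr 1
    ring
  rw [e]
  refine ⟨((integrable_exp_neg_mul_sq two_pos).comp_sub_right m).mul_const _, ?_⟩
  rw [integral_mul_const, integral_sub_right_eq_self (fun u : ℝ => Real.exp (-2 * u ^ 2)) m,
    integral_gaussian]

theorem wt_inv_sq (d : Eis) : (N d ^ 2)⁻¹ = N d ^ (-(2 : ℝ)) := by
  rw [Real.rpow_neg (N_nonneg d), Real.rpow_two]
theorem wt_zP_nonneg (d : Eis) : 0 ≤ if Prim d then (N d ^ 2)⁻¹ else 0 := by
  split_ifs
  · positivity
  · exact le_rfl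
theorem summable_zP : Summable (fun d : Eis => if Prim d then (N d ^ 2)⁻¹ else 0) := by
  refine Summable.of_nonneg_of_le wt_zP_nonneg (fun d => ?_) (summable_N_rpow one_lt_two)
  rw [← wt_inv_sq]
  split_ifs
  · exact le_rfl
  · positivity
theorem one_le_zP : 1 ≤ zP := by
  have := summable_zP.le_tsum 1 fun d _ => wt_zP_nonneg d
  rwa [if_pos Prim.one, N_one, one_pow, inv_one] at this
theorem wt_fiber (n : Eis) :
    ∑' p : (fun p : Eis × Eis => p.1 * p.2) ⁻¹' {n}, mu p.1.1 / (N p.1.1 : ℂ) ^ 2 *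
      ((if Prim p.1.2 then (N p.1.2 ^ 2)⁻¹ else 0 : ℝ) : ℂ) = if n = 1 then 1 else 0 := by
  by_cases hn : Prim n
  · rw [tsum_subtype ((fun p : Eis × Eis => p.1 * p.2) ⁻¹' {n}) (fun p : Eis × Eis =>
      mu p.1 / (N p.1 : ℂ) ^ 2 * ((if Prim p.2 then (N p.2 ^ 2)⁻¹ else 0 : ℝ) : ℂ)),
      tsum_eq_sum (s := (dv n).image (fun d => (d, n / d))),
      Finset.sum_image fun a _ b _ h => (Prod.ext_iff.1 h).1]
    · have e : ∀ d ∈ dv n, Set.indicator ((fun p : Eis × Eis => p.1 * p.2) ⁻¹' {n})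
          (fun p : Eis × Eis => mu p.1 / (N p.1 : ℂ) ^ 2 *
            ((if Prim p.2 then (N p.2 ^ 2)⁻¹ else 0 : ℝ) : ℂ)) (d, n / d) =
          mu d * ((N n : ℂ) ^ 2)⁻¹ := by
        intro d hd
        obtain ⟨h1, h2⟩ := (mem_dv hn.ne_zero).1 hd
        rw [Set.indicator_of_mem (show (d, n / d) ∈ (fun p : Eis × Eis => p.1 * p.2) ⁻¹' {n} from
          lp_div_mul h1.ne_zero h2)]
        dsimp only
        rw [if_pos (prim_div h1.1 hn h2), N_div h1.ne_zero h2]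
        have a1 : (N d : ℂ) ≠ 0 := ofReal_ne_zero.2 (N_pos h1.ne_zero).ne'
        have a2 : (N n : ℂ) ≠ 0 := ofReal_ne_zero.2 (N_pos hn.ne_zero).ne'
        push_cast
        field_simp
      rw [Finset.sum_congr rfl e, ← Finset.sum_mul, sum_mu_prim hn]
      split_ifs with h
      · rw [h, N_one]
        simp
      · exact zero_mul _
    · rintro ⟨d, m⟩ hp
      by_cases h : d * m = n
      · rw [Set.indicator_of_mem (show (d, m) ∈ (fun p : Eis × Eis => p.1 * p.2) ⁻¹' {n} from h)]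
        dsimp only
        by_cases hd : PS d
        · refine absurd (Finset.mem_image.2 ⟨d, (mem_dv hn.ne_zero).2 ⟨hd, ⟨m, h.symm⟩⟩, ?_⟩) hp
          rw [← h, mul_div_cancel_left₀ _ hd.ne_zero]
        · rw [show mu d = 0 from if_neg hd, zero_div, zero_mul]
      · exact Set.indicator_of_notMem
          (show (d, m) ∉ (fun p : Eis × Eis => p.1 * p.2) ⁻¹' {n} from h) _
  · rw [if_neg fun h : n = 1 => hn (by rw [h]; exact Prim.one)]
    refine (tsum_congr ?_).trans tsum_zero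
    rintro ⟨⟨d, m⟩, h⟩
    have h' : d * m = n := h
    dsimp only
    by_cases hd : PS d
    · rw [if_neg fun k => hn (h' ▸ hd.1.mul k), ofReal_zero, mul_zero]
    · rw [show mu d = 0 from if_neg hd, zero_div, zero_mul]
theorem wt_prod {f g : Eis → ℂ} (s1 : Summable fun d => ‖f d‖) (s2 : Summable fun d => ‖g d‖)
    (h : ∀ n, ∑' p : (fun p : Eis × Eis => p.1 * p.2) ⁻¹' {n}, f p.1.1 * g p.1.2 =
      if n = 1 then 1 else 0) : (∑' d, f d) * ∑' d, g d = 1 := by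
  have h3 := (s1.of_norm.hasSum.mul s2.of_norm.hasSum
    (summable_mul_of_summable_norm s1 s2)).tsum_fiberwise (fun p : Eis × Eis => p.1 * p.2)
  simp only [h] at h3
  exact h3.unique (hasSum_ite_eq (1 : Eis) (1 : ℂ))
theorem hasSum_mu_sq : HasSum (fun d : Eis => mu d / (N d : ℂ) ^ 2) ((zP : ℂ)⁻¹) := by
  have s1 : Summable fun d : Eis => ‖mu d / (N d : ℂ) ^ 2‖ := by
    refine Summable.of_nonneg_of_le (fun _ => norm_nonneg _) (fun d => ?_)
      (summable_N_rpow one_lt_two)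
    rw [← wt_inv_sq, norm_div, norm_pow, norm_real, Real.norm_eq_abs, sq_abs, div_eq_mul_inv]
    exact mul_le_of_le_one_left (by positivity) (norm_mu_le d)
  have s2 : Summable fun d : Eis => ‖((if Prim d then (N d ^ 2)⁻¹ else 0 : ℝ) : ℂ)‖ := by
    refine summable_zP.congr fun d => ?_
    rw [norm_real, Real.norm_of_nonneg (wt_zP_nonneg d)]
  have h2 : HasSum (fun d : Eis => ((if Prim d then (N d ^ 2)⁻¹ else 0 : ℝ) : ℂ)) (zP : ℂ) :=
    hasSum_ofReal.2 summable_zP.hasSum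
  have h4 := wt_prod s1 s2 wt_fiber
  rw [h2.tsum_eq] at h4
  rw [← eq_inv_of_mul_eq_one_left h4]
  exact s1.of_norm.hasSum

end Vale.Agent.P006
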