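import Vale.Agent.P006.Rank
import Vale.Agent.P006.Wt
import Vale.Agent.P006.GaussP

/-! Products of localised variables: algebra. -/

namespace Vale.Agent.P006

open Vale.Agent.P026 Eis Complex MeasureTheory Filter Topology
open scoped Classical ComplexConjugate

theorem coeff_trc (Z : ℝ) (f : Eis → ℂ) (n : Eis) :
    (trc Z f).coeff n = if n ∈ ball Z then f n else 0 := by
  rw [trc, MonoidAlgebra.coeff_sum, Finsupp.finsetSum_apply]
  simp only [MonoidAlgebra.coeff_single, Finsupp.single_apply]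
  exact Finset.sum_ite_eq' _ _ _
theorem pr_eq (a : Sq) (F : Eis → ℂ) : pr a F = ∑ n ∈ a.coeff.support, a.coeff n * F n := rfl
theorem box_single (n : Eis) (x : ℂ) (F : Eis → ℂ) : pr (MonoidAlgebra.single n x) F = x * F n :=
  Finsupp.sum_single_index (zero_mul _)
theorem pr_one (F : Eis → ℂ) : pr 1 F = F 1 := (box_single 1 1 F).trans (one_mul _)
theorem pr_add (a b : Sq) (F : Eis → ℂ) : pr (a + b) F = pr a F + pr b F :=
  Finsupp.sum_add_index' (fun _ => zero_mul _) fun _ _ _ => add_mul _ _ _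
theorem box_sum {ι : Type} (s : Finset ι) (a : ι → Sq) (F : Eis → ℂ) :
    pr (∑ i ∈ s, a i) F = ∑ i ∈ s, pr (a i) F := by
  induction s using Finset.cons_induction with
  | empty => exact Finsupp.sum_zero_index
  | cons i s hi ih => rw [Finset.sum_cons, Finset.sum_cons, pr_add, ih]
theorem pr_trc (Z : ℝ) (f F : Eis → ℂ) : pr (trc Z f) F = ∑ n ∈ ball Z, f n * F n := by
  simp only [trc, box_sum, box_single]
theorem pr_mul (a b : Sq) (F : Eis → ℂ) : pr (a * b) F = pr a (fun m => pr b (fun n => F (m * n))) := by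
  rw [MonoidAlgebra.mul_def, Finsupp.sum, box_sum]
  simp only [Finsupp.sum, box_sum, box_single]
  simp only [pr_eq, Finset.mul_sum, mul_assoc]
theorem pr_mul_Bil (a b : Sq) :
    pr (a * b) Dl = Bil a.coeff.support b.coeff.support a.coeff b.coeff := by
  rw [pr_mul]
  simp only [Bil, pr_eq, Finset.mul_sum, mul_assoc]
theorem coeff_eq_pr (a : Sq) (n : Eis) : a.coeff n = pr a (fun m => if m = n then 1 else 0) := by
  simp only [pr_eq, mul_ite, mul_one, mul_zero, Finset.sum_ite_eq', Finsupp.mem_support_iff]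
  split_ifs with h
  · rfl
  · exact not_not.1 h
theorem pr_prod {ι : Type} [Fintype ι] [DecidableEq ι] (Z : ℝ) (f : ι → Eis → ℂ) (F : Eis → ℂ) :
    pr (∏ i, trc Z (f i)) F =
      ∑ x ∈ Fintype.piFinset (fun _ : ι => ball Z), (∏ i, f i (x i)) * F (∏ i, x i) := by
  simp only [trc]
  rw [Finset.prod_univ_sum, box_sum]
  simp only [MonoidAlgebra.prod_single, box_single]
theorem box_congr {a : Sq} {F G : Eis → ℂ} (h : ∀ n, a.coeff n ≠ 0 → F n = G n) :
    pr a F = pr a G :=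
  Finset.sum_congr rfl fun n hn => congrArg (a.coeff n * ·) (h n (Finsupp.mem_support_iff.1 hn))
theorem box_supp {a b : Sq} {n : Eis} (h : (a * b).coeff n ≠ 0) :
    ∃ m m', a.coeff m ≠ 0 ∧ b.coeff m' ≠ 0 ∧ m * m' = n := by
  rw [MonoidAlgebra.coeff_mul] at h
  obtain ⟨m, hm, h⟩ := Finset.exists_ne_zero_of_sum_ne_zero h
  obtain ⟨m', hm', h⟩ := Finset.exists_ne_zero_of_sum_ne_zero h
  exact ⟨m, m', Finsupp.mem_support_iff.1 hm, Finsupp.mem_support_iff.1 hm',
    by_contra fun k => h (if_neg k)⟩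
theorem box_one_supp {n : Eis} (h : (1 : Sq).coeff n ≠ 0) : n = 1 := by
  rw [MonoidAlgebra.one_def, MonoidAlgebra.coeff_single, Finsupp.single_apply] at h
  exact (by_contra fun k => h (if_neg k) : 1 = n).symm
theorem box_prod_supp {ι : Type} {I : Finset ι} {a : ι → Sq} {Q : ℕ → Eis → Prop} (h1 : Q 0 1)
    (hm : ∀ k m n, Q 1 m → Q k n → Q (k + 1) (m * n)) (ha : ∀ i ∈ I, ∀ n, (a i).coeff n ≠ 0 → Q 1 n)
    (n : Eis) (h : (∏ i ∈ I, a i).coeff n ≠ 0) : Q I.card n := by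
  induction I using Finset.cons_induction generalizing n with
  | empty => exact box_one_supp h ▸ h1
  | cons i s hi ih =>
    rw [Finset.prod_cons] at h
    obtain ⟨m, m', k1, k2, rfl⟩ := box_supp h
    rw [Finset.card_cons]
    exact hm _ _ _ (ha i (Finset.mem_cons_self _ _) m k1)
      (ih (fun j hj => ha j (Finset.mem_cons_of_mem hj)) m' k2)
theorem box_prod_prim {ι : Type} {I : Finset ι} {a : ι → Sq}
    (ha : ∀ i ∈ I, ∀ n, (a i).coeff n ≠ 0 → Prim n) (n : Eis) (h : (∏ i ∈ I, a i).coeff n ≠ 0) :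
    Prim n :=
  box_prod_supp (Q := fun _ n => Prim n) Prim.one (fun _ _ _ => Prim.mul) ha n h
theorem box_const (a : Sq) (c : ℂ) (F : Eis → ℂ) : pr a (fun n => c * F n) = c * pr a F := by
  simp only [pr_eq, Finset.mul_sum, mul_left_comm]
/-- Completely multiplicative test functions. -/
theorem pr_prod_mul {ι : Type} (I : Finset ι) (a : ι → Sq) (F : Eis → ℂ) (h1 : F 1 = 1)
    (hF : ∀ m n, Prim m → Prim n → F (m * n) = F m * F n)
    (ha : ∀ i ∈ I, ∀ n, (a i).coeff n ≠ 0 → Prim n) :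
    pr (∏ i ∈ I, a i) F = ∏ i ∈ I, pr (a i) F := by
  induction I using Finset.cons_induction with
  | empty => exact (pr_one F).trans h1
  | cons i s hi ih =>
    have k1 : ∀ j ∈ s, ∀ n, (a j).coeff n ≠ 0 → Prim n :=
      fun j hj => ha j (Finset.mem_cons_of_mem hj)
    rw [Finset.prod_cons, Finset.prod_cons, pr_mul, ← ih k1, mul_comm (pr (a i) F), ← box_const]
    refine box_congr fun m hm => ?_
    rw [mul_comm _ (F m), ← box_const]
    exact box_congr fun n hn => hF m n (ha i (Finset.mem_cons_self _ _) m hm) (box_prod_prim k1 n hn)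
theorem norm_pr_prod_le {ι : Type} (I : Finset ι) (a : ι → Sq) (F : Eis → ℂ) {B : ℝ}
    (hF : ∀ n, ‖F n‖ ≤ B) :
    ‖pr (∏ i ∈ I, a i) F‖ ≤ B * ∏ i ∈ I, ∑ n ∈ (a i).coeff.support, ‖(a i).coeff n‖ := by
  induction I using Finset.cons_induction generalizing F with
  | empty =>
    rw [Finset.prod_empty, Finset.prod_empty, pr_one, mul_one]
    exact hF 1
  | cons i s hi ih =>
    rw [Finset.prod_cons, Finset.prod_cons, pr_mul, pr_eq, mul_left_comm, Finset.sum_mul]
    refine norm_sum_le_of_le _ fun m _ => ?_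
    rw [norm_mul]
    exact mul_le_mul_of_nonneg_left (ih _ fun n => hF _) (norm_nonneg _)
theorem norm_gty_le (X z : ℝ) (ty : Fin 3) (n : Eis) : ‖gty X z ty n‖ ≤ 1 := by
  unfold gty
  split_ifs
  all_goals first | exact norm_mu_le n | simp
theorem box_gty {X z : ℝ} {ty : Fin 3} {n : Eis} (h : gty X z ty n ≠ 0) :
    Ro z n ∧ (ty ≠ 1 → n = 1 ∨ N n ≤ X ^ (7 / 20 : ℝ)) := by
  unfold gty at h
  split_ifs at h with h1 h2 h3 h4 h5
  · exact ⟨h2 ▸ Ro.one z, fun _ => Or.inl h2⟩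
  · exact absurd rfl h
  · exact ⟨h4, fun k => absurd h3 k⟩
  · exact absurd rfl h
  · exact ⟨h5.1, fun _ => Or.inr h5.2⟩
  · exact absurd rfl h
theorem gty_ro {X z : ℝ} {ty : Fin 3} {n : Eis} (h : gty X z ty n ≠ 0) : Ro z n := (box_gty h).1
theorem box_fb (X z : ℝ) (ty : Fin 3) (ρ t : ℝ) (n : Eis) : (fb X z ty ρ t).coeff n =
    if n ∈ ball (X ^ 2) then gty X z ty n * W2 (Real.exp ρ) t n else 0 := coeff_trc _ _ _
theorem box_fb_ne {X z : ℝ} {ty : Fin 3} {ρ t : ℝ} {n : Eis} (h : (fb X z ty ρ t).coeff n ≠ 0) :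
    n ∈ ball (X ^ 2) ∧ gty X z ty n ≠ 0 := by
  rw [box_fb] at h
  split_ifs at h with h1
  · exact ⟨h1, left_ne_zero_of_mul h⟩
  · exact absurd rfl h
theorem box_fI_prim {X z : ℝ} {ty : Fin 6 → Fin 3} {ρ : Fin 6 → ℝ} {t : ℝ} {I : Finset (Fin 6)}
    (n : Eis) (h : (fI X z ty ρ t I).coeff n ≠ 0) : Prim n :=
  box_prod_prim (fun _ _ _ k => (gty_ro (box_fb_ne k).2).1) n h
theorem sup_fI {X : ℝ} (hX : 1 ≤ X) (z : ℝ) (ty : Fin 6 → Fin 3) (ρ : Fin 6 → ℝ) (t : ℝ)
    (I : Finset (Fin 6)) : Sup (fI X z ty ρ t I) z (X ^ 12) := fun n hn => by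
  have k := box_prod_supp (Q := fun k n => Ro z n ∧ N n ≤ (X ^ 2) ^ k) ⟨Ro.one z, by simp⟩
    (fun k m n h1 h2 => ⟨h1.1.mul h2.1, by
      rw [N_mul, add_comm, pow_add]
      exact mul_le_mul h1.2 h2.2 (N_nonneg _) (by positivity)⟩)
    (fun _ _ _ k => ⟨gty_ro (box_fb_ne k).2, by
      rw [pow_one]
      exact (mem_ball.1 (box_fb_ne k).1).2⟩) n hn
  refine ⟨k.1, k.2.trans ?_⟩
  rw [← pow_mul]
  have := I.card_le_univ
  rw [Fintype.card_fin] at this
  exact pow_le_pow_right₀ hX (by omega)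
theorem box_tw {a b : Sq} {τ : ℝ} (h : ∀ n, b.coeff n = tw a.coeff τ n) (F : Eis → ℂ) :
    pr b F = pr a (fun n => nit τ n * F n) := by
  rw [pr, Finsupp.sum_of_support_subset _ (s := a.coeff.support) (fun n hn => ?_) _
    fun _ _ => zero_mul _, pr_eq]
  · simp only [h, tw, mul_assoc]
  · rw [Finsupp.mem_support_iff, h] at hn
    exact Finsupp.mem_support_iff.2 (left_ne_zero_of_mul hn)
theorem coeff_fI_tw (X z : ℝ) (ty : Fin 6 → Fin 3) (ρ : Fin 6 → ℝ) (t τ : ℝ) (I : Finset (Fin 6))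
    (n : Eis) : (fI X z ty ρ (t + τ) I).coeff n = tw (fI X z ty ρ t I).coeff τ n := by
  induction I using Finset.cons_induction generalizing n with
  | empty =>
    change (1 : Sq).coeff n = (1 : Sq).coeff n * nit τ n
    by_cases h : (1 : Sq).coeff n = 0
    · rw [h, zero_mul]
    · rw [box_one_supp h]
      simp [nit]
  | cons i s hi ih =>
    have k1 : ∀ n, (fb X z (ty i) (ρ i) (t + τ)).coeff n =
        tw (fb X z (ty i) (ρ i) t).coeff τ n := fun n => by
      simp only [tw, box_fb, W2, nit_add, ite_mul, zero_mul, mul_assoc]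
    have k2 : ∀ t, fI X z ty ρ t (Finset.cons i s hi) = fb X z (ty i) (ρ i) t * fI X z ty ρ t s :=
      fun t => Finset.prod_cons hi
    rw [tw, k2, k2, coeff_eq_pr, coeff_eq_pr, pr_mul, pr_mul, box_tw k1, mul_comm, ← box_const]
    refine box_congr fun m hm => ?_
    rw [box_tw ih, ← box_const, ← box_const]
    refine box_congr fun m' hm' => ?_
    split_ifs with h
    · rw [← h, nit_mul τ (mem_ball.1 (box_fb_ne hm).1).1 (box_fI_prim m' hm').ne_zero, mul_assoc]
    · rw [mul_zero, mul_zero, mul_zero]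
theorem box_mul (X z : ℝ) (ty : Fin 6 → Fin 3) (ρ : Fin 6 → ℝ) (t : ℝ) (I : Finset (Fin 6)) :
    Box X z ty ρ t = pr (fI X z ty ρ t I * fI X z ty ρ t Iᶜ) Dl := by
  rw [Box, fI, fI, fI, Finset.prod_mul_prod_compl]
theorem box_split (X z : ℝ) (ty : Fin 6 → Fin 3) (ρ : Fin 6 → ℝ) (t τ : ℝ) (I : Finset (Fin 6)) :
    Box X z ty ρ (t + τ) = Bil (fI X z ty ρ t I).coeff.support (fI X z ty ρ t Iᶜ).coeff.support
      (tw (fI X z ty ρ t I).coeff τ) (tw (fI X z ty ρ t Iᶜ).coeff τ) := by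
  rw [box_mul X z ty ρ _ I, pr_mul, box_tw (coeff_fI_tw X z ty ρ t τ I)]
  simp only [box_tw (coeff_fI_tw X z ty ρ t τ Iᶜ)]
  simp only [Bil, pr_eq, tw, Finset.mul_sum, mul_assoc]
theorem box_one (X z : ℝ) (ty : Fin 6 → Fin 3) (ρ : Fin 6 → ℝ) (t : ℝ) {j : Fin 6} (h : ty j = 1) :
    Box X z ty ρ t = ∑ k ∈ (fI X z ty ρ t {j}ᶜ).coeff.support,
      (fI X z ty ρ t {j}ᶜ).coeff k * RS X z (Real.exp (ρ j)) t k := by
  rw [box_mul X z ty ρ _ {j}, mul_comm, pr_mul, pr_eq]
  refine Finset.sum_congr rfl fun k _ => congrArg _ ?_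
  rw [fI, Finset.prod_singleton, fb, pr_trc, h]
  rfl
theorem box_lg (c ρ : ℝ) {n : Eis} (hn : n ≠ 0) :
    lg c (N n / Real.exp ρ) = Real.exp (-(c * (Real.log (N n) - ρ) ^ 2)) := by
  rw [lg, Real.log_div (N_pos hn).ne' (Real.exp_pos ρ).ne', Real.log_exp]
theorem continuous_box (X z : ℝ) (ty : Fin 6 → Fin 3) :
    Continuous fun p : (Fin 6 → ℝ) × ℝ => Box X z ty p.1 p.2 := by
  simp only [Box, fI, fb, pr_prod]
  refine continuous_finsetSum _ fun x hx => Continuous.mul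
    (continuous_finsetProd _ fun i _ => continuous_const.mul ?_) continuous_const
  simp only [W2, box_lg _ _ (mem_ball.1 (Fintype.mem_piFinset.1 hx i)).1]
  exact Continuous.mul (by fun_prop) ((continuous_nit _).comp continuous_snd)
theorem continuous_hat (L : ℝ) : Continuous (hat L) :=
  Continuous.finSnoc (A := fun _ => ℝ) continuous_id (by fun_prop)
theorem sum_hat (L : ℝ) (ρ : Fin 5 → ℝ) : ∑ i, hat L ρ i = L := by
  rw [Fin.sum_univ_castSucc]
  simp only [hat, Fin.snoc_castSucc, Fin.snoc_last, add_sub_cancel]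
theorem measurableSet_good (L : ℝ) : MeasurableSet {ρ : Fin 5 → ℝ | Good L (hat L ρ)} := by
  simp only [Good, sum_hat, true_and, Set.ofPred_forall]
  exact (isClosed_iInter fun i => isClosed_le continuous_const
    ((continuous_apply i).comp (continuous_hat L))).measurableSet

end Vale.Agent.P006
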