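import Vale.Agent.P006.BoxA

/-! Products of localised variables: norms. -/

namespace Vale.Agent.P006

open Vale.Agent.P026 Eis Complex MeasureTheory Filter Topology
open scoped Classical ComplexConjugate

theorem nv_nonneg (X z : ℝ) (ty : Fin 3) (ρ : ℝ) : 0 ≤ nv X z ty ρ :=
  Finset.sum_nonneg fun _ _ => mul_nonneg (mul_nonneg (by positivity) (lg_pos _ _).le) (vp_nonneg _)

/-- One term of the norm with divisor weight. -/
noncomputable def boxT (k : ℕ) (a : Sq) (K : ℝ) (n : Eis) : ℝ :=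
  ((dp n).card : ℝ) ^ k * ‖a.coeff n‖ ^ 2 * vp (N n / K)

theorem boxT_nonneg (k : ℕ) (a : Sq) (K : ℝ) (n : Eis) : 0 ≤ boxT k a K n :=
  mul_nonneg (by positivity) (vp_nonneg _)

theorem boxT_mono {k k' : ℕ} (h : k ≤ k') {a : Sq} (ha : ∀ n, a.coeff n ≠ 0 → Prim n) (K : ℝ) :
    ∑ n ∈ a.coeff.support, boxT k a K n ≤ ∑ n ∈ a.coeff.support, boxT k' a K n :=
  Finset.sum_le_sum fun n hn => mul_le_mul_of_nonneg_right (mul_le_mul_of_nonneg_right
    (pow_le_pow_right₀ (Nat.one_le_cast.2 (one_le_card_dp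
      (ha n (Finsupp.mem_support_iff.1 hn)).ne_zero)) h) (by positivity)) (vp_nonneg _)

theorem boxT_mul (k : ℕ) {a b : Sq} (ha : ∀ n, a.coeff n ≠ 0 → Prim n)
    (hb : ∀ n, b.coeff n ≠ 0 → Prim n) (K K' : ℝ) :
    ∑ n ∈ (a * b).coeff.support, boxT k (a * b) (K * K') n ≤
      (∑ n ∈ a.coeff.support, boxT (k + 1) a K n) * ∑ n ∈ b.coeff.support, boxT (k + 1) b K' n := by
  rw [Finset.sum_mul_sum, ← Finset.sum_product']
  refine le_trans (Finset.sum_le_sum fun n hn => ?_) ((Finset.sum_fiberwise_eq_sum_filter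
    (a.coeff.support ×ˢ b.coeff.support) (a * b).coeff.support (fun p => p.1 * p.2) _).trans_le
    (Finset.sum_le_sum_of_subset_of_nonneg (Finset.filter_subset _ _) fun p _ _ =>
      mul_nonneg (boxT_nonneg _ _ _ _) (boxT_nonneg _ _ _ _)))
  set T := (a.coeff.support ×ˢ b.coeff.support).filter fun p => p.1 * p.2 = n with hT
  have k0 : ∀ p ∈ T, Prim p.1 ∧ Prim p.2 ∧ p.1 * p.2 = n := fun p hp => by
    obtain ⟨k1, k2⟩ := Finset.mem_filter.1 hp
    exact ⟨ha _ (Finsupp.mem_support_iff.1 (Finset.mem_product.1 k1).1),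
      hb _ (Finsupp.mem_support_iff.1 (Finset.mem_product.1 k1).2), k2⟩
  have k1 : (a * b).coeff n = ∑ p ∈ T, a.coeff p.1 * b.coeff p.2 := by
    rw [MonoidAlgebra.coeff_mul, hT, Finset.sum_filter, Finset.sum_product]
    rfl
  have k2 : T.card ≤ (dp n).card := by
    refine Finset.card_le_card_of_injOn Prod.fst (fun p hp => ?_) fun p hp q hq h => ?_
    · obtain ⟨k2, k3, rfl⟩ := k0 p hp
      exact (mem_dp (k2.mul k3).ne_zero).2 ⟨k2, dvd_mul_right _ _⟩
    · refine Prod.ext h (mul_left_cancel₀ (k0 p hp).1.ne_zero ?_)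
      rw [(k0 p hp).2.2, h, (k0 q hq).2.2]
  have k3 : ‖(a * b).coeff n‖ ^ 2 ≤ (dp n).card * ∑ p ∈ T, (‖a.coeff p.1‖ * ‖b.coeff p.2‖) ^ 2 := by
    rw [k1]
    refine (pow_le_pow_left₀ (norm_nonneg _) (norm_sum_le_of_le _ fun p _ => norm_mul_le _ _)
      2).trans (sq_sum_le_card_mul_sum_sq.trans ?_)
    exact mul_le_mul_of_nonneg_right (Nat.cast_le.2 k2) (by positivity)
  refine (mul_le_mul_of_nonneg_right (mul_le_mul_of_nonneg_left k3 (by positivity))
    (vp_nonneg _)).trans ?_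
  rw [← mul_assoc, ← pow_succ, Finset.mul_sum, Finset.sum_mul]
  refine Finset.sum_le_sum fun p hp => ?_
  obtain ⟨k4, k5, rfl⟩ := k0 p hp
  have k6 : ((dp (p.1 * p.2)).card : ℝ) ≤ (dp p.1).card * (dp p.2).card := by
    exact_mod_cast card_dp_mul k4 k5
  have k7 := vp_mul_le (N p.1 / K) (N p.2 / K')
  rw [div_mul_div_comm, ← N_mul] at k7
  have k8 := vp_nonneg (N (p.1 * p.2) / (K * K'))
  calc _ ≤ (((dp p.1).card : ℝ) * (dp p.2).card) ^ (k + 1) * (‖a.coeff p.1‖ * ‖b.coeff p.2‖) ^ 2 *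
        (vp (N p.1 / K) * vp (N p.2 / K')) := by gcongr
    _ = _ := by
      unfold boxT
      ring

theorem boxT_fb (X z : ℝ) (ty : Fin 3) (ρ t : ℝ) : ∑ n ∈ (fb X z ty ρ t).coeff.support,
    boxT 5 (fb X z ty ρ t) (Real.exp ρ) n ≤ nv X z ty ρ := by
  refine (Finset.sum_le_sum_of_subset_of_nonneg (t := ball (X ^ 2)) (fun n hn => (box_fb_ne
    (Finsupp.mem_support_iff.1 hn)).1) fun n _ _ => boxT_nonneg _ _ _ _).trans
    (Finset.sum_le_sum fun n hn => le_of_eq ?_)
  rw [boxT, box_fb, if_pos hn, norm_mul, norm_W2, mul_pow, pow_two (lg _ _), lg_mul, add_halves,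
    ← mul_assoc]

theorem boxT_prod (X z : ℝ) (ty : Fin 6 → Fin 3) (ρ : Fin 6 → ℝ) (t : ℝ) {I : Finset (Fin 6)}
    (hI : I.Nonempty) (k : ℕ) (hk : k + I.card ≤ 6) :
    ∑ n ∈ (fI X z ty ρ t I).coeff.support, boxT k (fI X z ty ρ t I) (Real.exp (∑ i ∈ I, ρ i)) n ≤
      ∏ i ∈ I, nv X z (ty i) (ρ i) := by
  have k0 : ∀ i k, k ≤ 5 → ∑ n ∈ (fb X z (ty i) (ρ i) t).coeff.support,
      boxT k (fb X z (ty i) (ρ i) t) (Real.exp (ρ i)) n ≤ nv X z (ty i) (ρ i) := fun i k hk =>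
    (boxT_mono hk (fun _ h => (gty_ro (box_fb_ne h).2).1) _).trans (boxT_fb _ _ _ _ _)
  induction hI using Finset.Nonempty.cons_induction generalizing k with
  | singleton i =>
    rw [fI, Finset.prod_singleton, Finset.prod_singleton, Finset.sum_singleton]
    rw [Finset.card_singleton] at hk
    exact k0 i k (by omega)
  | cons i s hi hs ih =>
    rw [fI, Finset.prod_cons, Finset.prod_cons, Finset.sum_cons, Real.exp_add]
    rw [Finset.card_cons] at hk
    have := hs.card_pos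
    exact (boxT_mul k (fun _ h => (gty_ro (box_fb_ne h).2).1) box_fI_prim _ _).trans
      (mul_le_mul (k0 i _ (by omega)) (ih _ (by omega))
        (Finset.sum_nonneg fun _ _ => boxT_nonneg _ _ _ _) (nv_nonneg _ _ _ _))

/-- Induction on I with the norms ∑ card (dp n) ^ k ‖a n‖ ^ 2 vp. -/
theorem np (X z : ℝ) (ty : Fin 6 → Fin 3) (ρ : Fin 6 → ℝ) (t : ℝ) (I : Finset (Fin 6)) :
    nw (fI X z ty ρ t I).coeff.support (fI X z ty ρ t I).coeff (Real.exp (∑ i ∈ I, ρ i)) ≤
      2 * ∏ i ∈ I, nv X z (ty i) (ρ i) := by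
  rcases I.eq_empty_or_nonempty with rfl | hI
  · rw [fI, Finset.prod_empty, Finset.prod_empty, Finset.sum_empty, MonoidAlgebra.one_def,
      MonoidAlgebra.coeff_single, Finsupp.support_single _ one_ne_zero, nw, Finset.sum_singleton]
    simp [vp_one]
  · have k1 := boxT_prod X z ty ρ t hI 0 (by simpa using I.card_le_univ)
    have k2 : 0 ≤ ∏ i ∈ I, nv X z (ty i) (ρ i) := Finset.prod_nonneg fun _ _ => nv_nonneg _ _ _ _
    simp only [boxT, pow_zero, one_mul] at k1
    exact le_trans k1 (by linarith)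

/-- Summation over dyadic shells. -/
theorem box_shell {S : Finset Eis} {u : Eis → ℝ} {M Y Z : ℝ} (hY : 0 < Y) (hM : 0 ≤ M)
    (hS : S ⊆ ball Z) (hu : ∀ n, 0 ≤ u n)
    (h : ∀ x, Y ≤ x → ∑ n ∈ S, (if N n ≤ x then u n else 0) ≤ M * x) :
    ∑ n ∈ S, u n * lg (1 / 2) (N n / Y) ≤ 8 * Real.exp 2 * M * Y := by
  have e1 : 1 ≤ Real.exp 2 := Real.one_le_exp (by norm_num)
  have k1 : ∀ J : ℕ, ∑ n ∈ S, (if N n ≤ 2 ^ J * Y then u n * lg (1 / 2) (N n / Y) else 0) ≤
      4 * Real.exp 2 * (M * Y) * (2 - (1 / 2) ^ J) := fun J => by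
    induction J with
    | zero =>
      rw [pow_zero, pow_zero, one_mul]
      refine le_trans (Finset.sum_le_sum fun n _ => ?_) ((h Y le_rfl).trans ?_)
      · split_ifs
        · exact mul_le_of_le_one_right (hu n) (lg_le_one (by norm_num) _)
        · exact le_rfl
      · nlinarith [mul_nonneg hM hY.le]
    | succ J ih =>
      have k2 : ∀ n ∈ S, (if N n ≤ 2 ^ (J + 1) * Y then u n * lg (1 / 2) (N n / Y) else 0) ≤
          (if N n ≤ 2 ^ J * Y then u n * lg (1 / 2) (N n / Y) else 0) +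
            Real.exp 2 * ((1 / 2) ^ J) ^ 2 * if N n ≤ 2 ^ (J + 1) * Y then u n else 0 := by
        intro n _
        have := hu n
        have := lg_pos (1 / 2) (N n / Y)
        split_ifs with h1 h2 h2
        · exact le_add_of_nonneg_right (by positivity)
        · have k3 : 2 ^ J ≤ N n / Y := (le_div_iff₀ hY).2 (not_le.1 h2).le
          have k4 := lg_le_rpow one_half_pos (-2) (lt_of_lt_of_le (by positivity) k3)
          rw [show (-2 : ℝ) ^ 2 / (4 * (1 / 2)) = 2 by norm_num,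
            Real.rpow_neg (le_trans (by positivity) k3), Real.rpow_two] at k4
          rw [zero_add, mul_comm, one_div_pow, one_div ((2 : ℝ) ^ J), inv_pow]
          refine mul_le_mul_of_nonneg_right (k4.trans ?_) (hu n)
          gcongr
        · positivity
        · positivity
      refine (Finset.sum_le_sum k2).trans ?_
      rw [Finset.sum_add_distrib, ← Finset.mul_sum]
      refine (add_le_add ih (mul_le_mul_of_nonneg_left (h _ (le_mul_of_one_le_left hY.le
        (one_le_pow₀ one_le_two))) (by positivity))).trans (le_of_eq ?_)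
      have k3 : (1 / 2 : ℝ) ^ J * 2 ^ J = 1 := by
        rw [← mul_pow]
        norm_num
      rw [pow_succ, pow_succ (1 / 2 : ℝ) J, pow_succ (2 : ℝ) J]
      linear_combination (2 * Real.exp 2 * (1 / 2) ^ J * M * Y) * k3
  obtain ⟨J, hJ⟩ := pow_unbounded_of_one_lt (Z / Y) one_lt_two
  refine le_trans (le_of_eq (Finset.sum_congr rfl fun n hn => (if_pos ?_).symm)) ((k1 J).trans ?_)
  · exact (mem_ball.1 (hS hn)).2.trans ((div_le_iff₀ hY).1 hJ.le)
  · have : 0 ≤ 4 * Real.exp 2 * (M * Y) * (1 / 2) ^ J := by positivity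
    linarith

end Vale.Agent.P006
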