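import Vale.Agent.P006.Hecke
import Vale.Agent.P026.PtwB

/-! Auxiliary lemmas for the mean square budget: normality, Bessel, the substitution. -/

namespace Vale.Agent.P006

open Vale.Agent.P026 Eis Complex MeasureTheory Filter Topology
open scoped Classical ComplexConjugate

theorem bud_conj (s : SL) {g : SL} (hg : g ∈ G3) : s * g * s⁻¹ ∈ G3 := by
  obtain ⟨⟨a, ha⟩, ⟨b, hb⟩, ⟨c, hc⟩, ⟨d, hd⟩⟩ := hg
  have h := s.det
  refine ⟨⟨(s.a * a + s.b * c) * s.d - (s.a * b + s.b * d) * s.c, ?_⟩,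
    ⟨-(s.a * a + s.b * c) * s.b + (s.a * b + s.b * d) * s.a, ?_⟩,
    ⟨(s.c * a + s.d * c) * s.d - (s.c * b + s.d * d) * s.c, ?_⟩,
    ⟨-(s.c * a + s.d * c) * s.b + (s.c * b + s.d * d) * s.a, ?_⟩⟩ <;>
    simp only [SL.mul_a, SL.mul_b, SL.mul_c, SL.mul_d, SL.inv_a, SL.inv_b, SL.inv_c, SL.inv_d]
  · linear_combination h + s.a * s.d * ha + s.b * s.d * hc - s.a * s.c * hb - s.b * s.c * hd
  · linear_combination -s.a * s.b * ha - s.b * s.b * hc + s.a * s.a * hb + s.b * s.a * hd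
  · linear_combination s.c * s.d * ha + s.d * s.d * hc - s.c * s.c * hb - s.d * s.c * hd
  · linear_combination h - s.c * s.b * ha - s.d * s.b * hc + s.c * s.a * hb + s.d * s.a * hd

theorem bud_det (g : SL) (Q : HF) :
    (act g Q).1 * (act g Q).2.2 - normSq (act g Q).2.1 = Q.1 * Q.2.2 - normSq Q.2.1 := by
  rw [act, geo_det, geo_detC, normSq_one, one_mul]

/-- An element of G3 keeping both heights above one third is a translation. -/
theorem bud_tr {h : SL} (hh : h ∈ G3) {Q : HF} (hQ : Q ∈ slab)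
    (h1 : Q.2.2 < 3 * √(Q.1 * Q.2.2 - normSq Q.2.1))
    (h2 : (act h Q).2.2 < 3 * √(Q.1 * Q.2.2 - normSq Q.2.1)) : ∃ y, h = tr (3 * y) := by
  obtain ⟨ha, ⟨b, hb⟩, ⟨c, hc⟩, hd⟩ := hh
  have hE : 0 < Q.1 * Q.2.2 - normSq Q.2.1 := one_pos.trans_le hQ.2.1
  have h3 := geo_D_mul_hq Q (toC h.c) (toC h.d)
  have h4 : (act h Q).2.2 = hq Q (toC h.c) (toC h.d) := rfl
  have h5 : 0 < (act h Q).2.2 := (act_mem_slab h hQ).1
  have hc0 : h.c = 0 := by
    by_contra h0
    have h6 : c ≠ 0 := fun e => h0 (by rw [hc, e, mul_zero])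
    have h7 : N h.c = 9 * N c := by
      have := N_natCast 3
      rw [hc, N_mul, show (3 : Eis) = ((3 : ℕ) : Eis) from rfl, this]
      norm_num
    have h8 := one_le_N h6
    have h9 : Q.2.2 * (act h Q).2.2 < 3 * √(Q.1 * Q.2.2 - normSq Q.2.1) *
        (3 * √(Q.1 * Q.2.2 - normSq Q.2.1)) := mul_lt_mul'' h1 h2 hQ.1.le h5.le
    have h10 := Real.mul_self_sqrt hE.le
    rw [h4, h3, normSq_toC, h7] at h9
    nlinarith [normSq_nonneg (Q.2.1 * toC h.c + Q.2.2 * toC h.d)]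
  have hdet := h.det
  rw [hc0, mul_zero, sub_zero] at hdet
  have e1 : h.a = 1 := ha.eq_one_of_isUnit (IsUnit.of_mul_eq_one _ hdet)
  have e2 : h.d = 1 := by rwa [e1, one_mul] at hdet
  exact ⟨b, SL.ext e1 hb hc0 e2⟩

theorem bud_lp {μ : Measure ℂ} (f : Lp ℂ 2 μ) :
    ∫⁻ z, ‖f z‖ₑ ^ 2 ∂μ = ENNReal.ofReal (‖f‖ ^ 2) := by
  have e : ‖f‖ ^ 2 = ∫ z, ‖f z‖ ^ 2 ∂μ := by
    rw [← inner_self_eq_norm_sq (𝕜 := ℂ), L2.inner_def, ← integral_re (L2.integrable_inner f f)]
    congr 1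
    funext Q
    exact inner_self_eq_norm_sq (𝕜 := ℂ) _
  rw [e, ofReal_integral_eq_lintegral_ofReal
    ((memLp_two_iff_integrable_sq_norm (Lp.aestronglyMeasurable f)).1 (Lp.memLp f))
    (Eventually.of_forall fun Q => by positivity)]
  congr 1
  funext Q
  rw [ENNReal.ofReal_pow (norm_nonneg _), ofReal_norm]

/-- Bessel's inequality on the parallelogram. -/
theorem bud_bessel {f : ℂ → ℂ} (hf : MemLp f 2 (volume.restrict F9)) (S : Finset Eis) :
    ENNReal.ofReal (V9⁻¹ * ∑ r ∈ S, ‖∫ z in F9, f z * conj (eR r z)‖ ^ 2) ≤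
      ∫⁻ z in F9, ‖f z‖ₑ ^ 2 := by
  have hV := V9_pos
  set k : ℝ := √V9⁻¹ with hk
  have hk2 : k * k = V9⁻¹ := Real.mul_self_sqrt (by positivity)
  have hk0 : 0 ≤ k := Real.sqrt_nonneg _
  have he : ∀ r : Eis, MemLp (fun z => (k : ℂ) * eR r z) 2 (volume.restrict F9) := fun r =>
    (MemLp.of_bound (continuous_eR r).aestronglyMeasurable 1
      (Eventually.of_forall fun z => (norm_eR r z).le)).const_mul _
  have hin : ∀ (r : Eis) (g : ℂ → ℂ) (hg : MemLp g 2 (volume.restrict F9)),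
      inner ℂ ((he r).toLp _) (hg.toLp _) = k * ∫ z in F9, g z * conj (eR r z) := by
    intro r g hg
    rw [L2.inner_def, ← integral_const_mul]
    refine integral_congr_ae ?_
    filter_upwards [(he r).coeFn_toLp, hg.coeFn_toLp] with z h1 h2
    rw [h1, h2, RCLike.inner_apply', map_mul, conj_ofReal]
    ring
  have ho : Orthonormal ℂ fun r : Eis => (he r).toLp _ := by
    rw [orthonormal_iff_ite]
    intro r r'
    rw [hin r _ (he r')]
    simp only [mul_assoc, integral_const_mul, ← eR_neg, ← eR_add_left, integral_eR,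
      add_neg_eq_zero]
    by_cases h : r = r'
    · rw [if_pos h, if_pos h.symm, ← mul_assoc, ← ofReal_mul, ← ofReal_mul, hk2,
        inv_mul_cancel₀ hV.ne', ofReal_one]
    · rw [if_neg h, if_neg (Ne.symm h), mul_zero, mul_zero]
  have hB := ho.sum_inner_products_le (hf.toLp _) (s := S)
  have e : ∫⁻ z in F9, ‖f z‖ₑ ^ 2 = ENNReal.ofReal (‖hf.toLp _‖ ^ 2) := by
    rw [← bud_lp]
    refine lintegral_congr_ae ?_
    filter_upwards [hf.coeFn_toLp] with z h
    rw [h]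
  rw [e]
  refine ENNReal.ofReal_le_ofReal (le_of_eq_of_le ?_ hB)
  rw [Finset.mul_sum]
  refine Finset.sum_congr rfl fun r _ => ?_
  rw [hin r f hf, norm_mul, norm_real, Real.norm_of_nonneg hk0, mul_pow, pow_two k, hk2]

theorem bud_int (x : ℝ) :
    IntegrableOn (fun v => kap (x * v) ^ 2 / v ^ 3) (Set.Ioc (1 / 3 : ℝ) 1) := by
  refine (ContinuousOn.integrableOn_Icc ?_).mono_set Set.Ioc_subset_Icc_self
  have := continuous_kap
  refine ContinuousOn.div (by fun_prop) (by fun_prop) fun v hv => ?_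
  have : 0 < v := by linarith [hv.1]
  positivity

/-- The substitution D = √E / v. -/
theorem bud_subst {H : ℝ → ℝ} (h0 : ∀ v, 0 ≤ H v)
    (hi : IntegrableOn (fun v => H v / v ^ 3) (Set.Ioc (1 / 3 : ℝ) 1)) {E c : ℝ} (hE : 0 < E)
    (hc : 0 ≤ c) :
    ∫⁻ D in Set.Ico √E (3 * √E), ENNReal.ofReal (D * (c * H (√E / D))) =
      ENNReal.ofReal (c * E * ∫ v in Set.Ioc (1 / 3 : ℝ) 1, H v / v ^ 3) := by
  have hs : 0 < √E := Real.sqrt_pos.2 hE
  have himg : (fun v => √E / v) '' Set.Ioc (1 / 3 : ℝ) 1 = Set.Ico √E (3 * √E) := by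
    ext D
    constructor
    · rintro ⟨v, ⟨h1, h2⟩, rfl⟩
      have hv : 0 < v := by linarith
      constructor
      · rw [le_div_iff₀ hv]
        nlinarith
      · rw [div_lt_iff₀ hv]
        nlinarith
    · rintro ⟨h1, h2⟩
      have hD : 0 < D := hs.trans_le h1
      refine ⟨√E / D, ⟨?_, ?_⟩, ?_⟩
      · rw [lt_div_iff₀ hD]
        linarith
      · rwa [div_le_one hD]
      · field_simp
  rw [← himg, lintegral_image_eq_lintegral_abs_deriv_mul measurableSet_Ioc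
    (f' := fun v => -(√E / v ^ 2)) ?_ ?_, ← integral_const_mul,
    ofReal_integral_eq_lintegral_ofReal (hi.const_mul _) ?_]
  · refine setLIntegral_congr_fun measurableSet_Ioc fun v hv => ?_
    have hv0 : 0 < v := by linarith [hv.1]
    rw [← ENNReal.ofReal_mul (abs_nonneg _), abs_neg, abs_of_pos (by positivity),
      show √E / (√E / v) = v by field_simp]
    congr 1
    field_simp
    rw [Real.sq_sqrt hE.le]
    ring
  · filter_upwards [ae_restrict_mem measurableSet_Ioc] with v hv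
    have hv0 : 0 < v := by linarith [hv.1]
    have := h0 v
    positivity
  · intro v hv
    have hv0 : v ≠ 0 := by linarith [hv.1] |> fun h : 0 < v => h.ne'
    have := ((hasDerivAt_inv hv0).const_mul √E).hasDerivWithinAt (s := Set.Ioc (1 / 3 : ℝ) 1)
    simpa only [div_eq_mul_inv, mul_neg] using this
  · intro v hv v' hv' e
    have h1 : 0 < v := by linarith [hv.1]
    have h2 : 0 < v' := by linarith [hv'.1]
    dsimp only at e
    field_simp at e
    exact e.symm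

theorem bud_l2c : l2c = ((Real.Gamma (4 / 3) * ∫ E in (1 : ℝ)..2, E ^ (-(1 / 3) : ℝ) : ℝ) : ℂ) := by
  have e : ∫ p in DE, l2h (fun _ => 1) 1 1 p = ∫ p in DE,
      ((Real.exp (-p.1) * p.1 ^ ((4 / 3 : ℝ) - 1) * p.2 ^ (-(1 / 3) : ℝ) : ℝ) : ℂ) := by
    refine setIntegral_congr_fun measurableSet_DE fun p hp => ?_
    have h1 : 0 < p.1 := hp.1
    have h2 : 0 < p.2 := one_pos.trans_le hp.2.1
    simp only [l2h, one_mul, mul_one]
    rw [← ofReal_mul, Real.div_rpow h1.le h2.le, Real.rpow_neg h2.le, div_eq_mul_inv, mul_assoc]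
    norm_num
  rw [l2c, e, integral_complex_ofReal, l2_DE_prod, integral_prod_mul
    (fun x : ℝ => Real.exp (-x) * x ^ ((4 / 3 : ℝ) - 1)) (fun y : ℝ => y ^ (-(1 / 3) : ℝ)),
    Real.Gamma_eq_integral (by norm_num), intervalIntegral.integral_of_le (by norm_num),
    integral_Icc_eq_integral_Ioc]

/-- The mean square over the fundamental domain. -/
theorem bud_lim {β : HF → ENNReal} (hβ : IsBeta β) :
    Tendsto (fun t => ∫⁻ Q, β Q * ‖l2T kap0 t Q‖ₑ ^ 2 ∂nu) (𝓝[>] 0) (𝓝 (ENNReal.ofReal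
      (Real.pi * Z0 * Real.Gamma (4 / 3) * ∫ E in (1 : ℝ)..2, E ^ (-(1 / 3) : ℝ)))) := by
  obtain ⟨hl, B, hB⟩ := rs_one 0
  rw [kapS_one_zero] at hl hB
  rw [if_pos (show Ess 0 from Or.inl (dvd_zero _))] at hl
  have h := (l2I_lim adm_kap0 l2_kap00 (fun s _ => l2_sigma_kap0 s) hB hl).comp
    (tendsto_id.prodMk tendsto_id)
  have h2 := ENNReal.tendsto_ofReal ((Complex.continuous_re.tendsto _).comp (h.div_const 9))
  have e : ((Real.pi : ℂ) * (((9 * Z0 : ℝ) : ℂ) * l2c) / 9).re =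
      Real.pi * Z0 * Real.Gamma (4 / 3) * ∫ E in (1 : ℝ)..2, E ^ (-(1 / 3) : ℝ) := by
    rw [bud_l2c, ← ofReal_mul, ← ofReal_mul, ← ofReal_ofNat, ← ofReal_div, ofReal_re]
    ring
  rw [e] at h2
  refine h2.congr' ?_
  filter_upwards [self_mem_nhdsWithin] with t ht
  have h3 : ((∫ Q, (β Q).toReal * ‖l2T kap0 t Q‖ ^ 2 ∂nu : ℝ) : ℂ) = l2I kap0 t t / 9 := by
    rw [← (l2_pair hβ ht ht).2, ← integral_complex_ofReal]
    simp only [ofReal_mul, l2_normsq]
  simp only [Function.comp, id]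
  rw [← h3, ofReal_re, ofReal_integral_eq_lintegral_ofReal (l2_sq_int hβ ht)
    (Eventually.of_forall fun Q => by positivity)]
  refine lintegral_congr fun Q => ?_
  rw [ENNReal.ofReal_mul ENNReal.toReal_nonneg, ENNReal.ofReal_toReal
    (ne_top_of_le_ne_top ENNReal.one_ne_top (hβ.2.1 Q)), ENNReal.ofReal_pow (norm_nonneg _),
    ofReal_norm]

end Vale.Agent.P006
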