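import Vale.Agent.P006.Hecke
import Vale.Agent.P026.PtwB
import Vale.Agent.P006.BudA

/-! The mean square budget for the coefficients. -/

namespace Vale.Agent.P006

open Vale.Agent.P026 Eis Complex MeasureTheory Filter Topology
open scoped Classical ComplexConjugate

/-- The region z in F9, 1/3 < v ≤ 1 with v = √E / D. -/
def Reg : Set HF := {Q | Q ∈ slab ∧ Q.2.1 / (Q.2.2 : ℂ) ∈ F9 ∧
  √(Q.1 * Q.2.2 - normSq Q.2.1) ≤ Q.2.2 ∧ Q.2.2 < 3 * √(Q.1 * Q.2.2 - normSq Q.2.1)}

theorem bud_meas : MeasurableSet Reg := by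
  have h : Measurable fun Q : HF => √(Q.1 * Q.2.2 - normSq Q.2.1) :=
    Continuous.measurable (by have := continuous_normSq; fun_prop)
  exact measurableSet_slab.inter
    (((show Measurable fun Q : HF => Q.2.1 / (Q.2.2 : ℂ) by fun_prop) measurableSet_F9).inter
      ((measurableSet_le h measurable_snd.snd).inter
        (measurableSet_lt measurable_snd.snd (h.const_mul 3))))

theorem bud_sub : Reg ⊆ box 1 5 := by
  rintro Q ⟨h1, h2, h3, h4⟩
  refine ⟨h1, ⟨le_trans (Real.one_le_sqrt.2 h1.2.1) h3, ?_⟩, h2⟩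
  have : √(Q.1 * Q.2.2 - normSq Q.2.1) ≤ 5 / 3 :=
    Real.sqrt_le_iff.2 ⟨by norm_num, by linarith [h1.2.2]⟩
  linarith

theorem bud_mult (s : SL) (Q : HF) :
    ∑' g : G3, Reg.indicator (1 : HF → ENNReal) (act s⁻¹ (act g Q)) ≤ 9 := by
  by_cases h : ∃ g0 : G3, act s⁻¹ (act g0 Q) ∈ Reg
  swap
  · push Not at h
    simp only [Set.indicator_of_notMem (h _), tsum_zero, zero_le]
  obtain ⟨g0, h0⟩ := h
  set Q0 := act s⁻¹ (act g0 Q) with hQ0
  let φ : Eis → G3 := fun y => ⟨s * tr (3 * y) * s⁻¹, bud_conj s (l2_tr_mem y)⟩ * g0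
  have hφ : ∀ y, act s⁻¹ (act (φ y) Q) = act (tr (3 * y)) Q0 := fun y => by
    simp only [φ, hQ0, Subgroup.coe_mul, ← act_mul, mul_assoc, inv_mul_cancel_left]
  have hinj : Function.Injective φ := fun y y' e => by
    have e1 := congrArg Subtype.val (mul_right_cancel e)
    have e2 := congrArg SL.b (mul_left_cancel (mul_right_cancel e1))
    exact mul_left_cancel₀ (by decide) e2
  rw [← hinj.tsum_eq (f := fun g : G3 => Reg.indicator (1 : HF → ENNReal) (act s⁻¹ (act g Q))),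
    ← tsum_F9_three (Q0.2.1 / (Q0.2.2 : ℂ))]
  · refine ENNReal.tsum_le_tsum fun y => ?_
    rw [hφ]
    by_cases hy : act (tr (3 * y)) Q0 ∈ Reg
    · have h1 := hy.2.1
      have hD : ((Q0.2.2 : ℝ) : ℂ) ≠ 0 := ofReal_ne_zero.2 h0.1.1.ne'
      rw [eq_pt h0.1.1, act_tr_pt, map_mul, map_ofNat] at h1
      simp only [pt, mul_div_cancel_left₀ _ hD] at h1
      rw [Set.indicator_of_mem hy, Set.indicator_of_mem h1, Pi.one_apply]
    · rw [Set.indicator_of_notMem hy]
      exact zero_le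
  · intro g hg
    have h1 : act s⁻¹ (act g Q) ∈ Reg := by
      by_contra h2
      exact hg (Set.indicator_of_notMem h2 _)
    have h2 : s⁻¹ * (g * g0⁻¹ : G3) * s⁻¹⁻¹ ∈ G3 := bud_conj _ (g * g0⁻¹).2
    have h3 : act (s⁻¹ * (g * g0⁻¹ : G3) * s⁻¹⁻¹) Q0 = act s⁻¹ (act g Q) := by
      simp only [hQ0, Subgroup.coe_mul, Subgroup.coe_inv, ← act_mul, mul_assoc, inv_inv,
        mul_inv_cancel_left, inv_mul_cancel, mul_one]
    have h4 := h1.2.2.2
    rw [← h3, bud_det] at h4
    obtain ⟨y, hy⟩ := bud_tr h2 h0.1 h0.2.2.2 h4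
    refine ⟨y, Subtype.ext ?_⟩
    simp only [φ, ← hy, Subgroup.coe_mul, Subgroup.coe_inv, mul_assoc, inv_inv,
      mul_inv_cancel_left, inv_mul_cancel, mul_one]

/-- If Q and act g Q, g in G3, both have v > 1/3 then g.c = 0 (act_pt: the new D is ≥ N g.c E / D and
N g.c ≥ 9), so g = tr (3 y); tsum_F9_three gives multiplicity 9. G3 is normal in SL. Model:
lintegral_box_le in P026.Geo2 (geo2_unfold, geo2_shift). -/
theorem lintegral_reg_le {β : HF → ENNReal} (hβ : IsBeta β) {F : HF → ENNReal} (hF : Measurable F)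
    (hi : ∀ g ∈ G3, ∀ᵐ Q ∂nu, F (act g Q) = F Q) (s : SL) :
    ∫⁻ Q in Reg, F (act s Q) ≤ 9 * ∫⁻ Q, β Q * F Q ∂nu := by
  let G : HF → ENNReal := fun Q => Reg.indicator 1 (act s⁻¹ Q) * F Q
  have hG : Measurable G := ((measurable_one.indicator bud_meas).comp
    (continuous_act _).measurable).mul hF
  have e : ∀ Q, Reg.indicator (fun Q => F (act s Q)) Q = G (act s Q) := fun Q => by
    simp only [G, geo2_inv, Set.indicator_apply, ite_mul, Pi.one_apply, one_mul, zero_mul]
  have e0 : ∫⁻ Q in Reg, F (act s Q) = ∫⁻ Q, Reg.indicator (fun Q => F (act s Q)) Q ∂nu := by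
    rw [lintegral_indicator bud_meas, nu, Measure.restrict_restrict_of_subset fun Q hQ => hQ.1]
  rw [e0, lintegral_congr e, (measurePreserving_act s).lintegral_comp hG,
    ← lintegral_unfold hβ hG, ← lintegral_const_mul' _ _ (by simp)]
  refine lintegral_mono_ae ?_
  filter_upwards [ae_all_iff.2 fun g : G3 => hi g g.2] with Q hQ
  simp only [G, hQ, ENNReal.tsum_mul_right, mul_left_comm (β Q)]
  exact mul_le_mul_left (bud_mult s Q) _
/-- l2_pair and l2I_lim with rs_one 0 give ∫ β ‖l2T kap0 t‖ ^ 2 → π (9 Z0) l2c / 9, where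
l2c = Gamma (4/3) ∫ over [1, 2] of E ^ (-1/3); Reg lies in box 1 5, where IsTheta.conv gives mean square
convergence (l2T_sig, l2T_act). -/
theorem reg_bound {θ : HF → ℂ} (hθ : IsTheta θ) (A q : Eis) :
    ∫⁻ Q in Reg, ‖θ (act (sig A q) Q)‖ₑ ^ 2 ≤ ENNReal.ofReal
      (Real.pi * (9 * Z0) * Real.Gamma (4 / 3) * ∫ E in (1 : ℝ)..2, E ^ (-(1 / 3) : ℝ)) := by
  obtain ⟨β, hβ⟩ := exists_beta
  have h1 := (ENNReal.Tendsto.const_mul (a := 9) (bud_lim hβ) (Or.inr (by simp))).ennrpow_const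
    (1 / 2 : ℝ)
  have h2 := (hθ.conv A q 1 5 one_pos (by norm_num)).ennrpow_const (1 / 2 : ℝ)
  have h3 := h1.add h2
  rw [ENNReal.zero_rpow_of_pos (by norm_num), add_zero, ← ENNReal.ofReal_ofNat,
    ← ENNReal.ofReal_mul (by norm_num)] at h3
  have h4 : (∫⁻ Q in Reg, ‖θ (act (sig A q) Q)‖ₑ ^ 2) ^ (1 / 2 : ℝ) ≤ _ := ge_of_tendsto h3 (by
    filter_upwards [self_mem_nhdsWithin] with t ht
    have m0 : Measurable fun Q => θ (act (sig A q) Q) :=
      hθ.meas.comp (continuous_act _).measurable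
    have m1 := l2T_meas (kapS A q) t
    have h5 := ENNReal.lintegral_Lp_add_le (μ := volume.restrict Reg) (p := 2)
      m1.enorm.aemeasurable (m1.sub m0).enorm.aemeasurable one_le_two
    simp only [ENNReal.rpow_two, Pi.add_apply] at h5
    refine le_trans ?_ (h5.trans (add_le_add ?_ ?_))
    · gcongr with Q
      have := enorm_sub_le (a := l2T (kapS A q) t Q)
        (b := l2T (kapS A q) t Q - θ (act (sig A q) Q))
      rwa [sub_sub_cancel] at this
    · gcongr
      simp only [← l2T_sig, ENNReal.ofReal_ofNat]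
      refine lintegral_reg_le hβ (F := fun Q => ‖l2T kap0 t Q‖ₑ ^ 2) ?_ (fun g hg => ?_) _
      · have := l2T_meas kap0 t
        fun_prop
      · exact Eventually.of_forall fun Q => by rw [l2T_act hg, l2_enorm_kap hg]
    · exact ENNReal.rpow_le_rpow (lintegral_mono_set bud_sub) (by norm_num))
  rw [ENNReal.rpow_le_rpow_iff (by norm_num)] at h4
  refine h4.trans (le_of_eq ?_)
  congr 1
  ring
theorem JJ_nonneg (x : ℝ) : 0 ≤ JJ x := by
  refine setIntegral_nonneg measurableSet_Ioc fun v hv => ?_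
  have : 0 < v := by linarith [hv.1]
  positivity
theorem JJ_pos {x : ℝ} (hx : 0 < x) : 0 < JJ x := by
  rw [JJ, ← intervalIntegral.integral_of_le (by norm_num)]
  refine intervalIntegral.intervalIntegral_pos_of_pos_on
    ((intervalIntegrable_iff_integrableOn_Ioc_of_le (by norm_num)).2 (bud_int x))
    (fun v hv => ?_) (by norm_num)
  have h1 : 0 < v := by linarith [hv.1]
  have := kap_pos (mul_pos hx h1)
  positivity
/-- Coordinates (measurePreserving_pt or lintegral_box), Bessel's inequality on F9 (integral_eR, pw_L2)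
with IsCoef.shape, and the substitution D = √E / v, D dD = E v ^ (-3) dv. -/
theorem bud {θ : HF → ℂ} {tau : Eis → Eis → Eis → ℂ} (h : TH θ tau) (A q : Eis) (S : Finset Eis) :
    ∑ r ∈ S, ‖tau A q r / (ab r : ℂ)‖ ^ 2 * JJ (ab r) ≤ sg0 * Real.Gamma (4 / 3) := by
  set b : Eis → ℂ := fun r => tau A q r / (ab r : ℂ) with hb
  set T := ∑ r ∈ S, ‖b r‖ ^ 2 * JJ (ab r) with hT
  let H : ℝ → ℝ := fun v => ∑ r ∈ S, ‖b r‖ ^ 2 * kap (ab r * v) ^ 2
  have hV := V9_pos
  have hH0 : ∀ v, 0 ≤ H v := fun v => Finset.sum_nonneg fun r _ => by positivity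
  have hHc : Continuous H := by
    have := continuous_kap
    fun_prop
  have hHe : (fun v => H v / v ^ 3) =
      fun v => ∑ r ∈ S, ‖b r‖ ^ 2 * (kap (ab r * v) ^ 2 / v ^ 3) := by
    funext v
    simp only [H, Finset.sum_div, mul_div_assoc]
  have hHi : IntegrableOn (fun v => H v / v ^ 3) (Set.Ioc (1 / 3 : ℝ) 1) := by
    rw [hHe]
    exact integrable_finsetSum _ fun r _ => (bud_int _).const_mul _
  have hHT : ∫ v in Set.Ioc (1 / 3 : ℝ) 1, H v / v ^ 3 = T := by
    rw [hHe, integral_finsetSum _ fun r _ => (bud_int _).const_mul _]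
    simp only [integral_const_mul, hT, JJ]
  have hT0 : 0 ≤ T := Finset.sum_nonneg fun r _ => mul_nonneg (by positivity) (JJ_nonneg _)
  have m0 : Measurable fun Q => ‖θ (act (sig A q) Q)‖ₑ ^ 2 := by
    have := h.isT.meas.comp (continuous_act (sig A q)).measurable
    exact this.enorm.pow_const 2
  let U : Set (ℝ × ℝ) := {p | √p.2 ≤ p.1 ∧ p.1 < 3 * √p.2}
  have hU : MeasurableSet U :=
    (measurableSet_le measurable_snd.sqrt measurable_fst).inter
      (measurableSet_lt measurable_fst (measurable_snd.sqrt.const_mul 3))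
  let g : ℝ × ℝ → ENNReal := U.indicator fun p =>
    ENNReal.ofReal (p.1 * (V9 * (p.2 ^ (-(2 / 3) : ℝ)) ^ 2 * H (√p.2 / p.1)))
  have hg : Measurable g := by
    refine Measurable.indicator ?_ hU
    have := hHc.measurable
    fun_prop
  have hsub : Set.Icc (1 : ℝ) 5 ×ˢ Set.Icc (1 : ℝ) 2 ⊆ DE :=
    fun p hp => ⟨one_pos.trans_le hp.1.1, hp.2⟩
  have h1 : ∫⁻ p in Set.Icc (1 : ℝ) 5 ×ˢ Set.Icc (1 : ℝ) 2, g p ≤
      ∫⁻ Q in Reg, ‖θ (act (sig A q) Q)‖ₑ ^ 2 := by
    rw [← Set.inter_eq_left.2 bud_sub, ← Measure.restrict_restrict bud_meas,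
      ← lintegral_indicator bud_meas, lintegral_box 1 5 one_pos (m0.indicator bud_meas)]
    refine lintegral_mono_ae ?_
    filter_upwards [ae_restrict_of_ae_restrict_of_subset hsub (pw_L2 h.isT (sig A q)),
      ae_restrict_of_ae_restrict_of_subset hsub (ae_all_iff.2 fun r : {r : Eis // r ≠ 0} =>
        h.isC.shape A q r r.2),
      ae_restrict_mem (measurableSet_Icc.prod measurableSet_Icc)] with p hL hs hp
    by_cases hpU : p ∈ U
    swap
    · simp only [g, Set.indicator_of_notMem hpU, zero_le]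
    have hD : 0 < p.1 := one_pos.trans_le hp.1.1
    have e1 : ∫⁻ z in F9, Reg.indicator (fun Q => ‖θ (act (sig A q) Q)‖ₑ ^ 2) (pt z p.1 p.2) =
        ∫⁻ z in F9, ‖θ (act (sig A q) (pt z p.1 p.2))‖ₑ ^ 2 := by
      refine setLIntegral_congr_fun measurableSet_F9 fun z hz => Set.indicator_of_mem ?_ _
      refine ⟨pt_mem_slab z (hsub hp), ?_, ?_⟩
      · exact ((geo2_pt_box (D1 := 1) (D2 := 5) (hsub hp) z).2 ⟨hp.1, hz⟩).2.2
      · rw [geo_pt_det z hD.ne']
        exact hpU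
    simp only [g, Set.indicator_of_mem hpU]
    rw [e1, ENNReal.ofReal_mul hD.le]
    refine mul_le_mul_right (le_trans (ENNReal.ofReal_le_ofReal ?_) (bud_bessel hL S)) _
    simp only [H, Finset.mul_sum]
    refine Finset.sum_le_sum fun r _ => ?_
    by_cases hr : r = 0
    · simp only [hr, hb, h.isC.zero, zero_div, norm_zero, ne_eq, OfNat.ofNat_ne_zero,
        not_false_eq_true, zero_pow, zero_mul, mul_zero]
      positivity
    · rw [hs ⟨r, hr⟩, norm_mul, norm_mul, norm_real, norm_real, Real.norm_of_nonneg hV.le,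
        mul_pow, mul_pow, Real.norm_eq_abs, sq_abs, mul_pow, pow_two V9, mul_assoc V9 V9,
        mul_assoc V9 (V9 * _), inv_mul_cancel_left₀ hV.ne']
      exact le_of_eq (by simp only [hb]; ring)
  have hI : IntegrableOn (fun E : ℝ => E ^ (-(1 / 3) : ℝ)) (Set.Icc 1 2) :=
    (continuousOn_id.rpow_const fun E hE => Or.inl (one_pos.trans_le hE.1).ne').integrableOn_Icc
  have h2 : ∫⁻ p in Set.Icc (1 : ℝ) 5 ×ˢ Set.Icc (1 : ℝ) 2, g p =
      ENNReal.ofReal (V9 * T * ∫ E in (1 : ℝ)..2, E ^ (-(1 / 3) : ℝ)) := by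
    rw [Measure.volume_eq_prod, ← Measure.prod_restrict, lintegral_prod_symm' _ hg,
      intervalIntegral.integral_of_le (by norm_num), ← integral_Icc_eq_integral_Ioc,
      ← integral_const_mul, ofReal_integral_eq_lintegral_ofReal (hI.const_mul _) ?_]
    · refine setLIntegral_congr_fun measurableSet_Icc fun E hE => ?_
      have hE0 : 0 < E := one_pos.trans_le hE.1
      have hs1 : 1 ≤ √E := Real.one_le_sqrt.2 hE.1
      have hs2 : √E ≤ 5 / 3 := Real.sqrt_le_iff.2 ⟨by norm_num, by linarith [hE.2]⟩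
      have e2 : (fun D => g (D, E)) = (Set.Ico √E (3 * √E)).indicator fun D =>
          ENNReal.ofReal (D * (V9 * (E ^ (-(2 / 3) : ℝ)) ^ 2 * H (√E / D))) := by
        funext D
        simp only [g, U, Set.indicator_apply, Set.mem_ofPred_eq, Set.mem_Ico]
      have e4 : Set.Ico √E (3 * √E) ⊆ Set.Icc 1 5 :=
        fun D hD => ⟨hs1.trans hD.1, by linarith [hD.2]⟩
      rw [e2, lintegral_indicator measurableSet_Ico, Measure.restrict_restrict_of_subset e4,
        bud_subst hH0 hHi hE0 (by positivity), hHT]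
      congr 1
      have e3 : (E ^ (-(2 / 3) : ℝ)) ^ 2 * E = E ^ (-(1 / 3) : ℝ) := by
        rw [← Real.rpow_natCast, ← Real.rpow_mul hE0.le, ← Real.rpow_add_one hE0.ne']
        norm_num
      rw [← e3]
      ring
    · filter_upwards [ae_restrict_mem measurableSet_Icc] with E hE
      have hE0 : 0 < E := one_pos.trans_le hE.1
      positivity
  have hp : 0 < ∫ E in (1 : ℝ)..2, E ^ (-(1 / 3) : ℝ) :=
    intervalIntegral.intervalIntegral_pos_of_pos_on
      ((intervalIntegrable_iff_integrableOn_Icc_of_le (by norm_num)).2 hI)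
      (fun E hE => Real.rpow_pos_of_pos (one_pos.trans hE.1) _) (by norm_num)
  have h3 := (h2.symm.trans_le h1).trans (reg_bound h.isT A q)
  have hZ := Z0_pos
  have hG : 0 < Real.Gamma (4 / 3) := Real.Gamma_pos_of_pos (by norm_num)
  have h4 := le_of_mul_le_mul_right ((ENNReal.ofReal_le_ofReal_iff (by positivity)).1 h3) hp
  rw [sg0, div_mul_eq_mul_div, le_div_iff₀' hV]
  exact h4
theorem gamma_div_sg0 : Real.Gamma (4 / 3) / sg0 = 243 * zP / (4 * Real.pi ^ 2) := by
  have h1 : 0 < Real.Gamma (4 / 3) := Real.Gamma_pos_of_pos (by norm_num)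
  have h2 := Real.pi_pos
  have h3 : √3 ^ 2 = 3 := Real.sq_sqrt (by norm_num)
  have h4 : 0 < √3 := by positivity
  unfold sg0 Z0 V9 c0
  by_cases h : zP = 0
  · simp [h]
  · field_simp
    rw [h3]
    ring

end Vale.Agent.P006
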