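import Vale.Agent.P006.Defs

/-! Combinatorics of the boxes. -/

namespace Vale.Agent.P006

open MeasureTheory
open scoped Classical

/-- A singleton, or the first partial sum that reaches L / 3 - τ. -/
theorem sub_exists {L τ : ℝ} (hL : 0 ≤ L) (hτ : 0 ≤ τ) (ρ : Fin 6 → ℝ) (hs : ∑ i, ρ i = L)
    (h : ∀ i, ρ i ≤ 2 * L / 3 + τ) :
    ∃ I : Finset (Fin 6), L / 3 - τ ≤ ∑ i ∈ I, ρ i ∧ ∑ i ∈ I, ρ i ≤ L / 2 := by
  have key : ∃ I : Finset (Fin 6), L / 3 - τ ≤ ∑ i ∈ I, ρ i ∧ ∑ i ∈ I, ρ i ≤ 2 * L / 3 + τ := by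
    by_contra hn
    have hn' : ∀ I : Finset (Fin 6), ∑ i ∈ I, ρ i ≤ 2 * L / 3 + τ → ∑ i ∈ I, ρ i < L / 3 - τ :=
      fun I hI => lt_of_not_ge fun k => hn ⟨I, k, hI⟩
    have all : ∀ I : Finset (Fin 6), ∑ i ∈ I, ρ i < L / 3 - τ := by
      intro I
      induction I using Finset.induction_on with
      | empty => exact hn' _ (by rw [Finset.sum_empty]; linarith)
      | insert j I hj ih =>
        have h1 := hn' {j} (by rw [Finset.sum_singleton]; exact h j)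
        rw [Finset.sum_singleton] at h1
        exact hn' _ (by rw [Finset.sum_insert hj]; linarith)
    have := all Finset.univ
    linarith
  obtain ⟨I, h1, h2⟩ := key
  rcases le_total (∑ i ∈ I, ρ i) (L / 2) with k | k
  · exact ⟨I, h1, k⟩
  · have e := Finset.sum_add_sum_compl I ρ
    exact ⟨Iᶜ, by linarith, by linarith⟩

/-- Close to one of the four special values. -/
def cbE (L l x : ℝ) : Prop := |x| ≤ l ∨ |x - L / 6| ≤ l ∨ |x - L / 4| ≤ l ∨ |x - L / 3| ≤ l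

theorem cbE0 {L l x : ℝ} (h1 : -l ≤ x) (h2 : x ≤ l) : cbE L l x :=
  Or.inl (abs_le.2 ⟨h1, h2⟩)
theorem cbE6 {L l x : ℝ} (h1 : L / 6 - l ≤ x) (h2 : x ≤ L / 6 + l) : cbE L l x :=
  Or.inr (Or.inl (abs_le.2 ⟨by linarith, by linarith⟩))
theorem cbE4 {L l x : ℝ} (h1 : L / 4 - l ≤ x) (h2 : x ≤ L / 4 + l) : cbE L l x :=
  Or.inr (Or.inr (Or.inl (abs_le.2 ⟨by linarith, by linarith⟩)))
theorem cbE3 {L l x : ℝ} (h1 : L / 3 - l ≤ x) (h2 : x ≤ L / 3 + l) : cbE L l x :=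
  Or.inr (Or.inr (Or.inr (abs_le.2 ⟨by linarith, by linarith⟩)))

/-- The conclusion for a decreasing tuple. -/
def cbC (L l a b c d e f : ℝ) : Prop :=
  (cbE L (10 * l) a ∧ cbE L (10 * l) b ∧ cbE L (10 * l) c ∧ cbE L (10 * l) d ∧ cbE L (10 * l) e ∧
    cbE L (10 * l) f) ∧ (L / 7 ≤ d ∨ (L / 7 ≤ c ∧
      ((L / 3 ≤ a + d + e + f ∧ a + d + e + f ≤ L / 3 + 100 * l) ∨
        (L / 3 ≤ b ∧ b ≤ L / 3 + 100 * l) ∨ (L / 3 ≤ c ∧ c ≤ L / 3 + 100 * l))))

theorem cb_low {L l a b c d e f : ℝ} (hl : 0 ≤ l) (hL : 1000 * l ≤ L)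
    (hs : a + b + c + d + e + f = L) (o1 : b ≤ a) (o2 : c ≤ b) (o3 : d ≤ c) (o4 : e ≤ d)
    (o5 : f ≤ e) (hab : a + b < L / 3 + l) : cbC L l a b c d e f :=
  ⟨⟨cbE6 (by linarith) (by linarith), cbE6 (by linarith) (by linarith),
    cbE6 (by linarith) (by linarith), cbE6 (by linarith) (by linarith),
    cbE6 (by linarith) (by linarith), cbE6 (by linarith) (by linarith)⟩, Or.inl (by linarith)⟩

theorem cb_mid {L l a b c d e f : ℝ} (hl : 0 ≤ l) (hL : 1000 * l ≤ L)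
    (hs : a + b + c + d + e + f = L) (o1 : b ≤ a) (o2 : c ≤ b) (o3 : d ≤ c) (o4 : e ≤ d)
    (o5 : f ≤ e) (o6 : -l ≤ f) (ha : a < L / 3 + l) (hab : L / 2 - l < a + b)
    (hab' : a + b < L / 2 + l)
    (hcd : c + d < L / 3 + l ∨ L / 2 - l < c + d) (hac : a + c < L / 3 + l ∨ L / 2 - l < a + c)
    (hbc : b + c < L / 3 + l ∨ L / 2 - l < b + c) (had : a + d < L / 3 + l ∨ L / 2 - l < a + d)
    (hae : a + e < L / 3 + l ∨ L / 2 - l < a + e)
    (hade : a + d + e < L / 3 + l ∨ L / 2 - l < a + d + e) : cbC L l a b c d e f := by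
  rcases hcd with hcd | hcd
  · have hac' : L / 2 - l < a + c := hac.resolve_left (by linarith)
    rcases hbc with hbc | hbc
    · have had' : L / 2 - l < a + d := had.resolve_left (by linarith)
      have hae' : L / 2 - l < a + e := hae.resolve_left (by linarith)
      exact ⟨⟨cbE3 (by linarith) (by linarith), cbE6 (by linarith) (by linarith),
        cbE6 (by linarith) (by linarith), cbE6 (by linarith) (by linarith),
        cbE6 (by linarith) (by linarith), cbE0 (by linarith) (by linarith)⟩, Or.inl (by linarith)⟩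
    · exfalso
      rcases hade with h | h <;> linarith
  · exact ⟨⟨cbE4 (by linarith) (by linarith), cbE4 (by linarith) (by linarith),
      cbE4 (by linarith) (by linarith), cbE4 (by linarith) (by linarith),
      cbE0 (by linarith) (by linarith), cbE0 (by linarith) (by linarith)⟩, Or.inl (by linarith)⟩

theorem cb_high {L l a b c d e f : ℝ} (hl : 0 ≤ l) (hL : 1000 * l ≤ L)
    (hs : a + b + c + d + e + f = L) (o1 : b ≤ a) (o2 : c ≤ b) (o3 : d ≤ c) (o4 : e ≤ d)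
    (o5 : f ≤ e) (o6 : -l ≤ f) (ha : a < L / 3 + l) (hab : 2 * L / 3 - l < a + b)
    (hbc : b + c < L / 3 + l ∨ L / 2 - l < b + c) (hbd : b + d < L / 3 + l ∨ L / 2 - l < b + d)
    (hadef : a + d + e + f < L / 3 + l ∨ L / 2 - l < a + d + e + f) : cbC L l a b c d e f := by
  have hbc' : L / 2 - l < b + c := hbc.resolve_left (by linarith)
  rcases hadef with h | h
  · refine ⟨⟨cbE3 (by linarith) (by linarith), cbE3 (by linarith) (by linarith),
      cbE3 (by linarith) (by linarith), cbE0 (by linarith) (by linarith),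
      cbE0 (by linarith) (by linarith), cbE0 (by linarith) (by linarith)⟩,
      Or.inr ⟨by linarith, ?_⟩⟩
    rcases le_total (L / 3) (a + d + e + f) with k | k
    · exact Or.inl ⟨k, by linarith⟩
    · exact Or.inr (Or.inl ⟨by linarith, by linarith⟩)
  · have hbd' : L / 2 - l < b + d := hbd.resolve_left (by linarith)
    exact ⟨⟨cbE3 (by linarith) (by linarith), cbE3 (by linarith) (by linarith),
      cbE6 (by linarith) (by linarith), cbE6 (by linarith) (by linarith),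
      cbE0 (by linarith) (by linarith), cbE0 (by linarith) (by linarith)⟩, Or.inl (by linarith)⟩

theorem cb_sorted {L l : ℝ} (hl : 0 ≤ l) (hL : 1000 * l ≤ L) (ρ : Fin 6 → ℝ) (hm : Monotone ρ)
    (hs : ∑ i, ρ i = L) (h1 : ∀ i, -l ≤ ρ i) (h2 : ∀ i, ρ i ≤ 23 / 50 * L)
    (h3 : ∀ I : Finset (Fin 6), ¬ (L / 3 + l ≤ ∑ i ∈ I, ρ i ∧ ∑ i ∈ I, ρ i ≤ L / 2 - l)) :
    cbC L l (ρ 5) (ρ 4) (ρ 3) (ρ 2) (ρ 1) (ρ 0) := by
  have key : ∀ (I : Finset (Fin 6)) (x : ℝ), ∑ i ∈ I, ρ i = x → x < L / 3 + l ∨ L / 2 - l < x := by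
    rintro I x rfl
    by_contra hn
    rw [not_or, not_lt, not_lt] at hn
    exact h3 I hn
  have pr : ∀ i j : Fin 6, i ≠ j → ρ i + ρ j < L / 3 + l ∨ L / 2 - l < ρ i + ρ j :=
    fun i j hij => key {i, j} _ (Finset.sum_pair hij)
  rw [Fin.sum_univ_six] at hs
  have o1 : ρ 4 ≤ ρ 5 := hm (by decide)
  have o2 : ρ 3 ≤ ρ 4 := hm (by decide)
  have o3 : ρ 2 ≤ ρ 3 := hm (by decide)
  have o4 : ρ 1 ≤ ρ 2 := hm (by decide)
  have o5 : ρ 0 ≤ ρ 1 := hm (by decide)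
  have ha : ρ 5 < L / 3 + l :=
    (key {5} _ (Finset.sum_singleton _ _)).resolve_right (by linarith [h2 5])
  have t3 : ρ 5 + ρ 2 + ρ 1 < L / 3 + l ∨ L / 2 - l < ρ 5 + ρ 2 + ρ 1 :=
    key {5, 2, 1} _ (by
      rw [Finset.sum_insert (by decide), Finset.sum_pair (by decide), add_assoc])
  have t4 : ρ 5 + ρ 2 + ρ 1 + ρ 0 < L / 3 + l ∨ L / 2 - l < ρ 5 + ρ 2 + ρ 1 + ρ 0 :=
    key {5, 2, 1, 0} _ (by
      rw [Finset.sum_insert (by decide), Finset.sum_insert (by decide),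
        Finset.sum_pair (by decide), add_assoc, add_assoc])
  have t5 : ρ 3 + ρ 2 + ρ 1 + ρ 0 < L / 3 + l ∨ L / 2 - l < ρ 3 + ρ 2 + ρ 1 + ρ 0 :=
    key {3, 2, 1, 0} _ (by
      rw [Finset.sum_insert (by decide), Finset.sum_insert (by decide),
        Finset.sum_pair (by decide), add_assoc, add_assoc])
  have hs' : ρ 5 + ρ 4 + ρ 3 + ρ 2 + ρ 1 + ρ 0 = L := by linarith
  rcases pr 5 4 (by decide) with hab | hab
  · exact cb_low hl hL hs' o1 o2 o3 o4 o5 hab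
  · rcases t5 with h | h
    · exact cb_high hl hL hs' o1 o2 o3 o4 o5 (h1 0) ha (by linarith) (pr 4 3 (by decide))
        (pr 4 2 (by decide)) t4
    · exact cb_mid hl hL hs' o1 o2 o3 o4 o5 (h1 0) ha hab (by linarith) (pr 3 2 (by decide))
        (pr 5 3 (by decide)) (pr 4 3 (by decide)) (pr 5 2 (by decide)) (pr 5 1 (by decide)) t3

theorem cb_card {ρ : Fin 6 → ℝ} (σ : Equiv.Perm (Fin 6)) (hm : Monotone (ρ ∘ σ)) {x : ℝ}
    (j : Fin 6) (h : x ≤ ρ (σ j)) :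
    (Finset.Ici j).card ≤ (Finset.univ.filter (fun i => x ≤ ρ i)).card :=
  Finset.card_le_card_of_injOn σ (fun i hi => by
    simp only [Finset.coe_Ici, Set.mem_Ici] at hi
    simp only [Finset.coe_filter, Finset.mem_univ, true_and, Set.mem_ofPred_eq]
    exact h.trans (hm hi)) σ.injective.injOn

/-- All subset sums avoid [L/3 + l, L/2 - l] and, by complements, [L/2 + l, 2L/3 - l]. Sort the
tuple and distinguish the three zones for the sum of the two largest elements. -/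
theorem comb {L l : ℝ} (hl : 0 ≤ l) (hL : 1000 * l ≤ L) (ρ : Fin 6 → ℝ) (hs : ∑ i, ρ i = L)
    (h1 : ∀ i, -l ≤ ρ i) (h2 : ∀ i, ρ i ≤ 23 / 50 * L)
    (h3 : ∀ I : Finset (Fin 6), ¬ (L / 3 + l ≤ ∑ i ∈ I, ρ i ∧ ∑ i ∈ I, ρ i ≤ L / 2 - l)) :
    Exc L (10 * l) ρ ∧ (4 ≤ (Finset.univ.filter (fun i => L / 7 ≤ ρ i)).card ∨
      (3 ≤ (Finset.univ.filter (fun i => L / 7 ≤ ρ i)).card ∧
        ∃ I : Finset (Fin 6), L / 3 ≤ ∑ i ∈ I, ρ i ∧ ∑ i ∈ I, ρ i ≤ L / 3 + 100 * l)) := by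
  obtain ⟨σ, hm⟩ : ∃ σ : Equiv.Perm (Fin 6), Monotone (ρ ∘ σ) := ⟨_, Tuple.monotone_sort ρ⟩
  have e : ∀ I : Finset (Fin 6), ∑ i ∈ I.map σ.toEmbedding, ρ i = ∑ i ∈ I, (ρ ∘ σ) i :=
    fun I => Finset.sum_map _ _ _
  obtain ⟨⟨a5, a4, a3, a2, a1, a0⟩, hc⟩ := cb_sorted hl hL (ρ ∘ σ) hm
    ((Equiv.sum_comp σ ρ).trans hs) (fun i => h1 _) (fun i => h2 _) (fun I => e I ▸ h3 _)
  refine ⟨fun i => ?_, ?_⟩
  · obtain ⟨j, rfl⟩ := σ.surjective i
    fin_cases j
    exacts [a0, a1, a2, a3, a4, a5]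
  · rcases hc with hc | ⟨hc, hI⟩
    · exact Or.inl (le_trans (by decide) (cb_card σ hm 2 hc))
    · refine Or.inr ⟨le_trans (by decide) (cb_card σ hm 3 hc), ?_⟩
      rcases hI with hI | hI | hI
      · refine ⟨Finset.map σ.toEmbedding {5, 2, 1, 0}, ?_⟩
        rw [e, Finset.sum_insert (by decide), Finset.sum_insert (by decide),
          Finset.sum_pair (by decide), ← add_assoc, ← add_assoc]
        exact hI
      · exact ⟨{σ 4}, by rw [Finset.sum_singleton]; exact hI⟩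
      · exact ⟨{σ 3}, by rw [Finset.sum_singleton]; exact hI⟩

theorem cb_hat (L : ℝ) (ρ : Fin 5 → ℝ) (i : Fin 5) : hat L ρ i.castSucc = ρ i :=
  Fin.snoc_castSucc (α := fun _ => ℝ) _ _ _
theorem cb_last (L : ℝ) (ρ : Fin 5 → ℝ) : hat L ρ (Fin.last 5) = L - ∑ i, ρ i :=
  Fin.snoc_last (α := fun _ => ℝ) _ _

theorem cb_vol {U : Set ℝ} {x : ℝ} (hx : 0 ≤ x) (hU : volume U ≤ ENNReal.ofReal x)
    {S : Set (Fin 5 → ℝ)} (h : ∀ ρ ∈ S, ∀ i, ρ i ∈ U) : volume S ≤ ENNReal.ofReal (x ^ 5) := by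
  refine (measure_mono (t := Set.univ.pi fun _ => U) fun ρ hρ i _ => h ρ hρ i).trans ?_
  rw [volume_pi_pi, Finset.prod_const, Finset.card_univ, Fintype.card_fin, ENNReal.ofReal_pow hx]
  exact pow_le_pow_left' hU 5

theorem vol_good {L : ℝ} (hL : 1 ≤ L) :
    volume {ρ : Fin 5 → ℝ | Good L (hat L ρ)} ≤ ENNReal.ofReal ((7 * L) ^ 5) := by
  refine cb_vol (U := Set.Icc (-L) (6 * L)) (by linarith)
    (by rw [Real.volume_Icc]; exact le_of_eq (congrArg _ (by ring))) fun ρ hρ i => ?_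
  have hp : L ^ (2 / 3 : ℝ) ≤ L := by
    simpa using Real.rpow_le_rpow_of_exponent_le hL (by norm_num : (2 / 3 : ℝ) ≤ 1)
  have h1 : ∀ j, -L ≤ ρ j := fun j => by
    have := hρ.2 j.castSucc
    rw [cb_hat] at this
    linarith
  have h2 := hρ.2 (Fin.last 5)
  rw [cb_last] at h2
  refine ⟨h1 i, ?_⟩
  have h3 := Finset.single_le_sum (f := fun j => ρ j + L) (s := Finset.univ)
    (fun j _ => by linarith [h1 j]) (Finset.mem_univ i)
  simp only [Finset.sum_add_distrib, Finset.sum_const, Finset.card_univ, Fintype.card_fin,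
    nsmul_eq_mul, Nat.cast_ofNat] at h3
  linarith

theorem cb_meas (L : ℝ) (i : Fin 6) : Measurable fun ρ : Fin 5 → ℝ => hat L ρ i := by
  refine Fin.lastCases ?_ (fun j => ?_) i
  · simp only [cb_last]
    exact measurable_const.sub (Finset.measurable_sum _ fun j _ => measurable_pi_apply j)
  · simp only [cb_hat]
    exact measurable_pi_apply j

theorem measurableSet_exc (L l : ℝ) : MeasurableSet {ρ : Fin 5 → ℝ | Exc L l (hat L ρ)} := by
  have h : ∀ (i : Fin 6) (c : ℝ), MeasurableSet {ρ : Fin 5 → ℝ | |hat L ρ i - c| ≤ l} :=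
    fun i c => measurableSet_le ((cb_meas L i).sub_const c).abs measurable_const
  have e : {ρ : Fin 5 → ℝ | Exc L l (hat L ρ)} = ⋂ i : Fin 6, ({ρ | |hat L ρ i - 0| ≤ l} ∪
      ({ρ | |hat L ρ i - L / 6| ≤ l} ∪ ({ρ | |hat L ρ i - L / 4| ≤ l} ∪
        {ρ | |hat L ρ i - L / 3| ≤ l}))) := by
    ext ρ
    simp only [Exc, Set.mem_iInter, Set.mem_union, Set.mem_ofPred_eq, sub_zero]
  rw [e]
  exact MeasurableSet.iInter fun i => (h i _).union ((h i _).union ((h i _).union (h i _)))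

theorem vol_exc (L : ℝ) {l : ℝ} (hl : 0 ≤ l) :
    volume {ρ : Fin 5 → ℝ | Exc L l (hat L ρ)} ≤ ENNReal.ofReal ((8 * l) ^ 5) := by
  have v : ∀ c : ℝ, volume (Set.Icc (c - l) (c + l)) = ENNReal.ofReal (2 * l) := fun c => by
    rw [Real.volume_Icc]; exact congrArg _ (by ring)
  refine cb_vol (U := Set.Icc (0 - l) (0 + l) ∪ (Set.Icc (L / 6 - l) (L / 6 + l) ∪
    (Set.Icc (L / 4 - l) (L / 4 + l) ∪ Set.Icc (L / 3 - l) (L / 3 + l)))) (by linarith) ?_
    fun ρ hρ i => ?_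
  · refine (measure_union_le _ _).trans ((add_le_add le_rfl ((measure_union_le _ _).trans
      (add_le_add le_rfl (measure_union_le _ _)))).trans (le_of_eq ?_))
    have h2 : 0 ≤ 2 * l := by linarith
    rw [v, v, v, v, ← ENNReal.ofReal_add h2 h2, ← ENNReal.ofReal_add h2 (by linarith),
      ← ENNReal.ofReal_add h2 (by linarith)]
    exact congrArg _ (by ring)
  · have := hρ i.castSucc
    rw [cb_hat] at this
    simp only [abs_le] at this
    simp only [Set.mem_union, Set.mem_Icc]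
    rcases this with k | k | k | k
    · exact Or.inl ⟨by linarith, by linarith⟩
    · exact Or.inr (Or.inl ⟨by linarith, by linarith⟩)
    · exact Or.inr (Or.inr (Or.inl ⟨by linarith, by linarith⟩))
    · exact Or.inr (Or.inr (Or.inr ⟨by linarith, by linarith⟩))

end Vale.Agent.P006
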