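import Vale.Agent.P006.DC1A

/-! Dispersion, first term: evaluation of the cube frequencies. -/

namespace Vale.Agent.P006

open Vale.Agent.P026 Eis Complex MeasureTheory Filter Topology
open scoped Classical ComplexConjugate

/-- The summand of cube_sum. -/
noncomputable def dc1_g (R : ℝ) (m : Eis) : ℝ :=
  if m = 0 then 0 else (1 + (N m / R) ^ 3) ^ (-(4 / 3) : ℝ)

theorem dc1_g_nonneg {R : ℝ} (hR : 0 < R) (m : Eis) : 0 ≤ dc1_g R m := by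
  unfold dc1_g
  have := N_nonneg m
  split_ifs
  · exact le_rfl
  · positivity

theorem dc1_g_mul {p : Eis} (hp : p ≠ 0) (R : ℝ) (m : Eis) :
    dc1_g R (p * m) = dc1_g (R / N p) m := by
  unfold dc1_g
  have e : N (p * m) / R = N m / (R / N p) := by
    rw [N_mul, div_div_eq_mul_div, mul_comm]
  simp only [mul_eq_zero, hp, false_or, e]

/-- Sum over the multiples of p. -/
theorem dc1_g_dvd {C : ℝ} (hC : ∀ R : ℝ, 0 < R → Summable (dc1_g R) ∧ ∑' m, dc1_g R m ≤ C * R)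
    {p : Eis} (hp : p ≠ 0) {R : ℝ} (hR : 0 < R) :
    Summable (fun m => if p ∣ m then dc1_g R m else 0) ∧
      ∑' m, (if p ∣ m then dc1_g R m else 0) ≤ C * (R / N p) := by
  refine ⟨Summable.of_nonneg_of_le (fun m => ?_) (fun m => ?_) (hC R hR).1, ?_⟩
  · split_ifs
    · exact dc1_g_nonneg hR m
    · exact le_rfl
  · split_ifs
    · exact le_rfl
    · exact dc1_g_nonneg hR m
  · have hi : Function.Injective (fun m : Eis => p * m) := fun x y h => mul_left_cancel₀ hp h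
    rw [← hi.tsum_eq (f := fun m => if p ∣ m then dc1_g R m else 0)]
    · simp only [dvd_mul_right, if_true, dc1_g_mul hp]
      exact (hC _ (div_pos hR (N_pos hp))).2
    · intro m hm
      by_cases h : p ∣ m
      · obtain ⟨y, rfl⟩ := h
        exact ⟨y, rfl⟩
      · simp [h] at hm

/-- Cost of one coprimality condition. -/
theorem dc1_g_rem {C : ℝ} (hC0 : 0 ≤ C)
    (hC : ∀ R : ℝ, 0 < R → Summable (dc1_g R) ∧ ∑' m, dc1_g R m ≤ C * R)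
    {b : Eis} {z u R : ℝ} (hz : 0 < z) (hb : Ro z b) (hu : ((pf b).card : ℝ) ≤ u) (hR : 0 < R) :
    Summable (fun m => if IsCoprime (m ^ 3) b then 0 else dc1_g R m) ∧
      ∑' m, (if IsCoprime (m ^ 3) b then 0 else dc1_g R m) ≤ C * R * (u / z) := by
  have hb0 := hb.1.ne_zero
  have hs : Summable (fun m => if IsCoprime (m ^ 3) b then 0 else dc1_g R m) := by
    refine Summable.of_nonneg_of_le (fun m => ?_) (fun m => ?_) (hC R hR).1
    · split_ifs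
      · exact le_rfl
      · exact dc1_g_nonneg hR m
    · split_ifs
      · exact dc1_g_nonneg hR m
      · exact le_rfl
  refine ⟨hs, ?_⟩
  have hp : ∀ p ∈ pf b, p ≠ 0 := fun p h => ((mem_pf hb0).1 h).1.ne_zero
  have h1 : ∀ m, (if IsCoprime (m ^ 3) b then 0 else dc1_g R m) ≤
      ∑ p ∈ pf b, if p ∣ m then dc1_g R m else 0 := by
    intro m
    have h0 : ∀ p ∈ pf b, 0 ≤ if p ∣ m then dc1_g R m else 0 := fun p _ => by
      split_ifs
      · exact dc1_g_nonneg hR m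
      · exact le_rfl
    split_ifs with h
    · exact Finset.sum_nonneg h0
    · obtain ⟨p, h2, h3, h4, h5⟩ := (not_cop_iff hb.1).1 (fun h' => h h'.symm)
      have := Finset.single_le_sum h0 ((mem_pf hb0).2 ⟨h2, h3, h4⟩)
      rwa [if_pos (h2.dvd_of_dvd_pow h5)] at this
  have h2 : Summable (fun m => ∑ p ∈ pf b, if p ∣ m then dc1_g R m else 0) :=
    summable_sum fun p h => (dc1_g_dvd hC (hp p h) hR).1
  refine (hs.tsum_le_tsum h1 h2).trans ?_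
  rw [Summable.tsum_finsetSum fun p h => (dc1_g_dvd hC (hp p h) hR).1]
  have h3 : ∀ p ∈ pf b, ∑' m, (if p ∣ m then dc1_g R m else 0) ≤ C * R / z := fun p h => by
    refine (dc1_g_dvd hC (hp p h) hR).2.trans ?_
    obtain ⟨h4, -, h5⟩ := (mem_pf hb0).1 h
    rw [mul_div_assoc]
    exact mul_le_mul_of_nonneg_left (div_le_div_of_nonneg_left hR.le hz (hb.2 p h4 h5).le) hC0
  refine (Finset.sum_le_card_nsmul _ _ _ h3).trans ?_
  rw [nsmul_eq_mul]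
  calc ((pf b).card : ℝ) * (C * R / z) ≤ u * (C * R / z) :=
        mul_le_mul_of_nonneg_right hu (by positivity)
    _ = C * R * (u / z) := by ring

/-- The cube sum with two coprimality conditions. -/
theorem dc1_g_cop : ∃ C : ℝ, 0 < C ∧ ∀ (b1 b2 : Eis) (z u R : ℝ), 0 < z → Ro z b1 → Ro z b2 →
    ((pf b1).card : ℝ) ≤ u → ((pf b2).card : ℝ) ≤ u → 0 < R →
    Summable (dc1_g R) ∧
    |∑' m, (if IsCoprime (m ^ 3) b1 ∧ IsCoprime (m ^ 3) b2 then dc1_g R m else 0) - 9 * c0 * R| ≤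
      C * (√R + R * (u / z)) := by
  obtain ⟨C, hC0, hC⟩ := cube_sum
  have hC' : ∀ R : ℝ, 0 < R → Summable (dc1_g R) ∧ ∑' m, dc1_g R m ≤ C * R := fun R hR =>
    ⟨(hC R hR).1, (hC R hR).2.2⟩
  refine ⟨2 * C, by positivity, fun b1 b2 z u R hz h1 h2 hu1 hu2 hR => ⟨(hC' R hR).1, ?_⟩⟩
  obtain ⟨s1, t1⟩ := dc1_g_rem hC0.le hC' hz h1 hu1 hR
  obtain ⟨s2, t2⟩ := dc1_g_rem hC0.le hC' hz h2 hu2 hR
  have hm : |∑' m, dc1_g R m - 9 * c0 * R| ≤ C * √R := by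
    rw [← dc1_c0_eq]
    exact (hC R hR).2.1
  have hs := (hC' R hR).1
  have l1 : ∀ m, (if IsCoprime (m ^ 3) b1 ∧ IsCoprime (m ^ 3) b2 then dc1_g R m else 0) ≤
      dc1_g R m := fun m => by
    split_ifs
    · exact le_rfl
    · exact dc1_g_nonneg hR m
  have l0 : ∀ m, 0 ≤ (if IsCoprime (m ^ 3) b1 ∧ IsCoprime (m ^ 3) b2 then dc1_g R m else 0) :=
    fun m => by
      split_ifs
      · exact dc1_g_nonneg hR m
      · exact le_rfl
  have s0 := Summable.of_nonneg_of_le l0 l1 hs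
  have l2 : ∀ m, dc1_g R m ≤
      (if IsCoprime (m ^ 3) b1 ∧ IsCoprime (m ^ 3) b2 then dc1_g R m else 0) +
      ((if IsCoprime (m ^ 3) b1 then 0 else dc1_g R m) +
        (if IsCoprime (m ^ 3) b2 then 0 else dc1_g R m)) := fun m => by
    have := dc1_g_nonneg hR m
    by_cases a1 : IsCoprime (m ^ 3) b1 <;> by_cases a2 : IsCoprime (m ^ 3) b2 <;>
      simp [a1, a2, this]
  have u1 := s0.tsum_le_tsum l1 hs
  have u2 := hs.tsum_le_tsum l2 (s0.add (s1.add s2))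
  rw [s0.tsum_add (s1.add s2), s1.tsum_add s2] at u2
  have hu0 : 0 ≤ u := le_trans (Nat.cast_nonneg _) hu1
  have p1 : 0 ≤ C * √R := by positivity
  have p2 : 0 ≤ C * R * (u / z) := by positivity
  rw [abs_le] at hm ⊢
  constructor <;> nlinarith

theorem dc1_cop_mul (b1 b2 h : Eis) (x : ℝ) : cop b1 h * cop b2 h * (x : ℂ) =
    ((if IsCoprime h b1 ∧ IsCoprime h b2 then x else 0 : ℝ) : ℂ) := by
  unfold cop
  by_cases a1 : IsCoprime h b1 <;> by_cases a2 : IsCoprime h b2 <;> simp [a1, a2]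

/-- The sum over cubes as a sum over their roots. -/
theorem dc1_cube_eq {b1 b2 : Eis} {A R M : ℝ} (hR : 0 < R) (hM : A / M = (R ^ 3)⁻¹)
    (hs : Summable (dc1_g R)) :
    ∑' h : Eis, (if h ≠ 0 ∧ Cube h then
      cop b1 h * cop b2 h * ((A * Vh (A * N h / M) : ℝ) : ℂ) else 0) =
      ((A * (Real.Gamma (4 / 3) / (9 * c0)) / 3 * ∑' m,
        (if IsCoprime (m ^ 3) b1 ∧ IsCoprime (m ^ 3) b2 then dc1_g R m else 0) : ℝ) : ℂ) := by
  set f : Eis → ℂ := fun h => cop b1 h * cop b2 h * ((A * Vh (A * N h / M) : ℝ) : ℂ) with hf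
  have e : ∀ m : Eis, (if m = 0 then 0 else f (m ^ 3)) =
      ((A * (Real.Gamma (4 / 3) / (9 * c0)) *
        (if IsCoprime (m ^ 3) b1 ∧ IsCoprime (m ^ 3) b2 then dc1_g R m else 0) : ℝ) : ℂ) := by
    intro m
    have e1 : A * N (m ^ 3) / M = (N m / R) ^ 3 := by
      rw [N_pow, mul_comm, mul_div_assoc, hM, div_pow, div_eq_mul_inv]
    simp only [hf, dc1_cop_mul, e1, Vh, dc1_g]
    split_ifs <;> simp [mul_assoc]
  have l0 : ∀ m, 0 ≤ (if IsCoprime (m ^ 3) b1 ∧ IsCoprime (m ^ 3) b2 then dc1_g R m else 0) :=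
    fun m => by
      split_ifs
      · exact dc1_g_nonneg hR m
      · exact le_rfl
  have l1 : ∀ m, (if IsCoprime (m ^ 3) b1 ∧ IsCoprime (m ^ 3) b2 then dc1_g R m else 0) ≤
      dc1_g R m := fun m => by
    split_ifs
    · exact le_rfl
    · exact dc1_g_nonneg hR m
  have s0 := Summable.of_nonneg_of_le l0 l1 hs
  have s1 : Summable fun m : Eis => if m = 0 then 0 else f (m ^ 3) := by
    simp only [e]
    exact Complex.summable_ofReal.2 (s0.mul_left _)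
  have s2 : Summable fun m : Eis => f (m ^ 3) := by
    refine s1.congr_cofinite ?_
    filter_upwards [(Set.finite_singleton (0 : Eis)).compl_mem_cofinite] with m hm
    rw [if_neg (by simpa using hm)]
  have h3 := tsum_cube s2
  simp only [e] at h3
  rw [← Complex.ofReal_tsum, tsum_mul_left] at h3
  refine mul_left_cancel₀ (by norm_num : (3 : ℂ) ≠ 0) (h3.symm.trans ?_)
  rw [show (3 : ℂ) = ((3 : ℝ) : ℂ) by norm_num, ← Complex.ofReal_mul]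
  congr 1
  ring

theorem dc1_pw {A x y : ℝ} (hA : 0 < A) (hx : 0 < x) (hy : 0 < y) :
    A * (x * y / A) ^ (1 / 3 : ℝ) / (√x * √y) =
      A ^ (2 / 3 : ℝ) * (x ^ (-(1 / 6) : ℝ) * y ^ (-(1 / 6) : ℝ)) ∧
    A * √((x * y / A) ^ (1 / 3 : ℝ)) / (√x * √y) =
      A ^ (5 / 6 : ℝ) * (x ^ (-(1 / 3) : ℝ) * y ^ (-(1 / 3) : ℝ)) := by
  obtain ⟨a, rfl⟩ : ∃ a, A = Real.exp a := ⟨_, (Real.exp_log hA).symm⟩
  obtain ⟨s, rfl⟩ : ∃ a, x = Real.exp a := ⟨_, (Real.exp_log hx).symm⟩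
  obtain ⟨t, rfl⟩ : ∃ a, y = Real.exp a := ⟨_, (Real.exp_log hy).symm⟩
  simp only [Real.sqrt_eq_rpow, ← Real.exp_add, ← Real.exp_sub, ← Real.exp_mul]
  constructor <;> congr 1 <;> ring

/-- One pair. -/
theorem dc1_pair : ∃ C : ℝ, 0 < C ∧ ∀ (b1 b2 : Eis) (A z u : ℝ), 0 < A → 0 < z → Ro z b1 →
    Ro z b2 → ((pf b1).card : ℝ) ≤ u → ((pf b2).card : ℝ) ≤ u →
    ‖((ab b1 * ab b2 : ℝ) : ℂ)⁻¹ * (∑' h : Eis, if h ≠ 0 ∧ Cube h then
      cop b1 h * cop b2 h * ((A * Vh (A * N h / (N b1 * N b2)) : ℝ) : ℂ) else 0) -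
      ((Real.Gamma (4 / 3) / 3 * A ^ (2 / 3 : ℝ) *
        (N b1 ^ (-(1 / 6) : ℝ) * N b2 ^ (-(1 / 6) : ℝ)) : ℝ) : ℂ)‖ ≤
      C * (A ^ (5 / 6 : ℝ) * (N b1 ^ (-(1 / 3) : ℝ) * N b2 ^ (-(1 / 3) : ℝ)) +
        A ^ (2 / 3 : ℝ) * (u / z) * (N b1 ^ (-(1 / 6) : ℝ) * N b2 ^ (-(1 / 6) : ℝ))) := by
  obtain ⟨C, hC0, hC⟩ := dc1_g_cop
  have hc := c0_pos
  have hG : 0 < Real.Gamma (4 / 3) := Real.Gamma_pos_of_pos (by norm_num)
  refine ⟨Real.Gamma (4 / 3) / (9 * c0) / 3 * C, by positivity,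
    fun b1 b2 A z u hA hz h1 h2 hu1 hu2 => ?_⟩
  have n1 := N_pos h1.1.ne_zero
  have n2 := N_pos h2.1.ne_zero
  set R : ℝ := (N b1 * N b2 / A) ^ (1 / 3 : ℝ) with hRd
  have hR : 0 < R := by positivity
  have hR3 : R ^ 3 = N b1 * N b2 / A := by
    rw [hRd, ← Real.rpow_natCast, ← Real.rpow_mul (by positivity)]
    norm_num
  obtain ⟨hs, hX⟩ := hC b1 b2 z u R hz h1 h2 hu1 hu2 hR
  rw [dc1_cube_eq hR (by rw [hR3, inv_div]) hs]
  set X := ∑' m, (if IsCoprime (m ^ 3) b1 ∧ IsCoprime (m ^ 3) b2 then dc1_g R m else 0) with hXd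
  obtain ⟨e1, e2⟩ := dc1_pw hA n1 n2
  rw [← hRd] at e1 e2
  rw [← Complex.ofReal_inv, ← Complex.ofReal_mul, ← Complex.ofReal_sub, Complex.norm_real,
    Real.norm_eq_abs]
  have a1 : 0 < √(N b1) := Real.sqrt_pos.2 n1
  have a2 : 0 < √(N b2) := Real.sqrt_pos.2 n2
  have e3 : (ab b1 * ab b2)⁻¹ * (A * (Real.Gamma (4 / 3) / (9 * c0)) / 3 * X) -
      Real.Gamma (4 / 3) / 3 * A ^ (2 / 3 : ℝ) * (N b1 ^ (-(1 / 6) : ℝ) * N b2 ^ (-(1 / 6) : ℝ)) =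
      Real.Gamma (4 / 3) / (9 * c0) / 3 * (A / (√(N b1) * √(N b2))) * (X - 9 * c0 * R) := by
    rw [mul_assoc (Real.Gamma (4 / 3) / 3), ← e1, ab, ab]
    field_simp
  rw [e3, abs_mul, abs_of_pos (by positivity)]
  refine (mul_le_mul_of_nonneg_left hX (by positivity)).trans (le_of_eq ?_)
  rw [← e2, mul_right_comm (A ^ (2 / 3 : ℝ)), ← e1]
  field_simp

theorem dc1_norm_sq (z : ℂ) : ((‖z‖ ^ 2 : ℝ) : ℂ) = z * conj z := by
  rw [Complex.mul_conj, Complex.normSq_eq_norm_sq]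

/-- tsum_cube, cube_sum with R = (N b1 N b2 / A) ^ (1/3); removing cop costs C R / N p for each prime p
of b1 or b2; l1_le with b = -1/3 and b = -1/6; (2 π / √3) / (9 c0) = 1. -/
theorem dc2 : ∃ C : ℝ, 0 < C ∧ ∀ (S : Finset Eis) (β : Eis → ℂ) (A B z u : ℝ), 0 < A → 0 < B →
    0 < z → 0 ≤ u → (∀ b ∈ S, Ro z b ∧ ((pf b).card : ℝ) ≤ u) →
      ‖CU S β A - ((Real.Gamma (4 / 3) / 3 * A ^ (2 / 3 : ℝ) * ‖bt S β‖ ^ 2 : ℝ) : ℂ)‖ ≤
        C * (A ^ (5 / 6 : ℝ) * B ^ (1 / 3 : ℝ) + (A * B) ^ (2 / 3 : ℝ) * (u / z)) * nw S β B := by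
  obtain ⟨C, hC0, hC⟩ := dc1_pair
  obtain ⟨C1, hC1, h1⟩ := l1_le (b := -(1 / 3)) (by norm_num) (by norm_num)
  obtain ⟨C2, hC2, h2⟩ := l1_le (b := -(1 / 6)) (by norm_num) (by norm_num)
  refine ⟨C * (C1 ^ 2 + C2 ^ 2), by positivity, fun S β A B z u hA hB hz hu hS => ?_⟩
  have hS0 : (0 : Eis) ∉ S := fun h => (hS 0 h).1.1.ne_zero rfl
  have e : CU S β A - ((Real.Gamma (4 / 3) / 3 * A ^ (2 / 3 : ℝ) * ‖bt S β‖ ^ 2 : ℝ) : ℂ) =
      ∑ b1 ∈ S, ∑ b2 ∈ S, β b1 * conj (β b2) *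
        (((ab b1 * ab b2 : ℝ) : ℂ)⁻¹ * (∑' h : Eis, if h ≠ 0 ∧ Cube h then
          cop b1 h * cop b2 h * ((A * Vh (A * N h / (N b1 * N b2)) : ℝ) : ℂ) else 0) -
          ((Real.Gamma (4 / 3) / 3 * A ^ (2 / 3 : ℝ) *
            (N b1 ^ (-(1 / 6) : ℝ) * N b2 ^ (-(1 / 6) : ℝ)) : ℝ) : ℂ)) := by
    rw [Complex.ofReal_mul, dc1_norm_sq, CU, bt, map_sum, Finset.sum_mul_sum, Finset.mul_sum,
      ← Finset.sum_sub_distrib]
    refine Finset.sum_congr rfl fun b1 _ => ?_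
    rw [Finset.mul_sum, ← Finset.sum_sub_distrib]
    refine Finset.sum_congr rfl fun b2 _ => ?_
    rw [map_mul, Complex.conj_ofReal, Complex.ofReal_mul (_ * _) (_ * _),
      Complex.ofReal_mul (N b1 ^ _)]
    ring
  rw [e]
  set X1 := ∑ n ∈ S, ‖β n‖ * N n ^ (-(1 / 3) : ℝ) with hX1
  set X2 := ∑ n ∈ S, ‖β n‖ * N n ^ (-(1 / 6) : ℝ) with hX2
  have hnw := nw_nonneg S β B
  have p1 : 0 ≤ X1 := Finset.sum_nonneg fun n _ => by have := N_nonneg n; positivity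
  have p2 : 0 ≤ X2 := Finset.sum_nonneg fun n _ => by have := N_nonneg n; positivity
  have q1 : X1 ^ 2 ≤ C1 ^ 2 * B ^ (1 / 3 : ℝ) * nw S β B := by
    refine (pow_le_pow_left₀ p1 (h1 B hB S β hS0) 2).trans (le_of_eq ?_)
    rw [mul_pow, mul_pow, Real.sq_sqrt hnw, ← Real.rpow_natCast (B ^ _), ← Real.rpow_mul hB.le]
    norm_num
    ring
  have q2 : X2 ^ 2 ≤ C2 ^ 2 * B ^ (2 / 3 : ℝ) * nw S β B := by
    refine (pow_le_pow_left₀ p2 (h2 B hB S β hS0) 2).trans (le_of_eq ?_)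
    rw [mul_pow, mul_pow, Real.sq_sqrt hnw, ← Real.rpow_natCast (B ^ _), ← Real.rpow_mul hB.le]
    norm_num
    ring
  calc _ ≤ ∑ b1 ∈ S, ∑ b2 ∈ S, ‖β b1‖ * ‖β b2‖ *
        (C * (A ^ (5 / 6 : ℝ) * (N b1 ^ (-(1 / 3) : ℝ) * N b2 ^ (-(1 / 3) : ℝ)) +
        A ^ (2 / 3 : ℝ) * (u / z) * (N b1 ^ (-(1 / 6) : ℝ) * N b2 ^ (-(1 / 6) : ℝ)))) := by
        refine norm_sum_le_of_le _ fun b1 hb1 => norm_sum_le_of_le _ fun b2 hb2 => ?_
        rw [norm_mul, norm_mul, Complex.norm_conj]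
        exact mul_le_mul_of_nonneg_left (hC b1 b2 A z u hA hz (hS b1 hb1).1 (hS b2 hb2).1
          (hS b1 hb1).2 (hS b2 hb2).2) (by positivity)
    _ = C * (A ^ (5 / 6 : ℝ) * X1 ^ 2 + A ^ (2 / 3 : ℝ) * (u / z) * X2 ^ 2) := by
        rw [pow_two, pow_two, hX1, hX2, Finset.sum_mul_sum, Finset.sum_mul_sum, Finset.mul_sum,
          Finset.mul_sum, ← Finset.sum_add_distrib, Finset.mul_sum]
        refine Finset.sum_congr rfl fun b1 _ => ?_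
        rw [Finset.mul_sum, Finset.mul_sum, ← Finset.sum_add_distrib, Finset.mul_sum]
        refine Finset.sum_congr rfl fun b2 _ => ?_
        ring
    _ ≤ C * (A ^ (5 / 6 : ℝ) * ((C1 ^ 2 + C2 ^ 2) * B ^ (1 / 3 : ℝ) * nw S β B) +
          A ^ (2 / 3 : ℝ) * (u / z) * ((C1 ^ 2 + C2 ^ 2) * B ^ (2 / 3 : ℝ) * nw S β B)) := by
        have r1 : 0 ≤ C2 ^ 2 * B ^ (1 / 3 : ℝ) * nw S β B := by positivity
        have r2 : 0 ≤ C1 ^ 2 * B ^ (2 / 3 : ℝ) * nw S β B := by positivity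
        gcongr <;> linarith
    _ = _ := by
        rw [Real.mul_rpow hA.le hB.le]
        ring

end Vale.Agent.P006
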