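import Vale.Agent.P006.GC
import Vale.Agent.P026.Kap

/-! Counting squarefree primary elements coprime to k. -/

namespace Vale.Agent.P006

open Vale.Agent.P026 Eis Complex Filter Topology
open scoped Classical ComplexConjugate

theorem modA_conv {a : Eis → ℂ} {P : ℝ → ℂ} {m T : ℂ} {B θ α : ℝ} {j : ℕ} (hj : j ≠ 0)
    (a0 : a 0 = 0) (ha : ∀ d, ‖a d‖ ≤ N d ^ α) (hP0 : ∀ R, R < 1 → P R = 0) (hB : 0 ≤ B)
    (hP : ∀ R, 0 < R → ‖P R - m * R‖ ≤ B * R ^ θ) (hs : 1 < j * θ - α)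
    (hT : HasSum (fun d => a d / (N d : ℂ) ^ j) T) {x : ℝ} (hx : 0 < x) :
    ‖∑ d ∈ ball x, a d * P (x / N d ^ j) - m * T * x‖ ≤
      B * (∑' d : Eis, N d ^ (-(j * θ - α))) * x ^ θ := by
  have h1 : HasSum (fun d => a d * P (x / N d ^ j)) (∑ d ∈ ball x, a d * P (x / N d ^ j)) := by
    refine hasSum_sum_of_ne_finset_zero fun d hd => ?_
    by_cases h0 : d = 0
    · rw [h0, a0, zero_mul]
    have h2 : x < N d := not_le.1 fun h => hd (mem_ball.2 ⟨h0, h⟩)
    rw [hP0 _ ((div_lt_one (pow_pos (N_pos h0) j)).2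
      (h2.trans_le (le_self_pow₀ (one_le_N h0) hj))), mul_zero]
  have h2 := h1.sub ((hT.mul_left m).mul_right (x : ℂ))
  have h3 := (((summable_N_rpow hs).hasSum.mul_left B).mul_right (x ^ θ))
  refine h2.norm_le_of_bounded h3 fun d => ?_
  by_cases h0 : d = 0
  · have := Real.rpow_nonneg (N_nonneg d) (-(j * θ - α))
    rw [h0, a0, zero_mul, zero_div, mul_zero, zero_mul, sub_zero, norm_zero, ← h0]
    positivity
  have hN := N_pos h0
  have e : a d * P (x / N d ^ j) - m * (a d / (N d : ℂ) ^ j) * x =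
      a d * (P (x / N d ^ j) - m * (x / N d ^ j : ℝ)) := by
    push_cast
    ring
  rw [e, norm_mul]
  refine (mul_le_mul (ha d) (hP _ (by positivity)) (norm_nonneg _) (by positivity)).trans
    (le_of_eq ?_)
  rw [Real.div_rpow hx.le (by positivity), ← Real.rpow_natCast, ← Real.rpow_mul hN.le, neg_sub,
    Real.rpow_sub hN]
  ring

theorem modA_cop_mul (D x y : Eis) : cop D (x * y) = cop D x * cop D y := by
  rw [cop_comm, lp_cop_mul, cop_comm x, cop_comm y]

theorem modA_cop_pow (D x : Eis) {j : ℕ} (hj : j ≠ 0) : cop D (x ^ j) = cop D x := by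
  simp only [cop, IsCoprime.pow_left_iff (Nat.pos_of_ne_zero hj)]

theorem modA_sqd {h : Eis} (hh : Prim h) : ∑ D ∈ sqd h, mu D = if PS h then 1 else 0 := by
  obtain ⟨a, b, ha, rfl⟩ := bs_exists_sq hh.ne_zero
  have hb : b ≠ 0 := fun h => hh.ne_zero (by rw [h]; ring)
  have e : sqd (a * b ^ 2) = dv b := by
    ext D
    rw [mem_sqd hh.ne_zero, mem_dv hb]
    refine and_congr_right fun hD => ⟨fun h => ?_, fun h => (pow_dvd_pow_of_dvd h 2).mul_left a⟩
    rw [pow_two] at h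
    exact (hD.2.dvd_pow_iff_dvd two_ne_zero).1 (ha.dvd_of_squarefree_of_mul_dvd_mul_right h)
  rw [e, sum_mu hb]
  refine if_congr ⟨fun h => ⟨hh, ?_⟩, fun h p hp _ hpb => hp.not_isUnit (h.2 p ?_)⟩ rfl rfl
  · have hu : IsUnit b := by
      by_contra hu
      obtain ⟨q, hq, hqb⟩ := WfDvdMonoid.exists_irreducible_factor hu hb
      obtain ⟨p, hp, h1, h2⟩ := exists_prim_prime hh hq.prime
        ((hqb.trans (dvd_pow_self b two_ne_zero)).mul_left a)
      exact h p hp h1 (h2.symm.dvd.trans hqb)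
    exact ha.squarefree_of_dvd ((hu.pow 2).mul_right_dvd.2 dvd_rfl)
  · rw [← pow_two]
    exact (pow_dvd_pow_of_dvd hpb 2).mul_left a

/-- The number of primary elements coprime to k. -/
noncomputable def modP (k : Eis) (R : ℝ) : ℂ :=
  (((ball R).filter (fun n => Prim n ∧ IsCoprime n k)).card : ℝ)

/-- The number of primary squarefree elements coprime to k. -/
noncomputable def modQ (k : Eis) (R : ℝ) : ℂ := ∑ e ∈ PB R, cop k e

theorem modP_eq (k : Eis) (R : ℝ) :
    modP k R = ∑ h ∈ ball R, if Prim h then cop k h else 0 := by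
  rw [modP, Finset.card_filter]
  push_cast
  refine Finset.sum_congr rfl fun h _ => ?_
  by_cases h1 : Prim h <;> by_cases h2 : IsCoprime h k <;> simp [h1, h2, cop]

theorem modQ_eq (k : Eis) (R : ℝ) :
    modQ k R = ∑ D ∈ ball R, mu D * cop k D * modP k (R / N D ^ 2) := by
  have e1 : modQ k R = ∑ h ∈ ball R, ∑ D ∈ sqd h, mu D * if Prim h then cop k h else 0 := by
    rw [modQ, PB, Finset.sum_filter]
    refine Finset.sum_congr rfl fun h _ => ?_
    rw [← Finset.sum_mul]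
    by_cases h1 : Prim h
    · rw [modA_sqd h1, if_pos h1, ite_mul, one_mul, zero_mul]
    · rw [if_neg h1, mul_zero, if_neg fun h2 : PS h => h1 h2.1]
  rw [e1, sum_sqd_swap R (fun h D => mu D * if Prim h then cop k h else 0), PB, Finset.sum_filter]
  refine Finset.sum_congr rfl fun D _ => ?_
  split_ifs with hD
  · rw [modP_eq, Finset.mul_sum]
    refine Finset.sum_congr rfl fun h _ => ?_
    by_cases h1 : Prim h
    · rw [if_pos h1, if_pos (h1.mul (hD.1.pow 2)), modA_cop_mul, modA_cop_pow _ _ two_ne_zero]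
      ring
    · rw [if_neg h1, if_neg fun h2 => h1 ((hD.1.pow 2).of_mul (mul_comm h _ ▸ h2)), mul_zero,
        mul_zero]
  · rw [show mu D = 0 from if_neg hD, zero_mul, zero_mul]

theorem modP_bd : ∃ C : ℝ, 0 < C ∧ ∀ θ : ℝ, 1 / 2 ≤ θ → θ ≤ 1 → ∀ k : Eis, k ≠ 0 →
    ∀ R : ℝ, 0 < R →
      ‖modP k R - ((c0 * phi k : ℝ) : ℂ) * R‖ ≤ C * (dv k).card * R ^ θ := by
  obtain ⟨C, hC, h⟩ := pc
  have hc := c0_pos
  refine ⟨C + c0, by positivity, fun θ h1 h2 k hk R hR => ?_⟩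
  have hd : (1 : ℝ) ≤ (dv k).card := Nat.one_le_cast.2
    (Finset.card_pos.2 ⟨1, (mem_dv hk).2 ⟨PS.one, one_dvd k⟩⟩)
  have hθ : 0 < R ^ θ := Real.rpow_pos_of_pos hR θ
  rw [modP, ← ofReal_mul, ← ofReal_sub, norm_real, Real.norm_eq_abs]
  rcases lt_or_ge R 1 with h3 | h3
  · have h4 : R ≤ R ^ θ := Real.self_le_rpow_of_le_one hR.le h3.le h2
    have h5 := phi_pos hk
    have h6 := phi_le_one hk
    rw [ball_eq_empty h3, Finset.filter_empty, Finset.card_empty, Nat.cast_zero, zero_sub, abs_neg,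
      abs_of_pos (by positivity)]
    calc c0 * phi k * R ≤ c0 * (dv k).card * R ^ θ := by
          gcongr
          linarith
      _ ≤ _ := by
          gcongr
          linarith
  · refine (h k hk R hR).trans ?_
    rw [Real.sqrt_eq_rpow]
    gcongr
    linarith

theorem modA_inv_sq (d : Eis) : ‖((N d : ℂ) ^ 2)⁻¹‖ = N d ^ (-2 : ℝ) := by
  rw [norm_inv, norm_pow, norm_real, Real.norm_eq_abs, sq_abs, Real.rpow_neg (N_nonneg d),
    Real.rpow_two]

theorem modA_sums (k : Eis) : ∃ T T' : ℂ, T * T' = 1 ∧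
    HasSum (fun d => mu d * cop k d / (N d : ℂ) ^ 2) T ∧
    HasSum (fun d => (if Prim d then (N d : ℂ) * cop k d else 0) / (N d : ℂ) ^ 3) T' := by
  set g : Eis → ℂ := fun n => (if Prim n then cop k n else 0) * ((N n : ℂ) ^ 2)⁻¹ with hg
  have hb : ∀ n, ‖g n‖ ≤ 1 * N n ^ (-2 : ℝ) := fun n => by
    rw [hg, norm_mul, modA_inv_sq]
    refine mul_le_mul_of_nonneg_right ?_ (Real.rpow_nonneg (N_nonneg n) _)
    split_ifs
    · exact norm_cop_le _ _
    · simp
  have hs := summable_N_rpow (s := 2) (by norm_num)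
  have s1 : Summable fun d => mu d * cop k d / (N d : ℂ) ^ 2 := by
    refine Summable.of_norm_bounded hs fun d => ?_
    rw [div_eq_mul_inv, norm_mul, norm_mul, modA_inv_sq]
    exact mul_le_of_le_one_left (Real.rpow_nonneg (N_nonneg d) _)
      (mul_le_one₀ (norm_mu_le d) (norm_nonneg _) (norm_cop_le _ _))
  have s2 : Summable g := Summable.of_norm_bounded (hs.mul_left 1) hb
  have h1 := hasSum_moebius (g := g) (fun n hn => by simp only [hg, if_neg hn, zero_mul]) hb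
  have e : ∀ p : Eis × Eis, mu p.1 * g (p.1 * p.2) =
      mu p.1 * cop k p.1 / (N p.1 : ℂ) ^ 2 * g p.2 := by
    rintro ⟨f, d⟩
    by_cases hf : PS f
    · simp only [hg]
      by_cases hd : Prim d
      · rw [if_pos hd, if_pos (hf.1.mul hd), modA_cop_mul, N_mul]
        push_cast
        ring
      · rw [if_neg hd, if_neg fun h => hd (hf.1.of_mul h)]
        ring
    · simp only [show mu f = 0 from if_neg hf, zero_mul, zero_div]
  simp only [e] at h1
  refine ⟨_, _, (s1.hasSum.mul s2.hasSum h1.summable).unique h1 |>.trans ?_, s1.hasSum, ?_⟩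
  · simp [hg, Prim.one, cop, isCoprime_one_left]
  · refine (congrArg (HasSum · _) (funext fun d => ?_)).mp s2.hasSum
    simp only [hg]
    split_ifs with hd
    · have : (N d : ℂ) ≠ 0 := ofReal_ne_zero.2 (N_pos hd.ne_zero).ne'
      field_simp
    · simp

theorem modA_th (k : Eis) (x : ℝ) : ∑ n ∈ ball x, ((‖th n‖ ^ 2 : ℝ) : ℂ) * cop k n =
    ∑ d ∈ ball x, (if Prim d then (N d : ℂ) * cop k d else 0) * modQ k (x / N d ^ 3) := by
  rw [sum_ball_cube (fun n h => th_ne_zero fun h0 => h (by simp [h0])), Finset.sum_filter]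
  refine Finset.sum_congr rfl fun d _ => ?_
  split_ifs with hd
  · rw [modQ, Finset.mul_sum]
    refine Finset.sum_congr rfl fun e he => ?_
    rw [gp_norm_th (mem_PB.1 he).1 hd, ab_sq, modA_cop_mul, modA_cop_pow _ _ three_ne_zero]
    ring
  · rw [zero_mul]

theorem modA_sharp {θ : ℝ} (h1 : 2 / 3 < θ) (h2 : θ ≤ 1) : ∃ C : ℝ, 0 < C ∧ ∀ k : Eis, k ≠ 0 →
    ∀ x : ℝ, 0 < x →
    ‖∑ n ∈ ball x, ((‖th n‖ ^ 2 : ℝ) : ℂ) * cop k n - ((c0 * phi k : ℝ) : ℂ) * x‖ ≤
      C * (dv k).card * x ^ θ := by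
  obtain ⟨C, hC, h⟩ := modP_bd
  have hz : ∀ s : ℝ, 0 ≤ ∑' d : Eis, N d ^ s := fun s =>
    tsum_nonneg fun d => Real.rpow_nonneg (N_nonneg d) _
  have z1 := hz (-(((2 : ℕ) : ℝ) * θ - 0))
  have z2 := hz (-(((3 : ℕ) : ℝ) * θ - 1))
  refine ⟨C * (∑' d : Eis, N d ^ (-(((2 : ℕ) : ℝ) * θ - 0))) *
    (∑' d : Eis, N d ^ (-(((3 : ℕ) : ℝ) * θ - 1))) + 1, by positivity, fun k hk x hx => ?_⟩
  obtain ⟨T, T', hT, s1, s2⟩ := modA_sums k
  have hQ : ∀ R, 0 < R → ‖modQ k R - ((c0 * phi k : ℝ) : ℂ) * T * R‖ ≤ C * (dv k).card *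
      (∑' d : Eis, N d ^ (-(((2 : ℕ) : ℝ) * θ - 0))) * R ^ θ := fun R hR => by
    rw [modQ_eq]
    refine modA_conv two_ne_zero (by simp [mu, PS]) (fun d => ?_)
      (fun R hR => by simp [modP, ball_eq_empty hR]) (by positivity)
      (h θ (by linarith) h2 k hk) (by push_cast; linarith) s1 hR
    rw [Real.rpow_zero, norm_mul]
    exact mul_le_one₀ (norm_mu_le d) (norm_nonneg _) (norm_cop_le _ _)
  have h3 := modA_conv (P := modQ k) (α := 1) three_ne_zero (if_neg fun h => Prim.ne_zero h rfl)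
    (fun d => by
      rw [Real.rpow_one]
      split_ifs
      · rw [norm_mul, norm_real, Real.norm_of_nonneg (N_nonneg d)]
        exact mul_le_of_le_one_right (N_nonneg d) (norm_cop_le _ _)
      · rw [norm_zero]
        exact N_nonneg d)
    (fun R hR => by simp [modQ, PB, ball_eq_empty hR]) (by positivity) hQ
    (by push_cast; linarith) s2 hx
  rw [mul_assoc _ T, hT, mul_one, ← modA_th] at h3
  refine h3.trans ?_
  have h4 : 0 ≤ ((dv k).card : ℝ) * x ^ θ := by positivity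
  nlinarith

end Vale.Agent.P006
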