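import Vale.Agent.P006.LC
import Vale.Agent.P026.Kap
import Vale.Agent.P006.ModA

/-! The model: mean value of the squared theta coefficients. -/

namespace Vale.Agent.P006

open Vale.Agent.P026 Eis Complex MeasureTheory Filter Topology
open scoped Classical ComplexConjugate

/-- ‖th (e d ^ 3)‖ ^ 2 = N d. Write the squarefree indicator as a sum of mu f over f ^ 2 ∣ e; then
the sum is over triples (f, d, m) coprime to k with N f ^ 2 N d ^ 3 N m ≤ x of mu f N d; use pc for m.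
Main terms: ∑ mu f / N f ^ 2 times ∑ 1 / N d ^ 2 over primary f, d coprime to k is 1 (hasSum_moebius);
the tail N f ^ 2 N d ^ 3 > x is at most C x ^ (-1/3 + e) by Rankin. -/
theorem mod_sharp {e : ℝ} (he : 0 < e) (he' : e ≤ 1 / 4) : ∃ C : ℝ, 0 < C ∧ ∀ k : Eis, k ≠ 0 →
    ∀ x : ℝ, 0 < x →
    ‖∑ n ∈ ball x, ((‖th n‖ ^ 2 : ℝ) : ℂ) * cop k n - ((c0 * phi k : ℝ) : ℂ) * x‖ ≤
      C * N k ^ e * x ^ (2 / 3 + e) := by
  obtain ⟨C, hC, h⟩ := modA_sharp (θ := 2 / 3 + e) (by linarith) (by linarith)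
  obtain ⟨D, hD, h'⟩ := card_dv_le he
  refine ⟨C * D, by positivity, fun k hk x hx => (h k hk x hx).trans ?_⟩
  rw [mul_assoc C D]
  gcongr
  exact h' k hk

theorem mod_F (k n : Eis) : ‖((‖th n‖ ^ 2 : ℝ) : ℂ) * cop k n‖ ≤ 1 * N n := by
  rw [norm_mul, norm_real, Real.norm_of_nonneg (sq_nonneg _), one_mul, ← ab_sq]
  exact (mul_le_of_le_one_right (sq_nonneg _) (norm_cop_le _ _)).trans
    (pow_le_pow_left₀ (norm_nonneg _) (norm_th_le_ab n) 2)

theorem mod_th_zero : th 0 = 0 := th_of_not fun h => Prim.ne_zero h rfl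

/-- lcg with s = -1/6 + i t. -/
theorem mod_W {e : ℝ} (he : 0 < e) (he' : e ≤ 1 / 4) : ∃ C : ℝ, 0 < C ∧ ∀ k : Eis, k ≠ 0 →
    ∀ Y t : ℝ, 0 < Y →
    ‖∑' n, ((‖th n‖ ^ 2 * N n ^ (-(1 / 6) : ℝ) : ℝ) : ℂ) * cop k n * W Y t n -
      ((c0 * phi k : ℝ) : ℂ) * MI Y t‖ ≤ C * N k ^ e * (1 + |t|) * Y ^ (1 / 2 + e) := by
  obtain ⟨C, hC, h⟩ := mod_sharp he he'
  obtain ⟨D, hD, h'⟩ := lcg
  refine ⟨D * C, by positivity, fun k hk Y t hY => ?_⟩
  have hN := N_pos hk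
  have e1 : (-(1 / 6) + t * I : ℂ).re = -(1 / 6) := by simp
  have e2 : (-(1 / 6) + t * I : ℂ).im = t := by simp
  have h1 := h' (fun n => ((‖th n‖ ^ 2 : ℝ) : ℂ) * cop k n) ((c0 * phi k : ℝ) : ℂ)
    (-(1 / 6) + t * I) 1 (C * N k ^ e) (2 / 3 + e) 1 Y (mod_F k) (by positivity) (by linarith)
    (by linarith) (by norm_num) (by rw [e1]; norm_num [abs_of_pos]) hY (h k hk)
  rw [e1, e2, show 2 / 3 + e + -(1 / 6) = 1 / 2 + e by ring] at h1
  have e3 : ∀ n : Eis, ((‖th n‖ ^ 2 * N n ^ (-(1 / 6) : ℝ) : ℝ) : ℂ) * cop k n * W Y t n =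
      ((‖th n‖ ^ 2 : ℝ) : ℂ) * cop k n * gg (-(1 / 6) + t * I) 1 Y (N n) := fun n => by
    by_cases hn : n = 0
    · simp [hn, mod_th_zero]
    have h2 := gg_eq (-(1 / 6)) t 1 Y hn
    rw [lg_one] at h2
    rw [show (-(1 / 6) + t * I : ℂ) = ((-(1 / 6) : ℝ) : ℂ) + t * I by push_cast; rfl, h2, W]
    push_cast
    ring
  simp only [e3]
  rw [mul_assoc D C]
  exact h1
theorem Vw_pos (x : ℝ) : 0 < Vw x := kk_pos _
theorem Vw_anti {x y : ℝ} (h : x ≤ y) : Vw y ≤ Vw x := by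
  have hc := c0_pos
  refine kk_antitoneOn (Set.mem_Ici.2 (by positivity)) (Set.mem_Ici.2 (by positivity)) ?_
  gcongr
theorem Vw_le (k : ℕ) : ∃ C : ℝ, 0 < C ∧ ∀ x : ℝ, 0 < x → Vw x ≤ C / x ^ k := by
  obtain ⟨C, hC, h⟩ := kp_decay k
  have hc := c0_pos
  refine ⟨C / ((3 * c0) ^ 2) ^ k, by positivity, fun x hx => ?_⟩
  refine (h (3 * c0 * √x) (by positivity)).trans (le_of_eq ?_)
  rw [pow_mul, mul_pow, Real.sq_sqrt hx.le, mul_pow, div_div]
theorem summable_Vw (k : ℕ) {A : ℝ} (hA : 0 < A) :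
    Summable (fun a : Eis => N a ^ k * Vw (N a / A)) := by
  obtain ⟨C, hC, h⟩ := Vw_le (k + 2)
  refine cnt_summable (fun c => mul_nonneg (pow_nonneg (N_nonneg c) k) (Vw_pos _).le)
    (C * A ^ (k + 2)) fun c hc => ?_
  have hN := N_pos hc
  refine (mul_le_mul_of_nonneg_left (h _ (div_pos hN hA)) (by positivity)).trans (le_of_eq ?_)
  rw [Real.rpow_neg hN.le, Real.rpow_two, div_pow]
  field_simp
  ring

theorem mod_int {x : ℝ} (hx : 0 ≤ x) (u : ℝ) :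
    u ^ (-(2 / 3) : ℝ) * Real.exp (-u - (3 * c0 * √x) ^ 2 / u) =
      u ^ (-(2 / 3) : ℝ) * Real.exp (-u) * Real.exp (-(9 * c0 ^ 2 * x / u)) := by
  rw [mul_assoc (u ^ _), ← Real.exp_add, mul_pow, Real.sq_sqrt hx]
  congr 2
  ring

/-- Vw as a mixture of exponentials. -/
theorem Vw_eq {x : ℝ} (hx : 0 ≤ x) : Vw x =
    ∫ u in Set.Ioi (0 : ℝ), u ^ (-(2 / 3) : ℝ) * Real.exp (-u) * Real.exp (-(9 * c0 ^ 2 * x / u)) := by
  simp only [Vw, kk, mod_int hx]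

theorem mod_exp {e : ℝ} (he : 0 < e) (he' : e ≤ 1 / 4) : ∃ C : ℝ, 0 < C ∧ ∀ Y : ℝ, 0 < Y →
    |∑' a : Eis, Real.exp (-(N a / Y)) * (N a ^ (-(1 / 3) : ℝ) * ‖th a‖ ^ 2) -
      c0 * Real.Gamma (2 / 3) * Y ^ (2 / 3 : ℝ)| ≤ C * Y ^ (1 / 3 + e) := by
  obtain ⟨C, hC, h⟩ := mod_sharp he he'
  obtain ⟨D, hD, h'⟩ := lce (θ := 2 / 3 + e) (s := -(1 / 3)) (by linarith) (by linarith)
    (by norm_num)
  refine ⟨D * C, by positivity, fun Y hY => ?_⟩
  have h1 := h' (fun n => ((‖th n‖ ^ 2 : ℝ) : ℂ) * cop 1 n) ((c0 * phi 1 : ℝ) : ℂ) 1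
    (C * N 1 ^ e) Y (mod_F 1) (by simpa using hC.le) hY (h 1 one_ne_zero)
  rw [show (-(1 / 3) + 1 : ℝ) = 2 / 3 by norm_num, phi_one, N_one, Real.one_rpow, mul_one, mul_one,
    show 2 / 3 + e + -(1 / 3) = 1 / 3 + e by ring] at h1
  refine le_trans (le_of_eq ?_) h1
  rw [← Real.norm_eq_abs, ← norm_real, ofReal_sub, ofReal_tsum, ← ofReal_mul, mul_assoc c0]
  congr 3
  funext a
  rw [cop, if_pos isCoprime_one_right]
  push_cast
  ring

theorem mod_gam {s : ℝ} (hs : 0 < s) (D : ℝ) :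
    IntegrableOn (fun u : ℝ => D * (Real.exp (-u) * u ^ (s - 1))) (Set.Ioi 0) ∧
      ∫ u in Set.Ioi (0 : ℝ), D * (Real.exp (-u) * u ^ (s - 1)) = D * Real.Gamma s :=
  ⟨(Real.GammaIntegral_convergent hs).const_mul D, by
    rw [integral_const_mul, Real.Gamma_eq_integral hs]⟩

/-- lce with s = -1/3, Y = u A / (9 c0 ^ 2), integrated against u ^ (-2/3) exp (- u). -/
theorem mod_V {e : ℝ} (he : 0 < e) (he' : e ≤ 1 / 4) : ∃ C : ℝ, 0 < C ∧ ∀ A : ℝ, 0 < A →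
    |∑' a : Eis, Vw (N a / A) * (N a ^ (-(1 / 3) : ℝ) * ‖th a‖ ^ 2) -
      c0 * (3 * c0) ^ (-(4 / 3) : ℝ) * Real.Gamma (2 / 3) * A ^ (2 / 3 : ℝ)| ≤
        C * A ^ (1 / 3 + e) := by
  obtain ⟨C, hC, h⟩ := mod_exp he he'
  have hc := c0_pos
  have hG := Real.Gamma_pos_of_pos (show 0 < 2 / 3 + e by linarith)
  refine ⟨C * (9 * c0 ^ 2)⁻¹ ^ (1 / 3 + e) * Real.Gamma (2 / 3 + e), by positivity,
    fun A hA => ?_⟩
  set q : Eis → ℝ := fun a => N a ^ (-(1 / 3) : ℝ) * ‖th a‖ ^ 2 with hq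
  have q0 : ∀ a, 0 ≤ q a := fun a => mul_nonneg (Real.rpow_nonneg (N_nonneg a) _) (sq_nonneg _)
  have q1 : ∀ a, q a ≤ 1 := fun a => by
    by_cases ha : a = 0
    · simp [hq, ha, mod_th_zero]
    have hN := N_pos ha
    refine (mul_le_mul_of_nonneg_left (pow_le_pow_left₀ (norm_nonneg _) (norm_th_le a) 2)
      (by positivity)).trans (le_of_eq ?_)
    rw [← Real.rpow_natCast, ← Real.rpow_mul hN.le, ← Real.rpow_add hN]
    norm_num
  set f : Eis → ℝ → ℝ := fun a u => u ^ (-(2 / 3) : ℝ) * Real.exp (-u) *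
    Real.exp (-(9 * c0 ^ 2 * (N a / A) / u)) * q a with hf
  have hx : ∀ a, 0 ≤ N a / A := fun a => div_nonneg (N_nonneg a) hA.le
  have hi : ∀ a, Integrable (f a) (volume.restrict (Set.Ioi 0)) := fun a => by
    have := (integrableOn_kk (3 * c0 * √(N a / A))).mul_const (q a)
    simpa only [mod_int (hx a)] using this
  have hv : ∀ a, ∫ u in Set.Ioi (0 : ℝ), f a u = Vw (N a / A) * q a := fun a => by
    rw [Vw_eq (hx a), hf, integral_mul_const]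
  have hs := hasSum_integral_of_summable_integral_norm hi (by
    refine Summable.of_nonneg_of_le (fun a => integral_nonneg fun _ => norm_nonneg _)
      (fun a => ?_) (summable_Vw 0 hA)
    rw [setIntegral_congr_fun measurableSet_Ioi (g := f a) fun u (hu : 0 < u) =>
      Real.norm_of_nonneg (by have := q0 a; simp only [hf]; positivity), hv, pow_zero, one_mul]
    exact mul_le_of_le_one_right (Vw_pos _).le (q1 a))
  simp only [hv] at hs
  obtain ⟨m1, m2⟩ := mod_gam one_pos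
    (c0 * (3 * c0) ^ (-(4 / 3) : ℝ) * Real.Gamma (2 / 3) * A ^ (2 / 3 : ℝ))
  obtain ⟨r1, r2⟩ := mod_gam (show 0 < 2 / 3 + e by linarith)
    (C * (9 * c0 ^ 2)⁻¹ ^ (1 / 3 + e) * A ^ (1 / 3 + e))
  rw [Real.Gamma_one, mul_one] at m2
  have key : ∀ᵐ u ∂(volume.restrict (Set.Ioi (0 : ℝ))), ‖∑' a, f a u -
      c0 * (3 * c0) ^ (-(4 / 3) : ℝ) * Real.Gamma (2 / 3) * A ^ (2 / 3 : ℝ) *
        (Real.exp (-u) * u ^ ((1 : ℝ) - 1))‖ ≤
      C * (9 * c0 ^ 2)⁻¹ ^ (1 / 3 + e) * A ^ (1 / 3 + e) *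
        (Real.exp (-u) * u ^ (2 / 3 + e - 1)) := by
    filter_upwards [ae_restrict_mem measurableSet_Ioi] with u (hu : 0 < u)
    have h1 := h ((9 * c0 ^ 2)⁻¹ * A * u) (by positivity)
    have e1 : ∑' a, f a u = u ^ (-(2 / 3) : ℝ) * Real.exp (-u) *
        ∑' a, Real.exp (-(N a / ((9 * c0 ^ 2)⁻¹ * A * u))) * q a := by
      rw [← tsum_mul_left]
      refine tsum_congr fun a => ?_
      rw [show N a / ((9 * c0 ^ 2)⁻¹ * A * u) = 9 * c0 ^ 2 * (N a / A) / u by field_simp]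
      simp only [hf]
      ring
    have e2 : ((9 * c0 ^ 2)⁻¹) ^ (2 / 3 : ℝ) = (3 * c0) ^ (-(4 / 3) : ℝ) := by
      rw [show 9 * c0 ^ 2 = (3 * c0) ^ (2 : ℝ) by rw [Real.rpow_two]; ring,
        ← Real.rpow_neg (by positivity), ← Real.rpow_mul (by positivity)]
      norm_num
    have e3 : u ^ (-(2 / 3) : ℝ) * u ^ (2 / 3 : ℝ) = 1 := by
      rw [← Real.rpow_add hu]
      norm_num
    have e4 : u ^ (-(2 / 3) : ℝ) * u ^ (1 / 3 + e) = u ^ (2 / 3 + e - 1) := by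
      rw [← Real.rpow_add hu]
      congr 1
      ring
    rw [Real.mul_rpow (by positivity) hu.le, Real.mul_rpow (by positivity) hu.le,
      Real.mul_rpow (by positivity) hA.le, Real.mul_rpow (by positivity) hA.le, e2] at h1
    rw [e1, sub_self, Real.rpow_zero, ← e4]
    change |∑' a, Real.exp (-(N a / ((9 * c0 ^ 2)⁻¹ * A * u))) * q a - _| ≤ _ at h1
    generalize ∑' a, Real.exp (-(N a / ((9 * c0 ^ 2)⁻¹ * A * u))) * q a = S at h1 ⊢
    have h2 := mul_le_mul_of_nonneg_left h1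
      (show 0 ≤ u ^ (-(2 / 3) : ℝ) * Real.exp (-u) by positivity)
    rw [← abs_of_nonneg (show 0 ≤ u ^ (-(2 / 3) : ℝ) * Real.exp (-u) by positivity), ← abs_mul,
      abs_of_nonneg (show 0 ≤ u ^ (-(2 / 3) : ℝ) * Real.exp (-u) by positivity)] at h2
    rw [Real.norm_eq_abs]
    refine le_trans (le_of_eq ?_) (h2.trans (le_of_eq ?_))
    · congr 1
      linear_combination c0 * (3 * c0) ^ (-(4 / 3) : ℝ) * Real.Gamma (2 / 3) * A ^ (2 / 3 : ℝ) *
        Real.exp (-u) * e3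
    · ring
  have hm : AEStronglyMeasurable (fun u => ∑' a, f a u) (volume.restrict (Set.Ioi (0 : ℝ))) :=
    AEStronglyMeasurable.tsum fun a => (hi a).1
  have hd := r1.mono' (hm.sub m1.1) key
  have h3 := norm_integral_le_of_norm_le r1 key
  rw [integral_sub (by simpa using hd.add m1) m1, m2, r2, ← hs.tsum_eq, Real.norm_eq_abs] at h3
  exact h3.trans (le_of_eq (by ring))
/-- The numerical identity behind the cancellation of the main terms:
Gamma (1/3) Gamma (2/3) = 2 π / √3. -/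
theorem cs_sq : cs ^ 2 * (c0 * (3 * c0) ^ (-(4 / 3) : ℝ) * Real.Gamma (2 / 3)) =
    Real.Gamma (4 / 3) / 3 := by
  have hπ := Real.pi_pos
  have h3 : (0 : ℝ) < √3 := by positivity
  have hG := Real.Gamma_pos_of_pos (show (0 : ℝ) < 2 / 3 by norm_num)
  have h1 := Real.Gamma_mul_Gamma_one_sub (1 / 3)
  rw [show (1 : ℝ) - 1 / 3 = 2 / 3 by norm_num, show Real.pi * (1 / 3) = Real.pi / 3 by ring,
    Real.sin_pi_div_three] at h1
  have h2 := Real.Gamma_add_one (s := 1 / 3) (by norm_num)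
  rw [show (1 : ℝ) / 3 + 1 = 4 / 3 by norm_num] at h2
  have h4 : (3 * c0) ^ (-(4 / 3) : ℝ) = 9 * (((2 * Real.pi) ^ (2 / 3 : ℝ)) ^ 2)⁻¹ := by
    have e1 : 3 * c0 = 2 * Real.pi / 3 ^ (3 / 2 : ℝ) := by
      rw [c0, show (3 / 2 : ℝ) = 1 + 1 / 2 by norm_num, Real.rpow_add (by norm_num), Real.rpow_one,
        ← Real.sqrt_eq_rpow]
      field_simp
      norm_num
    rw [e1, Real.div_rpow (by positivity) (by positivity), ← Real.rpow_mul (by norm_num),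
      ← Real.rpow_natCast, ← Real.rpow_mul (by positivity), ← Real.rpow_neg (by positivity),
      show (3 / 2 * -(4 / 3) : ℝ) = -2 by norm_num, Real.rpow_neg (by norm_num : (0 : ℝ) ≤ 3),
      Real.rpow_two]
    norm_num
    ring
  have h5 : 0 < (2 * Real.pi) ^ (2 / 3 : ℝ) := by positivity
  have h6 : Real.Gamma (1 / 3) = 2 * Real.pi / (√3 * Real.Gamma (2 / 3)) := by
    rw [eq_div_iff (by positivity), mul_left_comm, h1]
    field_simp
  rw [h2, h4, h6, cs, c0]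
  field_simp

end Vale.Agent.P006
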