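import Vale.Agent.P006.Bas
import Vale.Agent.P026.LemPC

/-! Auxiliary lemmas: Mellin representations and dyadic sums. -/

namespace Vale.Agent.P006

open Vale.Agent.P026 Eis Complex MeasureTheory Filter Topology
open scoped Classical ComplexConjugate

theorem sep_cpow (σ τ : ℝ) {y : ℝ} (hy : 0 < y) : (y : ℂ) ^ (-((σ : ℂ) + τ * I)) =
    ((y ^ (-σ) : ℝ) : ℂ) * cexp (I * ((-τ * Real.log y : ℝ) : ℂ)) := by
  rw [cpow_def_of_ne_zero (by exact_mod_cast hy.ne'), Real.rpow_def_of_pos hy, ← ofReal_log hy.le,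
    ofReal_exp, ← Complex.exp_add]
  congr 1
  push_cast
  ring

theorem sep_norm_cpow (σ τ : ℝ) {y : ℝ} (hy : 0 < y) :
    ‖(y : ℂ) ^ (-((σ : ℂ) + τ * I))‖ = y ^ (-σ) := by
  rw [sep_cpow σ τ hy, norm_mul, norm_exp_I_mul_ofReal, mul_one, Complex.norm_real,
    Real.norm_of_nonneg (Real.rpow_nonneg hy.le _)]

theorem sep_cont_cpow (σ : ℝ) {y : ℝ} (hy : 0 < y) :
    Continuous fun τ : ℝ => (y : ℂ) ^ (-((σ : ℂ) + τ * I)) := by
  simp only [sep_cpow σ _ hy]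
  fun_prop

theorem sep_int_cpow {φ : ℝ → ℂ} (hφ : Integrable φ) (σ : ℝ) {y : ℝ} (hy : 0 < y) :
    Integrable fun τ : ℝ => φ τ * (y : ℂ) ^ (-((σ : ℂ) + τ * I)) :=
  hφ.mul_bdd (sep_cont_cpow σ hy).aestronglyMeasurable
    (Eventually.of_forall fun τ => (sep_norm_cpow σ τ hy).le)

theorem sep_Gamma_even (σ τ : ℝ) :
    ‖Gamma (σ + ((-τ : ℝ) : ℂ) * I)‖ = ‖Gamma (σ + τ * I)‖ := by
  rw [← Complex.norm_conj, ← Gamma_conj]
  simp

theorem sep_exp {σ : ℝ} (hσ : 0 < σ) {y : ℝ} (hy : 0 < y) : (Real.exp (-y) : ℂ) =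
    ∫ τ : ℝ, (2 * Real.pi : ℂ)⁻¹ * Gamma (σ + τ * I) * (y : ℂ) ^ (-((σ : ℂ) + τ * I)) := by
  have h := lp_mellin hσ hy
  have p : (2 * Real.pi : ℂ) ≠ 0 := mul_ne_zero two_ne_zero (by exact_mod_cast Real.pi_ne_zero)
  simp only [mul_assoc]
  rw [integral_const_mul]
  have e : ∀ τ : ℝ, Gamma (σ + τ * I) * (y : ℂ) ^ (-((σ : ℂ) + τ * I)) = lpE σ y τ := by
    intro τ
    rw [sep_cpow σ τ hy, lpE, mul_assoc]
  simp only [e]
  rw [h, ← mul_assoc, inv_mul_cancel₀ p, one_mul]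

theorem sep_int_Gamma {σ : ℝ} (hσ : 0 < σ) : Integrable fun τ : ℝ => Gamma (σ + τ * I) :=
  (lp_Gamma_int hσ 0).mono' (lp_Gamma_cont hσ).aestronglyMeasurable
    (Eventually.of_forall fun u => by simp)

theorem sep_rho {σ c : ℝ} (hσ : 0 < σ) (hc : 0 ≤ c) :
    Continuous (fun τ : ℝ => c * ‖Gamma (σ + τ * I)‖) ∧
    (∀ τ : ℝ, c * ‖Gamma (σ + ((-τ : ℝ) : ℂ) * I)‖ = c * ‖Gamma (σ + τ * I)‖) ∧
    (∀ τ : ℝ, 0 ≤ c * ‖Gamma (σ + τ * I)‖) ∧
    ∀ A : ℕ, Integrable fun τ : ℝ => c * ‖Gamma (σ + τ * I)‖ * (1 + |τ|) ^ A := by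
  refine ⟨continuous_const.mul (lp_Gamma_cont hσ).norm, fun τ => by rw [sep_Gamma_even],
    fun τ => by positivity, fun A => ?_⟩
  simp only [mul_assoc]
  exact (lp_Gamma_int hσ A).const_mul c

theorem sep_Gamma_two {σ a : ℝ} (h : σ < a) :
    Continuous (fun τ : ℝ => Gamma ((a : ℂ) - (σ + τ * I))) ∧
      ∀ τ : ℝ, ‖Gamma ((a : ℂ) - (σ + τ * I))‖ ≤ Real.Gamma (a - σ) := by
  constructor
  · have h1 := (lp_Gamma_cont (σ := a - σ) (by linarith)).comp continuous_neg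
    refine h1.congr fun τ => ?_
    simp only [Function.comp]
    congr 1
    push_cast
    ring
  · intro τ
    have h1 := lp_Gamma_le (s := (a : ℂ) - (σ + τ * I)) (by simpa using h)
    simpa using h1

theorem sep_beta {σ a : ℝ} (hσ : 0 < σ) (h : σ < a) {y : ℝ} (hy : 0 < y) :
    ((Real.Gamma a * (1 + y) ^ (-a) : ℝ) : ℂ) =
      ∫ τ : ℝ, (2 * Real.pi : ℂ)⁻¹ * Gamma (σ + τ * I) * Gamma ((a : ℂ) - (σ + τ * I)) *
        (y : ℂ) ^ (-((σ : ℂ) + τ * I)) := by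
  have h1 := Real.integral_rpow_mul_exp_neg_mul_Ioi (a := a) (r := 1 + y) (by linarith)
    (by linarith)
  rw [one_div, Real.inv_rpow (by linarith), ← Real.rpow_neg (by linarith), mul_comm] at h1
  rw [← h1, ← integral_complex_ofReal]
  set f : ℝ → ℝ → ℂ := fun u τ => (Real.exp (-u) : ℂ) * (u : ℂ) ^ ((a : ℂ) - (σ + τ * I) - 1) *
    ((2 * Real.pi : ℂ)⁻¹ * Gamma (σ + τ * I) * (y : ℂ) ^ (-((σ : ℂ) + τ * I))) with hf
  have e1 : ∀ u ∈ Set.Ioi (0 : ℝ),
      ((u ^ (a - 1) * Real.exp (-((1 + y) * u)) : ℝ) : ℂ) = ∫ τ, f u τ := by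
    intro u hu
    have hu' : 0 < u := hu
    have e2 : Real.exp (-((1 + y) * u)) = Real.exp (-u) * Real.exp (-(u * y)) := by
      rw [← Real.exp_add]
      congr 1
      ring
    rw [e2, ofReal_mul, ofReal_mul, sep_exp hσ (mul_pos hu' hy), ← integral_const_mul,
      ← integral_const_mul]
    refine integral_congr_ae (Eventually.of_forall fun τ => ?_)
    simp only [hf]
    rw [ofReal_mul, mul_cpow_ofReal_nonneg hu'.le hy.le, ofReal_cpow hu'.le,
      show (a : ℂ) - (σ + τ * I) - 1 = ((a - 1 : ℝ) : ℂ) + -((σ : ℂ) + τ * I) by push_cast; ring,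
      cpow_add _ _ (by exact_mod_cast hu'.ne')]
    ring
  rw [setIntegral_congr_fun measurableSet_Ioi e1, integral_integral_swap]
  · refine integral_congr_ae (Eventually.of_forall fun τ => ?_)
    simp only [hf]
    rw [integral_mul_const, Gamma_eq_integral (s := (a : ℂ) - (σ + τ * I)) (by simpa using h),
      GammaIntegral]
    ring
  · have i1 : IntegrableOn (fun u : ℝ => Real.exp (-u) * u ^ (a - σ - 1)) (Set.Ioi 0) :=
      Real.GammaIntegral_convergent (by linarith)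
    have i2 : Integrable fun τ : ℝ => ‖(2 * Real.pi : ℂ)⁻¹ * Gamma (σ + τ * I) *
        (y : ℂ) ^ (-((σ : ℂ) + τ * I))‖ :=
      (sep_int_cpow ((sep_int_Gamma hσ).const_mul _) σ hy).norm
    refine (Integrable.mul_prod i1 i2).mono' ?_ ?_
    · apply Measurable.aestronglyMeasurable
      have m1 : Measurable fun τ : ℝ => (2 * Real.pi : ℂ)⁻¹ * Gamma (σ + τ * I) *
          (y : ℂ) ^ (-((σ : ℂ) + τ * I)) :=
        ((continuous_const.mul (lp_Gamma_cont hσ)).mul (sep_cont_cpow σ hy)).measurable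
      refine Measurable.mul (Measurable.mul (by fun_prop) ?_) (m1.comp measurable_snd)
      exact Measurable.pow (by fun_prop) (by fun_prop)
    · rw [Measure.restrict_prod_eq_prod_univ, ae_restrict_iff' (measurableSet_Ioi.prod .univ)]
      refine Eventually.of_forall fun p hp => le_of_eq ?_
      have hu : 0 < p.1 := hp.1
      simp only [Function.uncurry, hf]
      rw [norm_mul, norm_mul, norm_cpow_eq_rpow_re_of_pos hu, Complex.norm_real,
        Real.norm_of_nonneg (Real.exp_pos _).le]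
      simp

theorem sep_psi {δ β x0 : ℝ} (hδ : 0 < δ) (hβ : δ ≤ |β|) (hx0 : 0 < x0) : ∃ Ψ : ℝ → ℝ,
    (∀ x, x0 / 2 < x → 0 ≤ Ψ x) ∧ (∀ x, 0 < x → Ψ (x / 2) + x ^ β ≤ Ψ x) ∧
      ∀ x, 0 < x → Ψ x ≤ (1 - (2 : ℝ) ^ (-δ))⁻¹ * (x0 ^ β + x ^ β) := by
  have h0 : (2 : ℝ) ^ (-δ) < 1 := Real.rpow_lt_one_of_one_lt_of_neg (by norm_num) (by linarith)
  have p0 : 0 < x0 ^ β := Real.rpow_pos_of_pos hx0 β
  have hc : 0 < (1 - (2 : ℝ) ^ (-δ))⁻¹ := inv_pos.2 (by linarith)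
  have hc' : (1 - (2 : ℝ) ^ (-δ))⁻¹ * (1 - (2 : ℝ) ^ (-δ)) = 1 := inv_mul_cancel₀ (by linarith)
  rcases le_abs.1 hβ with h | h
  · refine ⟨fun x => (1 - (2 : ℝ) ^ (-δ))⁻¹ * x ^ β, fun x hx => ?_, fun x hx => ?_,
      fun x hx => ?_⟩
    · exact mul_nonneg hc.le (Real.rpow_nonneg (by linarith) _)
    · have h1 : (2 : ℝ) ^ (-β) ≤ 2 ^ (-δ) :=
        Real.rpow_le_rpow_of_exponent_le (by norm_num) (by linarith)
      have p1 : 0 < x ^ β := Real.rpow_pos_of_pos hx β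
      simp only []
      rw [Real.div_rpow hx.le (by norm_num), div_eq_mul_inv, ← Real.rpow_neg (by norm_num)]
      have h2 := mul_le_mul_of_nonneg_left h1 (mul_pos hc p1).le
      nlinarith
    · have p1 : 0 < x ^ β := Real.rpow_pos_of_pos hx β
      simp only []
      nlinarith
  · have h1 : (2 : ℝ) ^ β ≤ 2 ^ (-δ) :=
      Real.rpow_le_rpow_of_exponent_le (by norm_num) (by linarith)
    have r0 : 0 < (2 : ℝ) ^ β := by positivity
    have hd : 0 < (1 - (2 : ℝ) ^ β)⁻¹ := inv_pos.2 (by linarith)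
    have hd' : (1 - (2 : ℝ) ^ β)⁻¹ * (1 - (2 : ℝ) ^ β) = 1 := inv_mul_cancel₀ (by linarith)
    refine ⟨fun x => (1 - (2 : ℝ) ^ β)⁻¹ * (x0 ^ β - 2 ^ β * x ^ β), fun x hx => ?_,
      fun x hx => ?_, fun x hx => ?_⟩
    · refine mul_nonneg hd.le (sub_nonneg.2 ?_)
      rw [← Real.mul_rpow (by norm_num) (by linarith)]
      exact Real.rpow_le_rpow_of_nonpos hx0 (by linarith) (by linarith)
    · simp only []
      rw [Real.div_rpow hx.le (by norm_num), mul_div_cancel₀ _ r0.ne']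
      apply le_of_eq
      linear_combination (-(x ^ β)) * hd'
    · have p1 : 0 < x ^ β := Real.rpow_pos_of_pos hx β
      have h3 : (1 - (2 : ℝ) ^ β)⁻¹ ≤ (1 - (2 : ℝ) ^ (-δ))⁻¹ :=
        inv_anti₀ (by linarith) (by linarith)
      simp only []
      calc (1 - (2 : ℝ) ^ β)⁻¹ * (x0 ^ β - 2 ^ β * x ^ β) ≤ (1 - (2 : ℝ) ^ β)⁻¹ * x0 ^ β :=
            mul_le_mul_of_nonneg_left (by nlinarith) hd.le
        _ ≤ (1 - (2 : ℝ) ^ (-δ))⁻¹ * x0 ^ β := mul_le_mul_of_nonneg_right h3 p0.le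
        _ ≤ _ := mul_le_mul_of_nonneg_left (by linarith) hc.le

theorem sep_rec {σ H x0 x1 : ℝ} (hσ : 0 ≤ σ) (hH : 0 < H) (hx0 : 0 < x0) {q : Eis → ℝ}
    (hq : ∀ h, 0 ≤ q h) {G Ψ : ℝ → ℝ}
    (hG : ∀ x, x0 < x → x ≤ x1 → ∑ h ∈ ball (x * H), q h ≤ G x)
    (h0 : ∀ x, x0 / 2 < x → 0 ≤ Ψ x)
    (h1 : ∀ x, x0 < x → Ψ (x / 2) + (x / 2) ^ (-σ) * G x ≤ Ψ x) (n : ℕ) :
    ∀ x, x0 / 2 < x → x ≤ x1 → x ≤ x0 * 2 ^ n →
      ∑ h ∈ ball (x * H), (if x0 * H < N h then (N h / H) ^ (-σ) * q h else 0) ≤ Ψ x := by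
  have base : ∀ x, x0 / 2 < x → x ≤ x0 →
      ∑ h ∈ ball (x * H), (if x0 * H < N h then (N h / H) ^ (-σ) * q h else 0) ≤ Ψ x := by
    intro x hx hx'
    rw [Finset.sum_eq_zero]
    · exact h0 x hx
    · intro h hh
      have := (mem_ball.1 hh).2
      rw [if_neg]
      nlinarith
  induction n with
  | zero => exact fun x hx _ h => base x hx (by simpa using h)
  | succ n ih =>
    intro x hx hx1 hn
    rcases le_or_gt x x0 with hx' | hx'
    · exact base x hx hx'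
    have hxp : 0 < x := by linarith
    have hsub : ball (x / 2 * H) ⊆ ball (x * H) := ball_mono (by nlinarith)
    have p : 0 ≤ (x / 2) ^ (-σ) := Real.rpow_nonneg (by linarith) _
    rw [← Finset.sum_sdiff hsub]
    have a1 := ih (x / 2) (by linarith) (by linarith) (by rw [pow_succ] at hn; linarith)
    have a2 : ∑ h ∈ ball (x * H) \ ball (x / 2 * H),
        (if x0 * H < N h then (N h / H) ^ (-σ) * q h else 0) ≤ (x / 2) ^ (-σ) * G x := by
      calc _ ≤ ∑ h ∈ ball (x * H) \ ball (x / 2 * H), (x / 2) ^ (-σ) * q h := by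
            refine Finset.sum_le_sum fun h hh => ?_
            obtain ⟨b1, b2⟩ := Finset.mem_sdiff.1 hh
            have b3 : x / 2 * H < N h := by
              by_contra hc
              exact b2 (mem_ball.2 ⟨(mem_ball.1 b1).1, not_lt.1 hc⟩)
            split_ifs
            · refine mul_le_mul_of_nonneg_right ?_ (hq h)
              refine Real.rpow_le_rpow_of_nonpos (by linarith) ?_ (by linarith)
              rw [le_div_iff₀ hH]
              exact b3.le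
            · exact mul_nonneg p (hq h)
        _ ≤ ∑ h ∈ ball (x * H), (x / 2) ^ (-σ) * q h :=
            Finset.sum_le_sum_of_subset_of_nonneg Finset.sdiff_subset
              fun h _ _ => mul_nonneg p (hq h)
        _ ≤ _ := by
            rw [← Finset.mul_sum]
            exact mul_le_mul_of_nonneg_left (hG x hx' hx1) p
    linarith [h1 x hx']

end Vale.Agent.P006
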