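import Vale.Agent.P006.WtQ
import Vale.Agent.P026.LemPC
import Vale.Agent.P006.SepA

/-! Separation of variables and dyadic sums over the frequency. -/

namespace Vale.Agent.P006

open Vale.Agent.P026 Eis Complex MeasureTheory Filter Topology
open scoped Classical ComplexConjugate

theorem wq_nonneg (σ : ℝ) {H : ℝ} (hH : 0 < H) (S : Finset Eis) (γ : Eis → ℂ) (Hs : Finset Eis)
    (P : Eis → Eis → Prop) : 0 ≤ wq σ H S γ Hs P := by
  refine Finset.sum_nonneg fun h _ => Finset.sum_nonneg fun D _ => ?_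
  split_ifs
  · exact mul_nonneg (Real.rpow_nonneg (div_nonneg (N_nonneg h) hH.le) _) (qt_nonneg S γ h D)
  · exact le_rfl

theorem continuous_wq (σ H : ℝ) (S : Finset Eis) (γ : Eis → ℂ) (Hs : Finset Eis)
    (P : Eis → Eis → Prop) : Continuous fun τ => wq σ H S (tw γ τ) Hs P := by
  unfold wq
  refine continuous_finsetSum _ fun h _ => continuous_finsetSum _ fun D _ => ?_
  split_ifs
  · exact continuous_const.mul (continuous_qt S γ h D)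
  · exact continuous_const

theorem wq_tw_bdd (σ H : ℝ) (S : Finset Eis) (γ : Eis → ℂ) (Hs : Finset Eis)
    (P : Eis → Eis → Prop) : ∃ B : ℝ, ∀ τ, |wq σ H S (tw γ τ) Hs P| ≤ B := by
  refine ⟨∑ h ∈ Hs, ∑ D ∈ sqd h, |(N h / H) ^ (-σ)| * (N D * (∑ n ∈ S, ‖γ n‖) ^ 2),
    fun τ => ?_⟩
  refine (Finset.abs_sum_le_sum_abs _ _).trans (Finset.sum_le_sum fun h _ => ?_)
  refine (Finset.abs_sum_le_sum_abs _ _).trans (Finset.sum_le_sum fun D _ => ?_)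
  split_ifs
  · rw [abs_mul, abs_of_nonneg (qt_nonneg S _ h D)]
    exact mul_le_mul_of_nonneg_left (qt_tw_le S γ τ h D) (abs_nonneg _)
  · rw [abs_zero]
    exact mul_nonneg (abs_nonneg _) (mul_nonneg (N_nonneg D) (sq_nonneg _))

theorem sep_lin (e : Eis → ℂ) {S Hs : Finset Eis} (hS : (0 : Eis) ∉ S) (hH : (0 : Eis) ∉ Hs)
    (β : Eis → ℂ) (P : Eis → Eis → Prop) :
    ∃ (T : Finset (Σ _ : Eis, Σ _ : Eis, Eis × Eis)) (c : (Σ _ : Eis, Σ _ : Eis, Eis × Eis) → ℂ)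
      (y : (Σ _ : Eis, Σ _ : Eis, Eis × Eis) → ℝ), (∀ x ∈ T, 0 < y x) ∧
      ∀ k : ℝ → ℂ, bq k e S β Hs P = ∑ x ∈ T, c x * k (y x) := by
  refine ⟨Hs.sigma fun h => (sqd h).sigma fun D =>
      S.filter (fun n => D ∣ n) ×ˢ S.filter (fun n => D ∣ n),
    fun x => e x.1 * if P x.1 x.2.1 then (N x.2.1 : ℂ) * (β x.2.2.1 * conj (β x.2.2.2) /
      ((ab x.2.2.1 * ab x.2.2.2 : ℝ) : ℂ) *
        (cub x.1 (x.2.2.1 / x.2.1) * conj (cub x.1 (x.2.2.2 / x.2.1)))) else 0,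
    fun x => N x.1 / (N x.2.2.1 * N x.2.2.2), ?_, fun k => ?_⟩
  · intro x hx
    simp only [Finset.mem_sigma, Finset.mem_product, Finset.mem_filter] at hx
    exact div_pos (N_pos (wt_ne hH hx.1))
      (mul_pos (N_pos (wt_ne hS hx.2.2.1.1)) (N_pos (wt_ne hS hx.2.2.2.1)))
  · unfold bq
    rw [Finset.sum_sigma]
    refine Finset.sum_congr rfl fun h _ => ?_
    rw [Finset.sum_sigma, Finset.mul_sum]
    refine Finset.sum_congr rfl fun D _ => ?_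
    rw [Finset.sum_product]
    by_cases hP : P h D
    · simp only [Finset.mul_sum, if_pos hP]
      refine Finset.sum_congr rfl fun c1 _ => Finset.sum_congr rfl fun c2 _ => ?_
      ring
    · simp [hP]

theorem sep_term {κ K : ℝ} (hκ : 0 < κ) (hK : 0 < K) (σ τ : ℝ) {h c1 c2 : Eis} (hh : h ≠ 0)
    (h1 : c1 ≠ 0) (h2 : c2 ≠ 0) :
    ((κ * (N h / (N c1 * N c2)) : ℝ) : ℂ) ^ (-((σ : ℂ) + τ * I)) / ((ab c1 * ab c2 : ℝ) : ℂ) =
      cexp (I * ((-τ * Real.log (κ * N h) : ℝ) : ℂ)) *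
        (((N h / (K ^ 2 / κ)) ^ (-σ) / K : ℝ) : ℂ) *
        (((((N c1 / K) ^ (σ - 1 / 2) : ℝ) : ℂ) * nit τ c1) *
          ((((N c2 / K) ^ (σ - 1 / 2) : ℝ) : ℂ) * nit τ c2)) := by
  have n1 := N_pos h1
  have n2 := N_pos h2
  have n3 := N_pos hh
  rw [sep_cpow σ τ (by positivity)]
  have e1 : cexp (I * ((-τ * Real.log (κ * (N h / (N c1 * N c2))) : ℝ) : ℂ)) =
      cexp (I * ((-τ * Real.log (κ * N h) : ℝ) : ℂ)) * (nit τ c1 * nit τ c2) := by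
    unfold nit
    rw [← Complex.exp_add, ← Complex.exp_add, ← mul_div_assoc,
      Real.log_div (by positivity) (by positivity), Real.log_mul n1.ne' n2.ne']
    congr 1
    push_cast
    ring
  have e2 : (κ * (N h / (N c1 * N c2))) ^ (-σ) / (ab c1 * ab c2) =
      (N h / (K ^ 2 / κ)) ^ (-σ) / K * ((N c1 / K) ^ (σ - 1 / 2) * (N c2 / K) ^ (σ - 1 / 2)) := by
    unfold ab
    obtain ⟨a, ha⟩ : ∃ a, N c1 = Real.exp a := ⟨_, (Real.exp_log n1).symm⟩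
    obtain ⟨b, hb⟩ : ∃ b, N c2 = Real.exp b := ⟨_, (Real.exp_log n2).symm⟩
    obtain ⟨c, hc⟩ : ∃ c, N h = Real.exp c := ⟨_, (Real.exp_log n3).symm⟩
    obtain ⟨k, rfl⟩ : ∃ k, K = Real.exp k := ⟨_, (Real.exp_log hK).symm⟩
    obtain ⟨l, rfl⟩ : ∃ l, κ = Real.exp l := ⟨_, (Real.exp_log hκ).symm⟩
    rw [ha, hb, hc]
    simp only [← Real.exp_half, pow_two, ← Real.exp_add, ← Real.exp_sub, ← Real.exp_mul]
    congr 1
    ring
  rw [e1, mul_div_right_comm, ← ofReal_div, e2]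
  push_cast
  ring

theorem sep_pt {κ K : ℝ} (hκ : 0 < κ) (hK : 0 < K) (σ τ : ℝ) {e : Eis → ℂ}
    (h1 : ∀ h, ‖e h‖ ≤ 1) {S Hs : Finset Eis} (hS : (0 : Eis) ∉ S) (hH : (0 : Eis) ∉ Hs)
    (β : Eis → ℂ) (P : Eis → Eis → Prop) :
    ‖bq (fun y => ((κ * y : ℝ) : ℂ) ^ (-((σ : ℂ) + τ * I))) e S β Hs P‖ ≤
      1 / (2 * K) * (wq σ (K ^ 2 / κ) S (tw (sc β K (σ - 1 / 2)) τ) Hs P +
        wq σ (K ^ 2 / κ) S (tw (sc β K (σ - 1 / 2)) (-τ)) Hs P) := by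
  unfold bq wq
  rw [← Finset.sum_add_distrib, Finset.mul_sum]
  refine (norm_sum_le _ _).trans (Finset.sum_le_sum fun h hh => ?_)
  rw [norm_mul, ← Finset.sum_add_distrib, Finset.mul_sum]
  refine (mul_le_of_le_one_left (norm_nonneg _) (h1 h)).trans ?_
  refine (norm_sum_le _ _).trans (Finset.sum_le_sum fun D _ => ?_)
  split_ifs
  · have e1 : ∑ c1 ∈ S.filter (fun n => D ∣ n), ∑ c2 ∈ S.filter (fun n => D ∣ n),
        β c1 * conj (β c2) / ((ab c1 * ab c2 : ℝ) : ℂ) *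
          (cub h (c1 / D) * conj (cub h (c2 / D))) *
          ((κ * (N h / (N c1 * N c2)) : ℝ) : ℂ) ^ (-((σ : ℂ) + τ * I)) =
        cexp (I * ((-τ * Real.log (κ * N h) : ℝ) : ℂ)) *
          (((N h / (K ^ 2 / κ)) ^ (-σ) / K : ℝ) : ℂ) *
          ((∑ n ∈ S.filter (fun n => D ∣ n), tw (sc β K (σ - 1 / 2)) τ n * cub h (n / D)) *
            conj (∑ n ∈ S.filter (fun n => D ∣ n),
              tw (sc β K (σ - 1 / 2)) (-τ) n * cub h (n / D))) := by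
      rw [map_sum, Finset.sum_mul_sum, Finset.mul_sum]
      refine Finset.sum_congr rfl fun c1 hc1 => ?_
      rw [Finset.mul_sum]
      refine Finset.sum_congr rfl fun c2 hc2 => ?_
      have h3 := sep_term hκ hK σ τ (wt_ne hH hh) (wt_ne hS (Finset.mem_filter.1 hc1).1)
        (wt_ne hS (Finset.mem_filter.1 hc2).1)
      simp only [tw, sc, map_mul, conj_nit, neg_neg, conj_ofReal]
      linear_combination (β c1 * conj (β c2) * (cub h (c1 / D) * conj (cub h (c2 / D)))) * h3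
    have p : 0 ≤ (N h / (K ^ 2 / κ)) ^ (-σ) :=
      Real.rpow_nonneg (div_nonneg (N_nonneg h) (by positivity)) _
    simp only []
    rw [e1, norm_mul, norm_mul, norm_mul, norm_mul, norm_exp_I_mul_ofReal, one_mul,
      Complex.norm_conj, Complex.norm_real, Complex.norm_real, Real.norm_of_nonneg (N_nonneg D),
      Real.norm_of_nonneg (by positivity)]
    unfold qt
    generalize ‖∑ n ∈ S.filter (fun n => D ∣ n),
      tw (sc β K (σ - 1 / 2)) τ n * cub h (n / D)‖ = A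
    generalize ‖∑ n ∈ S.filter (fun n => D ∣ n),
      tw (sc β K (σ - 1 / 2)) (-τ) n * cub h (n / D)‖ = B
    have p2 : 0 ≤ N D * (N h / (K ^ 2 / κ)) ^ (-σ) / (2 * K) * (A - B) ^ 2 :=
      mul_nonneg (div_nonneg (mul_nonneg (N_nonneg D) p) (by positivity)) (sq_nonneg _)
    generalize (N h / (K ^ 2 / κ)) ^ (-σ) = R at p2 ⊢
    rw [← sub_nonneg]
    refine p2.trans (le_of_eq ?_)
    field_simp
    ring
  · simp

theorem sep_fin {φ F : ℝ → ℂ} {ρ w : ℝ → ℝ} {c B : ℝ} (hb : ∀ τ, ‖φ τ‖ ≤ ρ τ)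
    (hρ : Integrable ρ) (he : ∀ τ, ρ (-τ) = ρ τ) (hc : Continuous w) (hB : ∀ τ, |w τ| ≤ B)
    (hp : ∀ τ, ‖F τ‖ ≤ c * (w τ + w (-τ))) :
    ‖∫ τ, φ τ * F τ‖ ≤ 2 * c * ∫ τ, ρ τ * w τ := by
  have i1 : Integrable fun τ => ρ τ * w τ :=
    hρ.mul_bdd hc.aestronglyMeasurable (Eventually.of_forall hB)
  have i2 : Integrable fun τ => ρ τ * w (-τ) :=
    hρ.mul_bdd (hc.comp continuous_neg).aestronglyMeasurable
      (Eventually.of_forall fun τ => hB (-τ))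
  have e : ∫ τ, ρ τ * w (-τ) = ∫ τ, ρ τ * w τ := by
    rw [← integral_neg_eq_self (fun τ => ρ τ * w τ)]
    simp only [he]
  have h := norm_integral_le_of_norm_le (f := fun τ => φ τ * F τ)
    ((i1.add i2).const_mul c) (Eventually.of_forall fun τ => by
      rw [norm_mul]
      refine (mul_le_mul (hb τ) (hp τ) (norm_nonneg _) ((norm_nonneg _).trans (hb τ))).trans
        (le_of_eq ?_)
      simp only [Pi.add_apply]
      ring)
  simp only [Pi.add_apply] at h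
  rw [integral_const_mul, integral_add i1 i2, e] at h
  linarith

/-- With y = κ N h / (N c1 N c2) one has y ^ (-s) = (N h / H) ^ (-s) (N c1 / K) ^ s (N c2 / K) ^ s,
H = K ^ 2 / κ. The inner double sum is A τ * conj (A (-τ)) up to a unimodular factor; use
|x y| ≤ (|x| ^ 2 + |y| ^ 2) / 2 and that ρ is even. -/
theorem sep {k : ℝ → ℂ} {σ : ℝ} {ρ : ℝ → ℝ} (hk : Rep k σ ρ) (hρ : Integrable ρ)
    (he : ∀ τ, ρ (-τ) = ρ τ) (z : ℂ) {κ K : ℝ} (hκ : 0 < κ) (hK : 0 < K) {e : Eis → ℂ}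
    (h1 : ∀ h, ‖e h‖ ≤ 1) {S Hs : Finset Eis} (hS : (0 : Eis) ∉ S) (hH : (0 : Eis) ∉ Hs)
    (β : Eis → ℂ) (P : Eis → Eis → Prop) :
    ‖bq (fun y => z * k (κ * y)) e S β Hs P‖ ≤
      ‖z‖ / K * ∫ τ, ρ τ * wq σ (K ^ 2 / κ) S (tw (sc β K (σ - 1 / 2)) τ) Hs P := by
  obtain ⟨φ, hφ, hb, hr⟩ := hk
  obtain ⟨T, c, y, hy, hT⟩ := sep_lin e hS hH β P
  have e1 : bq (fun y => z * k (κ * y)) e S β Hs P =
      z * ∫ τ : ℝ, φ τ * bq (fun y => ((κ * y : ℝ) : ℂ) ^ (-((σ : ℂ) + τ * I))) e S β Hs P := by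
    simp only [hT, Finset.mul_sum]
    rw [integral_finsetSum, Finset.mul_sum]
    · refine Finset.sum_congr rfl fun x hx => ?_
      rw [hr _ (mul_pos hκ (hy x hx)), mul_left_comm, ← integral_const_mul]
      congr 1
      refine integral_congr_ae (Eventually.of_forall fun τ => ?_)
      simp only []
      ring
    · intro x hx
      refine ((sep_int_cpow hφ σ (mul_pos hκ (hy x hx))).const_mul (c x)).congr
        (Eventually.of_forall fun τ => ?_)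
      simp only []
      ring
  obtain ⟨B, hB⟩ := wq_tw_bdd σ (K ^ 2 / κ) S (sc β K (σ - 1 / 2)) Hs P
  have hc := continuous_wq σ (K ^ 2 / κ) S (sc β K (σ - 1 / 2)) Hs P
  have h2 := sep_fin hb hρ he hc hB (c := 1 / (2 * K))
    (fun τ => sep_pt hκ hK σ τ h1 hS hH β P)
  rw [e1, norm_mul]
  refine (mul_le_mul_of_nonneg_left h2 (norm_nonneg z)).trans (le_of_eq ?_)
  field_simp

/-- lp_mellin, lp_Gamma_int. -/
theorem rep_exp {σ : ℝ} (hσ : 0 < σ) : ∃ ρ : ℝ → ℝ, Rep (fun y => (Real.exp (-y) : ℂ)) σ ρ ∧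
    Continuous ρ ∧ (∀ τ, ρ (-τ) = ρ τ) ∧ (∀ τ, 0 ≤ ρ τ) ∧
    ∀ A : ℕ, Integrable fun τ => ρ τ * (1 + |τ|) ^ A := by
  refine ⟨fun τ => (2 * Real.pi)⁻¹ * ‖Gamma (σ + τ * I)‖,
    ⟨fun τ => (2 * Real.pi : ℂ)⁻¹ * Gamma (σ + τ * I), (sep_int_Gamma hσ).const_mul _,
      fun τ => le_of_eq ?_, fun y hy => sep_exp hσ hy⟩, sep_rho hσ (by positivity)⟩
  rw [norm_mul, norm_inv, norm_mul, Complex.norm_real, Real.norm_of_nonneg Real.pi_pos.le]
  simp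

/-- Vh y = (9 c0)⁻¹ ∫ u ^ (1/3) exp (- u) exp (- u y) du; insert rep_exp and integrate in u:
φ τ = const Gamma (σ + i τ) Gamma (4/3 - σ - i τ). -/
theorem rep_Vh {σ : ℝ} (hσ : 0 < σ) (hσ' : σ < 4 / 3) : ∃ ρ : ℝ → ℝ, Rep (fun y => (Vh y : ℂ)) σ ρ ∧
    Continuous ρ ∧ (∀ τ, ρ (-τ) = ρ τ) ∧ (∀ τ, 0 ≤ ρ τ) ∧
    ∀ A : ℕ, Integrable fun τ => ρ τ * (1 + |τ|) ^ A := by
  have hc : 0 < c0 := by
    unfold c0
    positivity
  obtain ⟨g1, g2⟩ := sep_Gamma_two hσ'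
  have g3 : 0 < Real.Gamma (4 / 3 - σ) := Real.Gamma_pos_of_pos (by linarith)
  refine ⟨fun τ => (9 * c0)⁻¹ * (2 * Real.pi)⁻¹ * Real.Gamma (4 / 3 - σ) * ‖Gamma (σ + τ * I)‖,
    ⟨fun τ => (((9 * c0)⁻¹ : ℝ) : ℂ) * ((2 * Real.pi : ℂ)⁻¹ * Gamma (σ + τ * I) *
      Gamma (((4 / 3 : ℝ) : ℂ) - (σ + τ * I))), ?_, fun τ => ?_, fun y hy => ?_⟩,
      sep_rho hσ (by positivity)⟩
  · exact (((sep_int_Gamma hσ).const_mul _).mul_bdd g1.aestronglyMeasurable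
      (Eventually.of_forall g2)).const_mul _
  · have e : ‖(2 * Real.pi : ℂ)⁻¹‖ = (2 * Real.pi)⁻¹ := by
      rw [norm_inv, norm_mul, Complex.norm_real, Real.norm_of_nonneg Real.pi_pos.le]
      simp
    rw [norm_mul, norm_mul, norm_mul, e, Complex.norm_real, Real.norm_of_nonneg (by positivity)]
    have h1 := mul_le_mul_of_nonneg_left (g2 τ)
      (show 0 ≤ (9 * c0)⁻¹ * (2 * Real.pi)⁻¹ * ‖Gamma (σ + τ * I)‖ by positivity)
    linarith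
  · simp only [mul_assoc (((9 * c0)⁻¹ : ℝ) : ℂ)]
    rw [integral_const_mul, ← sep_beta hσ hσ' hy, ← ofReal_mul, Vh]
    congr 1
    ring

/-- Dyadic blocks (x1 / 2 ^ (j + 1), x1 / 2 ^ j] with x1 / 2 ^ j > x0; geometric sums. -/
theorem hw {σ δ : ℝ} (hσ : 0 ≤ σ) (hδ : 0 < δ) : ∃ C : ℝ, 0 < C ∧ ∀ (ι : Type) (I : Finset ι)
    (a θ : ι → ℝ) (q : Eis → ℝ) (H x0 x1 : ℝ), (∀ i ∈ I, 0 ≤ a i ∧ δ ≤ |θ i - σ|) →
    (∀ h, 0 ≤ q h) → 0 < H → 0 < x0 → x0 ≤ x1 →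
    (∀ x, x0 < x → x ≤ x1 → ∑ h ∈ ball (x * H), q h ≤ ∑ i ∈ I, a i * x ^ θ i) →
      ∑ h ∈ ball (x1 * H), (if x0 * H < N h then (N h / H) ^ (-σ) * q h else 0) ≤
        C * ∑ i ∈ I, a i * (x0 ^ (θ i - σ) + x1 ^ (θ i - σ)) := by
  have h0 : (2 : ℝ) ^ (-δ) < 1 := Real.rpow_lt_one_of_one_lt_of_neg (by norm_num) (by linarith)
  have hc : 0 < (1 - (2 : ℝ) ^ (-δ))⁻¹ := inv_pos.2 (by linarith)
  have p2 : 0 < (2 : ℝ) ^ σ := by positivity
  refine ⟨2 ^ σ * (1 - (2 : ℝ) ^ (-δ))⁻¹, by positivity,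
    fun ι I a θ q H x0 x1 hI hq hH hx0 hx hG => ?_⟩
  have hex : ∀ i, ∃ Ψ : ℝ → ℝ, i ∈ I → (∀ x, x0 / 2 < x → 0 ≤ Ψ x) ∧
      (∀ x, 0 < x → Ψ (x / 2) + x ^ (θ i - σ) ≤ Ψ x) ∧
      ∀ x, 0 < x → Ψ x ≤ (1 - (2 : ℝ) ^ (-δ))⁻¹ * (x0 ^ (θ i - σ) + x ^ (θ i - σ)) := by
    intro i
    by_cases hi : i ∈ I
    · obtain ⟨Ψ, h⟩ := sep_psi hδ (hI i hi).2 hx0
      exact ⟨Ψ, fun _ => h⟩
    · exact ⟨fun _ => 0, fun h => absurd h hi⟩
  choose Ψ hΨ using hex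
  obtain ⟨n, hn⟩ := pow_unbounded_of_one_lt (x1 / x0) (show (1 : ℝ) < 2 by norm_num)
  rw [div_lt_iff₀ hx0, mul_comm] at hn
  have h := sep_rec (Ψ := fun x => 2 ^ σ * ∑ i ∈ I, a i * Ψ i x) hσ hH hx0 hq hG
    (fun x hx => mul_nonneg p2.le
      (Finset.sum_nonneg fun i hi => mul_nonneg (hI i hi).1 ((hΨ i hi).1 x hx)))
    (fun x hx => by
      have hx' : 0 < x := by linarith
      have e : (x / 2) ^ (-σ) * ∑ i ∈ I, a i * x ^ θ i =
          2 ^ σ * ∑ i ∈ I, a i * x ^ (θ i - σ) := by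
        rw [Finset.mul_sum, Finset.mul_sum]
        refine Finset.sum_congr rfl fun i _ => ?_
        rw [Real.div_rpow hx'.le (by norm_num), Real.rpow_neg hx'.le,
          Real.rpow_neg (by norm_num), Real.rpow_sub hx']
        field_simp
      rw [e, ← mul_add, ← Finset.sum_add_distrib]
      refine mul_le_mul_of_nonneg_left (Finset.sum_le_sum fun i hi => ?_) p2.le
      rw [← mul_add]
      exact mul_le_mul_of_nonneg_left ((hΨ i hi).2.1 x hx') (hI i hi).1)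
    n x1 (by linarith) le_rfl hn.le
  refine h.trans ?_
  rw [mul_assoc]
  refine mul_le_mul_of_nonneg_left ?_ p2.le
  rw [Finset.mul_sum]
  refine Finset.sum_le_sum fun i hi => ?_
  rw [mul_left_comm]
  exact mul_le_mul_of_nonneg_left ((hΨ i hi).2.2 x1 (by linarith)) (hI i hi).1

theorem hw_low {σ δ : ℝ} (hσ : 0 ≤ σ) (hδ : 0 < δ) : ∃ C : ℝ, 0 < C ∧ ∀ (ι : Type) (I : Finset ι)
    (a θ : ι → ℝ) (q : Eis → ℝ) (H x1 : ℝ), (∀ i ∈ I, 0 ≤ a i ∧ σ + δ ≤ θ i) →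
    (∀ h, 0 ≤ q h) → 0 < H → 0 < x1 →
    (∀ x, 0 < x → x ≤ x1 → ∑ h ∈ ball (x * H), q h ≤ ∑ i ∈ I, a i * x ^ θ i) →
      ∑ h ∈ ball (x1 * H), (N h / H) ^ (-σ) * q h ≤ C * ∑ i ∈ I, a i * x1 ^ (θ i - σ) := by
  obtain ⟨C, hC, h⟩ := hw hσ hδ
  refine ⟨C * 2, by positivity, fun ι I a θ q H x1 hI hq hH hx hG => ?_⟩
  have p0 : 0 < min x1 (1 / (2 * H)) := lt_min hx (by positivity)
  have h1 := h ι I a θ q H (min x1 (1 / (2 * H))) x1
    (fun i hi => ⟨(hI i hi).1, le_trans (by linarith [(hI i hi).2]) (le_abs_self _)⟩) hq hH p0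
    (min_le_left _ _) (fun x a b => hG x (p0.trans a) b)
  refine le_trans (le_of_eq (Finset.sum_congr rfl fun n hn => ?_)) (h1.trans ?_)
  · rw [if_pos]
    have h2 := one_le_N (mem_ball.1 hn).1
    have h3 : min x1 (1 / (2 * H)) * H ≤ 1 / (2 * H) * H :=
      mul_le_mul_of_nonneg_right (min_le_right _ _) hH.le
    have h4 : 1 / (2 * H) * H = 1 / 2 := by field_simp
    linarith
  · rw [mul_assoc]
    refine mul_le_mul_of_nonneg_left ?_ hC.le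
    rw [Finset.mul_sum]
    refine Finset.sum_le_sum fun i hi => ?_
    rw [mul_left_comm]
    refine mul_le_mul_of_nonneg_left ?_ (hI i hi).1
    have := Real.rpow_le_rpow p0.le (min_le_left x1 (1 / (2 * H)))
      (show 0 ≤ θ i - σ by linarith [(hI i hi).2])
    linarith

theorem hw_high {σ δ : ℝ} (hσ : 0 ≤ σ) (hδ : 0 < δ) : ∃ C : ℝ, 0 < C ∧ ∀ (ι : Type) (I : Finset ι)
    (a θ : ι → ℝ) (q : Eis → ℝ) (H x0 K : ℝ), (∀ i ∈ I, 0 ≤ a i ∧ θ i ≤ σ - δ) →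
    (∀ h, 0 ≤ q h) → 0 < H → 0 < x0 →
    (∀ x, x0 < x → ∑ h ∈ ball (x * H), q h ≤ ∑ i ∈ I, a i * x ^ θ i) →
      ∑ h ∈ ball K, (if x0 * H < N h then (N h / H) ^ (-σ) * q h else 0) ≤
        C * ∑ i ∈ I, a i * x0 ^ (θ i - σ) := by
  obtain ⟨C, hC, h⟩ := hw hσ hδ
  refine ⟨C * 2, by positivity, fun ι I a θ q H x0 K hI hq hH hx hG => ?_⟩
  have h1 := h ι I a θ q H x0 (max x0 (K / H))
    (fun i hi => ⟨(hI i hi).1, le_trans (by linarith [(hI i hi).2]) (neg_le_abs _)⟩) hq hH hx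
    (le_max_left _ _) (fun x a _ => hG x a)
  refine le_trans (Finset.sum_le_sum_of_subset_of_nonneg (ball_mono ?_) fun n _ _ => ?_)
    (h1.trans ?_)
  · rw [← div_le_iff₀ hH]
    exact le_max_right _ _
  · split_ifs
    · exact mul_nonneg (Real.rpow_nonneg (div_nonneg (N_nonneg n) hH.le) _) (hq n)
    · exact le_rfl
  · rw [mul_assoc]
    refine mul_le_mul_of_nonneg_left ?_ hC.le
    rw [Finset.mul_sum]
    refine Finset.sum_le_sum fun i hi => ?_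
    rw [mul_left_comm]
    refine mul_le_mul_of_nonneg_left ?_ (hI i hi).1
    have := Real.rpow_le_rpow_of_nonpos hx (le_max_left x0 (K / H))
      (show θ i - σ ≤ 0 by linarith [(hI i hi).2])
    linarith

end Vale.Agent.P006
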