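import Vale.Agent.P006.Ker
import Vale.Agent.P006.Sep
import Vale.Agent.P006.Mod
import Vale.Agent.P006.DC1B

/-! Dispersion, first term: positivity and Poisson summation. The theorems pp_V and dc2 are in
DC1A and DC1B. -/

namespace Vale.Agent.P006

open Vale.Agent.P026 Eis Complex MeasureTheory Filter Topology
open scoped Classical ComplexConjugate

/-- The dual kernel. -/
noncomputable def dc1_k (A y : ℝ) : ℂ := (A : ℂ) * (Vh (A * y) : ℂ)

theorem dc1_N_three : N 3 = 9 := by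
  have := N_natCast 3
  norm_num at this
  exact this

theorem dc1_sum_k {A a : ℝ} (hA : 0 < A) (ha : 0 < a) :
    Summable fun h : Eis => ‖dc1_k A (N h / a)‖ := by
  refine (((pp_V hA).2.1 (9 * a) (by positivity)).mul_left (1 / 9)).congr fun h => ?_
  have e : 9 * A * (N h / (9 * a)) = A * (N h / a) := by field_simp
  simp only [e, dc1_k]
  push_cast
  rw [mul_assoc, norm_mul]
  norm_num
  ring

theorem dc1_sum_dual {A : ℝ} (hA : 0 < A) {c1 c2 : Eis} (h1 : PS c1) (h2 : PS c2) :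
    Summable fun h : Eis => psi 3 h * KK c1 c2 h * dc1_k A (N h / (N c1 * N c2)) := by
  refine Summable.of_norm_bounded ((dc1_sum_k hA (mul_pos (N_pos h1.ne_zero)
    (N_pos h2.ne_zero))).mul_left (16 * N c1 ^ 2)) fun h => ?_
  rw [norm_mul, norm_mul, norm_psi, one_mul]
  exact mul_le_mul_of_nonneg_right (norm_KK_le c1 c2 h) (norm_nonneg _)

/-- Poisson summation for one pair. -/
theorem dc1_poisson {A : ℝ} (hA : 0 < A) {c1 c2 : Eis} (h1 : PS c1) (h2 : PS c2) :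
    HasSum (fun a : Eis => (if Prim a then 1 else 0) * conj (KK c1 c2 a) * (Vw (N a / A) : ℂ))
      (conj (G c1) * G c2 / ((ab c1 * ab c2 : ℝ) : ℂ) *
        ∑' h : Eis, psi 3 h * KK c1 c2 h * dc1_k A (N h / (N c1 * N c2))) := by
  obtain ⟨p1, -, p3⟩ := pp_V hA
  have hs : Summable
      (fun a : Eis => (if Prim a then 1 else 0) * conj (KK c1 c2 a) * (Vw (N a / A) : ℂ)) := by
    refine Summable.of_norm_bounded (p1.mul_left (16 * N c1 ^ 2)) fun a => ?_
    rw [norm_mul, norm_mul, Complex.norm_conj]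
    refine mul_le_mul_of_nonneg_right ?_ (norm_nonneg _)
    split_ifs
    · rw [norm_one, one_mul]
      exact norm_KK_le c1 c2 a
    · rw [norm_zero, zero_mul]
      positivity
  have hc : 3 * (c1 * c2) ≠ 0 := mul_ne_zero (by decide) (mul_ne_zero h1.ne_zero h2.ne_zero)
  have hper : Per (3 * (c1 * c2)) (fun x => (if Prim x then 1 else 0) * conj (KK c1 c2 x)) := by
    intro x y
    have e1 : Prim (x + 3 * (c1 * c2) * y) ↔ Prim x :=
      ⟨fun h => h.of_dvd_sub ⟨-(c1 * c2 * y), by ring⟩,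
        fun h => h.of_dvd_sub ⟨c1 * c2 * y, by ring⟩⟩
    have e2 : KK c1 c2 (x + 3 * (c1 * c2) * y) = KK c1 c2 x := by
      rw [← per_KK h1 h2 x (3 * y)]
      congr 1
      ring
    simp only [e1, e2]
  have h3 := p3 _ hc _ hper
  beta_reduce at h3
  have n1 := N_pos h1.ne_zero
  have n2 := N_pos h2.ne_zero
  have a1 : (ab c1 : ℂ) ≠ 0 := Complex.ofReal_ne_zero.2 (ab_pos h1.ne_zero).ne'
  have a2 : (ab c2 : ℂ) ≠ 0 := Complex.ofReal_ne_zero.2 (ab_pos h2.ne_zero).ne'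
  have hN : N (3 * (c1 * c2)) = 9 * (N c1 * N c2) := by rw [N_mul, N_mul, dc1_N_three]
  have key : conj (G c1) * G c2 / ((ab c1 * ab c2 : ℝ) : ℂ) *
        ∑' h : Eis, psi 3 h * KK c1 c2 h * dc1_k A (N h / (N c1 * N c2)) =
      ∑' a : Eis, (if Prim a then 1 else 0) * conj (KK c1 c2 a) * (Vw (N a / A) : ℂ) := by
    rw [h3, ← tsum_mul_left, ← tsum_mul_left]
    refine tsum_congr fun h => ?_
    have e : 9 * A * (N h / (9 * (N c1 * N c2))) = A * (N h / (N c1 * N c2)) := by field_simp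
    rw [gauss_prim_KK h1 h2, hN, e, dc1_k]
    generalize Vh (A * (N h / (N c1 * N c2))) = v
    rw [← ab_sq c1, ← ab_sq c2]
    push_cast
    field_simp
  rw [key]
  exact hs.hasSum

/-- The majorant of the summand of S11. -/
noncomputable def dc1_t (S : Finset Eis) (β : Eis → ℂ) (A : ℝ) (a : Eis) : ℝ :=
  if Prim a then Vw (N a / A) * ∑ D ∈ sqd a, qt S (fun n => conj (β n * G n)) a D else 0

/-- The dual sum. -/
noncomputable def dc1_T (S : Finset Eis) (β : Eis → ℂ) (A : ℝ) : ℂ :=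
  ∑ c1 ∈ S, ∑ c2 ∈ S, β c1 * conj (β c2) / ((ab c1 * ab c2 : ℝ) : ℂ) *
    ∑' h : Eis, psi 3 h * KK c1 c2 h * dc1_k A (N h / (N c1 * N c2))

theorem dc1_GG {c : Eis} (h : PS c) : G c * conj (G c) = 1 := by
  rw [← dc1_norm_sq, norm_G h]
  norm_num

theorem dc1_hasSum {S : Finset Eis} (hS : ∀ b ∈ S, PS b) (β : Eis → ℂ) {A : ℝ} (hA : 0 < A) :
    HasSum (fun a => (dc1_t S β A a : ℂ)) (dc1_T S β A) := by
  have h := hasSum_sum (s := S) fun c1 h1 => hasSum_sum (s := S) fun c2 h2 =>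
    (dc1_poisson hA (hS c1 h1) (hS c2 h2)).mul_left (β c1 * G c1 * conj (β c2 * G c2))
  have e1 : dc1_T S β A = ∑ c1 ∈ S, ∑ c2 ∈ S, β c1 * G c1 * conj (β c2 * G c2) *
      (conj (G c1) * G c2 / ((ab c1 * ab c2 : ℝ) : ℂ) *
        ∑' h : Eis, psi 3 h * KK c1 c2 h * dc1_k A (N h / (N c1 * N c2))) := by
    refine Finset.sum_congr rfl fun c1 h1 => Finset.sum_congr rfl fun c2 h2 => ?_
    have g1 := dc1_GG (hS c1 h1)
    have g2 := dc1_GG (hS c2 h2)
    rw [map_mul, ← mul_assoc]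
    congr 1
    calc _ = β c1 * conj (β c2) / ((ab c1 * ab c2 : ℝ) : ℂ) * (G c1 * conj (G c1)) *
          (G c2 * conj (G c2)) := by rw [g1, g2, mul_one, mul_one]
      _ = _ := by ring
  have e2 : ∀ a, (dc1_t S β A a : ℂ) = ∑ c1 ∈ S, ∑ c2 ∈ S, β c1 * G c1 * conj (β c2 * G c2) *
      ((if Prim a then 1 else 0) * conj (KK c1 c2 a) * (Vw (N a / A) : ℂ)) := by
    intro a
    unfold dc1_t
    split_ifs with ha
    · have k := congrArg conj (sum_KK hS (fun n => conj (β n * G n)) ha.ne_zero)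
      rw [Complex.conj_ofReal] at k
      rw [Complex.ofReal_mul, ← k, map_sum, Finset.mul_sum]
      refine Finset.sum_congr rfl fun c1 _ => ?_
      rw [map_sum, Finset.mul_sum]
      refine Finset.sum_congr rfl fun c2 _ => ?_
      rw [map_mul, map_mul, Complex.conj_conj, Complex.conj_conj]
      ring
    · simp
  rw [e1, funext e2]
  exact h

theorem dc1_S11_le {S : Finset Eis} (hS : ∀ b ∈ S, PS b) (β : Eis → ℂ) {A : ℝ} (hA : 0 < A) :
    S11 S β A ≤ (dc1_T S β A).re := by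
  have h := Complex.hasSum_re (dc1_hasSum hS β hA)
  simp only [Complex.ofReal_re] at h
  have l1 : ∀ a, (if Prim a then Vw (N a / A) * ‖Ua S β a‖ ^ 2 else 0) ≤ dc1_t S β A a := by
    intro a
    unfold dc1_t
    split_ifs with ha
    · refine mul_le_mul_of_nonneg_left ?_ (Vw_pos _).le
      refine le_trans (le_of_eq ?_) (Finset.single_le_sum
        (fun D _ => qt_nonneg S (fun n => conj (β n * G n)) a D) (one_mem_sqd ha.ne_zero))
      rw [qt, N_one, one_mul, Finset.filter_true_of_mem fun n _ => one_dvd n, Ua,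
        ← Complex.norm_conj, map_sum]
      congr 2
      refine Finset.sum_congr rfl fun n _ => ?_
      rw [map_mul, Complex.conj_conj, EuclideanDomain.div_one]
    · exact le_rfl
  have l0 : ∀ a, 0 ≤ (if Prim a then Vw (N a / A) * ‖Ua S β a‖ ^ 2 else 0) := fun a => by
    have := Vw_pos (N a / A)
    split_ifs
    · positivity
    · exact le_rfl
  rw [← h.tsum_eq]
  exact (Summable.of_nonneg_of_le l0 l1 h.summable).tsum_le_tsum l1 h.summable

theorem dc1_zero {S : Finset Eis} (hS : ∀ b ∈ S, PS b) (β : Eis → ℂ) (A : ℝ) :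
    ∑ c1 ∈ S, ∑ c2 ∈ S, β c1 * conj (β c2) / ((ab c1 * ab c2 : ℝ) : ℂ) *
      (psi 3 0 * KK c1 c2 0 * dc1_k A (N 0 / (N c1 * N c2))) = ((A * Vh 0 * sq S β : ℝ) : ℂ) := by
  have h := sum_KK_zero hS β (fun c1 c2 => ((ab c1 * ab c2 : ℝ) : ℂ)⁻¹ * dc1_k A 0)
  have e : ∀ c1 c2, β c1 * conj (β c2) / ((ab c1 * ab c2 : ℝ) : ℂ) *
      (psi 3 0 * KK c1 c2 0 * dc1_k A (N 0 / (N c1 * N c2))) =
      β c1 * conj (β c2) * KK c1 c2 0 * (((ab c1 * ab c2 : ℝ) : ℂ)⁻¹ * dc1_k A 0) := by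
    intro c1 c2
    rw [psi_zero, N_zero, zero_div]
    ring
  simp only [e]
  rw [h, sq, Finset.mul_sum, Complex.ofReal_sum]
  refine Finset.sum_congr rfl fun c hc => ?_
  have a1 : (ab c : ℂ) ≠ 0 := Complex.ofReal_ne_zero.2 (ab_pos (hS c hc).ne_zero).ne'
  rw [dc1_k, mul_zero, ← ab_sq c]
  push_cast
  field_simp

theorem dc1_zero_ball (K : ℝ) : (0 : Eis) ∉ ball K := fun h => (mem_ball.1 h).1 rfl

theorem dc1_lim_all {S : Finset Eis} (hS : ∀ b ∈ S, PS b) (β : Eis → ℂ) {A : ℝ} (hA : 0 < A) :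
    Tendsto (fun K : ℝ => bq (dc1_k A) (psi 3) S β (ball K) (fun _ _ => True)) atTop
      (𝓝 (dc1_T S β A - ((A * Vh 0 * sq S β : ℝ) : ℂ))) := by
  have h := tendsto_finsetSum S fun c1 h1 => tendsto_finsetSum S fun c2 h2 =>
    (tendsto_sum_ball (dc1_sum_dual hA (hS c1 h1) (hS c2 h2)).hasSum).const_mul
      (β c1 * conj (β c2) / ((ab c1 * ab c2 : ℝ) : ℂ))
  simp only [mul_sub, Finset.sum_sub_distrib] at h
  rw [dc1_zero hS] at h
  refine h.congr fun K => ?_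
  rw [bq_eq hS _ _ _ (dc1_zero_ball K)]
  simp only [Finset.mul_sum]
  symm
  rw [Finset.sum_comm]
  refine Finset.sum_congr rfl fun c1 _ => ?_
  rw [Finset.sum_comm]
  refine Finset.sum_congr rfl fun c2 _ => Finset.sum_congr rfl fun h _ => ?_
  ring

theorem dc1_conj_cop (b h : Eis) : conj (cop b h) = cop b h := by
  unfold cop
  split_ifs <;> simp

theorem dc1_lim_cube {S : Finset Eis} (hS : ∀ b ∈ S, PS b) (β : Eis → ℂ) {A : ℝ} (hA : 0 < A) :
    Tendsto (fun K : ℝ => bq (dc1_k A) (psi 3) S β (ball K)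
      (fun h D => True ∧ (Cube h ∧ D = 1))) atTop (𝓝 (CU S β A)) := by
  have ek : ∀ h M : ℝ, ((A * Vh (A * h / M) : ℝ) : ℂ) = dc1_k A (h / M) := fun h M => by
    rw [dc1_k, mul_div_assoc, Complex.ofReal_mul]
  have hs : ∀ b1 ∈ S, ∀ b2 ∈ S, Summable fun h : Eis => if h ≠ 0 ∧ Cube h then
      cop b1 h * cop b2 h * ((A * Vh (A * N h / (N b1 * N b2)) : ℝ) : ℂ) else 0 := by
    intro b1 h1 b2 h2
    refine Summable.of_norm_bounded (dc1_sum_k hA (mul_pos (N_pos (hS b1 h1).ne_zero)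
      (N_pos (hS b2 h2).ne_zero))) fun h => ?_
    split_ifs
    · rw [ek, norm_mul, norm_mul]
      exact mul_le_of_le_one_left (norm_nonneg _)
        (mul_le_one₀ (norm_cop_le _ _) (norm_nonneg _) (norm_cop_le _ _))
    · rw [norm_zero]
      exact norm_nonneg _
  have h := tendsto_finsetSum S fun c1 h1 => tendsto_finsetSum S fun c2 h2 =>
    (tendsto_sum_ball (hs c1 h1 c2 h2).hasSum).const_mul
      (β c1 * conj (β c2) / ((ab c1 * ab c2 : ℝ) : ℂ))
  simp only [ne_eq, not_true_eq_false, false_and, if_false, sub_zero] at h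
  refine h.congr fun K => ?_
  unfold bq
  simp only [Finset.mul_sum]
  symm
  trans ∑ h ∈ ball K, ∑ c1 ∈ S, ∑ c2 ∈ S, β c1 * conj (β c2) / ((ab c1 * ab c2 : ℝ) : ℂ) *
    (if ¬ h = 0 ∧ Cube h then
      cop c1 h * cop c2 h * ((A * Vh (A * N h / (N c1 * N c2)) : ℝ) : ℂ) else 0)
  · refine Finset.sum_congr rfl fun h hh => ?_
    have h0 := (mem_ball.1 hh).1
    by_cases hc : Cube h
    · rw [Finset.sum_eq_single_of_mem 1 (one_mem_sqd h0) fun D _ hD => by simp [hD]]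
      obtain ⟨m, hm⟩ := id hc
      have hp : psi 3 h = 1 := by rw [hm, psi_three_cube]
      rw [if_pos ⟨trivial, hc, rfl⟩, hp, one_mul, Finset.filter_true_of_mem fun n _ => one_dvd n]
      refine Finset.sum_congr rfl fun c1 h1 => Finset.sum_congr rfl fun c2 h2 => ?_
      rw [if_pos ⟨h0, hc⟩, ek, EuclideanDomain.div_one, EuclideanDomain.div_one,
        cub_of_cube hc (hS c1 h1).1, cub_of_cube hc (hS c2 h2).1, dc1_conj_cop, N_one]
      push_cast
      ring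
    · simp [hc]
  · rw [Finset.sum_comm]
    exact Finset.sum_congr rfl fun c1 _ => Finset.sum_comm

theorem dc1_wq_le (σ : ℝ) {H : ℝ} (hH : 0 < H) (S : Finset Eis) (γ : Eis → ℂ) {Hs Ht : Finset Eis}
    {P Q : Eis → Eis → Prop} (hPQ : ∀ h ∈ Hs, ∀ D, P h D → h ∈ Ht ∧ Q h D) :
    wq σ H S γ Hs P ≤ wq σ H S γ Ht Q := by
  have p0 : ∀ h D, 0 ≤ (N h / H) ^ (-σ) * qt S γ h D := fun h D => by
    have := N_nonneg h
    have := qt_nonneg S γ h D
    positivity
  have p1 : ∀ h D, 0 ≤ if Q h D then (N h / H) ^ (-σ) * qt S γ h D else 0 := fun h D => by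
    split_ifs
    · exact p0 h D
    · exact le_rfl
  unfold wq
  calc _ ≤ ∑ h ∈ Hs, if h ∈ Ht then
        ∑ D ∈ sqd h, (if Q h D then (N h / H) ^ (-σ) * qt S γ h D else 0) else 0 := by
        refine Finset.sum_le_sum fun h hh => ?_
        split_ifs with ht
        · refine Finset.sum_le_sum fun D _ => ?_
          by_cases hP : P h D
          · rw [if_pos hP, if_pos (hPQ h hh D hP).2]
          · rw [if_neg hP]
            exact p1 h D
        · exact le_of_eq (Finset.sum_eq_zero fun D _ => if_neg fun hP => ht (hPQ h hh D hP).1)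
    _ ≤ _ := by
        rw [← Finset.sum_filter]
        exact Finset.sum_le_sum_of_subset_of_nonneg (fun h hh => (Finset.mem_filter.1 hh).2)
          fun h _ _ => Finset.sum_nonneg fun D _ => p1 h D

/-- Separation of variables with a polynomial majorant. -/
theorem dc1_sep {σ : ℝ} (h1 : 0 < σ) (h2 : σ < 4 / 3) : ∃ C : ℝ, 0 < C ∧
    ∀ (S Hs : Finset Eis) (β : Eis → ℂ) (A B F : ℝ) (P : Eis → Eis → Prop), 0 < A → 0 < B → 0 ≤ F →
      (0 : Eis) ∉ S → (0 : Eis) ∉ Hs →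
      (∀ τ, wq σ (B ^ 2 / A) S (tw (sc β B (σ - 1 / 2)) τ) Hs P ≤ F * (1 + |τ|) ^ 2) →
      ‖bq (dc1_k A) (psi 3) S β Hs P‖ ≤ C * (A / B) * F := by
  obtain ⟨ρ, hr, -, he, h0, hi⟩ := rep_Vh h1 h2
  have hI : 0 ≤ ∫ τ, ρ τ * (1 + |τ|) ^ 2 := integral_nonneg fun τ => by
    have := h0 τ
    positivity
  refine ⟨(∫ τ, ρ τ * (1 + |τ|) ^ 2) + 1, by positivity,
    fun S Hs β A B F P hA hB hF hS hH hw => ?_⟩
  have hρ : Integrable ρ := by simpa using hi 0
  have h := sep hr hρ he (A : ℂ) hA hB (e := psi 3) (fun h => (norm_psi 3 h).le) hS hH β P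
  refine le_trans h ?_
  rw [Complex.norm_real, Real.norm_eq_abs, abs_of_pos hA]
  have h3 : ∫ τ, ρ τ * wq σ (B ^ 2 / A) S (tw (sc β B (σ - 1 / 2)) τ) Hs P ≤
      ∫ τ, F * (ρ τ * (1 + |τ|) ^ 2) := by
    refine integral_mono_of_nonneg (Eventually.of_forall fun τ => ?_) ((hi 2).const_mul F)
      (Eventually.of_forall fun τ => ?_)
    · exact mul_nonneg (h0 τ) (wq_nonneg σ (by positivity) _ _ _ _)
    · exact (mul_le_mul_of_nonneg_left (hw τ) (h0 τ)).trans (le_of_eq (by ring))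
  rw [integral_const_mul] at h3
  have h4 : 0 ≤ A / B * F := by positivity
  calc _ ≤ A / B * (F * ∫ τ, ρ τ * (1 + |τ|) ^ 2) := mul_le_mul_of_nonneg_left h3 (by positivity)
    _ ≤ _ := by nlinarith

/-- With γ = β G, ‖Ua a‖ ^ 2 is the D = 1 term of ∑ γ c1 conj (γ c2) conj (KK c1 c2 a) (sum_KK for
conj γ). Poisson summation modulo 3 c1 c2 with gauss_prim_KK removes all Gauss sums: the dual sum is
A Vh 0 sq + limit of bq (fun y => A Vh (A y)) (psi 3) S β (ball K) True. The pairs (h cube, D = 1) give CU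
(psi_three_cube, cub_of_cube); the others are split at N h = H1 and bounded by sep with rep_Vh,
σ = 1/4 and σ = 7/6, scale B. -/
theorem dc1 : ∃ C : ℝ, 0 < C ∧ ∀ (S : Finset Eis) (β : Eis → ℂ) (A B H1 F1 F2 : ℝ), 0 < A → 0 < B →
    0 ≤ F1 → 0 ≤ F2 → (∀ b ∈ S, PS b) →
    (∀ τ, E1 S (tw (sc β B (-(1 / 4))) τ) (B ^ 2 / A) H1 ≤ F1 * (1 + |τ|) ^ 2) →
    (∀ τ K, E2 S (tw (sc β B (2 / 3)) τ) (B ^ 2 / A) H1 K ≤ F2) →
      S11 S β A ≤ C * A * sq S β + (CU S β A).re + C * (A / B) * (F1 + F2) := by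
  obtain ⟨C1, hC1, h1⟩ := dc1_sep (σ := 1 / 4) (by norm_num) (by norm_num)
  obtain ⟨C2, hC2, h2⟩ := dc1_sep (σ := 7 / 6) (by norm_num) (by norm_num)
  refine ⟨|Vh 0| + C1 + C2, by positivity, fun S β A B H1 F1 F2 hA hB hF1 hF2 hS hE1 hE2 => ?_⟩
  have hS0 : (0 : Eis) ∉ S := fun h => (hS 0 h).ne_zero rfl
  have hH : 0 < B ^ 2 / A := by positivity
  have lim := ((dc1_lim_all hS β hA).sub (dc1_lim_cube hS β hA)).norm
  have bd : ∀ K : ℝ, ‖bq (dc1_k A) (psi 3) S β (ball K) (fun _ _ => True) -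
      bq (dc1_k A) (psi 3) S β (ball K) (fun h D => True ∧ (Cube h ∧ D = 1))‖ ≤
      C2 * (A / B) * F2 + C1 * (A / B) * F1 := by
    intro K
    rw [bq_split _ _ _ _ _ (fun _ _ => True) (fun h D => Cube h ∧ D = 1), add_sub_cancel_left,
      bq_split _ _ _ _ _ _ (fun h _ => H1 < N h)]
    refine norm_add_le_of_le (h2 S _ β A B F2 _ hA hB hF2 hS0 (dc1_zero_ball K) fun τ => ?_)
      (h1 S _ β A B F1 _ hA hB hF1 hS0 (dc1_zero_ball K) fun τ => ?_)
    · rw [show (7 / 6 - 1 / 2 : ℝ) = 2 / 3 by norm_num]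
      refine le_trans (dc1_wq_le _ hH _ _ fun h hh D hP => ⟨hh, hP.2⟩) ((hE2 τ K).trans ?_)
      refine le_mul_of_one_le_right hF2 (one_le_pow₀ ?_)
      linarith [abs_nonneg τ]
    · rw [show (1 / 4 - 1 / 2 : ℝ) = -(1 / 4) by norm_num]
      exact le_trans (dc1_wq_le _ hH _ _ fun h hh D hP =>
        ⟨mem_ball.2 ⟨(mem_ball.1 hh).1, not_lt.1 hP.2⟩, hP.1.2⟩) (hE1 τ)
  have fin := le_of_tendsto' lim bd
  have hre := (Complex.re_le_norm _).trans fin
  rw [Complex.sub_re, Complex.sub_re, Complex.ofReal_re] at hre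
  have hq := sq_nonneg' S β
  have hAB : 0 < A / B := by positivity
  have t1 : A * Vh 0 * sq S β ≤ (|Vh 0| + C1 + C2) * A * sq S β := by
    refine mul_le_mul_of_nonneg_right ?_ hq
    rw [mul_comm]
    exact mul_le_mul_of_nonneg_right (by linarith [le_abs_self (Vh 0)]) hA.le
  have t2 : C2 * (A / B) * F2 + C1 * (A / B) * F1 ≤ (|Vh 0| + C1 + C2) * (A / B) * (F1 + F2) := by
    have r0 := abs_nonneg (Vh 0)
    have r1 : 0 ≤ (|Vh 0| + C2) * (A / B) * F1 := by positivity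
    have r2 : 0 ≤ (|Vh 0| + C1) * (A / B) * F2 := by positivity
    linarith
  linarith [dc1_S11_le hS β hA]

end Vale.Agent.P006
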