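import Vale.Agent.P006.Ker
import Vale.Agent.P006.Mod

/-! Dispersion, first term: the Poisson pair attached to Vw. -/

namespace Vale.Agent.P006

open Vale.Agent.P026 Eis Complex MeasureTheory Filter Topology
open scoped Classical ComplexConjugate

theorem dc1_pp_congr {w k w' k' : ℝ → ℂ} (h : PP w k) (hw : ∀ x, 0 ≤ x → w' x = w x)
    (hk : ∀ y, 0 ≤ y → k' y = k y) : PP w' k' := by
  obtain ⟨h1, h2, h3⟩ := h
  refine ⟨h1.congr fun m => by rw [hw _ (N_nonneg m)], fun a ha => (h2 a ha).congr fun m => by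
    rw [hk _ (div_nonneg (N_nonneg m) ha.le)], fun c hc F hF => ?_⟩
  have e1 : ∀ m : Eis, F m * w' (N m) = F m * w (N m) := fun m => by rw [hw _ (N_nonneg m)]
  have e2 : ∀ h : Eis, gauss F c h * k' (N h / N c) = gauss F c h * k (N h / N c) := fun h => by
    rw [hk _ (div_nonneg (N_nonneg h) (N_nonneg c))]
  rw [tsum_congr e1, tsum_congr e2]
  exact h3 c hc F hF

theorem dc1_c0_sq : c0 ^ 2 = 4 * Real.pi ^ 2 / 243 := by
  have h3 : √3 ^ 2 = (3 : ℝ) := Real.sq_sqrt (by norm_num)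
  rw [c0, div_pow, mul_pow, mul_pow, h3]
  norm_num

theorem dc1_c0_eq : 2 * Real.pi / √3 = 9 * c0 := by
  have h3 : (0 : ℝ) < √3 := by positivity
  rw [c0]
  field_simp

theorem dc1_cv {l : ℝ} (hl : 0 < l) (g : ℝ → ℝ) :
    ∫ M in Set.Ioi (0 : ℝ), l * g (l * M) = ∫ u in Set.Ioi (0 : ℝ), g u := by
  rw [integral_const_mul, integral_comp_mul_left_Ioi g 0 hl, mul_zero, smul_eq_mul, ← mul_assoc,
    mul_inv_cancel₀ hl.ne', one_mul]

theorem dc1_phi_int {l : ℝ} (hl : 0 < l) : IntegrableOn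
    (fun M : ℝ => l * ((l * M) ^ (-(2 / 3) : ℝ) * Real.exp (-(l * M))) * (1 + M)) (Set.Ioi 0) := by
  have h1 := integrableOn_rpow_mul_exp_neg_mul_rpow (p := 1) (s := -(2 / 3)) (b := l)
    (by norm_num) one_pos hl
  have h2 := integrableOn_rpow_mul_exp_neg_mul_rpow (p := 1) (s := 1 / 3) (b := l)
    (by norm_num) one_pos hl
  refine IntegrableOn.congr_fun (((h1.add h2)).const_mul (l * l ^ (-(2 / 3) : ℝ))) ?_
    measurableSet_Ioi
  intro M hM
  have hM' : (0 : ℝ) < M := hM
  have e : M ^ (1 / 3 : ℝ) = M ^ (-(2 / 3) : ℝ) * M := by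
    rw [← Real.rpow_add_one hM'.ne']
    norm_num
  simp only [Pi.add_apply, Real.rpow_one]
  rw [Real.mul_rpow hl.le hM'.le, e, neg_mul]
  ring

/-- pp_mix with M = π u A / (9 c0 ^ 2) and Vw_eq; c0 ^ 2 = 4 π ^ 2 / 243;
∫ u ^ (1/3) exp (- u (1 + y)) du = Gamma (4/3) (1 + y) ^ (-4/3). -/
theorem pp_V {A : ℝ} (hA : 0 < A) :
    PP (fun x => (Vw (x / A) : ℂ)) (fun y => ((9 * A * Vh (9 * A * y) : ℝ) : ℂ)) := by
  have hc := c0_pos
  have hpi := Real.pi_pos
  set l : ℝ := 9 * c0 ^ 2 / (Real.pi * A) with hl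
  have hl0 : 0 < l := by positivity
  have hmix := pp_mix (φ := fun M => ((l * ((l * M) ^ (-(2 / 3) : ℝ) * Real.exp (-(l * M))) : ℝ) : ℂ))
    (Complex.measurable_ofReal.comp (by fun_prop))
    ((dc1_phi_int hl0).congr_fun (fun M hM => by
      have hM' : (0 : ℝ) < M := hM
      simp only [Complex.norm_real, Real.norm_eq_abs]
      rw [abs_of_nonneg (by positivity)]) measurableSet_Ioi)
  refine dc1_pp_congr hmix (fun x hx => ?_) (fun y hy => ?_)
  · rw [Vw_eq (div_nonneg hx hA.le), ← dc1_cv hl0, ← integral_complex_ofReal]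
    refine setIntegral_congr_fun measurableSet_Ioi fun M hM => ?_
    have hM' : (0 : ℝ) < M := hM
    have e : 9 * c0 ^ 2 * (x / A) / (l * M) = Real.pi * x / M := by
      rw [hl]
      field_simp
    simp only [e]
    push_cast
    ring
  · have hy' : 0 < 1 + 9 * A * y := by positivity
    have h1 := Real.integral_rpow_mul_exp_neg_mul_Ioi (a := 4 / 3) (r := 1 + 9 * A * y)
      (by norm_num) hy'
    have h2 : 9 * A * Vh (9 * A * y) = ∫ u in Set.Ioi (0 : ℝ),
        2 / (l * √3) * (u ^ (4 / 3 - 1 : ℝ) * Real.exp (-((1 + 9 * A * y) * u))) := by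
      rw [integral_const_mul, h1, Vh, one_div, Real.inv_rpow hy'.le, Real.rpow_neg hy'.le, hl]
      have h3 : (0 : ℝ) < √3 := by positivity
      have e : Real.pi = 9 * c0 * √3 / 2 := by
        rw [← dc1_c0_eq]
        field_simp
      have e2 : 2 / (9 * c0 ^ 2 / (Real.pi * A) * √3) = A / c0 := by
        rw [e]
        field_simp
      rw [e2]
      field_simp
    rw [h2, ← dc1_cv hl0, ← integral_complex_ofReal]
    refine setIntegral_congr_fun measurableSet_Ioi fun M hM => ?_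
    have hM' : (0 : ℝ) < M := hM
    have hlM : 0 < l * M := mul_pos hl0 hM'
    have e1 : (l * M) ^ (4 / 3 - 1 : ℝ) = (l * M) ^ (-(2 / 3) : ℝ) * (l * M) := by
      rw [← Real.rpow_add_one hlM.ne']
      norm_num
    have e2 : Real.exp (-((1 + 9 * A * y) * (l * M))) =
        Real.exp (-(l * M)) * Real.exp (-(4 * Real.pi / 3 * M * y)) := by
      rw [← Real.exp_add]
      congr 1
      have : 9 * A * l = 4 * Real.pi / 3 := by
        rw [hl, dc1_c0_sq]
        field_simp
        norm_num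
      linear_combination (-(y * M)) * this
    have h3 : (0 : ℝ) < √3 := by positivity
    have e3 : l * (2 / (l * √3) * ((l * M) ^ (4 / 3 - 1 : ℝ) *
        Real.exp (-((1 + 9 * A * y) * (l * M))))) =
        l * ((l * M) ^ (-(2 / 3) : ℝ) * Real.exp (-(l * M))) *
          (2 * M / √3 * Real.exp (-(4 * Real.pi / 3 * M * y))) := by
      rw [e1, e2]
      field_simp
    simp only [e3]
    push_cast
    ring

end Vale.Agent.P006
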