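import Vale.Agent.P006.Bil
import Vale.Agent.P006.Sep

/-! Dispersion: the frequencies that are not cubes. -/

namespace Vale.Agent.P006

open Vale.Agent.P026 Eis Complex MeasureTheory Filter Topology
open scoped Classical ComplexConjugate

theorem dc3_two {x y : ℝ} (hx : 0 < x) (hy : 0 < y) : 1 ≤ x / y + y / x := by
  rcases le_total x y with h | h
  · have := (one_le_div hx).2 h
    have : 0 < x / y := by positivity
    linarith
  · have := (one_le_div hy).2 h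
    have : 0 < y / x := by positivity
    linarith

theorem dc3_pow {K B a : ℝ} (hK : 0 < K) (hB : 0 < B) (h0 : 0 ≤ a) (h1 : a ≤ 1) :
    K ^ a ≤ B ^ a * (K / B + B / K) := by
  have e : K ^ a = B ^ a * (K / B) ^ a := by
    rw [← Real.mul_rpow hB.le (by positivity)]
    congr 1
    field_simp
  rw [e]
  refine mul_le_mul_of_nonneg_left ?_ (by positivity)
  have u0 : 0 < K / B := by positivity
  have u1 : 0 < B / K := by positivity
  refine (Real.rpow_le_rpow u0.le (show _ ≤ K / B + B / K by linarith) h0).trans ?_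
  have := Real.rpow_le_rpow_of_exponent_le (dc3_two hK hB) h1
  rwa [Real.rpow_one] at this

/-- Passing from a block to the reference scale. -/
theorem dc3_blk {S : Finset Eis} {K B a τ H x y w : ℝ} (β : Eis → ℂ) (hK : 0 < K) (hB : 0 < B)
    (hH : 0 < H) (ha : |a| ≤ 1) (hS : S ⊆ PD K) (hx : 0 ≤ x) (hy : 0 ≤ y) (hw : 0 ≤ w) :
    (x + y * K + (H * K) ^ (2 / 3 : ℝ) * w) * sq S (tw (sc β B a) τ) ≤
      16 * (x + y * B + (H * B) ^ (2 / 3 : ℝ) * w) * (K / B + B / K) ^ 3 * sq S β := by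
  have t1 := dc3_two hK hB
  set t := K / B + B / K with ht
  have a1 : K ≤ B * t := by simpa using dc3_pow hK hB zero_le_one le_rfl
  have a2 : (H * K) ^ (2 / 3 : ℝ) ≤ (H * B) ^ (2 / 3 : ℝ) * t := by
    rw [Real.mul_rpow hH.le hK.le, Real.mul_rpow hH.le hB.le, mul_assoc]
    exact mul_le_mul_of_nonneg_left (dc3_pow hK hB (by norm_num) (by norm_num)) (by positivity)
  have a3 : x + y * K + (H * K) ^ (2 / 3 : ℝ) * w ≤ (x + y * B + (H * B) ^ (2 / 3 : ℝ) * w) * t := by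
    have := mul_le_mul_of_nonneg_left t1 hx
    have := mul_le_mul_of_nonneg_left a1 hy
    have := mul_le_mul_of_nonneg_right a2 hw
    nlinarith
  have a4 : sq S (tw (sc β B a) τ) ≤ 16 * t ^ 2 * sq S β := by
    rw [sq_tw]
    refine (sq_sc_le hK hB (by linarith) hS β).trans (mul_le_mul_of_nonneg_right
      (mul_le_mul_of_nonneg_left ?_ (by norm_num)) (sq_nonneg' _ _))
    rw [← Real.rpow_natCast]
    exact Real.rpow_le_rpow_of_exponent_le t1 (by push_cast; linarith)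
  refine (mul_le_mul a3 a4 (sq_nonneg' _ _) (by positivity)).trans (le_of_eq (by ring))

theorem dc3_log {x Λ H Z : ℝ} (hΛ : 0 < Λ) (hx : Λ < x) (hH : 0 < H) (hZ : 0 < Z) :
    Real.log (3 + Z + x * H) ^ 2 ≤
      625 * Real.log (3 + Z + Λ * H) ^ 2 * (Λ ^ (-(1 / 12) : ℝ) * x ^ (1 / 12 : ℝ)) := by
  have hx0 : 0 < x := by linarith
  have u1 : 1 ≤ x / Λ := (one_le_div hΛ).2 hx.le
  have h1 : 3 + Z + x * H ≤ (3 + Z + Λ * H) * (x / Λ) := by
    have : Λ * H * (x / Λ) = x * H := by field_simp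
    nlinarith
  have h2 := Real.log_le_log (by positivity) h1
  rw [Real.log_mul (by positivity) (by positivity)] at h2
  have l1 : 1 ≤ Real.log (3 + Z + Λ * H) := by
    rw [add_assoc]; exact ls_one_le_log (by positivity)
  have h3 := Real.log_le_rpow_div (show 0 ≤ x / Λ by positivity) (show (0 : ℝ) < 1 / 24 by norm_num)
  have h4 : 1 ≤ (x / Λ) ^ (1 / 24 : ℝ) := Real.one_le_rpow u1 (by norm_num)
  have h5 : Real.log (3 + Z + x * H) ≤ Real.log (3 + Z + Λ * H) * (25 * (x / Λ) ^ (1 / 24 : ℝ)) := by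
    nlinarith
  refine (pow_le_pow_left₀ (Real.log_nonneg (by nlinarith [mul_pos hx0 hH])) h5 2).trans
    (le_of_eq ?_)
  rw [mul_pow, mul_pow, ← Real.rpow_natCast ((x / Λ) ^ (1 / 24 : ℝ)), ← Real.rpow_mul (by positivity),
    Real.div_rpow hx0.le hΛ.le, Real.rpow_neg hΛ.le]
  norm_num
  ring

theorem dc3_high : ∃ C : ℝ, 0 < C ∧ ∀ (S : Finset Eis) (β : Eis → ℂ) (B H Z Λ τ K : ℝ), 0 < B →
    0 < H → 0 < Z → 1 ≤ Λ → S ⊆ PB Z →
      E2 S (tw (sc β B (2 / 3)) τ) H (Λ * H) K ≤ C * Real.log (3 + Z + Λ * H) ^ 2 *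
        (H * Λ ^ (-(1 / 6) : ℝ) + H ^ (1 / 3 : ℝ) * B * Λ ^ (-(5 / 6) : ℝ) +
          (H * B) ^ (2 / 3 : ℝ) * Λ ^ (-(1 / 2) : ℝ)) * nw S β B := by
  obtain ⟨C1, hC1, h1⟩ := dyw
  obtain ⟨C2, hC2, h2⟩ := lsh
  obtain ⟨C3, hC3, h3⟩ := hw_high (σ := 7 / 6) (δ := 1 / 12) (by norm_num) (by norm_num)
  refine ⟨C1 * (C3 * (C2 * 625) * 16), by positivity, fun S β B H Z Λ τ K hB hH hZ hΛ hS => ?_⟩
  have hΛ0 : 0 < Λ := by linarith
  set l := Real.log (3 + Z + Λ * H) ^ 2 with hl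
  have l0 : 0 ≤ l := by positivity
  set γ := tw (sc β B (2 / 3)) τ with hγ
  refine (h1 _ (subQ_wq (7 / 6) hH γ (ball K) (fun h _ => Λ * H < N h)) S β B
    (C3 * (C2 * 625) * 16 * l * (H * Λ ^ (-(1 / 6) : ℝ) + H ^ (1 / 3 : ℝ) * Λ ^ (-(5 / 6) : ℝ) * B +
      (H * B) ^ (2 / 3 : ℝ) * Λ ^ (-(1 / 2) : ℝ))) hB (by positivity)
    (fun n hn => (mem_PB.1 (hS hn)).1) fun K' hK' S' s1 s2 => ?_).trans (le_of_eq (by ring))
  have q0 := sq_nonneg' S' γ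
  set c := C2 * 625 * l * Λ ^ (-(1 / 12) : ℝ) * sq S' γ with hc
  have c0 : 0 ≤ c := by positivity
  have a1 := h3 (Fin 3) Finset.univ ![c * H, c * (H ^ (1 / 3 : ℝ) * K'), c * (H * K') ^ (2 / 3 : ℝ)]
    ![13 / 12, 5 / 12, 3 / 4] (fun h => ∑ D ∈ sqd h, qt S' γ h D) H Λ K
    (fun i _ => by
      fin_cases i <;> refine ⟨?_, ?_⟩ <;> simp <;> first | positivity | norm_num)
    (fun h => Finset.sum_nonneg fun D _ => qt_nonneg _ _ _ _) hH hΛ0 (fun x hx => by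
      have hx0 : 0 < x := by linarith
      refine (h2 S' γ (x * H) K' Z (by positivity) hK' hZ (s2.trans (PD_subset _))
        (s1.trans hS)).trans ?_
      refine (mul_le_mul_of_nonneg_right (mul_le_mul_of_nonneg_right (mul_le_mul_of_nonneg_left
        (dc3_log hΛ0 hx hH hZ) hC2.le) (by positivity)) q0).trans (le_of_eq ?_)
      simp only [Fin.sum_univ_three, Matrix.cons_val_zero, Matrix.cons_val_one, Matrix.cons_val]
      rw [mul_assoc x H K', Real.mul_rpow hx0.le hH.le, Real.mul_rpow hx0.le (by positivity),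
        show (13 / 12 : ℝ) = 1 / 12 + 1 by norm_num, show (5 / 12 : ℝ) = 1 / 12 + 1 / 3 by norm_num,
        show (3 / 4 : ℝ) = 1 / 12 + 2 / 3 by norm_num, Real.rpow_add hx0, Real.rpow_add hx0,
        Real.rpow_add hx0, Real.rpow_one, hc, ← hl]
      ring)
  have e1 : wq (7 / 6) H S' γ (ball K) (fun h _ => Λ * H < N h) = ∑ h ∈ ball K,
      (if Λ * H < N h then (N h / H) ^ (-(7 / 6) : ℝ) * ∑ D ∈ sqd h, qt S' γ h D else 0) := by
    unfold wq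
    refine Finset.sum_congr rfl fun h _ => ?_
    split_ifs
    · rw [Finset.mul_sum]
    · simp
  rw [e1]
  refine a1.trans ?_
  simp only [Fin.sum_univ_three, Matrix.cons_val_zero, Matrix.cons_val_one, Matrix.cons_val]
  have b1 : Λ ^ (-(1 / 12) : ℝ) * Λ ^ (13 / 12 - 7 / 6 : ℝ) = Λ ^ (-(1 / 6) : ℝ) := by
    rw [← Real.rpow_add hΛ0]; norm_num
  have b2 : Λ ^ (-(1 / 12) : ℝ) * Λ ^ (5 / 12 - 7 / 6 : ℝ) = Λ ^ (-(5 / 6) : ℝ) := by
    rw [← Real.rpow_add hΛ0]; norm_num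
  have b3 : Λ ^ (-(1 / 12) : ℝ) * Λ ^ (3 / 4 - 7 / 6 : ℝ) = Λ ^ (-(1 / 2) : ℝ) := by
    rw [← Real.rpow_add hΛ0]; norm_num
  have b4 := mul_le_mul_of_nonneg_left (dc3_blk (τ := τ) (a := 2 / 3) β hK' hB hH
    (by rw [abs_of_pos] <;> norm_num) s2
    (show 0 ≤ H * Λ ^ (-(1 / 6) : ℝ) by positivity)
    (show 0 ≤ H ^ (1 / 3 : ℝ) * Λ ^ (-(5 / 6) : ℝ) by positivity)
    (show 0 ≤ Λ ^ (-(1 / 2) : ℝ) by positivity)) (show 0 ≤ C3 * (C2 * 625) * l by positivity)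
  refine le_trans (le_of_eq ?_) (b4.trans (le_of_eq (by ring)))
  rw [← b1, ← b2, ← b3, hc]
  ring

theorem dc3_far : ∃ C : ℝ, 0 < C ∧ ∀ (S : Finset Eis) (β : Eis → ℂ) (B H Z Λ Q0 z U τ : ℝ),
    0 < B → 0 < H → 0 < Z → 1 ≤ Λ → 1 ≤ Q0 → 1 ≤ z → 0 ≤ U → S ⊆ PB Z →
    (∀ b ∈ S, ((dv b).card : ℝ) ≤ U) →
      wq (1 / 4) H S (tw (sc β B (-(1 / 4))) τ) (ball (Λ * H)) (Far Q0 z) ≤
        C * Real.log (3 + Z + Λ * H) ^ 2 *
        (H * Λ ^ (3 / 4 : ℝ) + (H * B) ^ (2 / 3 : ℝ) * Λ ^ (5 / 12 : ℝ) +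
          H ^ (1 / 3 : ℝ) * B * Λ ^ (1 / 12 : ℝ) *
            (Q0 ^ (-(1 / 3) : ℝ) + U * z ^ (-(2 / 3) : ℝ))) * nw S β B := by
  obtain ⟨C1, hC1, h1⟩ := dyw
  obtain ⟨C2, hC2, h2⟩ := farh
  obtain ⟨C3, hC3, h3⟩ := hw_low (σ := 1 / 4) (δ := 1 / 12) (by norm_num) (by norm_num)
  refine ⟨C1 * (C3 * C2 * 16), by positivity,
    fun S β B H Z Λ Q0 z U τ hB hH hZ hΛ hQ hz hU hS hD => ?_⟩
  have hΛ0 : 0 < Λ := by linarith
  have hQ0 : 0 < Q0 := by linarith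
  have hz0 : 0 < z := by linarith
  set l := Real.log (3 + Z + Λ * H) ^ 2 with hl
  have l0 : 0 ≤ l := by positivity
  set γ := tw (sc β B (-(1 / 4))) τ with hγ
  set V := Q0 ^ (-(1 / 3) : ℝ) + U * z ^ (-(2 / 3) : ℝ) with hV
  have v0 : 0 ≤ V := by positivity
  refine (h1 _ (subQ_wq (1 / 4) hH γ (ball (Λ * H)) (Far Q0 z)) S β B
    (C3 * C2 * 16 * l * (H * Λ ^ (3 / 4 : ℝ) + H ^ (1 / 3 : ℝ) * Λ ^ (1 / 12 : ℝ) * V * B +
      (H * B) ^ (2 / 3 : ℝ) * Λ ^ (5 / 12 : ℝ))) hB (by positivity)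
    (fun n hn => (mem_PB.1 (hS hn)).1) fun K' hK' S' s1 s2 => ?_).trans (le_of_eq (by ring))
  have q0 := sq_nonneg' S' γ
  set c := C2 * l * sq S' γ with hc
  have c0 : 0 ≤ c := by positivity
  have a1 := h3 (Fin 3) Finset.univ
    ![c * H, c * (H ^ (1 / 3 : ℝ) * K' * V), c * (H * K') ^ (2 / 3 : ℝ)]
    ![1, 1 / 3, 2 / 3] (fun h => ∑ D ∈ sqd h, if Far Q0 z h D then qt S' γ h D else 0) H Λ
    (fun i _ => by
      fin_cases i <;> refine ⟨?_, ?_⟩ <;> simp <;> first | positivity | norm_num)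
    (fun h => Finset.sum_nonneg fun D _ => by
      split_ifs
      · exact qt_nonneg _ _ _ _
      · exact le_rfl) hH hΛ0 (fun x hx0 hx => by
      refine (h2 S' γ (x * H) K' Z Q0 z U (by positivity) hK' hZ hQ hz hU (s2.trans (PD_subset _))
        (s1.trans hS) fun n hn => hD n (s1 hn)).trans ?_
      have d1 : Real.log (3 + Z + x * H) ^ 2 ≤ l :=
        pow_le_pow_left₀ (Real.log_nonneg (by nlinarith [mul_pos hx0 hH]))
          (Real.log_le_log (by positivity) (by nlinarith)) 2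
      refine (mul_le_mul_of_nonneg_right (mul_le_mul_of_nonneg_right (mul_le_mul_of_nonneg_left
        d1 hC2.le) (by positivity)) q0).trans (le_of_eq ?_)
      simp only [Fin.sum_univ_three, Matrix.cons_val_zero, Matrix.cons_val_one, Matrix.cons_val]
      rw [mul_assoc x H K', Real.mul_rpow hx0.le (show 0 ≤ H * K' by positivity),
        Real.mul_rpow hx0.le hH.le, Real.rpow_one, hc, ← hV]
      ring)
  have e1 : wq (1 / 4) H S' γ (ball (Λ * H)) (Far Q0 z) = ∑ h ∈ ball (Λ * H),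
      (N h / H) ^ (-(1 / 4) : ℝ) * ∑ D ∈ sqd h, if Far Q0 z h D then qt S' γ h D else 0 := by
    unfold wq
    refine Finset.sum_congr rfl fun h _ => ?_
    rw [Finset.mul_sum]
    refine Finset.sum_congr rfl fun D _ => ?_
    split_ifs <;> simp
  rw [e1]
  refine a1.trans ?_
  simp only [Fin.sum_univ_three, Matrix.cons_val_zero, Matrix.cons_val_one, Matrix.cons_val]
  have b4 := mul_le_mul_of_nonneg_left (dc3_blk (τ := τ) (a := -(1 / 4)) β hK' hB hH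
    (by rw [abs_of_neg] <;> norm_num) s2
    (show 0 ≤ H * Λ ^ (3 / 4 : ℝ) by positivity)
    (show 0 ≤ H ^ (1 / 3 : ℝ) * Λ ^ (1 / 12 : ℝ) * V by positivity)
    (show 0 ≤ Λ ^ (5 / 12 : ℝ) by positivity)) (show 0 ≤ C3 * C2 * l by positivity)
  refine le_trans (le_of_eq ?_) (b4.trans (le_of_eq (by ring)))
  rw [show (1 - 1 / 4 : ℝ) = 3 / 4 by norm_num, show (1 / 3 - 1 / 4 : ℝ) = 1 / 12 by norm_num,
    show (2 / 3 - 1 / 4 : ℝ) = 5 / 12 by norm_num, hc]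
  ring

theorem dc3_ncop : ∃ C : ℝ, 0 < C ∧ ∀ (n : Eis) (R z u : ℝ), 0 < R → 0 < z → Ro z n →
    ((pf n).card : ℝ) ≤ u →
      ∑ l ∈ ball R, (if IsCoprime n l then 0 else N l ^ (-(3 / 4) : ℝ)) ≤
        C * R ^ (1 / 4 : ℝ) * (u / z) := by
  obtain ⟨C, hC, h⟩ := sum_ball_rpow (s := 3 / 4) (by norm_num)
  refine ⟨C, hC, fun n R z u hR hz hn hu => ?_⟩
  have n0 := hn.1.ne_zero
  have a1 : ∀ l ∈ ball R, (if IsCoprime n l then 0 else N l ^ (-(3 / 4) : ℝ)) ≤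
      ∑ p ∈ pf n, if p ∣ l then N l ^ (-(3 / 4) : ℝ) else 0 := by
    intro l _
    have b0 : ∀ p ∈ pf n, 0 ≤ if p ∣ l then N l ^ (-(3 / 4) : ℝ) else 0 := fun p _ => by
      have := N_nonneg l
      split_ifs <;> positivity
    split_ifs with hc
    · exact Finset.sum_nonneg b0
    · obtain ⟨p, p1, p2, p3, p4⟩ := (not_cop_iff hn.1).1 hc
      have := Finset.single_le_sum b0 ((mem_pf n0).2 ⟨p1, p2, p3⟩)
      rwa [if_pos p4] at this
  refine (Finset.sum_le_sum a1).trans ?_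
  rw [Finset.sum_comm]
  have a2 : ∀ p ∈ pf n, ∑ l ∈ ball R, (if p ∣ l then N l ^ (-(3 / 4) : ℝ) else 0) ≤
      C * R ^ (1 / 4 : ℝ) / z := by
    intro p hp
    obtain ⟨p1, p2, p3⟩ := (mem_pf n0).1 hp
    have b1 := hn.2 p p1 p3
    have b0 : 0 < N p := by linarith
    rw [← Finset.sum_filter, sum_ball_dvd p1.ne_zero]
    simp only [N_mul, Real.mul_rpow b0.le (N_nonneg _)]
    rw [← Finset.mul_sum]
    refine (mul_le_mul_of_nonneg_left (h _ (by positivity)) (by positivity)).trans ?_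
    rw [Real.div_rpow hR.le b0.le, show (1 - 3 / 4 : ℝ) = 1 / 4 by norm_num]
    have e : N p ^ (-(3 / 4) : ℝ) * (C * (R ^ (1 / 4 : ℝ) / N p ^ (1 / 4 : ℝ))) =
        C * R ^ (1 / 4 : ℝ) / N p := by
      have : N p ^ (-(3 / 4) : ℝ) = N p ^ (1 / 4 : ℝ) / N p := by
        rw [← Real.rpow_sub_one b0.ne']; norm_num
      rw [this]
      field_simp
    rw [e]
    exact div_le_div_of_nonneg_left (by positivity) hz b1.le
  refine (Finset.sum_le_sum a2).trans ?_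
  rw [Finset.sum_const, nsmul_eq_mul]
  refine (mul_le_mul_of_nonneg_right hu (by positivity)).trans (le_of_eq (by ring))

theorem dc3_cs : ∃ C : ℝ, 0 < C ∧ ∀ (S : Finset Eis) (β f : Eis → ℂ) (B τ : ℝ), 0 < B →
    (0 : Eis) ∉ S → (∀ n, ‖f n‖ ≤ 1) →
    ‖∑ n ∈ S, tw (sc β B (-(1 / 4))) τ n * f n‖ ^ 2 ≤ C * B * nw S β B := by
  obtain ⟨C, hC, h⟩ := l1_le (b := -(1 / 4)) (by norm_num) (by norm_num)
  refine ⟨C ^ 2, by positivity, fun S β f B τ hB hS hf => ?_⟩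
  have a1 : ‖∑ n ∈ S, tw (sc β B (-(1 / 4))) τ n * f n‖ ≤
      B ^ (1 / 4 : ℝ) * ∑ n ∈ S, ‖β n‖ * N n ^ (-(1 / 4) : ℝ) := by
    rw [Finset.mul_sum]
    refine (norm_sum_le _ _).trans (Finset.sum_le_sum fun n _ => ?_)
    have n0 := N_nonneg n
    rw [norm_mul, norm_tw]
    refine (mul_le_of_le_one_right (norm_nonneg _) (hf n)).trans (le_of_eq ?_)
    unfold sc
    rw [norm_mul, norm_real, Real.norm_of_nonneg (by positivity), Real.div_rpow n0 hB.le,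
      Real.rpow_neg hB.le, div_inv_eq_mul]
    ring
  refine (pow_le_pow_left₀ (norm_nonneg _) (a1.trans (mul_le_mul_of_nonneg_left (h B hB S β hS)
    (by positivity))) 2).trans (le_of_eq ?_)
  have e1 := Real.sq_sqrt (nw_nonneg S β B)
  have e2 : (B ^ (1 / 4 : ℝ) * B ^ (-(1 / 4) + 1 / 2 : ℝ)) ^ 2 = B := by
    rw [← Real.rpow_add hB, ← Real.rpow_natCast, ← Real.rpow_mul hB.le]
    norm_num
  calc _ = C ^ 2 * (B ^ (1 / 4 : ℝ) * B ^ (-(1 / 4) + 1 / 2 : ℝ)) ^ 2 * √(nw S β B) ^ 2 := by ring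
    _ = _ := by rw [e1, e2]

theorem dc3_near : ∃ C : ℝ, 0 < C ∧ ∀ (S : Finset Eis) (β : Eis → ℂ) (B H Λ Q0 z u E τ : ℝ),
    0 < B → 0 < H → 1 ≤ Λ → 1 ≤ Q0 → 1 ≤ z → 0 ≤ u →
    (∀ b ∈ S, Ro z b ∧ ((pf b).card : ℝ) ≤ u) → SW S β B Q0 E →
      ∑ h ∈ (ball (Λ * H)).filter (fun h => Near Q0 h ∧ ¬ Cube h), (N h / H) ^ (-(1 / 4) : ℝ) *
        ‖∑ n ∈ S, tw (sc β B (-(1 / 4))) τ n * cub h n‖ ^ 2 ≤
        C * (H ^ (1 / 3 : ℝ) * B * Λ ^ (1 / 12 : ℝ) * (Q0 * (u / z))) * nw S β B +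
        C * Q0 * H ^ (1 / 3 : ℝ) * Λ ^ (1 / 12 : ℝ) * E ^ 2 * (1 + |τ|) ^ 2 := by
  obtain ⟨C1, hC1, h1⟩ := dc3_ncop
  obtain ⟨C2, hC2, h2⟩ := dc3_cs
  obtain ⟨C3, hC3, h3⟩ := sum_ball_rpow (s := 3 / 4) (by norm_num)
  refine ⟨32 * (C1 * C2 + C3), by positivity, fun S β B H Λ Q0 z u E τ hB hH hΛ hQ hz hu hS hW => ?_⟩
  have hΛ0 : 0 < Λ := by linarith
  have hQ0 : 0 < Q0 := by linarith
  have hz0 : 0 < z := by linarith
  set γ := tw (sc β B (-(1 / 4))) τ with hγ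
  set R := (Λ * H) ^ (1 / 3 : ℝ) with hR
  have R0 : 0 < R := by positivity
  set J := (KQ Q0).filter (fun q => ¬ Cube q)
  refine (far_cover _ (J ×ˢ ball R) (fun p => p.1 * p.2 ^ 3)
    (fun h => (N h / H) ^ (-(1 / 4) : ℝ) * ‖∑ n ∈ S, γ n * cub h n‖ ^ 2)
    (fun h => by have := N_nonneg h; positivity) ?_).trans ?_
  · intro h hh
    obtain ⟨hh, ⟨q, l, q1, q2, e⟩, hc⟩ := Finset.mem_filter.1 hh
    obtain ⟨h0, h1⟩ := mem_ball.1 hh
    have l0 : l ≠ 0 := by rintro rfl; simp at e; exact h0 e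
    refine ⟨(q, l), Finset.mem_product.2 ⟨Finset.mem_filter.2 ⟨mem_KQ.2 ⟨q1, q2⟩, fun hq =>
      hc (e ▸ (cube_mul_iff l0).2 hq)⟩, mem_ball.2 ⟨l0, ?_⟩⟩, e.symm⟩
    have b1 := one_le_N q1.ne_zero
    have b2 := N_pos l0
    have c1 : N l ^ 3 ≤ Λ * H := by
      rw [e, N_mul, N_pow] at h1
      exact (le_mul_of_one_le_left (by positivity) b1).trans h1
    have c2 := Real.rpow_le_rpow (by positivity) c1 (show (0 : ℝ) ≤ 1 / 3 by norm_num)
    rw [← Real.rpow_natCast, ← Real.rpow_mul b2.le] at c2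
    norm_num at c2
    simpa [hR] using c2
  rw [Finset.sum_product]
  have S0 : (0 : Eis) ∉ S := fun h => (hS 0 h).1.1.ne_zero rfl
  have key : ∀ q ∈ J, ∑ l ∈ ball R, (N (q * l ^ 3) / H) ^ (-(1 / 4) : ℝ) *
      ‖∑ n ∈ S, γ n * cub (q * l ^ 3) n‖ ^ 2 ≤ 2 * (H ^ (1 / 4 : ℝ) * R ^ (1 / 4 : ℝ)) *
        (C1 * C2 * (B * (u / z) * nw S β B) + C3 * (E ^ 2 * (1 + |τ|) ^ 2)) := by
    intro q hq
    obtain ⟨q1, q3⟩ := Finset.mem_filter.1 hq
    obtain ⟨q1, q2⟩ := mem_KQ.1 q1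
    have b1 := one_le_N q1.ne_zero
    have a1 : ∀ l ∈ ball R, (N (q * l ^ 3) / H) ^ (-(1 / 4) : ℝ) *
        ‖∑ n ∈ S, γ n * cub (q * l ^ 3) n‖ ^ 2 ≤ 2 * H ^ (1 / 4 : ℝ) *
          (E ^ 2 * (1 + |τ|) ^ 2 * N l ^ (-(3 / 4) : ℝ) + C2 * B * ∑ n ∈ S, ‖β n‖ ^ 2 * vp (N n / B) *
            if IsCoprime n l then 0 else N l ^ (-(3 / 4) : ℝ)) := by
      intro l hl
      have b2 := N_pos (mem_ball.1 hl).1
      have c1 : (N (q * l ^ 3) / H) ^ (-(1 / 4) : ℝ) ≤ H ^ (1 / 4 : ℝ) * N l ^ (-(3 / 4) : ℝ) := by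
        refine (Real.rpow_le_rpow_of_nonpos (show 0 < N l ^ 3 / H by positivity) ?_
          (by norm_num)).trans (le_of_eq ?_)
        · rw [N_mul, N_pow]
          exact div_le_div_of_nonneg_right (le_mul_of_one_le_left (by positivity) b1) hH.le
        · rw [Real.div_rpow (by positivity) hH.le, Real.rpow_neg hH.le, div_inv_eq_mul,
            ← Real.rpow_natCast, ← Real.rpow_mul b2.le, mul_comm]
          norm_num
      have c2 : ∑ n ∈ S, γ n * cub (q * l ^ 3) n = ∑ n ∈ S, γ n * cub q n -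
          ∑ n ∈ S.filter (fun n => ¬ IsCoprime n l), γ n * cub q n := by
        rw [Finset.sum_filter, ← Finset.sum_sub_distrib]
        refine Finset.sum_congr rfl fun n hn => ?_
        rw [cub_mul_cube q l (hS n hn).1.1]
        unfold cop
        split_ifs <;> simp
      have c3 := pow_le_pow_left₀ (norm_nonneg _) (hW q q1.ne_zero q3 q2 τ) 2
      have c4 := h2 (S.filter (fun n => ¬ IsCoprime n l)) β (cub q) B τ hB
        (fun h => S0 (Finset.mem_filter.1 h).1) (norm_cub_le q)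
      have c5 : ‖∑ n ∈ S, γ n * cub (q * l ^ 3) n‖ ^ 2 ≤ 2 * (E ^ 2 * (1 + |τ|) ^ 2 +
          C2 * B * nw (S.filter (fun n => ¬ IsCoprime n l)) β B) := by
        rw [c2]
        refine (pow_le_pow_left₀ (norm_nonneg _) (norm_sub_le _ _) 2).trans ?_
        rw [mul_pow] at c3
        nlinarith [sq_nonneg (‖∑ n ∈ S, γ n * cub q n‖ -
          ‖∑ n ∈ S.filter (fun n => ¬ IsCoprime n l), γ n * cub q n‖)]
      refine (mul_le_mul c1 c5 (by positivity) (by positivity)).trans (le_of_eq ?_)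
      have c6 : nw (S.filter (fun n => ¬ IsCoprime n l)) β B * N l ^ (-(3 / 4) : ℝ) =
          ∑ n ∈ S, ‖β n‖ ^ 2 * vp (N n / B) * if IsCoprime n l then 0 else N l ^ (-(3 / 4) : ℝ) := by
        unfold nw
        rw [Finset.sum_filter, Finset.sum_mul]
        refine Finset.sum_congr rfl fun n _ => ?_
        split_ifs <;> simp
      rw [← c6]
      ring
    refine (Finset.sum_le_sum a1).trans ?_
    rw [← Finset.mul_sum, Finset.sum_add_distrib, ← Finset.mul_sum, ← Finset.mul_sum,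
      Finset.sum_comm]
    have a2 : ∑ n ∈ S, ∑ l ∈ ball R, ‖β n‖ ^ 2 * vp (N n / B) *
        (if IsCoprime n l then 0 else N l ^ (-(3 / 4) : ℝ)) ≤
        C1 * R ^ (1 / 4 : ℝ) * (u / z) * nw S β B := by
      unfold nw
      rw [Finset.mul_sum]
      refine Finset.sum_le_sum fun n hn => ?_
      rw [← Finset.mul_sum, mul_comm]
      exact mul_le_mul_of_nonneg_right (h1 n R z u R0 hz0 (hS n hn).1 (hS n hn).2)
        (mul_nonneg (by positivity) (vp_nonneg _))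
    have a3 := h3 R R0
    rw [show (1 - 3 / 4 : ℝ) = 1 / 4 by norm_num] at a3
    refine (mul_le_mul_of_nonneg_left (add_le_add (mul_le_mul_of_nonneg_left a3 (by positivity))
      (mul_le_mul_of_nonneg_left a2 (by positivity))) (by positivity)).trans (le_of_eq (by ring))
  refine (Finset.sum_le_sum key).trans ?_
  rw [Finset.sum_const, nsmul_eq_mul]
  have c1 : (J.card : ℝ) ≤ 16 * Q0 :=
    le_trans (by exact_mod_cast Finset.card_filter_le _ _) (card_KQ_le hQ0.le)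
  have n0 := nw_nonneg S β B
  refine (mul_le_mul_of_nonneg_right c1 (by positivity)).trans ?_
  have e : H ^ (1 / 4 : ℝ) * R ^ (1 / 4 : ℝ) = H ^ (1 / 3 : ℝ) * Λ ^ (1 / 12 : ℝ) := by
    rw [hR, ← Real.rpow_mul (by positivity), Real.mul_rpow hΛ0.le hH.le, mul_left_comm,
      ← Real.rpow_add hH, mul_comm]
    norm_num
  rw [e]
  have p1 : 0 ≤ C3 * (H ^ (1 / 3 : ℝ) * B * Λ ^ (1 / 12 : ℝ) * (Q0 * (u / z))) * nw S β B := by
    positivity
  have p2 : 0 ≤ C1 * C2 * (Q0 * H ^ (1 / 3 : ℝ) * Λ ^ (1 / 12 : ℝ) * E ^ 2 * (1 + |τ|) ^ 2) := by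
    positivity
  nlinarith

theorem dc3_low : ∃ C : ℝ, 0 < C ∧ ∀ (S : Finset Eis) (β : Eis → ℂ) (B H Z Λ Q0 z u U E τ : ℝ),
    0 < B → 0 < H → 0 < Z → 1 ≤ Λ → 1 ≤ Q0 → 1 ≤ z → 0 ≤ u → 0 ≤ U → S ⊆ PB Z →
    (∀ b ∈ S, Ro z b ∧ ((pf b).card : ℝ) ≤ u ∧ ((dv b).card : ℝ) ≤ U) → SW S β B Q0 E →
      E1 S (tw (sc β B (-(1 / 4))) τ) H (Λ * H) ≤ C * Real.log (3 + Z + Λ * H) ^ 2 *
        (H * Λ ^ (3 / 4 : ℝ) + (H * B) ^ (2 / 3 : ℝ) * Λ ^ (5 / 12 : ℝ) +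
          H ^ (1 / 3 : ℝ) * B * Λ ^ (1 / 12 : ℝ) *
            (Q0 ^ (-(1 / 3) : ℝ) + U * z ^ (-(2 / 3) : ℝ) + Q0 * (u / z))) * nw S β B +
        C * Q0 * H ^ (1 / 3 : ℝ) * Λ ^ (1 / 12 : ℝ) * E ^ 2 * (1 + |τ|) ^ 2 := by
  obtain ⟨C1, hC1, h1⟩ := dc3_far
  obtain ⟨C2, hC2, h2⟩ := dc3_near
  refine ⟨C1 + C2, by positivity,
    fun S β B H Z Λ Q0 z u U E τ hB hH hZ hΛ hQ hz hu hU hS hD hW => ?_⟩
  have a1 := h1 S β B H Z Λ Q0 z U τ hB hH hZ hΛ hQ hz hU hS fun b hb => (hD b hb).2.2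
  have a2 := h2 S β B H Λ Q0 z u E τ hB hH hΛ hQ hz hu (fun b hb => ⟨(hD b hb).1, (hD b hb).2.1⟩) hW
  set γ := tw (sc β B (-(1 / 4))) τ with hγ
  have hΛ0 : 0 < Λ := by linarith
  have hQ0 : 0 < Q0 := by linarith
  have hz0 : 0 < z := by linarith
  have N1 : N (1 : Eis) = 1 := by simp
  have a3 : E1 S γ H (Λ * H) ≤ wq (1 / 4) H S γ (ball (Λ * H)) (Far Q0 z) +
      ∑ h ∈ (ball (Λ * H)).filter (fun h => Near Q0 h ∧ ¬ Cube h), (N h / H) ^ (-(1 / 4) : ℝ) *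
        ‖∑ n ∈ S, γ n * cub h n‖ ^ 2 := by
    unfold E1 wq
    rw [Finset.sum_filter, ← Finset.sum_add_distrib]
    refine Finset.sum_le_sum fun h hh => ?_
    have h0 := (mem_ball.1 hh).1
    have w0 : 0 ≤ (N h / H) ^ (-(1 / 4) : ℝ) := by have := N_nonneg h; positivity
    set y := if Near Q0 h ∧ ¬ Cube h then (N h / H) ^ (-(1 / 4) : ℝ) *
      ‖∑ n ∈ S, γ n * cub h n‖ ^ 2 else 0 with hy
    have y0 : 0 ≤ y := by rw [hy]; split_ifs <;> positivity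
    have e : y = ∑ D ∈ sqd h, if D = 1 then y else 0 := by
      rw [Finset.sum_ite_eq', if_pos (one_mem_sqd h0)]
    rw [e, ← Finset.sum_add_distrib]
    refine Finset.sum_le_sum fun D hD' => ?_
    have q0 := mul_nonneg w0 (qt_nonneg S γ h D)
    by_cases hF : Far Q0 z h D
    · rw [if_pos hF]
      split_ifs <;> linarith
    rw [if_neg hF, zero_add]
    unfold Far at hF
    push Not at hF
    by_cases hD1 : D = 1
    · subst hD1
      rw [if_pos rfl]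
      split_ifs with hc
      · have hc' : ¬ Cube h := fun h => hc ⟨h, rfl⟩
        have hn : Near Q0 h := by simpa [N1] using hF.2
        rw [hy, if_pos ⟨hn, hc'⟩]
        simp [qt, N1]
      · exact y0
    · rw [if_neg hD1]
      have : S.filter (fun n => D ∣ n) = ∅ := by
        refine Finset.filter_eq_empty_iff.2 fun n hn hd => ?_
        have := (Ro.of_dvd (hD n hn).1 ((mem_sqd h0).1 hD').1.1 hd).lt_N hD1
        linarith [hF.1]
      split_ifs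
      · simp [qt, this]
      · exact le_rfl
  have l1 : 1 ≤ Real.log (3 + Z + Λ * H) := by
    rw [add_assoc]; exact ls_one_le_log (by positivity)
  have l2 : 1 ≤ Real.log (3 + Z + Λ * H) ^ 2 := one_le_pow₀ l1
  set l := Real.log (3 + Z + Λ * H) ^ 2
  have n0 := nw_nonneg S β B
  set X := H * Λ ^ (3 / 4 : ℝ) + (H * B) ^ (2 / 3 : ℝ) * Λ ^ (5 / 12 : ℝ) +
    H ^ (1 / 3 : ℝ) * B * Λ ^ (1 / 12 : ℝ) * (Q0 ^ (-(1 / 3) : ℝ) + U * z ^ (-(2 / 3) : ℝ)) with hX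
  set Y := H ^ (1 / 3 : ℝ) * B * Λ ^ (1 / 12 : ℝ) * (Q0 * (u / z)) with hY
  have e : H * Λ ^ (3 / 4 : ℝ) + (H * B) ^ (2 / 3 : ℝ) * Λ ^ (5 / 12 : ℝ) +
      H ^ (1 / 3 : ℝ) * B * Λ ^ (1 / 12 : ℝ) *
        (Q0 ^ (-(1 / 3) : ℝ) + U * z ^ (-(2 / 3) : ℝ) + Q0 * (u / z)) = X + Y := by
    rw [hX, hY]; ring
  rw [e]
  have x0 : 0 ≤ X := by positivity
  have y0 : 0 ≤ Y := by positivity
  have p1 : 0 ≤ C1 * l * Y * nw S β B := by positivity
  have p2 : 0 ≤ C2 * l * X * nw S β B := by positivity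
  have p3 : 0 ≤ C1 * Q0 * H ^ (1 / 3 : ℝ) * Λ ^ (1 / 12 : ℝ) * E ^ 2 * (1 + |τ|) ^ 2 := by positivity
  have p4 := mul_le_mul_of_nonneg_left l2 (show 0 ≤ C2 * Y * nw S β B by positivity)
  nlinarith

end Vale.Agent.P006
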