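import Vale.Agent.P006.V3
import Vale.Agent.P006.Mod

/-! Dispersion: the cross term and the square of the model. -/

namespace Vale.Agent.P006

open Vale.Agent.P026 Eis Complex MeasureTheory Filter Topology
open scoped Classical ComplexConjugate

theorem d4_ab (a : Eis) (s : ℝ) : ab a ^ s = N a ^ (s / 2) := by
  rw [ab, Real.sqrt_eq_rpow, ← Real.rpow_mul (N_nonneg a)]
  congr 1
  ring

theorem d4_kap {A : ℝ} (hA : 0 < A) {a : Eis} (ha : a ≠ 0) :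
    N a ^ (-(1 / 6) : ℝ) * Vw (N a / A) =
      (3 / √A) ^ (-(2 / 3) : ℝ) * (kap (ab a * (3 / √A)) / ab a) := by
  have hv : 0 < 3 / √A := by positivity
  have hp := ab_pos ha
  have e1 : 3 * c0 * √(N a / A) = c0 * (ab a * (3 / √A)) := by
    rw [Real.sqrt_div (N_nonneg a), ab]
    ring
  have e2 : (3 / √A) ^ (-(2 / 3) : ℝ) * (3 / √A) ^ (2 / 3 : ℝ) = 1 := by
    rw [← Real.rpow_add hv, neg_add_cancel, Real.rpow_zero]
  have e3 : ab a ^ (2 / 3 : ℝ) / ab a = N a ^ (-(1 / 6) : ℝ) := by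
    rw [← Real.rpow_sub_one hp.ne', d4_ab]
    norm_num
  rw [kap, Vw, e1, Real.mul_rpow hp.le hv.le, ← e3]
  linear_combination -(ab a ^ (2 / 3 : ℝ) / ab a * kk (c0 * (ab a * (3 / √A)))) * e2

theorem d4_Ph (b : Eis) {A : ℝ} (hA : 0 < A) :
    ∑' a : Eis, th a * cub a b * ((N a ^ (-(1 / 6) : ℝ) * Vw (N a / A) : ℝ) : ℂ) =
      (((3 / √A) ^ (-(2 / 3) : ℝ) : ℝ) : ℂ) * Ph (fun a => th a * cub a b) (3 / √A) := by
  rw [Ph, ← tsum_mul_left]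
  refine tsum_congr fun a => ?_
  by_cases ha : a = 0
  · rw [ha, th_of_not fun h => h.ne_zero rfl]
    simp
  · rw [d4_kap hA ha]
    push_cast
    ring

theorem d4_dual {e : ℝ} (he : 0 < e) : ∃ C : ℝ, 0 < C ∧ ∀ (y : Eis → ℂ) (w : ℝ), 0 < w →
    Summable (fun r => ‖y r‖ * N r ^ (-(1 + e))) →
      ‖Ph y w‖ ≤ C * w ^ (-(1 + 2 * e)) * ∑' r, ‖y r‖ * N r ^ (-(1 + e)) := by
  obtain ⟨C, hC, h⟩ := kap_le_rpow (a := 1 + 2 * e) (by linarith)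
  refine ⟨C, hC, fun y w hw hs => tsum_of_norm_bounded (hs.hasSum.mul_left _) fun r => ?_⟩
  by_cases hr : r = 0
  · have : ab r = 0 := by rw [hr, ab, N_zero, Real.sqrt_zero]
    rw [this, ofReal_zero, div_zero, zero_mul, norm_zero]
    have := Real.rpow_nonneg (N_nonneg r) (-(1 + e))
    positivity
  · have hp := ab_pos hr
    rw [norm_mul, norm_div, norm_real, norm_real, Real.norm_of_nonneg hp.le,
      Real.norm_of_nonneg (kap_nonneg (by positivity))]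
    refine (mul_le_mul_of_nonneg_left (h _ (by positivity)) (by positivity)).trans (le_of_eq ?_)
    have e3 : ab r ^ (-(1 + 2 * e)) / ab r = N r ^ (-(1 + e)) := by
      rw [← Real.rpow_sub_one hp.ne', d4_ab]
      congr 1
      ring
    rw [Real.mul_rpow hp.le hw.le, ← e3]
    ring

/-- With v = 3 / √A, ∑ th a cub a b N a ^ (-1/6) Vw (N a / A) = v ^ (-2/3) Ph (th cub) v; Vor0 from TP cs
and kap_le_rpow with a = 1 + 2 e bound the dual sum. -/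
theorem cross (hT : TP cs) {e : ℝ} (he : 0 < e) : ∃ C : ℝ, 0 < C ∧ ∀ b : Eis, PS b → ∀ A : ℝ, 0 < A →
    ‖∑' a : Eis, th a * cub a b * ((N a ^ (-(1 / 6) : ℝ) * Vw (N a / A) : ℝ) : ℂ) -
      ((cs * (c0 * (3 * c0) ^ (-(4 / 3) : ℝ) * Real.Gamma (2 / 3)) * A ^ (2 / 3 : ℝ) * phi b *
        N b ^ (-(1 / 6) : ℝ) : ℝ) : ℂ) * G b‖ ≤ C * A ^ (-(1 / 6) - e) * N b ^ (1 / 2 + 3 * e) := by
  obtain ⟨y, -, -, h3, h4⟩ := hT
  obtain ⟨C1, hC1, h1⟩ := h3 e he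
  obtain ⟨C2, hC2, h2⟩ := d4_dual he
  refine ⟨3 ^ (-(2 / 3) : ℝ) * C2 * C1, by positivity, fun b hb A hA => ?_⟩
  have hv : 0 < 3 / √A := by positivity
  have hp := N_pos hb.ne_zero
  have hc := c0_pos
  have s : ∀ r : ℝ, √A ^ r = A ^ (r / 2) := fun r => by
    rw [Real.sqrt_eq_rpow, ← Real.rpow_mul hA.le]
    congr 1
    ring
  have e1 : (3 / √A) ^ (-(2 / 3) : ℝ) = 3 ^ (-(2 / 3) : ℝ) * A ^ (1 / 3 : ℝ) := by
    rw [Real.div_rpow (by norm_num) (Real.sqrt_nonneg A), s, div_eq_mul_inv, ← Real.rpow_neg hA.le]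
    norm_num
  have e2 : cs * (c0 * (3 * c0) ^ (-(4 / 3) : ℝ) * Real.Gamma (2 / 3)) * A ^ (2 / 3 : ℝ) * phi b *
      N b ^ (-(1 / 6) : ℝ) = (3 / √A) ^ (-(2 / 3) : ℝ) * (cs * (c0 ^ (-(1 / 3) : ℝ) *
        Real.Gamma (2 / 3) * phi b * N b ^ (-(1 / 6) : ℝ)) * (3 / √A) ^ (-(2 / 3) : ℝ)) := by
    have a1 : A ^ (2 / 3 : ℝ) = A ^ (1 / 3 : ℝ) * A ^ (1 / 3 : ℝ) := by
      rw [← Real.rpow_add hA]
      norm_num
    have a2 : (3 : ℝ) ^ (-(4 / 3) : ℝ) = 3 ^ (-(2 / 3) : ℝ) * 3 ^ (-(2 / 3) : ℝ) := by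
      rw [← Real.rpow_add (by norm_num)]
      norm_num
    have a3 : c0 ^ (-(1 / 3) : ℝ) = c0 ^ (-(4 / 3) : ℝ) * c0 := by
      rw [← Real.rpow_add_one hc.ne']
      norm_num
    rw [e1, a1, a3, Real.mul_rpow (by norm_num) hc.le, a2]
    ring
  have e3 : 1 / (N b / 3 * (3 / √A)) = √A / N b := by field_simp
  rw [d4_Ph b hA, h4 b hb _ hv, e2, e3, mainC]
  have e4 : ∀ (p q r : ℝ) (g P : ℂ),
      p * (q * r * g * p + P) - ((p * (q * r * p) : ℝ) : ℂ) * g = p * P := by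
    intros
    push_cast
    ring
  rw [e4, norm_mul, norm_real,
    Real.norm_of_nonneg (by positivity), e1]
  have a4 := (h2 (y b) (√A / N b) (by positivity) (h1 b hb).1).trans
    (mul_le_mul_of_nonneg_left (h1 b hb).2 (by positivity))
  refine (mul_le_mul_of_nonneg_left a4 (by positivity)).trans (le_of_eq ?_)
  have a5 : A ^ (-(1 / 6) - e) = A ^ (1 / 3 : ℝ) * A ^ (-(1 + 2 * e) / 2) := by
    rw [← Real.rpow_add hA]
    congr 1
    ring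
  have a6 : N b ^ (1 / 2 + 3 * e) = N b ^ (- -(1 + 2 * e)) * N b ^ (e - 1 / 2) := by
    rw [← Real.rpow_add hp]
    congr 1
    ring
  rw [Real.div_rpow (Real.sqrt_nonneg A) hp.le, s, a5, a6, Real.rpow_neg hp.le (-(1 + 2 * e))]
  ring

theorem d4_th (a : Eis) : N a ^ (-(1 / 6) : ℝ) * ‖th a‖ ≤ 1 := by
  refine (mul_le_mul_of_nonneg_left (norm_th_le a) (Real.rpow_nonneg (N_nonneg a) _)).trans ?_
  rw [Real.rpow_neg (N_nonneg a)]
  exact inv_mul_le_one_of_le₀ le_rfl (Real.rpow_nonneg (N_nonneg a) _)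

theorem d4_Ua (S : Finset Eis) (β : Eis → ℂ) (a : Eis) : ‖Ua S β a‖ ≤ ∑ b ∈ S, ‖β b‖ := by
  refine (norm_sum_le _ _).trans (Finset.sum_le_sum fun b _ => ?_)
  rw [norm_mul, norm_mul, RCLike.norm_conj, mul_assoc]
  exact mul_le_of_le_one_right (norm_nonneg _)
    (mul_le_one₀ (norm_G_le b) (norm_nonneg _) (norm_cub_le a b))

theorem d4_summable {A : ℝ} (hA : 0 < A) {E : Type} [NormedAddCommGroup E] [CompleteSpace E]
    {f : Eis → E} (M : ℝ) (h : ∀ a, ‖f a‖ ≤ Vw (N a / A) * M) : Summable f := by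
  refine Summable.of_norm_bounded ((summable_Vw 0 hA).mul_right M) fun a => ?_
  rw [pow_zero, one_mul]
  exact h a

theorem d4_ite {A : ℝ} (hA : 0 < A) {F : Eis → ℂ} {M : ℝ} (h : ∀ a, ‖F a‖ ≤ M) :
    Summable fun a : Eis => if Prim a then Vw (N a / A) * ‖F a‖ ^ 2 else 0 := by
  refine d4_summable hA (M ^ 2) fun a => ?_
  have := Vw_pos (N a / A)
  split_ifs
  · rw [Real.norm_of_nonneg (by positivity)]
    exact mul_le_mul_of_nonneg_left (pow_le_pow_left₀ (norm_nonneg _) (h a) 2) this.le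
  · rw [norm_zero]
    positivity

theorem summable_DD (S : Finset Eis) (β : Eis → ℂ) {A : ℝ} (hA : 0 < A) :
    Summable fun a : Eis => if Prim a then Vw (N a / A) *
      ‖Ua S β a - ((cs * N a ^ (-(1 / 6) : ℝ) : ℝ) : ℂ) * th a * bt S β‖ ^ 2 else 0 := by
  refine d4_ite hA (M := ∑ b ∈ S, ‖β b‖ + cs * ‖bt S β‖) fun a =>
    (norm_sub_le _ _).trans (add_le_add (d4_Ua S β a) ?_)
  have := Real.rpow_nonneg (N_nonneg a) (-(1 / 6) : ℝ)
  rw [norm_mul, norm_mul, norm_real, Real.norm_of_nonneg (mul_nonneg cs_pos.le this), mul_assoc cs]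
  exact mul_le_mul_of_nonneg_right (mul_le_of_le_one_right cs_pos.le (d4_th a)) (norm_nonneg _)

theorem d4_sq (U T b : ℂ) (c n V : ℝ) : V * ‖U - ((c * n : ℝ) : ℂ) * T * b‖ ^ 2 =
    V * ‖U‖ ^ 2 - 2 * c * (b * (conj U * (T * ((n * V : ℝ) : ℂ)))).re +
      c ^ 2 * ‖b‖ ^ 2 * (V * (n ^ 2 * ‖T‖ ^ 2)) := by
  simp only [Complex.sq_norm, normSq_apply, sub_re, sub_im, mul_re, mul_im, ofReal_re, ofReal_im,
    conj_re, conj_im]
  ring

/-- Expansion of the square. -/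
theorem d4_expand (S : Finset Eis) (β : Eis → ℂ) {A : ℝ} (hA : 0 < A) :
    DD S β A = S11 S β A - 2 * cs * (bt S β * ∑ b ∈ S, conj (β b * G b) *
      ∑' a : Eis, th a * cub a b * ((N a ^ (-(1 / 6) : ℝ) * Vw (N a / A) : ℝ) : ℂ)).re +
      cs ^ 2 * ‖bt S β‖ ^ 2 *
        ∑' a : Eis, Vw (N a / A) * (N a ^ (-(1 / 3) : ℝ) * ‖th a‖ ^ 2) := by
  have e0 : ∀ a : Eis, N a ^ (-(1 / 3) : ℝ) = (N a ^ (-(1 / 6) : ℝ)) ^ 2 := fun a => by
    rw [← Real.rpow_two, ← Real.rpow_mul (N_nonneg a)]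
    norm_num
  have h1 := (d4_ite hA (d4_Ua S β)).hasSum
  have h2 : ∀ b, Summable fun a : Eis =>
      th a * cub a b * ((N a ^ (-(1 / 6) : ℝ) * Vw (N a / A) : ℝ) : ℂ) := fun b => by
    refine d4_summable hA 1 fun a => ?_
    have a1 := Real.rpow_nonneg (N_nonneg a) (-(1 / 6) : ℝ)
    have a2 := Vw_pos (N a / A)
    have a3 := mul_le_one₀ (d4_th a) (norm_nonneg _) (norm_cub_le a b)
    rw [norm_mul, norm_mul, norm_real, Real.norm_of_nonneg (by positivity)]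
    nlinarith
  have h3 : Summable fun a : Eis => Vw (N a / A) * (N a ^ (-(1 / 3) : ℝ) * ‖th a‖ ^ 2) := by
    refine d4_summable hA 1 fun a => ?_
    have a1 := Real.rpow_nonneg (N_nonneg a) (-(1 / 6) : ℝ)
    have a2 := Vw_pos (N a / A)
    rw [e0, Real.norm_of_nonneg (by positivity), ← mul_pow]
    exact mul_le_mul_of_nonneg_left (pow_le_one₀ (by positivity) (d4_th a)) a2.le
  have h4 := hasSum_sum (s := S) fun b _ => (h2 b).hasSum.mul_left (conj (β b * G b))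
  have h5 := (h1.sub ((hasSum_re (h4.mul_left (bt S β))).mul_left (2 * cs))).add
    (h3.hasSum.mul_left (cs ^ 2 * ‖bt S β‖ ^ 2))
  refine Eq.trans (tsum_congr fun a => ?_) h5.tsum_eq
  by_cases ha : Prim a
  · rw [if_pos ha, if_pos ha, d4_sq, e0, Ua, map_sum, Finset.sum_mul]
    refine congrArg (fun x : ℂ => _ - 2 * cs * (bt S β * x).re + _)
      (Finset.sum_congr rfl fun b _ => ?_)
    rw [map_mul, conj_conj]
    ring
  · simp [ha, th_of_not ha]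

theorem d4_bt (S : Finset Eis) (β : Eis → ℂ) :
    ‖bt S β‖ ≤ ∑ b ∈ S, ‖β b‖ * N b ^ (-(1 / 6) : ℝ) := by
  refine (norm_sum_le _ _).trans (le_of_eq (Finset.sum_congr rfl fun b _ => ?_))
  rw [norm_mul, norm_real, Real.norm_of_nonneg (Real.rpow_nonneg (N_nonneg b) _)]

theorem d4_rem {S : Finset Eis} (β X : Eis → ℂ) {k E r s : ℝ} (hk : 0 ≤ k)
    (hS : ∀ b ∈ S, PS b) (h1 : ∀ b ∈ S, 1 - phi b ≤ r)
    (h2 : ∀ b ∈ S, ‖X b - ((k * phi b * N b ^ (-(1 / 6) : ℝ) : ℝ) : ℂ) * G b‖ ≤ E * N b ^ s) :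
    ‖∑ b ∈ S, conj (β b * G b) * X b - k * conj (bt S β)‖ ≤
      E * ∑ b ∈ S, ‖β b‖ * N b ^ s + k * r * ∑ b ∈ S, ‖β b‖ * N b ^ (-(1 / 6) : ℝ) := by
  rw [bt, map_sum, Finset.mul_sum, ← Finset.sum_sub_distrib, Finset.mul_sum, Finset.mul_sum,
    ← Finset.sum_add_distrib]
  refine (norm_sum_le _ _).trans (Finset.sum_le_sum fun b hb => ?_)
  have g : conj (G b) * G b = 1 := by
    rw [conj_mul', norm_G (hS b hb)]
    simp
  have e : conj (β b * G b) * X b - k * conj (β b * ((N b ^ (-(1 / 6) : ℝ) : ℝ) : ℂ)) =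
      conj (β b * G b) * (X b - ((k * phi b * N b ^ (-(1 / 6) : ℝ) : ℝ) : ℂ) * G b) -
        conj (β b) * ((k * (1 - phi b) * N b ^ (-(1 / 6) : ℝ) : ℝ) : ℂ) := by
    rw [map_mul, map_mul, conj_ofReal]
    push_cast
    linear_combination (conj (β b) * k * phi b * ((N b ^ (-(1 / 6) : ℝ) : ℝ) : ℂ)) * g
  have a1 := Real.rpow_nonneg (N_nonneg b) (-(1 / 6) : ℝ)
  have a2 := sub_nonneg.2 (phi_le_one (hS b hb).ne_zero)
  rw [e]
  refine (norm_sub_le _ _).trans (add_le_add ?_ ?_)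
  · rw [norm_mul, RCLike.norm_conj, norm_mul, norm_G (hS b hb), mul_one, mul_left_comm]
    exact mul_le_mul_of_nonneg_left (h2 b hb) (norm_nonneg _)
  · rw [norm_mul, RCLike.norm_conj, norm_real, Real.norm_of_nonneg (by positivity)]
    have := mul_le_mul_of_nonneg_left (h1 b hb) (by positivity : 0 ≤ ‖β b‖ * k * N b ^ (-(1 / 6) : ℝ))
    linarith

theorem d4_re (b Y : ℂ) (k : ℝ) : k * ‖b‖ ^ 2 - ‖b‖ * ‖Y - k * conj b‖ ≤ (b * Y).re := by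
  have e : (b * Y).re = k * ‖b‖ ^ 2 + (b * (Y - k * conj b)).re := by
    simp only [Complex.sq_norm, normSq_apply, sub_re, sub_im, mul_re, mul_im, ofReal_re, ofReal_im,
      conj_re, conj_im]
    ring
  have := (abs_le.1 (abs_re_le_norm (b * (Y - k * conj b)))).1
  rw [norm_mul] at this
  linarith

theorem d4_num {c κ b n R Q T P1 P2 P3 p q C1 C2 C3 C4 r : ℝ} (hc : 0 ≤ c) (hκ : 0 ≤ κ)
    (hb : 0 ≤ b) (hn : 0 ≤ n) (hP1 : 0 ≤ P1) (hP2 : 0 ≤ P2) (hP3 : 0 ≤ P3) (hp : 0 ≤ p) (hq : 0 ≤ q)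
    (hr : 0 ≤ r) (h1 : 0 ≤ C1) (h2 : 0 ≤ C2) (h3 : 0 ≤ C3) (h4 : 0 ≤ C4)
    (b1 : b ≤ C3 * n * p) (hR0 : 0 ≤ R)
    (hR : R ≤ C1 * P1 * (C4 * n * q) + c * κ * P3 * r * (C3 * n * p))
    (hQ : c * κ * P3 * b ^ 2 - b * R ≤ Q) (hT : T ≤ κ * P3 + C2 * P2) :
    -(2 * c * Q) + c ^ 2 * b ^ 2 * T ≤ -(c ^ 2 * κ * P3 * b ^ 2) +
      (2 * c * C1 * C3 * C4 + c ^ 2 * C2 * C3 ^ 2 + 2 * c ^ 2 * κ * C3 ^ 2) *
        (p * q * P1 + P2 * p ^ 2 + P3 * p ^ 2 * r) * n ^ 2 := by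
  have a1 := mul_le_mul_of_nonneg_left hQ (by positivity : 0 ≤ 2 * c)
  have a2 := mul_le_mul_of_nonneg_left hT (by positivity : 0 ≤ c ^ 2 * b ^ 2)
  have a3 := mul_le_mul_of_nonneg_left (mul_le_mul b1 hR hR0 (by positivity))
    (by positivity : 0 ≤ 2 * c)
  have a4 := mul_le_mul_of_nonneg_left (pow_le_pow_left₀ hb b1 2)
    (by positivity : 0 ≤ c ^ 2 * C2 * P2)
  have a5 : 0 ≤ 2 * c * C1 * C3 * C4 * (P2 * p ^ 2 + P3 * p ^ 2 * r) * n ^ 2 := by positivity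
  have a6 : 0 ≤ c ^ 2 * C2 * C3 ^ 2 * (p * q * P1 + P3 * p ^ 2 * r) * n ^ 2 := by positivity
  have a7 : 0 ≤ 2 * c ^ 2 * κ * C3 ^ 2 * (p * q * P1 + P2 * p ^ 2) * n ^ 2 := by positivity
  linarith

/-- Expand the square; cross, mod_V, cs_sq, one_sub_phi_le, l1_le. -/
theorem dc4 (hT : TP cs) : ∃ C : ℝ, 0 < C ∧ ∀ (S : Finset Eis) (β : Eis → ℂ) (A B z u : ℝ),
    0 < A → 0 < B → 0 < z → 0 ≤ u → (∀ b ∈ S, PS b ∧ Ro z b ∧ ((pf b).card : ℝ) ≤ u) →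
      DD S β A ≤ S11 S β A - Real.Gamma (4 / 3) / 3 * A ^ (2 / 3 : ℝ) * ‖bt S β‖ ^ 2 +
        C * (B ^ (4 / 3 + 3 / 100 : ℝ) * A ^ (-(1 / 6) - 1 / 100 : ℝ) +
          A ^ (1 / 3 + 1 / 100 : ℝ) * B ^ (2 / 3 : ℝ) + (A * B) ^ (2 / 3 : ℝ) * (u / z)) *
          nw S β B := by
  obtain ⟨C1, hC1, h1⟩ := cross hT (e := 1 / 100) (by norm_num)
  obtain ⟨C2, hC2, h2⟩ := mod_V (e := 1 / 100) (by norm_num) (by norm_num)
  obtain ⟨C3, hC3, h3⟩ := l1_le (b := -(1 / 6)) (by norm_num) (by norm_num)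
  obtain ⟨C4, hC4, h4⟩ := l1_le (b := 1 / 2 + 3 * (1 / 100)) (by norm_num) (by norm_num)
  have hc := cs_pos
  have hκ : 0 < c0 * (3 * c0) ^ (-(4 / 3) : ℝ) * Real.Gamma (2 / 3) := by
    have := c0_pos
    positivity
  rw [← cs_sq]
  generalize c0 * (3 * c0) ^ (-(4 / 3) : ℝ) * Real.Gamma (2 / 3) = κ at h1 h2 hκ ⊢
  refine ⟨2 * cs * C1 * C3 * C4 + cs ^ 2 * C2 * C3 ^ 2 + 2 * cs ^ 2 * κ * C3 ^ 2, by positivity,
    fun S β A B z u hA hB hz hu hS => ?_⟩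
  have hS0 : (0 : Eis) ∉ S := fun k => (hS 0 k).1.ne_zero rfl
  have a1 := d4_rem β _ (k := cs * κ * A ^ (2 / 3 : ℝ)) (by positivity) (fun b hb => (hS b hb).1)
    (fun b hb => one_sub_phi_le hz (hS b hb).2.1 (hS b hb).2.2) fun b hb => h1 b (hS b hb).1 A hA
  have a2 := h3 B hB S β hS0
  have a3 := h4 B hB S β hS0
  have a4 := a1.trans (add_le_add (mul_le_mul_of_nonneg_left a3 (by positivity))
    (mul_le_mul_of_nonneg_left a2 (by positivity)))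
  have a5 := d4_num hc.le hκ.le (norm_nonneg _) (Real.sqrt_nonneg _) (by positivity) (by positivity)
    (by positivity) (by positivity) (by positivity) (by positivity) hC1.le hC2.le hC3.le hC4.le
    ((d4_bt S β).trans a2) (norm_nonneg _) a4 (d4_re _ _ _)
    (sub_le_iff_le_add'.1 (abs_le.1 (h2 A hA)).2)
  have e1 : B ^ (-(1 / 6) + 1 / 2 : ℝ) * B ^ (1 / 2 + 3 * (1 / 100) + 1 / 2 : ℝ) =
      B ^ (4 / 3 + 3 / 100 : ℝ) := by
    rw [← Real.rpow_add hB]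
    norm_num
  have e2 : (B ^ (-(1 / 6) + 1 / 2 : ℝ)) ^ 2 = B ^ (2 / 3 : ℝ) := by
    rw [← Real.rpow_two, ← Real.rpow_mul hB.le]
    norm_num
  rw [e1, e2, Real.sq_sqrt (nw_nonneg S β B), ← Real.mul_rpow hA.le hB.le] at a5
  rw [d4_expand S β hA]
  linarith

end Vale.Agent.P006
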