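import Vale.Agent.P006.DecA

/-! Decomposition of the prime sum into boxes. -/

namespace Vale.Agent.P006

open Vale.Agent.P026 Eis Complex MeasureTheory Filter Topology
open scoped Classical ComplexConjugate

theorem dec_log (n : Eis) : 0 ≤ Real.log (N n) := by
  by_cases h : n = 0
  · simp [h]
  · exact Real.log_nonneg (one_le_N h)

theorem Lam_nonneg (n : Eis) : 0 ≤ Lam n := by
  unfold Lam
  split_ifs
  exacts [dec_log n, le_rfl]
theorem Lam_le (n : Eis) : Lam n ≤ Real.log (N n) := by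
  unfold Lam
  split_ifs
  exacts [le_rfl, dec_log n]

theorem dec_box : ∃ C : ℝ, 0 < C ∧ ∀ (X z t : ℝ) (ty : Fin 6 → Fin 3) (r : Fin 6 → ℝ) (j : Fin 6),
    r j ≤ 0 → ‖Box X z ty r t‖ ≤ C * Real.exp (∑ i, r i) * Real.exp (-(r j ^ 2 / 4)) := by
  obtain ⟨C, hC, h⟩ := l1_fb
  refine ⟨(1 + cs) * C ^ 6, by have := cs_pos; positivity, fun X z t ty r j hj => ?_⟩
  refine (norm_pr_prod_le _ _ _ norm_Dl_le).trans ?_
  rw [mul_assoc, mul_assoc]
  refine mul_le_mul_of_nonneg_left ?_ (by have := cs_pos; positivity)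
  refine (Finset.prod_le_prod (fun i _ => Finset.sum_nonneg fun _ _ => norm_nonneg _)
    fun i _ => h X z (ty i) (r i) t).trans ?_
  rw [Finset.prod_mul_distrib, Finset.prod_mul_distrib, Finset.prod_const, Finset.card_univ,
    Fintype.card_fin, ← Real.exp_sum, mul_assoc]
  refine mul_le_mul_of_nonneg_left (mul_le_mul_of_nonneg_left ?_ (Real.exp_pos _).le)
    (by positivity)
  rw [← Finset.mul_prod_erase _ _ (Finset.mem_univ j), if_pos hj]
  refine mul_le_of_le_one_right (Real.exp_pos _).le (Finset.prod_le_one (fun i _ => ?_) fun i _ => ?_)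
  · split_ifs
    exacts [(Real.exp_pos _).le, zero_le_one]
  · split_ifs
    exacts [Real.exp_le_one_iff.2 (neg_nonpos.2 (by positivity)), le_rfl]

theorem dec_abs {L m : ℝ} {r : Fin 6 → ℝ} (hs : ∑ i, r i = L) (hm : ∀ i, -m ≤ r i) (h0 : 0 ≤ m)
    (hL : 0 ≤ L) (i : Fin 6) : |r i| ≤ L + 5 * m := by
  refine abs_le.2 ⟨by linarith [hm i], ?_⟩
  have h1 := Finset.add_sum_erase _ r (Finset.mem_univ i)
  have h2 := Finset.card_nsmul_le_sum (Finset.univ.erase i) r (-m) fun k _ => hm k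
  rw [Finset.card_erase_of_mem (Finset.mem_univ i), Finset.card_univ, Fintype.card_fin,
    nsmul_eq_mul] at h2
  push_cast at h2
  linarith

theorem dec_poly {m : ℝ} (hm : 1 ≤ m) {r : Fin 6 → ℝ} (h : ∀ i, |r i| ≤ 6 * m ^ 2) :
    |r 0| * ∏ i : Fin 5, (1 + r i.castSucc ^ 2) ≤
      6 * 37 ^ 5 * (8 ^ 11 * Nat.factorial 11) * Real.exp (m ^ 2 / 8) := by
  have h1 : ∀ i, 1 + r i ^ 2 ≤ 37 * (m ^ 2) ^ 2 := fun i => by
    have h2 := pow_le_pow_left₀ (abs_nonneg _) (h i) 2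
    rw [sq_abs] at h2
    have h3 : 1 ≤ (m ^ 2) ^ 2 := one_le_pow₀ (one_le_pow₀ hm)
    nlinarith
  have h2 := Finset.prod_le_prod (s := Finset.univ) (fun (i : Fin 5) _ => by positivity :
    ∀ i ∈ Finset.univ, 0 ≤ 1 + r (Fin.castSucc i) ^ 2) fun i _ => h1 i.castSucc
  rw [Finset.prod_const, Finset.card_univ, Fintype.card_fin] at h2
  have h3 := Real.pow_div_factorial_le_exp (m ^ 2 / 8) (by positivity) 11
  rw [div_le_iff₀ (by positivity), div_pow, div_le_iff₀ (by positivity)] at h3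
  calc _ ≤ 6 * m ^ 2 * (37 * (m ^ 2) ^ 2) ^ 5 :=
        mul_le_mul (h 0) h2 (Finset.prod_nonneg fun _ _ => by positivity) (by positivity)
    _ = 6 * 37 ^ 5 * (m ^ 2) ^ 11 := by ring
    _ ≤ 6 * 37 ^ 5 * (Real.exp (m ^ 2 / 8) * (Nat.factorial 11) * 8 ^ 11) :=
        mul_le_mul_of_nonneg_left h3 (by positivity)
    _ = _ := by ring

theorem dec_ev (A : ℝ) : ∀ᶠ X : ℝ in atTop, 1 ≤ Real.log X ∧ ∀ m : ℝ,
    Real.log X ^ (2 / 3 : ℝ) ≤ m → 1 ≤ m ∧ Real.log X ≤ m ^ 2 ∧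
      A * Real.exp (Real.log X) * Real.exp (-(m ^ 2 / 8)) ≤ 1 := by
  have h1 := (tendsto_rpow_atTop (y := 1 / 3) (by norm_num)).comp Real.tendsto_log_atTop
  filter_upwards [Real.tendsto_log_atTop.eventually_ge_atTop 1,
    Real.tendsto_log_atTop.eventually_ge_atTop A, h1.eventually_ge_atTop 16] with X h2 h3 h4
  refine ⟨h2, fun m hm => ?_⟩
  simp only [Function.comp] at h4
  generalize Real.log X = L at *
  have h5 : 16 * L ≤ m ^ 2 := by
    have e : (L ^ (2 / 3 : ℝ)) ^ 2 = L ^ (1 / 3 : ℝ) * L := by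
      rw [← Real.rpow_natCast, ← Real.rpow_mul (by linarith), ← Real.rpow_add_one (by linarith)]
      norm_num
    have h6 := pow_le_pow_left₀ (by positivity) hm 2
    rw [e] at h6
    nlinarith
  refine ⟨(Real.one_le_rpow h2 (by norm_num)).trans hm, by linarith, ?_⟩
  have h7 : A ≤ Real.exp L := by linarith [Real.add_one_le_exp L]
  calc _ ≤ Real.exp L * Real.exp L * Real.exp (-(m ^ 2 / 8)) := by gcongr
    _ = Real.exp (L + L + -(m ^ 2 / 8)) := by rw [Real.exp_add, Real.exp_add]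
    _ ≤ 1 := Real.exp_le_one_iff.2 (by linarith)

/-- Outside the admissible region: ‖Box‖ ≤ C X exp (- m ^ 2 / 4) with m = - min ρ i ≥ L ^ (2/3)
(norm_pr_prod_le, l1_fb); all |ρ i| ≤ L + 5 m, so exp (- m ^ 2 / 8) (L + 5 m) is at most
C L ^ 11 times the product over i < 5 of (1 + ρ i ^ 2)⁻¹. -/
theorem bad_le : ∀ᶠ X : ℝ in atTop, ∀ (z t : ℝ) (ty : Fin 6 → Fin 3),
    ∫⁻ ρ in {ρ : Fin 5 → ℝ | Good (Real.log X) (hat (Real.log X) ρ)}ᶜ,
      ‖(hat (Real.log X) ρ 0 : ℂ) * Box X z ty (hat (Real.log X) ρ) t‖ₑ ≤ 1 := by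
  obtain ⟨C, hC, hB⟩ := dec_box
  have hI : Integrable fun ρ : Fin 5 → ℝ => ∏ i, (1 + ρ i ^ 2)⁻¹ :=
    Integrable.fintype_prod (μ := fun _ : Fin 5 => (volume : Measure ℝ))
      (f := fun _ y => (1 + y ^ 2)⁻¹) fun _ => integrable_inv_one_add_sq
  have hn : ∀ ρ : Fin 5 → ℝ, 0 < ∏ i, (1 + ρ i ^ 2) := fun ρ => Finset.prod_pos fun _ _ => by positivity
  obtain ⟨J, hJ⟩ : ∃ J, J = (∫ ρ : Fin 5 → ℝ, ∏ i, (1 + ρ i ^ 2)⁻¹) + 1 := ⟨_, rfl⟩
  have hJ0 : 0 ≤ ∫ ρ : Fin 5 → ℝ, ∏ i, (1 + ρ i ^ 2)⁻¹ :=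
    integral_nonneg fun ρ => Finset.prod_nonneg fun _ _ => by positivity
  have hJ1 : 0 < J := by linarith
  obtain ⟨K, hK⟩ : ∃ K : ℝ, K = 6 * 37 ^ 5 * (8 ^ 11 * Nat.factorial 11) := ⟨_, rfl⟩
  filter_upwards [dec_ev (J * K * C)] with X ⟨h1, h2⟩ z t ty
  generalize Real.log X = L at *
  have key : ∀ ρ ∈ {ρ : Fin 5 → ℝ | Good L (hat L ρ)}ᶜ,
      ‖(hat L ρ 0 : ℂ) * Box X z ty (hat L ρ) t‖ₑ ≤ ENNReal.ofReal (J⁻¹ * ∏ i, (1 + ρ i ^ 2)⁻¹) := by
    intro ρ hρ
    obtain ⟨j, -, hj⟩ := Finset.exists_min_image Finset.univ (hat L ρ) Finset.univ_nonempty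
    have h3 : L ^ (2 / 3 : ℝ) ≤ -hat L ρ j := by
      by_contra hc
      exact hρ ⟨sum_hat L ρ, fun i => by linarith [hj i (Finset.mem_univ i)]⟩
    obtain ⟨h4, h5, h6⟩ := h2 _ h3
    have h7 := dec_poly h4 (r := hat L ρ) fun i => (dec_abs (m := -hat L ρ j) (sum_hat L ρ)
      (fun k => by linarith [hj k (Finset.mem_univ k)]) (by linarith) (by linarith) i).trans
      (by nlinarith)
    have h8 := hB X z t ty (hat L ρ) j (by linarith)
    rw [sum_hat] at h8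
    have e : ∀ i : Fin 5, hat L ρ i.castSucc = ρ i := fun i => Fin.snoc_castSucc (α := fun _ => ℝ) _ _ i
    simp only [e] at h7
    rw [← hK] at h7
    rw [← ofReal_norm, norm_mul, Complex.norm_real, Real.norm_eq_abs, Finset.prod_inv_distrib]
    refine ENNReal.ofReal_le_ofReal ?_
    rw [← mul_inv, inv_eq_one_div, le_div_iff₀ (mul_pos hJ1 (hn ρ))]
    have e2 : Real.exp (-(hat L ρ j ^ 2 / 4)) * Real.exp ((-hat L ρ j) ^ 2 / 8) =
        Real.exp (-((-hat L ρ j) ^ 2 / 8)) := by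
      rw [← Real.exp_add]
      congr 1
      ring
    calc _ = J * (|hat L ρ 0| * ∏ i, (1 + ρ i ^ 2)) * ‖Box X z ty (hat L ρ) t‖ := by ring
      _ ≤ J * (K * Real.exp ((-hat L ρ j) ^ 2 / 8)) *
          (C * Real.exp L * Real.exp (-(hat L ρ j ^ 2 / 4))) :=
        mul_le_mul (mul_le_mul_of_nonneg_left h7 hJ1.le) h8 (norm_nonneg _) (by rw [hK]; positivity)
      _ = J * K * C * Real.exp L * (Real.exp (-(hat L ρ j ^ 2 / 4)) *
          Real.exp ((-hat L ρ j) ^ 2 / 8)) := by ring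
      _ ≤ 1 := by rw [e2]; exact h6
  refine (setLIntegral_mono' (measurableSet_good L).compl key).trans
    ((setLIntegral_le_lintegral _ _).trans ?_)
  rw [← ofReal_integral_eq_lintegral_ofReal (hI.const_mul _) (Eventually.of_forall fun ρ =>
    mul_nonneg (by positivity) (Finset.prod_nonneg fun _ _ => by positivity)), integral_const_mul,
    ENNReal.ofReal_le_one, inv_mul_le_iff₀ hJ1]
  linarith

noncomputable def decF (X t : ℝ) (n : Eis) : ℂ := Dl n * (lg (1 / 12) (N n / X) : ℂ) * nit t n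

theorem dec_F (X t : ℝ) (n : Eis) : ‖decF X t n‖ ≤ (1 + cs) * lg (1 / 12) (N n / X) := by
  rw [decF, norm_mul, norm_mul, norm_nit, mul_one, Complex.norm_real,
    Real.norm_of_nonneg (lg_pos _ _).le]
  exact mul_le_mul_of_nonneg_right (norm_Dl_le n) (lg_pos _ _).le

theorem dec_split (X z Y : ℝ) (ty : Fin 6 → Fin 3) (a : (Fin 6 → Eis) → ℂ) (b F : Eis → ℂ) :
    tup X z ty (fun x => (a x - b (∏ i, x i)) * F (∏ i, x i)) =
      ∑ n ∈ ball Y, (F n * tup X z ty (fun x => if ∏ i, x i = n then a x else 0) -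
        F n * b n * tup X z ty (fun x => if ∏ i, x i = n then 1 else 0)) +
      tup X z ty (fun x => if N (∏ i, x i) ≤ Y then 0 else (a x - b (∏ i, x i)) * F (∏ i, x i)) := by
  unfold tup
  simp only [Finset.mul_sum, ← Finset.sum_sub_distrib]
  rw [Finset.sum_comm, ← Finset.sum_add_distrib]
  refine Finset.sum_congr rfl fun x hx => ?_
  have h0 : ∏ i, x i ≠ 0 :=
    Finset.prod_ne_zero_iff.2 fun i _ => (mem_ball.1 (Fintype.mem_piFinset.1 hx i)).1
  split_ifs with h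
  · rw [Finset.sum_eq_single_of_mem _ (mem_ball.2 ⟨h0, h⟩) fun n _ hn => ?_, if_pos rfl, if_pos rfl]
    · ring
    · rw [if_neg hn.symm, if_neg hn.symm]
      ring
  · rw [Finset.sum_eq_zero fun n hn => ?_, zero_add]
    have h1 : ¬ ∏ i, x i = n := fun k => h (k ▸ (mem_ball.1 hn).2)
    rw [if_neg h1, if_neg h1]
    ring

theorem dec_pow {X y : ℝ} (hX : 1 ≤ X) (h : X ^ (21 / 20 : ℝ) ≤ y) : X ^ 21 ≤ y ^ 20 := by
  have h1 := pow_le_pow_left₀ (by positivity) h 20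
  rwa [← Real.rpow_natCast, ← Real.rpow_mul (by linarith), show (21 / 20 : ℝ) * (20 : ℕ) = (21 : ℕ) by
    norm_num, Real.rpow_natCast] at h1

theorem dec_term {X u v : ℝ} (hX : 1 ≤ X) (h1 : 1 ≤ u) (h2 : u ≤ X ^ 2) (h : X ^ (21 / 20 : ℝ) ≤ v) :
    X ^ 12 * (|Real.log u - Real.log (v / X) / 6| * lg (1 / 12) (v / X)) ≤
      2 * Real.exp ((-280) ^ 2 / (4 * (1 / 12))) := by
  have h3 : X ≤ (v / X) ^ 20 := by
    rw [div_pow, le_div_iff₀ (by positivity), ← pow_succ']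
    exact dec_pow hX h
  have h4 : 0 ≤ v / X := div_nonneg (le_trans (by positivity) h) (by linarith)
  generalize v / X = y at *
  have h5 : 1 ≤ y := (one_le_pow_iff_of_nonneg h4 (by norm_num)).1 (hX.trans h3)
  have h6 := lg_le_rpow (c := 1 / 12) (by norm_num) (-280) (x := y) (by linarith)
  rw [Real.rpow_neg h4, show (280 : ℝ) = (280 : ℕ) by norm_num, Real.rpow_natCast] at h6
  have h7 : |Real.log u - Real.log y / 6| ≤ 2 * y ^ 40 := by
    have k1 := Real.log_nonneg h1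
    have k2 := Real.log_nonneg h5
    have k3 := Real.log_le_sub_one_of_pos (x := u) (by linarith)
    have k4 := Real.log_le_sub_one_of_pos (x := y) (by linarith)
    have k5 : X ^ 2 ≤ y ^ 40 := (pow_le_pow_left₀ (by linarith) h3 2).trans (by rw [← pow_mul])
    have k6 : y ≤ y ^ 40 := le_self_pow₀ h5 (by norm_num)
    exact abs_le.2 ⟨by linarith, by linarith⟩
  have h8 : X ^ 12 ≤ y ^ 240 := (pow_le_pow_left₀ (by linarith) h3 12).trans (by rw [← pow_mul])
  generalize Real.exp _ = E at *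
  calc _ ≤ y ^ 240 * (2 * y ^ 40 * (E * (y ^ 280)⁻¹)) :=
        mul_le_mul h8 (mul_le_mul h7 h6 (lg_pos _ _).le (by positivity))
          (mul_nonneg (abs_nonneg _) (lg_pos _ _).le) (by positivity)
    _ = 2 * E * (y ^ 280 * (y ^ 280)⁻¹) := by ring
    _ = _ := by rw [mul_inv_cancel₀ (by positivity), mul_one]

theorem dec_err : ∃ C : ℝ, 0 < C ∧ ∀ X : ℝ, 1 ≤ X → ∀ (z t : ℝ) (ty : Fin 6 → Fin 3),
    ‖tup X z ty (fun x => if N (∏ i, x i) ≤ X ^ (21 / 20 : ℝ) then 0 else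
      ((Real.log (N (x 0)) : ℂ) - (Real.log (N (∏ i, x i) / X) / 6 : ℝ)) * decF X t (∏ i, x i))‖ ≤ C := by
  obtain ⟨E, hE⟩ : ∃ E, E = 2 * Real.exp ((-280) ^ 2 / (4 * (1 / 12))) := ⟨_, rfl⟩
  have h0 : 0 < E := by rw [hE]; positivity
  have hc := cs_pos
  refine ⟨16 ^ 6 * ((1 + cs) * E), by positivity, fun X hX z t ty => ?_⟩
  refine (norm_sum_le _ _).trans ((Finset.sum_le_card_nsmul _ _ ((1 + cs) * E / X ^ 12)
    fun x hx => ?_).trans ?_)
  · rw [norm_mul, norm_prod]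
    refine (mul_le_of_le_one_left (norm_nonneg _) (Finset.prod_le_one (fun _ _ => norm_nonneg _)
      fun i _ => norm_gty_le _ _ _ _)).trans ?_
    dsimp only
    split_ifs with h
    · rw [norm_zero]
      positivity
    · have h1 := mem_ball.1 (Fintype.mem_piFinset.1 hx 0)
      have h2 := dec_term hX (one_le_N h1.1) h1.2 (not_le.1 h).le
      rw [← hE] at h2
      rw [norm_mul, ← Complex.ofReal_sub, Complex.norm_real, Real.norm_eq_abs,
        le_div_iff₀ (by positivity)]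
      calc _ ≤ _ * ((1 + cs) * _) * X ^ 12 := mul_le_mul_of_nonneg_right
            (mul_le_mul_of_nonneg_left (dec_F X t _) (abs_nonneg _)) (by positivity)
        _ = (1 + cs) * (X ^ 12 * (_ * _)) := by ring
        _ ≤ _ := mul_le_mul_of_nonneg_left h2 (by positivity)
  · rw [Fintype.card_piFinset, Finset.prod_const, Finset.card_univ, Fintype.card_fin, nsmul_eq_mul]
    push_cast
    calc _ ≤ (16 * X ^ 2) ^ 6 * ((1 + cs) * E / X ^ 12) := mul_le_mul_of_nonneg_right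
          (pow_le_pow_left₀ (by positivity) (card_ball_le (by positivity)) 6) (by positivity)
      _ = _ := by field_simp

theorem dec_rest : ∃ C : ℝ, 0 < C ∧ ∀ X : ℝ, 1 ≤ X → ∀ z t : ℝ, z ≤ √X → ∀ n : Eis,
    ¬ (n ∈ ball (X ^ (21 / 20 : ℝ)) ∧ Ro z n) → ‖(Lam n : ℂ) * decF X t n‖ ≤ C * N n ^ (-2 : ℝ) := by
  have hc := cs_pos
  obtain ⟨E, hE⟩ : ∃ E, E = Real.exp (63 ^ 2 / (4 * (1 / 12))) := ⟨_, rfl⟩
  have h0 : 0 < E := by rw [hE]; positivity
  refine ⟨(1 + cs) * E, by positivity, fun X hX z t hz n hn => ?_⟩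
  by_cases hp : Prim n ∧ Prime n
  swap
  · rw [Lam, if_neg hp, Complex.ofReal_zero, zero_mul, norm_zero]
    exact mul_nonneg (by positivity) (Real.rpow_nonneg (N_nonneg n) _)
  have h1 := hp.2.ne_zero
  have h2 := N_pos h1
  have key : N n ^ (1 : ℝ) * lg (1 / 12) (N n / X) ≤ E * N n ^ (-2 : ℝ) := by
    by_cases h : N n ≤ X ^ (21 / 20 : ℝ)
    · have h3 : N n ≤ z := by
        by_contra hc
        refine hn ⟨mem_ball.2 ⟨h1, h⟩, hp.1, fun p hp1 hp2 => (not_le.1 hc).trans_le ?_⟩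
        exact N_le_of_dvd hp1.ne_zero ((hp1.associated_of_dvd hp.2 hp2).symm.dvd)
      have h4 : N n ^ (2 : ℝ) ≤ X := by
        rw [Real.rpow_two]
        exact (Real.le_sqrt h2.le (by linarith)).1 (h3.trans hz)
      refine (wt_lg (c := 1 / 12) (by norm_num) 1 (-3) (by linarith) h1).trans ?_
      rw [mul_assoc]
      refine mul_le_mul (hE ▸ Real.exp_le_exp.2 (by norm_num)) ?_ (by positivity) h0.le
      refine (mul_le_mul_of_nonneg_right (Real.rpow_le_rpow_of_nonpos (by positivity) h4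
        (by norm_num)) (by positivity)).trans ?_
      rw [← Real.rpow_mul h2.le, ← Real.rpow_add h2]
      norm_num
    · refine (wt_lg (c := 1 / 12) (by norm_num) 1 63 (by linarith) h1).trans ?_
      rw [mul_assoc, ← hE]
      refine mul_le_mul_of_nonneg_left ?_ h0.le
      have h4 : X ^ (63 : ℝ) ≤ N n ^ (60 : ℝ) := by
        have h5 := Real.rpow_le_rpow (by positivity) (not_le.1 h).le (z := 60) (by norm_num)
        rwa [← Real.rpow_mul (by linarith), show (21 / 20 * 60 : ℝ) = 63 by norm_num] at h5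
      refine (mul_le_mul_of_nonneg_right h4 (by positivity)).trans ?_
      rw [← Real.rpow_add h2]
      norm_num
  rw [Real.rpow_one] at key
  rw [norm_mul, Complex.norm_real, Real.norm_of_nonneg (Lam_nonneg n)]
  calc _ ≤ N n * ((1 + cs) * lg (1 / 12) (N n / X)) := mul_le_mul ((Lam_le n).trans
        (by linarith [Real.log_le_sub_one_of_pos h2])) (dec_F X t n) (norm_nonneg _) h2.le
    _ = (1 + cs) * (N n * lg (1 / 12) (N n / X)) := by ring
    _ ≤ _ := by rw [mul_assoc]; exact mul_le_mul_of_nonneg_left key (by positivity)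

theorem dec_SD : ∃ C : ℝ, 0 < C ∧ ∀ X : ℝ, 1 ≤ X → ∀ z t : ℝ, z ≤ √X →
    ‖SD X t - ∑ n ∈ ball (X ^ (21 / 20 : ℝ)), decF X t n * if Ro z n then (Lam n : ℂ) else 0‖ ≤ C := by
  obtain ⟨C, hC, h⟩ := dec_rest
  have hs := (summable_N_rpow one_lt_two).mul_left C
  refine ⟨(∑' n : Eis, C * N n ^ (-2 : ℝ)) + 1, by
    have := tsum_nonneg (L := SummationFilter.unconditional Eis) fun n : Eis =>
      mul_nonneg hC.le (Real.rpow_nonneg (N_nonneg n) (-2))
    linarith, fun X hX z t hz => ?_⟩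
  obtain ⟨R, hR⟩ : ∃ R : Eis → ℂ, R = fun n => if n ∈ ball (X ^ (21 / 20 : ℝ)) ∧ Ro z n then 0 else
    (Lam n : ℂ) * decF X t n := ⟨_, rfl⟩
  have h1 : ∀ n, ‖R n‖ ≤ C * N n ^ (-2 : ℝ) := fun n => by
    rw [hR]
    dsimp only
    split_ifs with k
    · rw [norm_zero]
      exact mul_nonneg hC.le (Real.rpow_nonneg (N_nonneg n) _)
    · exact h X hX z t hz n k
  have h2 := (hasSum_sum_of_ne_finset_zero (L := SummationFilter.unconditional Eis)
    (s := ball (X ^ (21 / 20 : ℝ))) (f := fun n => if n ∈ ball (X ^ (21 / 20 : ℝ)) then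
      decF X t n * if Ro z n then (Lam n : ℂ) else 0 else 0) fun n hn => if_neg hn).add
    (Summable.of_norm_bounded hs h1).hasSum
  rw [Finset.sum_congr rfl fun n hn => if_pos hn] at h2
  have h3 : SD X t = _ := (tsum_congr fun n => ?_).trans h2.tsum_eq
  · rw [h3, add_sub_cancel_left]
    exact (tsum_of_norm_bounded hs.hasSum h1).trans (by linarith)
  · rw [hR, decF]
    by_cases k1 : n ∈ ball (X ^ (21 / 20 : ℝ)) <;> by_cases k2 : Ro z n <;>
      simp only [k1, k2, if_true, if_false, and_self, and_false, false_and, decF] <;> ring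

theorem dec_one : ∃ C : ℝ, 0 < C ∧ ∀ X : ℝ, 1 ≤ X → ∀ t : ℝ,
    ‖decF X t 1 * (Real.log (N 1 / X) / 6 : ℝ)‖ ≤ C := by
  have hc := cs_pos
  refine ⟨(1 + cs) * Real.exp (1 ^ 2 / (4 * (1 / 12))), by positivity, fun X hX t => ?_⟩
  have h1 := dec_F X t 1
  have h2 := lg_le_rpow (c := 1 / 12) (by norm_num) 1 (x := N 1 / X) (by rw [N_one]; positivity)
  rw [norm_mul, Complex.norm_real, Real.norm_eq_abs]
  rw [N_one, one_div X] at *
  rw [Real.rpow_one] at h2
  have h3 : |Real.log X⁻¹ / 6| ≤ X := by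
    have k1 := Real.log_nonneg hX
    have k2 := Real.log_le_sub_one_of_pos (x := X) (by linarith)
    rw [Real.log_inv]
    exact abs_le.2 ⟨by linarith, by linarith⟩
  generalize Real.exp _ = E at *
  calc _ ≤ (1 + cs) * (E * X⁻¹) * X := mul_le_mul (h1.trans (mul_le_mul_of_nonneg_left h2
        (by positivity))) h3 (abs_nonneg _) (mul_nonneg (by positivity) ((lg_pos _ _).le.trans h2))
    _ = _ := by field_simp

theorem dec_cfv (j : Fin 3) : ‖cfv j‖ ≤ 3 := by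
  fin_cases j <;> simp [cfv]

theorem dec_fin {c C1 C2 C3 : ℝ} {s A B : ℂ} {J S E : Fin 3 → ℂ} (hc : 0 < c)
    (e1 : ∀ j, J j = c * (S j + E j)) (e3 : ∑ j, cfv j * S j = A - B) (k1 : ∀ j, ‖E j‖ ≤ C1)
    (k2 : ‖s - A‖ ≤ C2) (k3 : ‖B‖ ≤ C3) : ‖s‖ ≤ C2 + C3 + 9 * C1 + 3 / c * ∑ j, ‖J j‖ := by
  have h0 : (c : ℂ) ≠ 0 := Complex.ofReal_ne_zero.2 hc.ne'
  have e : s = (s - A) + B + ∑ j, cfv j * (J j / c - E j) := by
    simp only [e1, mul_div_cancel_left₀ _ h0, add_sub_cancel_right]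
    rw [e3]
    ring
  have h1 : ‖∑ j, cfv j * (J j / c - E j)‖ ≤ ∑ j : Fin 3, (3 / c * ‖J j‖ + 3 * C1) := by
    refine norm_sum_le_of_le _ fun j _ => ?_
    rw [norm_mul]
    refine (mul_le_mul (dec_cfv j) ((norm_sub_le _ _).trans (add_le_add le_rfl (k1 j)))
      (norm_nonneg _) (by norm_num)).trans (le_of_eq ?_)
    rw [norm_div, Complex.norm_real, Real.norm_of_nonneg hc.le]
    ring
  rw [Finset.sum_add_distrib, ← Finset.mul_sum, Finset.sum_const, Finset.card_univ,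
    Fintype.card_fin, nsmul_eq_mul] at h1
  have h2 := norm_add₃_le (a := s - A) (b := B) (c := ∑ j, cfv j * (J j / c - E j))
  rw [← e] at h2
  push_cast at h1
  linarith

theorem dec_main : ∃ C : ℝ, 0 < C ∧ ∀ X : ℝ, 1 ≤ X → ∀ z t : ℝ, z ≤ √X → ‖SD X t‖ ≤ C + C * ∑ j,
    ‖∫ ρ : Fin 5 → ℝ, (hat (Real.log X) ρ 0 : ℂ) * Box X z (tyv j) (hat (Real.log X) ρ) t‖ := by
  obtain ⟨c, hc, hI⟩ := integral_box
  obtain ⟨C1, p1, h1⟩ := dec_err
  obtain ⟨C2, p2, h2⟩ := dec_SD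
  obtain ⟨C3, p3, h3⟩ := dec_one
  refine ⟨C2 + C3 + 9 * C1 + 3 / c, by positivity, fun X hX z t hz => ?_⟩
  have e1 := fun j => (hI X z t (tyv j) (by linarith)).2
  have e2 := fun j => dec_split X z (X ^ (21 / 20 : ℝ)) (tyv j) (fun x => (Real.log (N (x 0)) : ℂ))
    (fun n => (Real.log (N n / X) / 6 : ℝ)) (decF X t)
  have e3 : ∑ j, cfv j * ∑ n ∈ ball (X ^ (21 / 20 : ℝ)), (decF X t n *
      tup X z (tyv j) (fun x => if ∏ i, x i = n then (Real.log (N (x 0)) : ℂ) else 0) -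
      decF X t n * (Real.log (N n / X) / 6 : ℝ) *
        tup X z (tyv j) (fun x => if ∏ i, x i = n then 1 else 0)) =
      ∑ n ∈ ball (X ^ (21 / 20 : ℝ)), (decF X t n * if Ro z n then (Lam n : ℂ) else 0) -
        decF X t 1 * (Real.log (N 1 / X) / 6 : ℝ) := by
    have k : decF X t 1 * (Real.log (N 1 / X) / 6 : ℝ) = ∑ n ∈ ball (X ^ (21 / 20 : ℝ)),
        decF X t n * (Real.log (N n / X) / 6 : ℝ) * if n = 1 then 1 else 0 := by
      rw [Finset.sum_eq_single_of_mem 1 (mem_ball.2 ⟨one_ne_zero, by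
        rw [N_one]; exact Real.one_le_rpow hX (by norm_num)⟩) fun n _ hn => by
          rw [if_neg hn, mul_zero], if_pos rfl, mul_one]
    simp only [Finset.mul_sum]
    rw [k, Finset.sum_comm, ← Finset.sum_sub_distrib]
    refine Finset.sum_congr rfl fun n hn => ?_
    by_cases hp : PS n
    · obtain ⟨k1, k2⟩ := hbi hX z hp (mem_ball.1 hn).2
      rw [← k1, ← k2, Finset.mul_sum, Finset.mul_sum, ← Finset.sum_sub_distrib]
      exact Finset.sum_congr rfl fun j _ => by ring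
    · simp [decF, Dl_of_not hp]
  refine (dec_fin hc (fun j => (e1 j).trans ?_) e3 (fun j => h1 X hX z t (tyv j)) (h2 X hX z t hz)
    (h3 X hX t)).trans ?_
  · rw [← e2 j]
    simp only [Complex.ofReal_sub, decF]
  · have : 0 < 3 / c := by positivity
    exact add_le_add (by linarith) (mul_le_mul_of_nonneg_right (by linarith)
      (Finset.sum_nonneg fun _ _ => norm_nonneg _))

/-- ∑ cfv j ∫ ρ 0 Box (tyv j) = c (SD + O (1)): by integral_box and hbi the tuples with product of norm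
≤ X ^ (21/20) give the rough primes and the term n = 1; there are at most (16 X ^ 2) ^ 6 other tuples and
their weight is ≤ exp (- L ^ 2 / 4800); primes of norm ≤ z ≤ √X or > X ^ (21/20) are negligible as well
(sum_lg_tail). On the admissible region |ρ 0| ≤ 6 L. -/
theorem dec : ∃ C : ℝ, 0 < C ∧ ∀ᶠ X : ℝ in atTop, ∀ z t : ℝ, z ≤ √X →
    ‖SD X t‖ₑ ≤ ENNReal.ofReal C + ENNReal.ofReal (C * Real.log X) *
      ∑ ty : Fin 6 → Fin 3, ∫⁻ ρ in {ρ : Fin 5 → ℝ | Good (Real.log X) (hat (Real.log X) ρ)},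
        ‖Box X z ty (hat (Real.log X) ρ) t‖ₑ := by
  obtain ⟨C, hC, h⟩ := dec_main
  refine ⟨18 * C, by positivity, ?_⟩
  filter_upwards [bad_le, Real.tendsto_log_atTop.eventually_ge_atTop 1, eventually_ge_atTop 1]
    with X h1 h2 h3 z t hz
  have h4 := h X h3 z t hz
  generalize Real.log X = L at *
  obtain ⟨T, hT⟩ : ∃ T, T = ∑ ty : Fin 6 → Fin 3, ∫⁻ ρ in {ρ : Fin 5 → ℝ | Good L (hat L ρ)},
    ‖Box X z ty (hat L ρ) t‖ₑ := ⟨_, rfl⟩
  have key : ∀ ty, ‖∫ ρ : Fin 5 → ℝ, (hat L ρ 0 : ℂ) * Box X z ty (hat L ρ) t‖ₑ ≤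
      ENNReal.ofReal (6 * L) * T + 1 := by
    intro ty
    refine (enorm_integral_le_lintegral_enorm _).trans ?_
    rw [← lintegral_add_compl _ (measurableSet_good L)]
    refine add_le_add ?_ (h1 z t ty)
    refine (setLIntegral_mono' (g := fun ρ => ENNReal.ofReal (6 * L) * ‖Box X z ty (hat L ρ) t‖ₑ)
      (measurableSet_good L) fun ρ hρ => ?_).trans ?_
    · rw [enorm_mul, ← ofReal_norm, Complex.norm_real, Real.norm_eq_abs]
      refine mul_le_mul_left (ENNReal.ofReal_le_ofReal ((dec_abs hρ.1 hρ.2 (by positivity)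
        (by linarith) 0).trans ?_)) _
      have := Real.rpow_le_self_of_one_le h2 (y := 2 / 3) (by norm_num)
      linarith
    · rw [lintegral_const_mul' _ _ ENNReal.ofReal_ne_top, hT]
      exact mul_le_mul_right (Finset.single_le_sum (f := fun ty => ∫⁻ ρ in
        {ρ : Fin 5 → ℝ | Good L (hat L ρ)}, ‖Box X z ty (hat L ρ) t‖ₑ) (fun _ _ => zero_le)
        (Finset.mem_univ ty)) _
  rw [← hT]
  by_cases hT' : T = ⊤
  · rw [hT', ENNReal.mul_top (ENNReal.ofReal_pos.2 (by positivity)).ne', add_top]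
    exact le_top
  obtain ⟨τ, h5, rfl⟩ : ∃ τ : ℝ, 0 ≤ τ ∧ T = ENNReal.ofReal τ :=
    ⟨T.toReal, ENNReal.toReal_nonneg, (ENNReal.ofReal_toReal hT').symm⟩
  have h6 : ∀ ty, ‖∫ ρ : Fin 5 → ℝ, (hat L ρ 0 : ℂ) * Box X z ty (hat L ρ) t‖ ≤ 6 * L * τ + 1 := by
    intro ty
    have k := key ty
    rwa [← ofReal_norm, ← ENNReal.ofReal_mul (by positivity), ← ENNReal.ofReal_one,
      ← ENNReal.ofReal_add (by positivity) zero_le_one,
      ENNReal.ofReal_le_ofReal_iff (by positivity)] at k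
  rw [← ofReal_norm, ← ENNReal.ofReal_mul (by positivity),
    ← ENNReal.ofReal_add (by positivity) (by positivity)]
  refine ENNReal.ofReal_le_ofReal (h4.trans ?_)
  rw [Fin.sum_univ_three]
  have := mul_le_mul_of_nonneg_left (add_le_add_three (h6 (tyv 0)) (h6 (tyv 1)) (h6 (tyv 2))) hC.le
  linarith

end Vale.Agent.P006
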