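import Vale.Agent.P006.Box

/-! Heath-Brown's identity on rough elements and a Gaussian integral over a hyperplane. -/

namespace Vale.Agent.P006

open Vale.Agent.P026 Eis Complex MeasureTheory Filter Topology
open scoped Classical ComplexConjugate

/-- The three type vectors; variable 0 always has type 1. -/
def tyv : Fin 3 → Fin 6 → Fin 3 := ![![1, 0, 0, 2, 0, 0], ![1, 1, 0, 2, 2, 0], ![1, 1, 1, 2, 2, 2]]
/-- The coefficients of the identity. -/
def cfv : Fin 3 → ℂ := ![3, -3, 1]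
/-- Sum over the tuples of given type. -/
noncomputable def tup (X z : ℝ) (ty : Fin 6 → Fin 3) (F : (Fin 6 → Eis) → ℂ) : ℂ :=
  ∑ x ∈ Fintype.piFinset (fun _ : Fin 6 => ball (X ^ 2)), (∏ i, gty X z (ty i) (x i)) * F x

theorem deca_mul_ne {a b : Sq} {n : Eis} (h : (a * b).coeff n ≠ 0) :
    ∃ m m', a.coeff m ≠ 0 ∧ b.coeff m' ≠ 0 ∧ m * m' = n := by
  by_contra hc
  push Not at hc
  refine h ?_
  rw [MonoidAlgebra.coeff_mul]
  refine Finset.sum_eq_zero fun m hm => Finset.sum_eq_zero fun m' hm' => if_neg ?_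
  exact hc m m' (Finsupp.mem_support_iff.1 hm) (Finsupp.mem_support_iff.1 hm')

/-- Supported on primary elements of norm above Y. -/
def decaS (Y : ℝ) (a : Sq) : Prop := ∀ n, a.coeff n ≠ 0 → Prim n ∧ Y ≤ N n

theorem decaS.mul {Y Y' : ℝ} {a b : Sq} (ha : decaS Y a) (hb : decaS Y' b) (h0 : 0 ≤ Y') :
    decaS (Y * Y') (a * b) := fun n hn => by
  obtain ⟨m, m', h1, h2, rfl⟩ := deca_mul_ne hn
  exact ⟨(ha m h1).1.mul (hb m' h2).1, by
    rw [N_mul]; exact mul_le_mul (ha m h1).2 (hb m' h2).2 h0 (N_nonneg _)⟩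

theorem decaS.sub {a b : Sq} (ha : decaS 1 a) (hb : decaS 1 b) : decaS 1 (a - b) := fun n hn => by
  by_cases h : a.coeff n = 0
  · refine hb n fun k => hn ?_
    rw [MonoidAlgebra.coeff_sub, Finsupp.sub_apply, h, k, sub_zero]
  · exact ha n h

theorem decaS.trc (Z : ℝ) {f : Eis → ℂ} (hf : ∀ n, f n ≠ 0 → Prim n) : decaS 1 (trc Z f) :=
  fun n hn => by
    rw [coeff_trc] at hn
    have h : f n ≠ 0 := fun k => hn (by rw [k, ite_self])
    exact ⟨hf n h, one_le_N (hf n h).ne_zero⟩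

theorem deca_coeff_one (n : Eis) : (1 : Sq).coeff n = if n = 1 then 1 else 0 := by
  rw [coeff_eq_pr, pr_one]
  simp only [eq_comm]

theorem decaS.one : decaS 1 1 := fun n hn => by
  rw [deca_coeff_one] at hn
  obtain rfl : n = 1 := by
    by_contra h
    exact hn (if_neg h)
  exact ⟨Prim.one, N_one.ge⟩

theorem deca_conv {Z : ℝ} {f g : Eis → ℂ} (hf : ∀ n, f n ≠ 0 → Prim n) {n : Eis} (hn : n ≠ 0)
    (hZ : N n ≤ Z) : (trc Z f * trc Z g).coeff n = ∑ d ∈ dp n, f d * g (n / d) := by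
  rw [coeff_eq_pr, pr_mul, pr_trc]
  simp only [pr_trc]
  symm
  refine (Finset.sum_subset_zero_on_sdiff (fun d hd => ?_) (fun d hd => ?_) fun d hd => ?_)
  · have h := (mem_dp hn).1 hd
    exact mem_ball.2 ⟨h.1.ne_zero, (N_le_of_dvd hn h.2).trans hZ⟩
  · rw [Finset.mem_sdiff, mem_dp hn] at hd
    by_cases h : f d = 0
    · rw [h, zero_mul]
    · rw [Finset.sum_eq_zero fun m _ => ?_, mul_zero]
      rw [if_neg fun k : d * m = n => hd.2 ⟨hf d h, k ▸ dvd_mul_right _ _⟩, mul_zero]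
  · obtain ⟨h1, m, rfl⟩ := (mem_dp hn).1 hd
    have h0 := h1.ne_zero
    rw [mul_div_cancel_left₀ _ h0, Finset.sum_eq_single m, if_pos rfl, mul_one]
    · intro m' _ hm
      rw [if_neg fun k => hm (mul_left_cancel₀ h0 k), mul_zero]
    · intro hm
      exact absurd (mem_ball.2 ⟨right_ne_zero_of_mul hn,
        (N_le_of_dvd hn (dvd_mul_left _ _)).trans hZ⟩) hm

theorem deca_gty1 (X z : ℝ) (n : Eis) : gty X z 1 n = if Ro z n then 1 else 0 := rfl

theorem deca_conv_ro {X z Z : ℝ} {f : Eis → ℂ} (hf : ∀ n, f n ≠ 0 → Ro z n) {n : Eis} (hn : n ≠ 0)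
    (hZ : N n ≤ Z) :
    (trc Z f * trc Z (gty X z 1)).coeff n = if Ro z n then ∑ d ∈ dp n, f d else 0 := by
  rw [deca_conv (fun n h => (hf n h).1) hn hZ]
  split_ifs with h
  · refine Finset.sum_congr rfl fun d hd => ?_
    obtain ⟨h1, h2⟩ := (mem_dp hn).1 hd
    rw [deca_gty1, if_pos (h.of_dvd (prim_div h1 h.1 h2) (EuclideanDomain.div_dvd_of_dvd h2)),
      mul_one]
  · refine Finset.sum_eq_zero fun d hd => ?_
    obtain ⟨h1, h2⟩ := (mem_dp hn).1 hd
    by_cases h3 : f d = 0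
    · rw [h3, zero_mul]
    · rw [deca_gty1, if_neg, mul_zero]
      intro h4
      have h5 := (hf d h3).mul h4
      rw [EuclideanDomain.mul_div_cancel' h1.ne_zero h2] at h5
      exact h h5

theorem deca_N_prod {ι : Type} (s : Finset ι) (f : ι → Eis) : N (∏ i ∈ s, f i) = ∏ i ∈ s, N (f i) := by
  induction s using Finset.induction_on with
  | empty => simp
  | insert a s ha ih => rw [Finset.prod_insert ha, Finset.prod_insert ha, N_mul, ih]

theorem deca_sum_Lam {n : Eis} (hn : PS n) : ∑ d ∈ dp n, Lam d = Real.log (N n) := by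
  have h0 := hn.ne_zero
  conv_rhs => rw [← prod_pf hn, deca_N_prod, Real.log_prod fun p hp =>
    (N_pos ((mem_pf h0).1 hp).1.ne_zero).ne']
  symm
  refine Finset.sum_subset_zero_on_sdiff (fun p hp => ?_) (fun d hd => ?_) fun p hp => ?_
  · exact (mem_dp h0).2 ((mem_pf h0).1 hp).2
  · rw [Finset.mem_sdiff, mem_dp h0, mem_pf h0] at hd
    exact if_neg fun k => hd.2 ⟨k.2, hd.1⟩
  · obtain ⟨h1, h2, -⟩ := (mem_pf h0).1 hp
    exact (if_pos ⟨h2, h1⟩).symm

theorem deca_tup (X z : ℝ) (ty : Fin 6 → Fin 3) (g : Eis → ℂ) (n : Eis) :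
    tup X z ty (fun x => if ∏ i, x i = n then g (x 0) else 0) =
      (trc (X ^ 2) (fun m => gty X z (ty 0) m * g m) *
        ∏ i : Fin 5, trc (X ^ 2) (gty X z (ty i.succ))).coeff n := by
  have h := pr_prod (ι := Fin 6) (X ^ 2) (Fin.cons (α := fun _ => Eis → ℂ)
    (fun m => gty X z (ty 0) m * g m) fun i : Fin 5 => gty X z (ty i.succ))
    fun m => if m = n then 1 else 0
  rw [Fin.prod_univ_succ] at h
  simp only [Fin.cons_zero, Fin.cons_succ] at h
  rw [coeff_eq_pr, h]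
  refine Finset.sum_congr rfl fun x _ => ?_
  rw [Fin.prod_univ_succ fun i => gty X z (ty i) (x i), Fin.prod_univ_succ fun i =>
    Fin.cons (α := fun _ => Eis → ℂ) (fun m => gty X z (ty 0) m * g m)
      (fun i : Fin 5 => gty X z (ty i.succ)) i (x i)]
  simp only [Fin.cons_zero, Fin.cons_succ]
  split_ifs <;> ring

theorem deca_trc0 {X : ℝ} (hX : 1 ≤ X) (z : ℝ) : trc (X ^ 2) (gty X z 0) = 1 := by
  ext n
  rw [coeff_trc, deca_coeff_one]
  show (if n ∈ ball (X ^ 2) then if n = 1 then 1 else 0 else 0) = _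
  by_cases h : n = 1
  · rw [h, if_pos (mem_ball.2 ⟨one_ne_zero, by rw [N_one]; exact one_le_pow₀ hX⟩)]
  · simp [h]

theorem deca_sum {X : ℝ} (hX : 1 ≤ X) (z : ℝ) (g : Eis → ℂ) (n : Eis) :
    ∑ j, cfv j * tup X z (tyv j) (fun x => if ∏ i, x i = n then g (x 0) else 0) =
      (trc (X ^ 2) (fun m => gty X z 1 m * g m) * (trc (X ^ 2) (gty X z 2) *
        (1 + (1 - trc (X ^ 2) (gty X z 2) * trc (X ^ 2) (gty X z 1)) +
          (1 - trc (X ^ 2) (gty X z 2) * trc (X ^ 2) (gty X z 1)) ^ 2))).coeff n := by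
  simp only [deca_tup, Fin.sum_univ_three, Fin.prod_univ_five]
  show 3 * (trc (X ^ 2) (fun m => gty X z 1 m * g m) * (trc (X ^ 2) (gty X z 0) *
      trc (X ^ 2) (gty X z 0) * trc (X ^ 2) (gty X z 2) * trc (X ^ 2) (gty X z 0) *
      trc (X ^ 2) (gty X z 0))).coeff n +
    -3 * (trc (X ^ 2) (fun m => gty X z 1 m * g m) * (trc (X ^ 2) (gty X z 1) *
      trc (X ^ 2) (gty X z 0) * trc (X ^ 2) (gty X z 2) * trc (X ^ 2) (gty X z 2) *
      trc (X ^ 2) (gty X z 0))).coeff n +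
    1 * (trc (X ^ 2) (fun m => gty X z 1 m * g m) * (trc (X ^ 2) (gty X z 1) *
      trc (X ^ 2) (gty X z 1) * trc (X ^ 2) (gty X z 2) * trc (X ^ 2) (gty X z 2) *
      trc (X ^ 2) (gty X z 2))).coeff n = _
  rw [deca_trc0 hX]
  generalize trc (X ^ 2) (fun m => gty X z 1 m * g m) = A
  generalize trc (X ^ 2) (gty X z 1) = U
  generalize trc (X ^ 2) (gty X z 2) = M
  have e : A * (M * (1 + (1 - M * U) + (1 - M * U) ^ 2)) = A * (1 * 1 * M * 1 * 1) +
      A * (1 * 1 * M * 1 * 1) + A * (1 * 1 * M * 1 * 1) - A * (U * 1 * M * M * 1) -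
      A * (U * 1 * M * M * 1) - A * (U * 1 * M * M * 1) + A * (U * U * M * M * M) := by ring
  rw [e]
  simp only [MonoidAlgebra.coeff_add, MonoidAlgebra.coeff_sub, Finsupp.add_apply,
    Finsupp.sub_apply]
  ring

theorem deca_R {X : ℝ} (hX : 1 ≤ X) (z : ℝ) {n : Eis}
    (h : (1 - trc (X ^ 2) (gty X z 2) * trc (X ^ 2) (gty X z 1)).coeff n ≠ 0) :
    Prim n ∧ X ^ (7 / 20 : ℝ) < N n := by
  have h1 := (decaS.one.sub (by
    simpa using (decaS.trc (X ^ 2) fun n h => (gty_ro (X := X) (z := z) (ty := 2) h).1).mul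
      (decaS.trc (X ^ 2) fun n h => (gty_ro (X := X) (z := z) (ty := 1) h).1) zero_le_one) n h).1
  refine ⟨h1, not_le.1 fun hle => h ?_⟩
  have h2 : X ^ (7 / 20 : ℝ) ≤ X ^ 2 := by
    rw [← Real.rpow_natCast]
    exact Real.rpow_le_rpow_of_exponent_le hX (by norm_num)
  rw [MonoidAlgebra.coeff_sub, Finsupp.sub_apply, deca_conv_ro (fun n h => gty_ro h) h1.ne_zero
    (hle.trans h2), deca_coeff_one, sub_eq_zero]
  split_ifs with h3 h4 h4
  · rw [h3, ← dv_eq_dp PS.one, dv_one, Finset.sum_singleton]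
    show _ = if Ro z 1 ∧ N 1 ≤ X ^ (7 / 20 : ℝ) then mu 1 else 0
    rw [if_pos ⟨Ro.one z, h3 ▸ hle⟩, mu_one]
  · exact absurd (h3 ▸ Ro.one z) h4
  · have h5 := sum_mu_prim h1
    rw [if_neg h3] at h5
    rw [← h5]
    refine Finset.sum_subset_zero_on_sdiff (dv_subset_dp n) (fun d hd => ?_) fun d hd => ?_
    · rw [Finset.mem_sdiff, mem_dp h1.ne_zero, mem_dv h1.ne_zero] at hd
      show (if Ro z d ∧ N d ≤ X ^ (7 / 20 : ℝ) then mu d else 0) = 0
      rw [not_not.1 (mu_ne_zero.not.2 fun k => hd.2 ⟨k, hd.1.2⟩), ite_self]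
    · obtain ⟨h6, h7⟩ := (mem_dv h1.ne_zero).1 hd
      show _ = if Ro z d ∧ N d ≤ X ^ (7 / 20 : ℝ) then mu d else 0
      rw [if_pos ⟨h4.of_dvd h6.1 h7, (N_le_of_dvd h1.ne_zero h7).trans hle⟩]
  · rfl

theorem deca_R3 {X : ℝ} (hX : 1 ≤ X) (z : ℝ) {A : Sq} (hA : decaS 1 A) {n : Eis}
    (h : N n ≤ X ^ (21 / 20 : ℝ)) :
    (A * (1 - trc (X ^ 2) (gty X z 2) * trc (X ^ 2) (gty X z 1)) ^ 3).coeff n = 0 := by
  by_contra hc
  rw [pow_succ, ← mul_assoc] at hc
  obtain ⟨m, m', h1, h2, rfl⟩ := deca_mul_ne hc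
  have hR : decaS (X ^ (7 / 20 : ℝ)) (1 - trc (X ^ 2) (gty X z 2) * trc (X ^ 2) (gty X z 1)) :=
    fun n h => ⟨(deca_R hX z h).1, (deca_R hX z h).2.le⟩
  have h0 : 0 < X ^ (7 / 20 : ℝ) := by positivity
  rw [pow_two] at h1
  have h3 := ((hA.mul (hR.mul hR h0.le) (by positivity)) m h1).2
  have h4 := (deca_R hX z h2).2
  have e : X ^ (21 / 20 : ℝ) = 1 * (X ^ (7 / 20 : ℝ) * X ^ (7 / 20 : ℝ)) * X ^ (7 / 20 : ℝ) := by
    rw [one_mul, ← Real.rpow_add (by linarith), ← Real.rpow_add (by linarith)]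
    norm_num
  rw [N_mul, e] at h
  exact absurd h (not_le.2 (mul_lt_mul' h3 h4 h0.le (lt_of_lt_of_le (by positivity) h3)))

/-- Work in Sq with U = trc (gty 1), M = trc (gty 2), Lg = trc (gty 1 * log N), P = trc (Lam on rough
elements). Modulo sequences vanishing at squarefree primary n with N n ≤ X ^ (21/20) (an ideal for
sequences supported on primary elements) P U = Lg, and (1 - M U) ^ 3 = 0 because 1 - M U vanishes for
N n ≤ X ^ (7/20) (sum_mu_prim). Expand P (1 - M U) ^ 3 and (1 - M U) ^ 3; pr_prod, coeff_eq_pr. -/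
theorem hbi {X : ℝ} (hX : 1 ≤ X) (z : ℝ) {n : Eis} (hn : PS n) (h : N n ≤ X ^ (21 / 20 : ℝ)) :
    ∑ j, cfv j * tup X z (tyv j) (fun x => if ∏ i, x i = n then (Real.log (N (x 0)) : ℂ) else 0) =
      (if Ro z n then (Lam n : ℂ) else 0) ∧
    ∑ j, cfv j * tup X z (tyv j) (fun x => if ∏ i, x i = n then 1 else 0) =
      if n = 1 then 1 else 0 := by
  have h2 : N n ≤ X ^ 2 := h.trans (by
    rw [← Real.rpow_natCast]
    exact Real.rpow_le_rpow_of_exponent_le hX (by norm_num))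
  have sU := decaS.trc (X ^ 2) fun n h => (gty_ro (X := X) (z := z) (ty := 1) h).1
  constructor
  · rw [deca_sum hX z (fun m => (Real.log (N m) : ℂ)) n]
    have hP : ∀ m, (if Ro z m then (Lam m : ℂ) else 0) ≠ 0 → Ro z m := fun m hm => by
      by_contra k
      exact hm (if_neg k)
    have sP := decaS.trc (X ^ 2) fun m hm => (hP m hm).1
    have sL := decaS.trc (X ^ 2) (f := fun m => gty X z 1 m * (Real.log (N m) : ℂ))
      fun m hm => (gty_ro (left_ne_zero_of_mul hm)).1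
    have sE := sL.sub (by simpa using sP.mul sU zero_le_one)
    have h3 := deca_R3 hX z sP h
    have h4 : ∀ a, PS a → N a ≤ X ^ 2 → (trc (X ^ 2) (fun m => gty X z 1 m * (Real.log (N m) : ℂ)) -
        trc (X ^ 2) (fun m => if Ro z m then (Lam m : ℂ) else 0) *
          trc (X ^ 2) (gty X z 1)).coeff a = 0 := by
      intro a ha hZ
      rw [MonoidAlgebra.coeff_sub, Finsupp.sub_apply, deca_conv_ro hP ha.ne_zero hZ, coeff_trc,
        if_pos (mem_ball.2 ⟨ha.ne_zero, hZ⟩), deca_gty1, sub_eq_zero]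
      split_ifs with hr
      · rw [one_mul, ← deca_sum_Lam ha]
        push_cast
        refine Finset.sum_congr rfl fun d hd => ?_
        obtain ⟨h5, h6⟩ := (mem_dp ha.ne_zero).1 hd
        rw [if_pos (hr.of_dvd h5 h6)]
      · rw [zero_mul]
    have h5 := coeff_trc (X ^ 2) (fun m => if Ro z m then (Lam m : ℂ) else 0) n
    rw [if_pos (mem_ball.2 ⟨hn.ne_zero, h2⟩)] at h5
    rw [← h5]
    generalize trc (X ^ 2) (fun m => gty X z 1 m * (Real.log (N m) : ℂ)) = A at *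
    generalize trc (X ^ 2) (fun m => if Ro z m then (Lam m : ℂ) else 0) = P at *
    generalize trc (X ^ 2) (gty X z 1) = U at *
    generalize trc (X ^ 2) (gty X z 2) = M at *
    have e : A * (M * (1 + (1 - M * U) + (1 - M * U) ^ 2)) = P - P * (1 - M * U) ^ 3 +
        (A - P * U) * (M * (1 + (1 - M * U) + (1 - M * U) ^ 2)) := by ring
    rw [e, MonoidAlgebra.coeff_add, MonoidAlgebra.coeff_sub, Finsupp.add_apply, Finsupp.sub_apply,
      h3, sub_zero, add_eq_left]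
    by_contra hc
    obtain ⟨m, m', k1, -, rfl⟩ := deca_mul_ne hc
    exact k1 (h4 m (hn.of_dvd (sE m k1).1 (dvd_mul_right _ _)).1
      ((N_le_of_dvd hn.ne_zero (dvd_mul_right _ _)).trans h2))
  · rw [deca_sum hX z (fun _ => 1) n, ← deca_coeff_one]
    have h3 := deca_R3 hX z decaS.one h
    simp only [mul_one]
    generalize trc (X ^ 2) (gty X z 1) = U at *
    generalize trc (X ^ 2) (gty X z 2) = M at *
    have e : U * (M * (1 + (1 - M * U) + (1 - M * U) ^ 2)) = 1 - 1 * (1 - M * U) ^ 3 := by ring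
    rw [e, MonoidAlgebra.coeff_sub, Finsupp.sub_apply, h3, sub_zero]

noncomputable def decaG (u : Fin 5 → ℝ) : ℝ := Real.exp (-(1 / 2 * (∑ i, u i ^ 2 + (∑ i, u i) ^ 2)))

theorem deca_int (k : Fin 5 → ℝ → ℝ) (hk : ∀ i, Integrable fun y => k i y * Real.exp (-(1 / 2) * y ^ 2))
    (hm : ∀ i, Continuous (k i)) : Integrable fun u : Fin 5 → ℝ => (∏ i, k i (u i)) * decaG u := by
  have h1 := Integrable.fintype_prod (μ := fun _ : Fin 5 => (volume : Measure ℝ)) hk
  refine Integrable.mono h1 (Continuous.aestronglyMeasurable (by unfold decaG; fun_prop))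
    (Filter.Eventually.of_forall fun u => ?_)
  rw [Finset.prod_mul_distrib, norm_mul, norm_mul, ← Real.exp_sum]
  refine mul_le_mul_of_nonneg_left ?_ (norm_nonneg _)
  unfold decaG
  rw [Real.norm_of_nonneg (Real.exp_pos _).le, Real.norm_of_nonneg (Real.exp_pos _).le,
    ← Finset.mul_sum]
  exact Real.exp_le_exp.2 (by nlinarith [sq_nonneg (∑ i, u i)])

theorem deca_int0 : Integrable decaG := by
  simpa using deca_int (fun _ _ => 1) (fun _ => by
    simpa using integrable_exp_neg_mul_sq (b := 1 / 2) (by norm_num)) fun _ => continuous_const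

theorem deca_int1 : Integrable fun u : Fin 5 → ℝ => u 0 * decaG u := by
  have h := deca_int (fun i y => if i = 0 then y else 1) (fun i => by
    split_ifs
    · exact integrable_mul_exp_neg_mul_sq (b := 1 / 2) (by norm_num)
    · simpa using integrable_exp_neg_mul_sq (b := 1 / 2) (by norm_num)) fun i => by
    split_ifs
    exacts [continuous_id, continuous_const]
  simpa [Finset.prod_ite_eq'] using h

theorem deca_odd : ∫ u : Fin 5 → ℝ, u 0 * decaG u = 0 := by
  have h := integral_neg_eq_self (fun u : Fin 5 → ℝ => u 0 * decaG u) volume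
  have h2 : ∀ u : Fin 5 → ℝ, (-u) 0 * decaG (-u) = -(u 0 * decaG u) := fun u => by
    simp [decaG]
  simp only [h2, integral_neg] at h
  linarith

/-- Put y i = ρ i - x i, s = ∑ x - L; the integrand is (x 0 + y 0) exp (- |y| ^ 2 / 2 - (∑ y + s) ^ 2 / 2).
Integrate one coordinate at a time (measurePreserving_piFinSuccAbove, integral_prod, one dimensional
Gaussian integrals): over n coordinates exp (- |y| ^ 2 / 2 - (∑ y + s) ^ 2 / 2) integrates to
c n exp (- s ^ 2 / (2 (n + 1))). -/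
theorem gauss_hyp : ∃ c : ℝ, 0 < c ∧ ∀ (L : ℝ) (x : Fin 6 → ℝ),
    Integrable (fun ρ : Fin 5 → ℝ =>
      hat L ρ 0 * ∏ i, Real.exp (-(1 / 2 * (x i - hat L ρ i) ^ 2))) ∧
    ∫ ρ : Fin 5 → ℝ, hat L ρ 0 * ∏ i, Real.exp (-(1 / 2 * (x i - hat L ρ i) ^ 2)) =
      c * Real.exp (-(1 / 12 * (∑ i, x i - L) ^ 2)) * (x 0 - (∑ i, x i - L) / 6) := by
  refine ⟨∫ u, decaG u, integral_exp_pos deca_int0, fun L x => ?_⟩
  set s := ∑ i, x i - L with hs
  set F : (Fin 5 → ℝ) → ℝ := fun u => Real.exp (-(1 / 12 * s ^ 2)) *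
    ((x 0 - s / 6) * decaG u + u 0 * decaG u) with hF
  have hI : Integrable F := ((deca_int0.const_mul _).add deca_int1).const_mul _
  have e : (fun ρ : Fin 5 → ℝ => hat L ρ 0 * ∏ i, Real.exp (-(1 / 2 * (x i - hat L ρ i) ^ 2))) =
      fun ρ => F (ρ - fun i => x i.castSucc - s / 6) := by
    funext ρ
    have h0 : hat L ρ 0 = ρ 0 := rfl
    have h1 : hat L ρ 1 = ρ 1 := rfl
    have h2 : hat L ρ 2 = ρ 2 := rfl
    have h3 : hat L ρ 3 = ρ 3 := rfl
    have h4 : hat L ρ 4 = ρ 4 := rfl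
    have h5 : hat L ρ 5 = L - ∑ i, ρ i := rfl
    simp only [hF, decaG]
    rw [← Real.exp_sum, ← add_mul, mul_left_comm, ← Real.exp_add]
    congr 1
    · simp [h0]
    · congr 1
      simp only [hs, Fin.sum_univ_six, Fin.sum_univ_five, h0, h1, h2, h3, h4, h5, Pi.sub_apply]
      simp only [Fin.castSucc_zero, Fin.castSucc_one, Fin.reduceCastSucc]
      ring
  rw [e]
  refine ⟨hI.comp_sub_right _, ?_⟩
  rw [integral_sub_right_eq_self F, hF]
  simp only []
  rw [integral_const_mul, integral_add (deca_int0.const_mul _) deca_int1, integral_const_mul,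
    deca_odd]
  ring

theorem box_eq_tup (X z : ℝ) (ty : Fin 6 → Fin 3) (ρ : Fin 6 → ℝ) (t : ℝ) :
    Box X z ty ρ t = tup X z ty (fun x => (∏ i, W2 (Real.exp (ρ i)) t (x i)) * Dl (∏ i, x i)) := by
  unfold Box fI fb tup
  rw [pr_prod]
  refine Finset.sum_congr rfl fun x _ => ?_
  rw [Finset.prod_mul_distrib, mul_assoc]

theorem deca_nit_prod {ι : Type} (s : Finset ι) (t : ℝ) {f : ι → Eis} (hf : ∀ i, f i ≠ 0) :
    ∏ i ∈ s, nit t (f i) = nit t (∏ i ∈ s, f i) := by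
  induction s using Finset.induction_on with
  | empty => simp [nit]
  | insert a s ha ih =>
    rw [Finset.prod_insert ha, Finset.prod_insert ha, ih,
      nit_mul t (hf a) (Finset.prod_ne_zero_iff.2 fun i _ => hf i)]

/-- Integration of the boxes over the hyperplane. -/
theorem integral_box : ∃ c : ℝ, 0 < c ∧ ∀ (X z t : ℝ) (ty : Fin 6 → Fin 3), 0 < X →
    Integrable (fun ρ : Fin 5 → ℝ =>
      (hat (Real.log X) ρ 0 : ℂ) * Box X z ty (hat (Real.log X) ρ) t) ∧
    ∫ ρ : Fin 5 → ℝ, (hat (Real.log X) ρ 0 : ℂ) * Box X z ty (hat (Real.log X) ρ) t =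
      c * tup X z ty (fun x => ((Real.log (N (x 0)) - Real.log (N (∏ i, x i) / X) / 6 : ℝ) : ℂ) *
        (Dl (∏ i, x i) * (lg (1 / 12) (N (∏ i, x i) / X) : ℂ) * nit t (∏ i, x i))) := by
  obtain ⟨c, hc, hg⟩ := gauss_hyp
  refine ⟨c, hc, fun X z t ty hX => ?_⟩
  have hx : ∀ x ∈ Fintype.piFinset (fun _ : Fin 6 => ball (X ^ 2)), ∀ i, x i ≠ 0 :=
    fun x hx i => (mem_ball.1 (Fintype.mem_piFinset.1 hx i)).1
  have e : (fun ρ : Fin 5 → ℝ => (hat (Real.log X) ρ 0 : ℂ) * Box X z ty (hat (Real.log X) ρ) t) =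
      fun ρ => ∑ x ∈ Fintype.piFinset (fun _ : Fin 6 => ball (X ^ 2)),
        ((∏ i, gty X z (ty i) (x i)) * (Dl (∏ i, x i) * nit t (∏ i, x i))) *
        ((hat (Real.log X) ρ 0 * ∏ i, Real.exp (-(1 / 2 *
          (Real.log (N (x i)) - hat (Real.log X) ρ i) ^ 2)) : ℝ) : ℂ) := by
    funext ρ
    rw [box_eq_tup, tup, Finset.mul_sum]
    refine Finset.sum_congr rfl fun x h => ?_
    simp only [W2, lg, fun i r => Real.log_div (N_pos (hx x h i)).ne' (Real.exp_pos r).ne',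
      Real.log_exp]
    rw [Finset.prod_mul_distrib, deca_nit_prod _ t (hx x h), Complex.ofReal_mul,
      Complex.ofReal_prod]
    ring
  have hI : ∀ x : Fin 6 → Eis, Integrable fun ρ : Fin 5 → ℝ =>
      ((∏ i, gty X z (ty i) (x i)) * (Dl (∏ i, x i) * nit t (∏ i, x i))) *
        ((hat (Real.log X) ρ 0 * ∏ i, Real.exp (-(1 / 2 *
          (Real.log (N (x i)) - hat (Real.log X) ρ i) ^ 2)) : ℝ) : ℂ) := fun x =>
    (hg (Real.log X) fun i => Real.log (N (x i))).1.ofReal.const_mul _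
  rw [e]
  refine ⟨integrable_finsetSum _ fun x _ => hI x, ?_⟩
  rw [integral_finsetSum _ fun x _ => hI x, tup, Finset.mul_sum]
  refine Finset.sum_congr rfl fun x h => ?_
  have h1 : Real.log (N (∏ i, x i) / X) = ∑ i, Real.log (N (x i)) - Real.log X := by
    rw [Real.log_div (N_pos (Finset.prod_ne_zero_iff.2 fun i _ => hx x h i)).ne' hX.ne',
      deca_N_prod, Real.log_prod fun i _ => (N_pos (hx x h i)).ne']
  rw [integral_const_mul, integral_complex_ofReal, (hg (Real.log X) fun i => Real.log (N (x i))).2, lg, h1,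
    Complex.ofReal_mul, Complex.ofReal_mul]
  ring

end Vale.Agent.P006
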