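import Vale.Agent.P026.Defs

/-! Definitions shared by all files of the P006 development. -/

namespace Vale.Agent.P006

open Vale.Agent.P026 Eis Complex MeasureTheory
open scoped Classical ComplexConjugate

noncomputable section

/-! ### Arithmetic -/

/-- Primary and squarefree. -/
def PS (c : Eis) : Prop := Prim c ∧ Squarefree c
/-- Moebius function on primary squarefree elements. -/
def mu (c : Eis) : ℂ :=
  if PS c then (-1) ^ Multiset.card (UniqueFactorizationMonoid.factors c) else 0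
/-- Primary squarefree divisors. -/
def dv (n : Eis) : Finset Eis := (ball (N n)).filter (fun d => PS d ∧ d ∣ n)
/-- Primary divisors. -/
def dp (n : Eis) : Finset Eis := (ball (N n)).filter (fun d => Prim d ∧ d ∣ n)
/-- Primary prime divisors. -/
def pf (n : Eis) : Finset Eis := (ball (N n)).filter (fun p => Prime p ∧ Prim p ∧ p ∣ n)
/-- Primary squarefree D with D ^ 2 dividing h. -/
def sqd (h : Eis) : Finset Eis := (dv h).filter (fun D => D ^ 2 ∣ h)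
/-- Primary squarefree elements of norm at most K. -/
def PB (K : ℝ) : Finset Eis := (ball K).filter PS
/-- Primary squarefree elements of norm in (K / 2, K]. -/
def PD (K : ℝ) : Finset Eis := (PB K).filter (fun n => K / 2 < N n)
/-- Primary with all prime factors of norm above z. -/
def Ro (z : ℝ) (n : Eis) : Prop := Prim n ∧ ∀ p, Prime p → p ∣ n → z < N p
/-- Primary with all prime factors of norm at most z. -/
def Smo (z : ℝ) (n : Eis) : Prop := Prim n ∧ ∀ p, Prime p → p ∣ n → N p ≤ z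
/-- Cubes. -/
def Cube (h : Eis) : Prop := ∃ m : Eis, h = m ^ 3
/-- The nine elements ω ^ i λ ^ a. -/
def S9 : Finset Eis := (Finset.range 3 ×ˢ Finset.range 3).image (fun p => om ^ p.1 * lam ^ p.2)
/-- Cube free kernels. -/
def Ker (q : Eis) : Prop :=
  ∃ s ∈ S9, ∃ k1 k2 : Eis, PS k1 ∧ PS k2 ∧ IsCoprime k1 k2 ∧ q = s * k1 * k2 ^ 2
/-- Kernels whose radical has norm at most F. -/
def KerF (F : ℝ) (q : Eis) : Prop :=
  ∃ s ∈ S9, ∃ k1 k2 : Eis, PS k1 ∧ PS k2 ∧ IsCoprime k1 k2 ∧ q = s * k1 * k2 ^ 2 ∧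
    N k1 * N k2 ≤ F
/-- Primary primes of norm at most z. -/
def pz (z : ℝ) : Finset Eis := (ball z).filter (fun p => Prime p ∧ Prim p)
/-- Largest key of a prime divisor of norm at most z. -/
def kp (z : ℝ) (key : Eis → ℕ) (n : Eis) : ℕ := ((pf n).filter (fun p => N p ≤ z)).sup key
/-- First crossing of the level D. -/
def Cr (z D : ℝ) (key : Eis → ℕ) (δ : Eis) : Prop :=
  PS δ ∧ Smo z δ ∧ D < N δ ∧ ∃ p ∈ pf δ, key p = kp z key δ ∧ N δ ≤ D * N p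
/-- Admissible keys: positive and injective on the primes of norm at most z. -/
def Key (z : ℝ) (key : Eis → ℕ) (J : ℕ) : Prop :=
  (∀ p ∈ pz z, 0 < key p ∧ key p < 2 ^ J) ∧ ∀ p ∈ pz z, ∀ q ∈ pz z, key p = key q → p = q
/-- Kernels of norm at most Q. -/
def KQ (Q : ℝ) : Finset Eis := (ball Q).filter Ker
/-- The cube free kernel of h has norm at most Q. -/
def Near (Q : ℝ) (h : Eis) : Prop := ∃ q l : Eis, Ker q ∧ N q ≤ Q ∧ h = q * l ^ 3

/-- The normalised cubic Gauss sum of the problem, extended by zero. -/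
def G (c : Eis) : ℂ := if PS c then cub 3 c * g3 c else 0
/-- The constant of the problem. -/
def cs : ℝ := (2 * Real.pi) ^ (2 / 3 : ℝ) / (3 * Real.Gamma (2 / 3))
/-- Gauss sum minus its model. -/
def Dl (c : Eis) : ℂ := G c - if PS c then ((cs * N c ^ (-(1 / 6) : ℝ) : ℝ) : ℂ) else 0
/-- Euler totient divided by the norm. -/
def phi (c : Eis) : ℝ := (∑ d ∈ dv c, mu d / (N d : ℂ)).re
/-- Sum of 1 / N D over squarefree divisors. -/
def eta (n : Eis) : ℝ := ∑ D ∈ dv n, (N D)⁻¹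
/-- Sum of N D ^ (-2/3) over squarefree divisors. -/
def omw (n : Eis) : ℝ := ∑ D ∈ dv n, N D ^ (-(2 / 3) : ℝ)
/-- The normalised theta coefficients: th (e d ^ 3) = conj (G e) |d|. -/
def th (n : Eis) : ℂ :=
  ∑ d ∈ (ball (N n)).filter (fun d => Prim d ∧ d ^ 3 ∣ n), conj (G (n / d ^ 3)) * (ab d : ℂ)
/-- Logarithmic weight on primary primes. -/
def Lam (n : Eis) : ℝ := if Prim n ∧ Prime n then Real.log (N n) else 0
/-- The zeta value at 2 over primary elements. -/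
def zP : ℝ := ∑' d : Eis, if Prim d then (N d ^ 2)⁻¹ else 0

/-! ### Weights -/

/-- Polynomial weight for norms. -/
def vp (x : ℝ) : ℝ := x ^ 4 + x⁻¹ ^ 4
/-- Plain square norm. -/
def sq (S : Finset Eis) (a : Eis → ℂ) : ℝ := ∑ n ∈ S, ‖a n‖ ^ 2
/-- Weighted square norm at scale K. -/
def nw (S : Finset Eis) (a : Eis → ℂ) (K : ℝ) : ℝ := ∑ n ∈ S, ‖a n‖ ^ 2 * vp (N n / K)
/-- Logarithmic Gaussian exp (- c log ^ 2 x). -/
def lg (c x : ℝ) : ℝ := Real.exp (-(c * Real.log x ^ 2))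
/-- The box weight. -/
def W2 (Y t : ℝ) (c : Eis) : ℂ := (lg (1 / 2) (N c / Y) : ℂ) * nit t c
/-- Power times logarithmic Gaussian. -/
def gg (s : ℂ) (c Y x : ℝ) : ℂ := (x : ℂ) ^ s * (lg c (x / Y) : ℂ)
/-- The loss in the sharp large sieve. -/
def ell (Z : ℝ) : ℝ := Real.log (3 + Z) ^ (5 / 4 : ℝ)
/-- The sieving level. -/
def zz (X : ℝ) : ℝ := Real.exp (20 * Real.log X / Real.log (Real.log X))
/-- Centered Gaussian probability measure of standard deviation T. -/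
def muT (T : ℝ) : Measure ℝ := ProbabilityTheory.gaussianReal 0 (Real.toNNReal (T ^ 2))

/-- Its density. -/
def dens (T τ : ℝ) : ℝ := (√(2 * Real.pi) * T)⁻¹ * Real.exp (-(τ ^ 2 / (2 * T ^ 2)))
/-- Quadratic subadditivity of a set function. -/
def SubQ (Φ : Finset Eis → ℝ) : Prop :=
  Φ ∅ ≤ 0 ∧ ∀ S T : Finset Eis, Disjoint S T → ∀ θ : ℝ, 0 < θ → θ < 1 →
    Φ (S ∪ T) ≤ Φ S / θ + Φ T / (1 - θ)

/-! ### Quadratic forms -/

/-- The self-dual kernel. -/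
def KK (c1 c2 h : Eis) : ℂ :=
  ∑ D ∈ dv c1, if D ∣ c2 ∧ D ^ 2 ∣ h then (N D : ℂ) * (cub h (c1 / D) * conj (cub h (c2 / D))) else 0
/-- One term of the second moment. -/
def qt (S : Finset Eis) (γ : Eis → ℂ) (h D : Eis) : ℝ :=
  N D * ‖∑ n ∈ S.filter (fun n => D ∣ n), γ n * cub h (n / D)‖ ^ 2
/-- The second moment over all frequencies up to H. -/
def QC (S : Finset Eis) (γ : Eis → ℂ) (H : ℝ) : ℝ := ∑ h ∈ ball H, ∑ D ∈ sqd h, qt S γ h D
/-- Twist by N n ^ (i τ). -/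
def tw (γ : Eis → ℂ) (τ : ℝ) (n : Eis) : ℂ := γ n * nit τ n
/-- Averaged second moment. -/
def QA (μ : Measure ℝ) (S : Finset Eis) (γ : Eis → ℂ) (H : ℝ) : ℝ := ∫ τ, QC S (tw γ τ) H ∂μ
/-- The pair (h, D) is far from the cubes. -/
def Far (Q0 D0 : ℝ) (h D : Eis) : Prop := D0 < N D ∨ ¬ Near (Q0 * N D) (h / D ^ 2)
/-- The far part of the second moment. -/
def FAR (S : Finset Eis) (γ : Eis → ℂ) (H Q0 D0 : ℝ) : ℝ :=
  ∑ h ∈ ball H, ∑ D ∈ sqd h, if Far Q0 D0 h D then qt S γ h D else 0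
/-- The near part of the second moment. -/
def NEAR (S : Finset Eis) (γ : Eis → ℂ) (H Q0 D0 : ℝ) : ℝ :=
  ∑ h ∈ ball H, ∑ D ∈ sqd h, if Far Q0 D0 h D then 0 else qt S γ h D
/-- The squarefree large sieve form. -/
def QL (M : ℝ) (S : Finset Eis) (a : Eis → ℂ) : ℝ := ∑ m ∈ PB M, ‖∑ n ∈ S, a n * cub m n‖ ^ 2
/-- The large sieve hypothesis used in the recursion. -/
def LSf (f r N0 : ℝ) : Prop :=
  ∀ M K : ℝ, 0 < M → 0 < K → K ≤ N0 → ∀ a : Eis → ℂ, QL M (PB K) a ≤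
    f * (M + K + (M * K) ^ (2 / 3 : ℝ) + r ^ (2 / 3 : ℝ) * M ^ (4 / 3 : ℝ)) * sq (PB K) a
/-- A kernel has a Mellin representation on the line σ with even majorant ρ. -/
def Rep (k : ℝ → ℂ) (σ : ℝ) (ρ : ℝ → ℝ) : Prop :=
  ∃ φ : ℝ → ℂ, Integrable φ ∧ (∀ τ, ‖φ τ‖ ≤ ρ τ) ∧
    ∀ y : ℝ, 0 < y → k y = ∫ τ : ℝ, φ τ * (y : ℂ) ^ (-((σ : ℂ) + τ * I))
/-- The coefficients after separation of variables. -/
def sc (γ : Eis → ℂ) (K a : ℝ) (n : Eis) : ℂ := γ n * (((N n / K) ^ a : ℝ) : ℂ)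
/-- Weighted second moment over the pairs (h, D) satisfying P. -/
def wq (σ H : ℝ) (S : Finset Eis) (γ : Eis → ℂ) (Hs : Finset Eis) (P : Eis → Eis → Prop) : ℝ :=
  ∑ h ∈ Hs, ∑ D ∈ sqd h, if P h D then (N h / H) ^ (-σ) * qt S γ h D else 0
/-- The dual sum with kernel k over the pairs (h, D) satisfying P. -/
def bq (k : ℝ → ℂ) (e : Eis → ℂ) (S : Finset Eis) (β : Eis → ℂ) (Hs : Finset Eis)
    (P : Eis → Eis → Prop) : ℂ :=
  ∑ h ∈ Hs, e h * ∑ D ∈ sqd h, if P h D then (N D : ℂ) *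
    ∑ c1 ∈ S.filter (fun n => D ∣ n), ∑ c2 ∈ S.filter (fun n => D ∣ n),
      β c1 * conj (β c2) / ((ab c1 * ab c2 : ℝ) : ℂ) *
        (cub h (c1 / D) * conj (cub h (c2 / D))) * k (N h / (N c1 * N c2)) else 0
/-- The radial weights w and k form a Poisson pair. -/
def PP (w k : ℝ → ℂ) : Prop :=
  Summable (fun m : Eis => ‖w (N m)‖) ∧ (∀ a : ℝ, 0 < a → Summable (fun h : Eis => ‖k (N h / a)‖)) ∧
    ∀ c : Eis, c ≠ 0 → ∀ F : Eis → ℂ, Per c F →
      ∑' m : Eis, F m * w (N m) = (N c : ℂ)⁻¹ * ∑' h : Eis, gauss F c h * k (N h / N c)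
/-- The weighted large sieve for small conductors, averaged over μ. -/
def OSP (μ : Measure ℝ) (θ C0 : ℝ) : Prop :=
  ∀ Q M : ℝ, 1 ≤ Q → 0 < M → ∀ S : Finset Eis, S ⊆ PB M → ∀ a : Eis → ℂ,
    ∫ τ, ∑ q ∈ KQ Q, ‖∑ m ∈ S, tw a τ m * cub q m‖ ^ 2 ∂μ ≤
      C0 * (θ * M + Q ^ 3 * √M) * ∑ m ∈ S, ‖a m‖ ^ 2 / omw m
/-- The bilinear form in the differences. -/
def Bil (S T : Finset Eis) (α β : Eis → ℂ) : ℂ := ∑ a ∈ S, ∑ b ∈ T, α a * β b * Dl (a * b)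

/-! ### Theta function -/

/-- The series attached to a coefficient sequence. -/
def Ph (a : Eis → ℂ) (v : ℝ) : ℂ := ∑' r : Eis, a r / (ab r : ℂ) * (kap (ab r * v) : ℂ)
/-- The Voronoi identity with a polar term. -/
def Vor0 (a b : Eis → ℂ) (Q : ℝ) (m : ℂ) : Prop :=
  ∀ v : ℝ, 0 < v → Ph a v = m * ((v ^ (-(2 / 3) : ℝ) : ℝ) : ℂ) + Ph b (1 / (Q * v))
/-- The polar coefficient for the modulus b. -/
def mainC (c : ℂ) (b : Eis) : ℂ :=
  c * ((c0 ^ (-(1 / 3) : ℝ) * Real.Gamma (2 / 3) * phi b * N b ^ (-(1 / 6) : ℝ) : ℝ) : ℂ) * G b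
/-- What the analytic part uses about the theta function. -/
def TP (c : ℂ) : Prop :=
  ∃ y : Eis → Eis → ℂ, (∀ b, y b 0 = 0) ∧ (∀ b, PS b → ∃ Cb : ℝ, ∀ r, ‖y b r‖ ≤ Cb * ab r) ∧
    (∀ e : ℝ, 0 < e → ∃ C : ℝ, 0 < C ∧ ∀ b, PS b →
      Summable (fun r => ‖y b r‖ * N r ^ (-(1 + e))) ∧
      ∑' r, ‖y b r‖ * N r ^ (-(1 + e)) ≤ C * N b ^ (e - 1 / 2)) ∧
    ∀ b, PS b → Vor0 (fun a => th a * cub a b) (y b) (N b / 3) (mainC c b)
/-- The polar integral for the weight W. -/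
def MI (Y t : ℝ) : ℂ := ∫ x in Set.Ioi (0 : ℝ), gg (-(1 / 6) + t * I) 1 Y x
/-- The basic residue. -/
def Z0 : ℝ := c0 * Real.Gamma (4 / 3) / zP
/-- The constant term at the essential cusps. -/
def sg0 : ℝ := Real.pi * (9 * Z0) / V9
/-- Essential classes modulo 3. -/
def Ess (j : Eis) : Prop := (3 : Eis) ∣ j ∨ (3 : Eis) ∣ j - 1 ∨ (3 : Eis) ∣ j + 1
/-- The weight in the mean square budget. -/
def JJ (x : ℝ) : ℝ := ∫ v in Set.Ioc (1 / 3 : ℝ) 1, kap (x * v) ^ 2 / v ^ 3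
/-- Hecke relations at all primary primes. -/
structure Hk (tau : Eis → Eis → Eis → ℂ) : Prop where
  cube : ∀ A q r p, Prime p → Prim p → tau A q (r * p ^ 3) = (ab p : ℂ) * tau A q r
  sq : ∀ A q r p, Prime p → Prim p → ¬ p ∣ r → tau A q (r * p ^ 2) = 0
  one : ∀ A q r p, Prime p → Prim p → ¬ p ∣ r →
    tau A q (r * p) = conj (cub 9 p) * cub r p * conj (g3 p) * tau A q r
/-- The moment of the fixed test function. -/
def M0 : ℂ := ∫ y in Set.Ioi (0 : ℝ), ((y ^ (-(2 / 3) : ℝ) : ℝ) : ℂ) * phi0 y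
/-- The theta function with its coefficients, Hecke relations and residue formula. -/
structure TH (θ : HF → ℂ) (tau : Eis → Eis → Eis → ℂ) : Prop where
  isT : IsTheta θ
  isC : IsCoef θ tau
  hk : Hk tau
  lim : ∀ A q r, r ≠ 0 → Filter.Tendsto (Rs (kapS A q) r phi0) (nhdsWithin 0 (Set.Ioi 0))
    (nhds (tau A q r * ((V9 * ab r ^ (-(1 / 3) : ℝ) / Real.pi : ℝ) : ℂ) * M0))
/-- The dual coefficients for the modulus b before normalisation. -/
def yraw (tau : Eis → Eis → Eis → ℂ) (b r : Eis) : ℂ :=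
  G b / (9 * (ab b : ℂ)) * gauss (cop b) b r * ∑ i ∈ res 3, psi 3 (-i) * tau 1 (-i) r

/-! ### Dispersion -/

/-- The weight of the dispersion sum. -/
def Vw (x : ℝ) : ℝ := kk (3 * c0 * √x)
/-- Its transform. -/
def Vh (y : ℝ) : ℝ := Real.Gamma (4 / 3) / (9 * c0) * (1 + y) ^ (-(4 / 3) : ℝ)
/-- The inner sum. -/
def Ua (S : Finset Eis) (β : Eis → ℂ) (a : Eis) : ℂ := ∑ b ∈ S, β b * G b * conj (cub a b)
/-- The model mass. -/
def bt (S : Finset Eis) (β : Eis → ℂ) : ℂ := ∑ b ∈ S, β b * ((N b ^ (-(1 / 6) : ℝ) : ℝ) : ℂ)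
/-- The dispersion sum. -/
def DD (S : Finset Eis) (β : Eis → ℂ) (A : ℝ) : ℝ :=
  ∑' a : Eis, if Prim a then Vw (N a / A) *
    ‖Ua S β a - ((cs * N a ^ (-(1 / 6) : ℝ) : ℝ) : ℂ) * th a * bt S β‖ ^ 2 else 0
/-- The first term of the dispersion. -/
def S11 (S : Finset Eis) (β : Eis → ℂ) (A : ℝ) : ℝ :=
  ∑' a : Eis, if Prim a then Vw (N a / A) * ‖Ua S β a‖ ^ 2 else 0
/-- The cube frequencies. -/
def CU (S : Finset Eis) (β : Eis → ℂ) (A : ℝ) : ℂ :=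
  ∑ b1 ∈ S, ∑ b2 ∈ S, β b1 * conj (β b2) / ((ab b1 * ab b2 : ℝ) : ℂ) *
    ∑' h : Eis, if h ≠ 0 ∧ Cube h then
      cop b1 h * cop b2 h * ((A * Vh (A * N h / (N b1 * N b2)) : ℝ) : ℂ) else 0
/-- The Siegel-Walfisz type hypothesis. -/
def SW (S : Finset Eis) (β : Eis → ℂ) (B Q E : ℝ) : Prop :=
  ∀ q : Eis, q ≠ 0 → ¬ Cube q → N q ≤ Q → ∀ τ : ℝ,
    ‖∑ b ∈ S, tw (sc β B (-(1 / 4))) τ b * cub q b‖ ≤ E * (1 + |τ|)
/-- Low frequency weighted sum without the cube term. -/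
def E1 (S : Finset Eis) (γ : Eis → ℂ) (H H1 : ℝ) : ℝ :=
  wq (1 / 4) H S γ (ball H1) (fun h D => ¬ (Cube h ∧ D = 1))
/-- High frequency weighted sum. -/
def E2 (S : Finset Eis) (γ : Eis → ℂ) (H H1 K : ℝ) : ℝ :=
  wq (7 / 6) H S γ (ball K) (fun h _ => H1 < N h)
/-- The smooth sum over rough elements. -/
def RS (X z Y t : ℝ) (k : Eis) : ℂ :=
  ∑ m ∈ ball (X ^ 2), (if Ro z m then 1 else 0) * W2 Y t m * Dl (k * m)

/-! ### Boxes -/

/-- Finitely supported sequences with Dirichlet convolution. -/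
abbrev Sq : Type := MonoidAlgebra ℂ Eis
/-- Truncation of a function. -/
def trc (Z : ℝ) (f : Eis → ℂ) : Sq := ∑ n ∈ ball Z, MonoidAlgebra.single n (f n)
/-- Pairing with a function. -/
def pr (a : Sq) (F : Eis → ℂ) : ℂ := a.coeff.sum (fun n x => x * F n)
/-- Supported on z-rough elements of norm at most Z. -/
def Sup (a : Sq) (z Z : ℝ) : Prop := ∀ n, a.coeff n ≠ 0 → Ro z n ∧ N n ≤ Z
/-- The three types of variables: 0 is the unit mass, 1 the rough indicator, 2 the truncated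
Moebius function. -/
def gty (X z : ℝ) (ty : Fin 3) (n : Eis) : ℂ :=
  if ty = 0 then (if n = 1 then 1 else 0)
  else if ty = 1 then (if Ro z n then 1 else 0)
  else (if Ro z n ∧ N n ≤ X ^ (7 / 20 : ℝ) then mu n else 0)
/-- One localised variable. -/
def fb (X z : ℝ) (ty : Fin 3) (ρ t : ℝ) : Sq :=
  trc (X ^ 2) (fun n => gty X z ty n * W2 (Real.exp ρ) t n)
/-- Product of the variables indexed by I. -/
def fI (X z : ℝ) (ty : Fin 6 → Fin 3) (ρ : Fin 6 → ℝ) (t : ℝ) (I : Finset (Fin 6)) : Sq :=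
  ∏ i ∈ I, fb X z (ty i) (ρ i) t
/-- The sum over a box. -/
def Box (X z : ℝ) (ty : Fin 6 → Fin 3) (ρ : Fin 6 → ℝ) (t : ℝ) : ℂ :=
  pr (fI X z ty ρ t Finset.univ) Dl
/-- The point of the hyperplane with given first five coordinates. -/
def hat (L : ℝ) (ρ : Fin 5 → ℝ) : Fin 6 → ℝ := Fin.snoc (α := fun _ => ℝ) ρ (L - ∑ i, ρ i)
/-- The admissible region. -/
def Good (L : ℝ) (ρ : Fin 6 → ℝ) : Prop := ∑ i, ρ i = L ∧ ∀ i, -L ^ (2 / 3 : ℝ) ≤ ρ i
/-- The exceptional region. -/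
def Exc (L l : ℝ) (ρ : Fin 6 → ℝ) : Prop :=
  ∀ i, |ρ i| ≤ l ∨ |ρ i - L / 6| ≤ l ∨ |ρ i - L / 4| ≤ l ∨ |ρ i - L / 3| ≤ l
/-- The smoothed prime sum. -/
def SD (X t : ℝ) : ℂ :=
  ∑' n : Eis, (Lam n : ℂ) * Dl n * (lg (1 / 12) (N n / X) : ℂ) * nit t n
/-- The norm of one variable with the divisor weight. -/
def nv (X z : ℝ) (ty : Fin 3) (ρ : ℝ) : ℝ :=
  ∑ n ∈ ball (X ^ 2), ((dp n).card : ℝ) ^ 5 * ‖gty X z ty n‖ ^ 2 *
    lg 1 (N n / Real.exp ρ) * vp (N n / Real.exp ρ)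

end

end Vale.Agent.P006
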