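import Vale.Agent.P006.Ari
import Vale.Agent.P026.Geo2

/-! Lattice points in discs with square root error. -/

namespace Vale.Agent.P006

open Vale.Agent.P026 Eis Complex MeasureTheory Filter Topology
open scoped Classical ComplexConjugate

theorem gc_vol (z : ℂ) (ρ : ℝ) : ENNReal.ofReal ρ ^ 2 * ENNReal.ofReal Real.pi =
    ∑' y : Eis, ∫⁻ w in F9, (Metric.closedBall (-(9 * z)) ρ).indicator 1 (w + 9 * toC y) := by
  rw [← lintegral_F9 (f := (Metric.closedBall (-(9 * z)) ρ).indicator 1)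
    (measurable_one.indicator measurableSet_closedBall),
    lintegral_indicator_one measurableSet_closedBall, Complex.volume_closedBall,
    ← NNReal.coe_real_pi, ENNReal.ofReal_coe_nnreal]

theorem gc_mem (z w : ℂ) (y : Eis) (ρ : ℝ) :
    w + 9 * toC y ∈ Metric.closedBall (-(9 * z)) ρ ↔ ‖w + 9 * (z + toC y)‖ ≤ ρ := by
  rw [Metric.mem_closedBall, dist_eq_norm,
    show w + 9 * toC y - -(9 * z) = w + 9 * (z + toC y) by ring]

theorem gc_norm (u : ℂ) : ‖9 * u‖ = 9 * ‖u‖ := by
  rw [norm_mul]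
  norm_num

theorem gc_upper (z : ℂ) {R : ℝ} (s : Finset Eis) (hs : ∀ y ∈ s, normSq (z + toC y) ≤ R) :
    (s.card : ℝ) * V9 ≤ (9 * √R + 18) ^ 2 * Real.pi := by
  have h : ∑ _y ∈ s, ENNReal.ofReal V9 ≤
      ENNReal.ofReal (9 * √R + 18) ^ 2 * ENNReal.ofReal Real.pi := by
    rw [gc_vol z]
    refine le_trans (Finset.sum_le_sum fun y hy => le_of_eq ?_) (ENNReal.sum_le_tsum s)
    rw [← volume_F9, ← setLIntegral_one]
    refine setLIntegral_congr_fun measurableSet_F9 fun w hw => ?_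
    refine (Set.indicator_of_mem ((gc_mem z w y _).2 ?_) (1 : ℂ → ENNReal)).symm
    have h1 : ‖z + toC y‖ ≤ √R := Real.le_sqrt_of_sq_le (by rw [← normSq_eq_norm_sq]; exact hs y hy)
    have h2 := norm_add_le w (9 * (z + toC y))
    rw [gc_norm] at h2
    linarith [norm_le_of_mem_F9 hw]
  rw [Finset.sum_const, nsmul_eq_mul, ← ENNReal.ofReal_natCast,
    ← ENNReal.ofReal_mul (Nat.cast_nonneg _), ← ENNReal.ofReal_pow (by positivity),
    ← ENNReal.ofReal_mul (by positivity)] at h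
  exact (ENNReal.ofReal_le_ofReal_iff (by positivity)).1 h

theorem gc_lower (z : ℂ) {R : ℝ} (hR : 0 ≤ R) (s : Finset Eis)
    (hs : ∀ y, normSq (z + toC y) ≤ R → y ∈ s) (h2 : 2 ≤ √R) :
    (9 * √R - 18) ^ 2 * Real.pi ≤ (s.card : ℝ) * V9 := by
  have h : ENNReal.ofReal (9 * √R - 18) ^ 2 * ENNReal.ofReal Real.pi ≤
      ∑ _y ∈ s, ENNReal.ofReal V9 := by
    rw [gc_vol z, tsum_eq_sum (s := s)]
    · refine Finset.sum_le_sum fun y _ => ?_
      rw [← volume_F9, ← setLIntegral_one]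
      exact lintegral_mono fun w => Set.indicator_le_self' (fun _ _ => zero_le_one) _
    · intro y hy
      refine (setLIntegral_congr_fun (g := fun _ => 0) measurableSet_F9 fun w hw => ?_).trans
        lintegral_zero
      refine Set.indicator_of_notMem (fun k => hy (hs y ?_)) _
      rw [gc_mem] at k
      have h3 := norm_sub_le (w + 9 * (z + toC y)) w
      rw [add_sub_cancel_left, gc_norm] at h3
      have h4 : ‖z + toC y‖ ≤ √R := by linarith [norm_le_of_mem_F9 hw]
      rw [normSq_eq_norm_sq, ← Real.sq_sqrt hR]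
      exact pow_le_pow_left₀ (norm_nonneg _) h4 2
  rw [Finset.sum_const, nsmul_eq_mul, ← ENNReal.ofReal_natCast,
    ← ENNReal.ofReal_mul (Nat.cast_nonneg _), ← ENNReal.ofReal_pow (by linarith),
    ← ENNReal.ofReal_mul (by positivity)] at h
  exact (ENNReal.ofReal_le_ofReal_iff (mul_nonneg (Nat.cast_nonneg _) V9_pos.le)).1 h

/-- Shifted lattice. The translates of F9 tile the plane, so card * V9 lies between the areas of
the discs of radius 9 √R ± 18. -/
theorem gc_shift : ∃ C : ℝ, 0 < C ∧ ∀ (z : ℂ) (R : ℝ), 0 ≤ R → ∀ s : Finset Eis,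
    (∀ y, y ∈ s ↔ normSq (z + toC y) ≤ R) →
      |(s.card : ℝ) - 2 * Real.pi / √3 * R| ≤ C * (√R + 1) := by
  have hV := V9_pos
  have hp := Real.pi_pos
  refine ⟨324 * Real.pi / V9, by positivity, fun z R hR s hs => ?_⟩
  have h1 := gc_upper z s fun y hy => (hs y).1 hy
  have hr := Real.sqrt_nonneg R
  have hq := Real.sq_sqrt hR
  have h2 : (81 * R - 324 * √R) * Real.pi ≤ (s.card : ℝ) * V9 := by
    rcases le_total 2 √R with h | h
    · refine le_trans (mul_le_mul_of_nonneg_right ?_ hp.le) (gc_lower z hR s (fun y => (hs y).2) h)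
      nlinarith
    · exact (mul_nonpos_of_nonpos_of_nonneg (by nlinarith) hp.le).trans (by positivity)
  have h3 : (9 * √R + 18) ^ 2 = 81 * R + 324 * √R + 324 := by nlinarith
  have e : (s.card : ℝ) - 2 * Real.pi / √3 * R = ((s.card : ℝ) * V9 - 81 * R * Real.pi) / V9 := by
    have h4 : (0 : ℝ) < √3 := by positivity
    unfold V9
    field_simp
  rw [e, abs_div, abs_of_pos hV, div_mul_eq_mul_div]
  refine div_le_div_of_nonneg_right (abs_le.2 ⟨?_, ?_⟩) hV.le
  · nlinarith
  · rw [h3] at h1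
    nlinarith

theorem gc_fib {c : Eis} (hc : c ≠ 0) (x : Eis) (B : Finset Eis) :
    ∃ s : Finset Eis, ∀ y, y ∈ s ↔ x + c * y ∈ B :=
  ⟨B.preimage (fun y => x + c * y) fun _ _ _ _ h => mul_left_cancel₀ hc (add_left_cancel h),
    fun _ => Finset.mem_preimage⟩

theorem gc_sum {c : Eis} (hc : c ≠ 0) {F : Eis → ℂ} (hF : Per c F) (B : Finset Eis)
    (s : Eis → Finset Eis) (hs : ∀ x y, y ∈ s x ↔ x + c * y ∈ B) :
    ∑ n ∈ B, F n = ∑ x ∈ res c, ((s x).card : ℂ) * F x := by
  have h0 : ∀ n, n ∉ B → (if n ∈ B then F n else 0) = 0 := fun n hn => if_neg hn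
  have h1 := tsum_res hc (summable_of_ne_finset_zero h0)
  rw [tsum_eq_sum h0, Finset.sum_congr rfl fun n hn => if_pos hn] at h1
  rw [h1]
  refine Finset.sum_congr rfl fun x _ => ?_
  rw [tsum_eq_sum (s := s x) fun y hy => if_neg fun k => hy ((hs x y).2 k),
    Finset.sum_congr rfl fun y hy => (if_pos ((hs x y).1 hy)).trans (hF x y),
    Finset.sum_const, nsmul_eq_mul]

theorem gc_normSq {c : Eis} (hc : c ≠ 0) (x y : Eis) :
    normSq (toC x / toC c + toC y) = N (x + c * y) / N c := by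
  have h : toC c ≠ 0 := fun k => hc (toC_inj (k.trans (map_zero toC).symm))
  rw [← normSq_toC, ← normSq_toC, ← normSq_div, map_add toC, map_mul toC, add_div,
    mul_div_cancel_left₀ _ h]

/-- Periodic functions. For R < 1 the ball is empty. -/
theorem gc : ∃ C : ℝ, 0 < C ∧ ∀ (c : Eis) (F : Eis → ℂ), c ≠ 0 → Per c F → Bd1 F →
    ∀ R : ℝ, 0 < R → ‖∑ n ∈ ball R, F n -
      ((2 * Real.pi / (√3 * N c) * R : ℝ) : ℂ) * ∑ x ∈ res c, F x‖ ≤ C * N c * √R := by
  obtain ⟨C, hC, h⟩ := gc_shift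
  have hp := Real.pi_pos
  have h3 : (0 : ℝ) < √3 := by positivity
  refine ⟨2 * C + 1 + 2 * Real.pi / √3, by positivity, fun c F hc hF hb R hR => ?_⟩
  have hN := one_le_N hc
  have hr := Real.sqrt_nonneg R
  have hq := Real.sq_sqrt hR.le
  have hT : 0 < 2 * Real.pi / √3 := by positivity
  rcases lt_or_ge R 1 with h1 | h1
  · rw [ball_eq_empty h1, Finset.sum_empty, zero_sub, norm_neg, norm_mul, norm_real,
      Real.norm_of_nonneg (by positivity)]
    have h4 : ‖∑ x ∈ res c, F x‖ ≤ N c := by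
      refine (norm_sum_le _ _).trans ((Finset.sum_le_sum fun x _ => hb x).trans ?_)
      rw [Finset.sum_const, nsmul_eq_mul, mul_one, card_res hc]
    refine (mul_le_mul_of_nonneg_left h4 (by positivity)).trans ?_
    have e : 2 * Real.pi / (√3 * N c) * R * N c = 2 * Real.pi / √3 * R := by field_simp
    have h5 : √R ≤ 1 := Real.sqrt_le_one.2 h1.le
    have h6 : R ≤ N c * √R := by nlinarith
    rw [e, mul_assoc]
    exact mul_le_mul (by linarith) h6 hR.le (by positivity)
  · choose s hs using fun x => gc_fib hc x (insert 0 (ball R))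
    have h0 : (0 : Eis) ∉ ball R := fun k => (mem_ball.1 k).1 rfl
    have h4 := gc_sum hc hF _ s hs
    rw [Finset.sum_insert h0] at h4
    have e : ∑ n ∈ ball R, F n - ((2 * Real.pi / (√3 * N c) * R : ℝ) : ℂ) * ∑ x ∈ res c, F x =
        ∑ x ∈ res c, ((((s x).card : ℝ) - 2 * Real.pi / √3 * (R / N c) : ℝ) : ℂ) * F x - F 0 := by
      rw [eq_sub_of_add_eq' h4, Finset.mul_sum, sub_right_comm, ← Finset.sum_sub_distrib]
      refine congrArg (· - F 0) (Finset.sum_congr rfl fun x _ => ?_)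
      push_cast
      ring
    have h5 : 1 ≤ √R := Real.one_le_sqrt.2 h1
    have h6 : ∀ x ∈ res c,
        ‖((((s x).card : ℝ) - 2 * Real.pi / √3 * (R / N c) : ℝ) : ℂ) * F x‖ ≤ 2 * C * √R := by
      intro x _
      have k := h (toC x / toC c) (R / N c) (by positivity) (s x) fun y => by
        rw [hs, gc_normSq hc, div_le_div_iff_of_pos_right (by linarith), Finset.mem_insert,
          mem_ball]
        refine ⟨fun k => k.elim (fun j => by rw [j, N_zero]; exact hR.le) fun j => j.2,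
          fun k => ?_⟩
        by_cases j : x + c * y = 0
        · exact Or.inl j
        · exact Or.inr ⟨j, k⟩
      have k2 : √(R / N c) ≤ √R := Real.sqrt_le_sqrt (div_le_self hR.le hN)
      rw [norm_mul, norm_real, Real.norm_eq_abs]
      refine (mul_le_of_le_one_right (abs_nonneg _) (hb x)).trans (k.trans ?_)
      nlinarith
    rw [e]
    refine (norm_sub_le _ _).trans ?_
    have h7 := (norm_sum_le _ _).trans (Finset.sum_le_sum h6)
    rw [Finset.sum_const, nsmul_eq_mul, card_res hc] at h7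
    have h8 : 1 ≤ N c * √R := one_le_mul_of_one_le_of_one_le hN h5
    have h9 : 0 ≤ 2 * Real.pi / √3 * (N c * √R) := by positivity
    nlinarith [hb 0]

theorem gc_one : ∃ C : ℝ, 0 < C ∧ ∀ R : ℝ, 0 < R →
    |((ball R).card : ℝ) - 2 * Real.pi / √3 * R| ≤ C * √R := by
  obtain ⟨C, hC, h⟩ := gc
  refine ⟨C, hC, fun R hR => ?_⟩
  have k := h 1 (fun _ => 1) one_ne_zero (fun _ _ => rfl) (fun _ => norm_one.le) R hR
  have e : ((res 1).card : ℂ) = 1 := by
    rw [← ofReal_natCast, card_res one_ne_zero, N_one, ofReal_one]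
  rw [Finset.sum_const, Finset.sum_const, nsmul_eq_mul, nsmul_eq_mul, e, N_one, mul_one, mul_one,
    mul_one, mul_one, mul_one, ← ofReal_natCast, ← ofReal_sub, norm_real, Real.norm_eq_abs] at k
  exact k

theorem gc_prim : ∃ C : ℝ, 0 < C ∧ ∀ R : ℝ, 0 < R →
    |(((ball R).filter Prim).card : ℝ) - c0 * R| ≤ C * √R := by
  obtain ⟨C, hC, h⟩ := gc
  refine ⟨C * 9, by positivity, fun R hR => ?_⟩
  have h3 : (3 : Eis) ≠ 0 := by decide
  have k := h 3 (cls 3 1) h3 (per_cls 3 1) (fun x => by unfold cls; split_ifs <;> simp) R hR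
  have e1 : ∑ x ∈ res 3, cls 3 1 x = 1 := by
    rw [← sum_cls h3 1]
    exact Finset.sum_congr rfl fun x _ => if_congr dvd_sub_comm rfl rfl
  have e2 : ∑ n ∈ ball R, cls 3 1 n = ((((ball R).filter Prim).card : ℝ) : ℂ) := by
    rw [ofReal_natCast, ← Finset.sum_boole]
    exact Finset.sum_congr rfl fun x _ => if_congr Iff.rfl rfl rfl
  have e3 : N 3 = 9 := by
    have := N_natCast 3
    norm_num at this
    exact this
  rw [e1, e2, e3, mul_one, ← ofReal_sub, norm_real, Real.norm_eq_abs, mul_comm (√3)] at k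
  exact k

theorem gc_pc {k : Eis} (hk : k ≠ 0) (R : ℝ) :
    (((ball R).filter (fun n => Prim n ∧ IsCoprime n k)).card : ℂ) =
      ∑ d ∈ dv k, mu d * (((ball (R / N d)).filter Prim).card : ℂ) := by
  have e1 : ∀ n ∈ ball R, (if Prim n ∧ IsCoprime n k then (1 : ℂ) else 0) =
      ∑ d ∈ dv k, if d ∣ n then mu d * (if Prim n then 1 else 0) else 0 := by
    intro n _
    by_cases hn : Prim n
    · simp only [hn, true_and, if_true, mul_one]
      rw [← cop_eq_sum hn hk, cop]
    · simp only [hn, false_and, if_false, mul_zero, ite_self, Finset.sum_const_zero]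
  rw [← Finset.sum_boole, Finset.sum_congr rfl e1, Finset.sum_comm]
  refine Finset.sum_congr rfl fun d hd => ?_
  have h1 := ((mem_dv hk).1 hd).1
  rw [← Finset.sum_filter, sum_ball_dvd h1.ne_zero, ← Finset.mul_sum, ← Finset.sum_boole]
  exact congrArg _ (Finset.sum_congr rfl fun m _ =>
    if_congr ⟨fun j => h1.1.of_mul j, fun j => h1.1.mul j⟩ rfl rfl)

/-- Primary elements coprime to k (cop_eq_sum, sum_ball_dvd, gc_prim). -/
theorem pc : ∃ C : ℝ, 0 < C ∧ ∀ k : Eis, k ≠ 0 → ∀ R : ℝ, 0 < R →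
    |(((ball R).filter (fun n => Prim n ∧ IsCoprime n k)).card : ℝ) - c0 * phi k * R| ≤
      C * (dv k).card * √R := by
  obtain ⟨C, hC, h⟩ := gc_prim
  refine ⟨C, hC, fun k hk R hR => ?_⟩
  have e : (((((ball R).filter (fun n => Prim n ∧ IsCoprime n k)).card : ℝ) -
      c0 * phi k * R : ℝ) : ℂ) = ∑ d ∈ dv k, mu d *
        (((((ball (R / N d)).filter Prim).card : ℝ) - c0 * (R / N d) : ℝ) : ℂ) := by
    push_cast
    rw [gc_pc hk, phi_eq, Finset.mul_sum, Finset.sum_mul, ← Finset.sum_sub_distrib]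
    exact Finset.sum_congr rfl fun d _ => by ring
  rw [← Real.norm_eq_abs, ← norm_real, e]
  refine (norm_sum_le _ _).trans ((Finset.sum_le_sum (g := fun _ => C * √R) fun d hd => ?_).trans
    (le_of_eq ?_))
  · have h1 := ((mem_dv hk).1 hd).1.ne_zero
    rw [norm_mul, norm_real, Real.norm_eq_abs]
    refine (mul_le_of_le_one_left (abs_nonneg _) (norm_mu_le d)).trans
      ((h _ (div_pos hR (N_pos h1))).trans ?_)
    exact mul_le_mul_of_nonneg_left (Real.sqrt_le_sqrt (div_le_self hR.le (one_le_N h1))) hC.le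
  · rw [Finset.sum_const, nsmul_eq_mul]
    ring

/-- Nontrivial cubic characters (gc with modulus 9 c, sum_prim_cub). -/
theorem pv : ∃ C : ℝ, 0 < C ∧ ∀ (h c : Eis) (k : ℕ), c ≠ 0 → h ∣ c ^ k → ¬ Cube h →
    ∀ R : ℝ, 0 < R → ‖∑ n ∈ ball R, (if Prim n then 1 else 0) * cub h n‖ ≤ C * N c * √R := by
  obtain ⟨C, hC, H⟩ := gc
  refine ⟨C * 81, by positivity, fun h c k hc hd hn R hR => ?_⟩
  have h9 : (9 : Eis) ≠ 0 := by decide
  have k1 := H (9 * c) _ (mul_ne_zero h9 hc) (per_prim_cub hc k hd) (fun x => by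
    dsimp only
    split_ifs
    · rw [one_mul]
      exact norm_cub_le _ _
    · simp) R hR
  have e3 : N 9 = 81 := by
    have := N_natCast 9
    norm_num at this
    exact this
  rw [sum_prim_cub hc k hd hn, mul_zero, sub_zero, N_mul, e3, ← mul_assoc] at k1
  exact k1

end Vale.Agent.P006
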