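import Vale.Agent.P006.Pri
import Vale.Agent.P006.GC

/-! The sieving level, Rankin's bound, rough numbers, and the first crossing identity. -/

namespace Vale.Agent.P006

open Vale.Agent.P026 Eis Complex MeasureTheory Filter Topology
open scoped Classical ComplexConjugate

theorem log_zz (X : ℝ) : Real.log (zz X) = 20 * Real.log X / Real.log (Real.log X) :=
  Real.log_exp _

theorem rank_ev (A : ℝ) : ∀ᶠ X : ℝ in atTop,
    0 < X ∧ 1 < Real.log X ∧ A ≤ Real.log (Real.log X) ∧ 0 < Real.log (Real.log X) := by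
  have h := Real.tendsto_log_atTop.comp Real.tendsto_log_atTop
  filter_upwards [eventually_gt_atTop 0, Real.tendsto_log_atTop.eventually_gt_atTop 1,
    h.eventually_ge_atTop A, h.eventually_gt_atTop 0] with X a b c d using ⟨a, b, c, d⟩

theorem zz_le {κ : ℝ} (hκ : 0 < κ) : ∀ᶠ X : ℝ in atTop, zz X ≤ X ^ κ := by
  filter_upwards [rank_ev (20 / κ)] with X ⟨a, b, c, d⟩
  rw [zz, Real.rpow_def_of_pos a, Real.exp_le_exp, div_le_iff₀ d]
  rw [div_le_iff₀ hκ] at c
  nlinarith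

theorem le_zz (C : ℝ) : ∀ᶠ X : ℝ in atTop, Real.log X ^ C ≤ zz X := by
  have h := Real.tendsto_log_atTop.eventually ((Real.isLittleO_pow_log_id_atTop (n := 2)).bound
    (show 0 < (|C| + 1)⁻¹ by positivity))
  filter_upwards [rank_ev 0, h] with X ⟨a, b, _, d⟩ e
  rw [Real.norm_of_nonneg (sq_nonneg _), id, Real.norm_of_nonneg (by linarith),
    ← div_eq_inv_mul, le_div_iff₀ (by positivity)] at e
  rw [zz, Real.rpow_def_of_pos (by linarith), Real.exp_le_exp, le_div_iff₀ d]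
  nlinarith [mul_nonneg (sub_nonneg.2 (le_abs_self C)) (sq_nonneg (Real.log (Real.log X)))]

theorem rank_ev2 (A : ℝ) : ∀ᶠ X : ℝ in atTop, 0 < X ∧ 1 < Real.log X ∧
    A ≤ Real.log (Real.log X) ∧ A ≤ Real.log (zz X) ∧ 2 ≤ zz X ∧ 1 ≤ Real.log (zz X) ∧
    Real.log (zz X) ≤ Real.log X := by
  filter_upwards [rank_ev A, rank_ev 20, le_zz 1] with X ⟨a, b, c, d⟩ ⟨_, _, e, _⟩ f
  rw [Real.rpow_one] at f
  have g := Real.log_le_log (by linarith) f
  have i := Real.log_le_sub_one_of_pos (show 0 < Real.log X by linarith)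
  refine ⟨a, b, c, c.trans g, by linarith, by linarith, ?_⟩
  rw [log_zz, div_le_iff₀ d]
  nlinarith

/-- Rough elements of norm ≤ X ^ 12 have few prime factors (card_pf_rough). -/
theorem card_pf_zz : ∀ᶠ X : ℝ in atTop, ∀ n, Ro (zz X) n → N n ≤ X ^ 12 →
    ((pf n).card : ℝ) ≤ Real.log (Real.log X) ∧ ((dv n).card : ℝ) ≤ Real.log X := by
  filter_upwards [rank_ev2 1] with X ⟨a, b, c, d, e, _⟩ n hn h
  have h1 := card_pf_rough (by linarith) hn
  have h2 := Real.log_le_log (N_pos hn.1.ne_zero) h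
  rw [Real.log_pow] at h2
  push_cast at h2
  have h3 : ((pf n).card : ℝ) ≤ Real.log (Real.log X) := by
    refine h1.trans ?_
    rw [div_le_iff₀ (by linarith), log_zz, mul_div_cancel₀ _ (by linarith)]
    linarith
  refine ⟨h3, ?_⟩
  rw [card_dv_eq hn.1.ne_zero, ← Real.log_le_log_iff (by positivity) (by linarith)]
  push_cast
  rw [Real.log_pow]
  nlinarith [Real.log_two_lt_d9, Nat.cast_nonneg (α := ℝ) (pf n).card]

theorem rank_loc {η M x : ℝ} (h0 : 0 ≤ η) (hx : 1 ≤ x) (h : η * Real.log x ≤ M) :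
    x ^ (η - 1) ≤ x⁻¹ + η * Real.exp M * (Real.log x / x) := by
  have x0 : 0 < x := by linarith
  have u0 : 0 ≤ η * Real.log x := mul_nonneg h0 (Real.log_nonneg hx)
  have h1 : Real.exp (η * Real.log x) ≤ 1 + η * Real.log x * Real.exp M := by
    have a := Real.add_one_le_exp (-(η * Real.log x))
    have b := Real.exp_pos (η * Real.log x)
    have c : Real.exp (-(η * Real.log x)) * Real.exp (η * Real.log x) = 1 := by
      rw [← Real.exp_add, neg_add_cancel, Real.exp_zero]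
    nlinarith [mul_le_mul_of_nonneg_left (Real.exp_le_exp.2 h) u0]
  rw [Real.rpow_sub_one x0.ne', Real.rpow_def_of_pos x0, mul_comm, div_le_iff₀ x0]
  refine h1.trans (le_of_eq ?_)
  field_simp

theorem rank_euler {η z : ℝ} (h1 : η ≤ 1 / 2) (S : Finset Eis) (hS : ∀ d ∈ S, Smo z d) :
    ∑ d ∈ S, N d ^ (η - 1) ≤ Real.exp (2 * ∑ p ∈ pz z, N p ^ (η - 1)) := by
  rw [Finset.mul_sum, Real.exp_sum]
  refine euler_le (f := fun n => N n ^ (η - 1)) (fun n => Real.rpow_nonneg (N_nonneg n) _)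
    (by simp) (fun p m a _ _ _ _ => by rw [N_mul, Real.mul_rpow (N_nonneg _) (N_nonneg _)]) (pz z)
    (fun p hp => ⟨(mem_pz.1 hp).1, (mem_pz.1 hp).2.1⟩) _ (fun p hp k => ?_) S
    fun n hn => ⟨(hS n hn).1, fun p a b c => mem_pz.2 ⟨a, b, (hS n hn).2 p a c⟩⟩
  obtain ⟨a, b, -⟩ := mem_pz.1 hp
  have t0 := Real.rpow_nonneg (N_nonneg p) (η - 1)
  have t1 : N p ^ (η - 1) ≤ 1 / 2 := by
    have c := four_le_N b a.ne_one
    refine (Real.rpow_le_rpow_of_exponent_le (by linarith) (show η - 1 ≤ -(1 / 2) by linarith)).trans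
      ((Real.rpow_le_rpow_of_nonpos four_pos c (by norm_num)).trans (le_of_eq ?_))
    rw [show (4 : ℝ) = 2 ^ (2 : ℝ) by norm_num, ← Real.rpow_mul zero_le_two]
    norm_num
  simp only [N_pow, ← Real.rpow_natCast, ← Real.rpow_mul (N_nonneg p), mul_comm _ (η - 1)]
  simp only [Real.rpow_mul (N_nonneg p), Real.rpow_natCast]
  refine (pri_geom t0 (by linarith) k).trans (le_trans ?_ (Real.add_one_le_exp _))
  rw [inv_le_iff_one_le_mul₀ (by linarith)]
  nlinarith

/-- Rankin's bound. -/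
theorem rank {κ : ℝ} (hκ : 0 < κ) (C : ℝ) : ∀ᶠ X : ℝ in atTop, ∀ S : Finset Eis,
    (∀ d ∈ S, Smo (zz X) d ∧ X ^ κ < N d) → ∑ d ∈ S, (N d)⁻¹ ≤ Real.log X ^ (-C) := by
  obtain ⟨C1, hC1, m1⟩ := mertens_inv
  obtain ⟨C2, hC2, m2⟩ := mertens_log
  obtain ⟨M, hM⟩ : ∃ M : ℝ, M = 20 * (|C| + 5) / κ := ⟨_, rfl⟩
  have M0 : 0 < M := by rw [hM]; positivity
  obtain ⟨K, hK⟩ : ∃ K : ℝ, K = M * Real.exp M := ⟨_, rfl⟩
  have K0 : 0 < K := by rw [hK]; positivity
  filter_upwards [rank_ev2 (2 * (C1 + K * (2 + C2))), rank_ev2 (2 * M)] with X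
    ⟨a, b, c, _, e, f, g⟩ ⟨_, _, _, d, _⟩ S hS
  obtain ⟨η, hη⟩ : ∃ η : ℝ, η = M / Real.log (zz X) := ⟨_, rfl⟩
  have η0 : 0 < η := by rw [hη]; positivity
  have η1 : η * Real.log (zz X) = M := by rw [hη, div_mul_cancel₀ _ (by linarith)]
  have l0 : 0 < Real.log (Real.log X) := Real.log_pos b
  have h1 := rank_euler (η := η) (by nlinarith) S fun d hd => (hS d hd).1
  have h2 : ∑ p ∈ pz (zz X), N p ^ (η - 1) ≤ ∑ p ∈ pz (zz X), (N p)⁻¹ +
      η * Real.exp M * ∑ p ∈ pz (zz X), Real.log (N p) / N p := by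
    rw [Finset.mul_sum, ← Finset.sum_add_distrib]
    refine Finset.sum_le_sum fun p hp => ?_
    obtain ⟨i, -, j⟩ := mem_pz.1 hp
    exact rank_loc η0.le (one_le_N i.ne_zero) (η1 ▸ mul_le_mul_of_nonneg_left
      (Real.log_le_log (N_pos i.ne_zero) j) η0.le)
  have h3 := mul_le_mul_of_nonneg_left (m2 (zz X) (by linarith))
    (show 0 ≤ η * Real.exp M by positivity)
  have h4 : η * Real.exp M * (2 * Real.log (zz X) + C2) ≤ K * (2 + C2) := by
    have i : η ≤ M := by nlinarith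
    have j := mul_le_mul_of_nonneg_right i (show 0 ≤ Real.exp M * C2 by positivity)
    have k : η * Real.exp M * (2 * Real.log (zz X) + C2) =
        2 * (η * Real.log (zz X)) * Real.exp M + η * (Real.exp M * C2) := by ring
    rw [k, η1, hK]
    linarith
  have h5 := Real.log_le_log (by linarith) g
  have h6 := m1 (zz X) e
  have h7 : Real.log X * κ * -η = -((|C| + 5) * Real.log (Real.log X)) := by
    rw [hη, log_zz, hM]
    field_simp
  have h8 : ∑ d ∈ S, (N d)⁻¹ ≤ (X ^ κ) ^ (-η) * ∑ d ∈ S, N d ^ (η - 1) := by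
    rw [Finset.mul_sum]
    refine Finset.sum_le_sum fun d hd => ?_
    have i := N_pos (hS d hd).1.1.ne_zero
    refine le_trans (le_of_eq ?_) (mul_le_mul_of_nonneg_right (Real.rpow_le_rpow_of_nonpos
      (Real.rpow_pos_of_pos a κ) (hS d hd).2.le (neg_nonpos.2 η0.le)) (Real.rpow_nonneg i.le _))
    rw [← Real.rpow_add i, ← Real.rpow_neg_one]
    congr 1
    ring
  refine h8.trans ((mul_le_mul_of_nonneg_left h1 (by positivity)).trans ?_)
  rw [← Real.rpow_mul a.le, Real.rpow_def_of_pos a, Real.rpow_def_of_pos (by linarith),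
    ← Real.exp_add, ← mul_assoc, h7, Real.exp_le_exp]
  nlinarith [mul_nonneg (sub_nonneg.2 (le_abs_self C)) l0.le]

theorem rank_smo (z : ℝ) : Smo z (∏ p ∈ pz z, p) :=
  Finset.prod_induction _ (Smo z) (fun _ _ => Smo.mul) (Smo.one z) fun _ hp =>
    pri_smo (mem_pz.1 hp).1 (mem_pz.1 hp).2.1 (mem_pz.1 hp).2.2

theorem rank_pf (z : ℝ) : pf (∏ p ∈ pz z, p) = pz z := by
  ext p
  rw [mem_pf (rank_smo z).1.ne_zero]
  exact ⟨fun h => mem_pz.2 ⟨h.1, h.2.1, (rank_smo z).2 p h.1 h.2.2⟩,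
    fun h => ⟨(mem_pz.1 h).1, (mem_pz.1 h).2.1, Finset.dvd_prod_of_mem _ h⟩⟩

theorem rank_prod (z : ℝ) : ∑ d ∈ dv (∏ p ∈ pz z, p), mu d / (N d : ℂ) =
    ((∏ p ∈ pz z, (1 - (N p)⁻¹) : ℝ) : ℂ) := by
  rw [sum_dv_eq_prod (rank_smo z).1.ne_zero (fun d => mu d / (N d : ℂ)) (by simp [mu_one])
    (fun x y hx _ h => by rw [pri_mu_mul hx.1 h, N_mul, ofReal_mul, div_mul_div_comm]), rank_pf,
    ofReal_prod]
  refine Finset.prod_congr rfl fun p hp => ?_
  rw [mu_prime (mem_pz.1 hp).1 (mem_pz.1 hp).2.1]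
  push_cast
  ring

theorem rank_count (z x : ℝ) : (((ball x).filter (Ro z)).card : ℝ) ≤
    c0 * x * ∏ p ∈ pz z, (1 - (N p)⁻¹) + ∑ d ∈ dv (∏ p ∈ pz z, p),
      |(((ball (x / N d)).filter Prim).card : ℝ) - c0 * (x / N d)| := by
  have hk := rank_smo z
  have h1 : (((ball x).filter (Ro z)).card : ℝ) ≤
      ((ball x).filter fun n => Prim n ∧ IsCoprime n (∏ p ∈ pz z, p)).card :=
    Nat.cast_le.2 (Finset.card_le_card fun n hn => Finset.mem_filter.2
      ⟨(Finset.mem_filter.1 hn).1, (Finset.mem_filter.1 hn).2.1,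
        ro_smo_coprime (Finset.mem_filter.1 hn).2 hk⟩)
  have h2 : (((((ball x).filter fun n => Prim n ∧ IsCoprime n (∏ p ∈ pz z, p)).card : ℝ) -
      c0 * x * ∏ p ∈ pz z, (1 - (N p)⁻¹) : ℝ) : ℂ) = ∑ d ∈ dv (∏ p ∈ pz z, p),
      mu d * (((((ball (x / N d)).filter Prim).card : ℝ) - c0 * (x / N d) : ℝ) : ℂ) := by
    rw [ofReal_sub, ofReal_mul, ← rank_prod, ofReal_natCast, gc_pc hk.1.ne_zero, Finset.mul_sum,
      ← Finset.sum_sub_distrib]
    refine Finset.sum_congr rfl fun d _ => ?_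
    push_cast
    ring
  have h3 := (congrArg norm h2).trans_le (norm_sum_le_of_le _ fun d _ =>
    (norm_mul_le _ _).trans (mul_le_of_le_one_left (norm_nonneg _) (norm_mu_le d)))
  simp only [norm_real, Real.norm_eq_abs] at h3
  linarith [(abs_le.1 h3).2]

theorem rough_count : ∃ C : ℝ, 0 < C ∧ ∀ᶠ X : ℝ in atTop, ∀ x : ℝ, X ^ (1 / 10 : ℝ) ≤ x →
    (((ball x).filter (Ro (zz X))).card : ℝ) ≤ C * x / Real.log (zz X) := by
  obtain ⟨C1, hC1, h1⟩ := prod_pz_le
  obtain ⟨C2, hC2, h2⟩ := gc_prim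
  obtain ⟨C3, hC3, h3⟩ := sum_ball_rpow (s := 1 / 2) (by norm_num)
  have c00 : 0 < c0 := by
    have := Real.pi_pos
    unfold c0
    positivity
  refine ⟨c0 * C1 + C2 * C3 + (16 + c0), by positivity, ?_⟩
  filter_upwards [rank_ev2 0, zz_le (κ := 1 / 40) (by norm_num),
    rank (κ := 1 / 20) (by norm_num) 1] with X ⟨a, b, _, _, e, f, g⟩ i j x hx
  have x0 : 0 < x := (Real.rpow_pos_of_pos a _).trans_le hx
  have l0 : 0 < Real.log (zz X) := by linarith
  have hk := rank_smo (zz X)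
  have k1 := mul_le_mul_of_nonneg_left (h1 _ e) (mul_pos c00 x0).le
  have k2 := rank_count (zz X) x
  have pw : ∀ t : ℝ, 0 ≤ t → X ^ (1 / 10 * t) ≤ x ^ t := fun t ht => by
    rw [Real.rpow_mul a.le]
    exact Real.rpow_le_rpow (Real.rpow_nonneg a.le _) hx ht
  rw [← Finset.sum_filter_add_sum_filter_not _ (fun d => N d ≤ x ^ (1 / 2 : ℝ))] at k2
  have k3 : ∑ d ∈ (dv (∏ p ∈ pz (zz X), p)).filter (fun d => N d ≤ x ^ (1 / 2 : ℝ)),
      |(((ball (x / N d)).filter Prim).card : ℝ) - c0 * (x / N d)| ≤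
      C2 * C3 * (x / Real.log (zz X)) := by
    refine (Finset.sum_le_sum (g := fun d => C2 * x ^ (1 / 2 : ℝ) * N d ^ (-(1 / 2) : ℝ))
      fun d hd => ?_).trans ((Finset.sum_le_sum_of_subset_of_nonneg (t := ball (x ^ (1 / 2 : ℝ)))
      (fun d hd => ?_) fun d _ _ => mul_nonneg (by positivity)
        (Real.rpow_nonneg (N_nonneg d) _)).trans ?_)
    · have d0 := N_pos ((mem_dv hk.1.ne_zero).1 (Finset.mem_filter.1 hd).1).1.ne_zero
      refine (h2 _ (div_pos x0 d0)).trans (le_of_eq ?_)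
      rw [Real.sqrt_eq_rpow, Real.div_rpow x0.le d0.le, Real.rpow_neg d0.le, mul_assoc,
        div_eq_mul_inv]
    · exact mem_ball.2 ⟨((mem_dv hk.1.ne_zero).1 (Finset.mem_filter.1 hd).1).1.ne_zero,
        (Finset.mem_filter.1 hd).2⟩
    · rw [← Finset.mul_sum]
      refine (mul_le_mul_of_nonneg_left (h3 _ (by positivity)) (by positivity)).trans ?_
      have u : x ^ (1 / 2 : ℝ) * (x ^ (1 / 2 : ℝ)) ^ (1 - 1 / 2 : ℝ) * x ^ (1 / 4 : ℝ) = x := by
        rw [← Real.rpow_mul x0.le, ← Real.rpow_add x0, ← Real.rpow_add x0]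
        norm_num
      have v : Real.log (zz X) ≤ x ^ (1 / 4 : ℝ) := by
        have := pw (1 / 4) (by norm_num)
        rw [show (1 / 10 * (1 / 4) : ℝ) = 1 / 40 by norm_num] at this
        linarith [Real.log_le_sub_one_of_pos (show 0 < zz X by linarith)]
      rw [mul_mul_mul_comm]
      refine mul_le_mul_of_nonneg_left ?_ (by positivity)
      rw [le_div_iff₀ l0]
      exact (mul_le_mul_of_nonneg_left v (by positivity)).trans u.le
  have k4 : ∑ d ∈ (dv (∏ p ∈ pz (zz X), p)).filter (fun d => ¬ N d ≤ x ^ (1 / 2 : ℝ)),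
      |(((ball (x / N d)).filter Prim).card : ℝ) - c0 * (x / N d)| ≤
      (16 + c0) * (x / Real.log (zz X)) := by
    refine (Finset.sum_le_sum (g := fun d => (16 + c0) * x * (N d)⁻¹) fun d _ => ?_).trans ?_
    · have d0 := div_nonneg x0.le (N_nonneg d)
      have u : (((ball (x / N d)).filter Prim).card : ℝ) ≤ 16 * (x / N d) :=
        (Nat.cast_le.2 (Finset.card_filter_le _ _)).trans (card_ball_le d0)
      have v := mul_nonneg c00.le d0
      have w : (0 : ℝ) ≤ ((ball (x / N d)).filter Prim).card := Nat.cast_nonneg _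
      rw [mul_assoc, ← div_eq_mul_inv, abs_le]
      constructor <;> linarith
    · have u := j ((dv (∏ p ∈ pz (zz X), p)).filter (fun d => ¬ N d ≤ x ^ (1 / 2 : ℝ)))
        fun d hd => by
          obtain ⟨p, q⟩ := Finset.mem_filter.1 hd
          have := pw (1 / 2) (by norm_num)
          rw [show (1 / 10 * (1 / 2) : ℝ) = 1 / 20 by norm_num] at this
          exact ⟨hk.of_dvd ((mem_dv hk.1.ne_zero).1 p).1.1 ((mem_dv hk.1.ne_zero).1 p).2,
            this.trans_lt (not_le.1 q)⟩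
      rw [Real.rpow_neg_one] at u
      rw [← Finset.mul_sum, mul_assoc, div_eq_mul_inv]
      exact mul_le_mul_of_nonneg_left (mul_le_mul_of_nonneg_left (u.trans (inv_anti₀ l0 g)) x0.le)
        (by positivity)
  have k5 : (c0 * C1 + C2 * C3 + (16 + c0)) * x / Real.log (zz X) = c0 * x * (C1 / Real.log (zz X)) +
      C2 * C3 * (x / Real.log (zz X)) + (16 + c0) * (x / Real.log (zz X)) := by ring
  linarith

theorem exists_key (z : ℝ) (J : ℕ) (h : 16 * z + 1 < 2 ^ J) (hz : 0 ≤ z) : ∃ key, Key z key J := by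
  have h1 : ((pz z).card : ℝ) ≤ 16 * z :=
    (Nat.cast_le.2 (Finset.card_filter_le _ _)).trans (card_ball_le hz)
  have h2 : (pz z).card < 2 ^ J := by
    have : ((pz z).card : ℝ) < 2 ^ J := by linarith
    exact_mod_cast this
  refine ⟨fun p => if k : p ∈ pz z then ((pz z).equivFin ⟨p, k⟩ : ℕ) + 1 else 0, fun p hp => ?_,
    fun p hp q hq e => ?_⟩
  · simp only [dif_pos hp]
    have := ((pz z).equivFin ⟨p, hp⟩).2
    omega
  · simp only [dif_pos hp, dif_pos hq] at e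
    exact congrArg Subtype.val ((pz z).equivFin.injective (Fin.ext (Nat.succ_injective e)))

theorem rank_mem {z : ℝ} {n p : Eis} (h : p ∈ (pf n).filter fun p => N p ≤ z) : p ∈ pz z :=
  have k := (Finset.mem_filter.1 (Finset.mem_filter.1 h).1).2
  mem_pz.2 ⟨k.1, k.2.1, (Finset.mem_filter.1 h).2⟩

theorem kp_lt {z : ℝ} {key : Eis → ℕ} {J : ℕ} (h : Key z key J) (n : Eis) : kp z key n < 2 ^ J :=
  (Finset.sup_lt_iff (Nat.two_pow_pos J)).2 fun p hp => (h.1 p (rank_mem hp)).2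

theorem Cr.le {z D : ℝ} {key : Eis → ℕ} {δ : Eis} (hD : 0 ≤ D) (h : Cr z D key δ) : N δ ≤ D * z := by
  obtain ⟨a, b, -, p, hp, -, c⟩ := h
  obtain ⟨i, -, j⟩ := (mem_pf a.ne_zero).1 hp
  exact c.trans (mul_le_mul_of_nonneg_left (b.2 p i j) hD)

theorem rank_kp_mono {z : ℝ} (key : Eis → ℕ) {a b : Eis} (hb : b ≠ 0) (h : a ∣ b) :
    kp z key a ≤ kp z key b :=
  Finset.sup_mono (Finset.filter_subset_filter _ fun _ hp =>
    have k := (mem_pf (ne_zero_of_dvd_ne_zero hb h)).1 hp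
    (mem_pf hb).2 ⟨k.1, k.2.1, k.2.2.trans h⟩)

theorem rank_le_kp {z : ℝ} (key : Eis → ℕ) {p b : Eis} (hb : b ≠ 0) (hp : p ∈ pz z) (h : p ∣ b) :
    key p ≤ kp z key b :=
  Finset.le_sup (f := key) (Finset.mem_filter.2
    ⟨(mem_pf hb).2 ⟨(mem_pz.1 hp).1, (mem_pz.1 hp).2.1, h⟩, (mem_pz.1 hp).2.2⟩)

/-- Let p be the small prime of m with the largest key; pair δ with p δ (sum_dv_prime_mul). -/
theorem buch {z D : ℝ} {key : Eis → ℕ} {J : ℕ} (h : Key z key J) (hD : 1 ≤ D) {m : Eis}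
    (hm : PS m) : (if Ro z m then (1 : ℂ) else 0) =
      (∑ δ ∈ dv m, if Smo z δ ∧ N δ ≤ D then mu δ else 0) +
      ∑ δ ∈ dv m, if Cr z D key δ ∧ kp z key (m / δ) < kp z key δ then mu δ else 0 := by
  rw [ro_ind z hm.1, ← Finset.sum_add_distrib]
  rcases ((pf m).filter fun p => N p ≤ z).eq_empty_or_nonempty with e | e
  · refine Finset.sum_congr rfl fun δ hδ => ?_
    obtain ⟨a, b⟩ := (mem_dv hm.ne_zero).1 hδ
    have k : Smo z δ → N δ ≤ D := fun j => by
      by_cases i : δ = 1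
      · rwa [i, N_one]
      · obtain ⟨p, p1, p2, p3⟩ := exists_prime_dvd a.1 i
        exact absurd (Finset.mem_filter.2 ⟨(mem_pf hm.ne_zero).2 ⟨p1, p2, p3.trans b⟩,
          j.2 p p1 p3⟩) (e ▸ Finset.notMem_empty p)
    rw [if_neg (c := Cr z D key δ ∧ _) fun j => (k j.1.2.1).not_gt j.1.2.2.1, add_zero]
    exact if_congr (and_iff_left_of_imp k).symm rfl rfl
  · obtain ⟨p, hp, e1⟩ := Finset.exists_mem_eq_sup _ e key
    have e2 : kp z key m = key p := e1
    have pz1 := rank_mem hp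
    obtain ⟨p1, p2, p3⟩ := mem_pz.1 pz1
    obtain ⟨x, rfl⟩ := ((mem_pf hm.ne_zero).1 (Finset.mem_filter.1 hp).1).2.2
    obtain ⟨-, hx, hc⟩ := PS.of_mul p2 hm
    have px : ¬ p ∣ x := p1.coprime_iff_not_dvd.1 hc
    have sp := pri_smo p1 p2 p3
    rw [sum_dv_prime_mul p1 p2 hx.ne_zero px, sum_dv_prime_mul p1 p2 hx.ne_zero px]
    refine Finset.sum_congr rfl fun δ hδ => ?_
    obtain ⟨a, b⟩ := (mem_dv hx.ne_zero).1 hδ
    have c := (hx.of_dvd a.1 b).2.1.ne_zero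
    have b' : x / δ ∣ x := Dvd.intro_left _ (lp_div_mul a.ne_zero b)
    have cp : IsCoprime p δ := hc.of_isCoprime_of_dvd_right b
    have pδ := (PS.of_prime p1 p2).mul a cp
    have k1 : ¬ kp z key (p * (x / δ)) < kp z key δ := not_lt.2
      (((rank_kp_mono key hm.ne_zero (b.mul_left p)).trans e2.le).trans
        (rank_le_kp key (mul_ne_zero p1.ne_zero c) pz1 (dvd_mul_right _ _)))
    have k2 : kp z key (p * δ) = key p := le_antisymm
      ((rank_kp_mono key hm.ne_zero (mul_dvd_mul_left p b)).trans e2.le)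
      (rank_le_kp key pδ.ne_zero pz1 (dvd_mul_right _ _))
    have k3 : kp z key (x / δ) < key p := by
      refine (Finset.sup_lt_iff (h.1 p pz1).1).2 fun q hq => ?_
      have q1 := rank_mem hq
      have q2 := ((mem_pf c).1 (Finset.mem_filter.1 hq).1).2.2.trans b'
      exact lt_of_le_of_ne ((rank_le_kp key hm.ne_zero q1 (q2.mul_left p)).trans e2.le)
        fun j => px (h.2 q q1 p pz1 j ▸ q2)
    have k4 : Cr z D key (p * δ) ↔ Smo z δ ∧ D < N p * N δ ∧ N δ ≤ D := by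
      have n0 := N_pos p1.ne_zero
      rw [Cr, pri_smo_mul p2 a.1, k2, N_mul]
      constructor
      · rintro ⟨-, s, t, q, hq, u, v⟩
        obtain ⟨q1, q2, q3⟩ := (mem_pf pδ.ne_zero).1 hq
        rw [h.2 q (mem_pz.2 ⟨q1, q2, (s.1.mul s.2).2 q q1 q3⟩) p pz1 u, mul_comm D] at v
        exact ⟨s.2, t, le_of_mul_le_mul_left v n0⟩
      · rintro ⟨s, t, u⟩
        exact ⟨pδ, ⟨sp, s⟩, t, p, (mem_pf pδ.ne_zero).2 ⟨p1, p2, dvd_mul_right _ _⟩, rfl,
          by rw [mul_comm D]; exact mul_le_mul_of_nonneg_left u n0.le⟩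
    have k5 : N p * N δ ≤ D → N δ ≤ D := fun j =>
      (le_mul_of_one_le_left (N_nonneg δ) (one_le_N p1.ne_zero)).trans j
    rw [EuclideanDomain.mul_div_mul_cancel p1.ne_zero b, pri_mul_div b, k2, k4,
      pri_smo_mul p2 a.1, pri_mu_mul p2 cp, mu_prime p1 p2, N_mul]
    by_cases s : Smo z δ
    · by_cases t : N p * N δ ≤ D
      · simp [s, sp, k1, t, k5 t, t.not_gt]
      · by_cases u : N δ ≤ D <;> simp [s, sp, k1, k3, t, u, not_le.1 t]
    · simp [s, k1]

end Vale.Agent.P006
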