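import Vale.Agent.P006.DC1
import Vale.Agent.P006.DC3
import Vale.Agent.P006.DC4
import Vale.Agent.P006.Rank

/-! The dispersion estimate. -/

namespace Vale.Agent.P006

open Vale.Agent.P026 Eis Complex MeasureTheory Filter Topology
open scoped Classical ComplexConjugate

theorem disp_exp {A B : ℝ} (hA : 0 < A) (hB : 0 < B) :
    A / B * (B ^ 2 / A) = B ∧ A / B * (B ^ 2 / A * B) ^ (2 / 3 : ℝ) = A ^ (1 / 3 : ℝ) * B ∧
    A / B * ((B ^ 2 / A) ^ (1 / 3 : ℝ) * B) = (A * B) ^ (2 / 3 : ℝ) ∧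
    A / B * (B ^ 2 / A) ^ (1 / 3 : ℝ) = (A * B) ^ (2 / 3 : ℝ) / B := by
  obtain ⟨e1, e2, -, e3⟩ := ls_exp hA hB
  refine ⟨e1, e2, e3, ?_⟩
  rw [← e3]
  field_simp

theorem dd_le (hT : TP cs) : ∃ C : ℝ, 0 < C ∧ ∀ (S : Finset Eis) (β : Eis → ℂ)
    (A B Z Λ Q0 z u U E : ℝ), 0 < A → 0 < B → 0 < Z → 1 ≤ Λ → 1 ≤ Q0 → 1 ≤ z → 0 ≤ u → 0 ≤ U →
    S ⊆ PB Z → (∀ b ∈ S, Ro z b ∧ ((pf b).card : ℝ) ≤ u ∧ ((dv b).card : ℝ) ≤ U) →
    SW S β B Q0 E → DD S β A ≤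
      C * (A + A ^ (5 / 6 : ℝ) * B ^ (1 / 3 : ℝ) + Real.log (3 + Z + Λ * (B ^ 2 / A)) ^ 2 *
          (B ^ (4 / 3 + 3 / 100 : ℝ) * A ^ (-(1 / 6) - 1 / 100 : ℝ) +
          A ^ (1 / 3 + 1 / 100 : ℝ) * B ^ (2 / 3 : ℝ) + B * Λ + A ^ (1 / 3 : ℝ) * B * Λ +
          (A * B) ^ (2 / 3 : ℝ) * (Λ ^ (-(5 / 6) : ℝ) +
            Λ * (Q0 ^ (-(1 / 3) : ℝ) + U * z ^ (-(2 / 3) : ℝ) + Q0 * (u / z))))) * nw S β B +
        C * Q0 * Λ * (A * B) ^ (2 / 3 : ℝ) * E ^ 2 / B := by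
  obtain ⟨C1, hC1, h1⟩ := dc1
  obtain ⟨C2, hC2, h2⟩ := dc2
  obtain ⟨C3, hC3, h3⟩ := dc3_low
  obtain ⟨C4, hC4, h4⟩ := dc3_high
  obtain ⟨C5, hC5, h5⟩ := dc4 hT
  refine ⟨C1 + C2 + C5 + C1 * C3 + C1 * C4, by positivity,
    fun S β A B Z Λ Q0 z u U E hA hB hZ hΛ hQ hz hu hU hS hR hW => ?_⟩
  have hΛ0 : 0 < Λ := by linarith
  have hQ0 : 0 < Q0 := by linarith
  have hz0 : 0 < z := by linarith
  have hH : 0 < B ^ 2 / A := by positivity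
  have n0 := nw_nonneg S β B
  have hP : ∀ b ∈ S, PS b := fun b hb => (mem_PB.1 (hS hb)).1
  have l1 : 1 ≤ Real.log (3 + Z + Λ * (B ^ 2 / A)) := by
    rw [add_assoc]; exact ls_one_le_log (by positivity)
  have l2 : 1 ≤ Real.log (3 + Z + Λ * (B ^ 2 / A)) ^ 2 := one_le_pow₀ l1
  obtain ⟨e1, e2, e3, e4⟩ := disp_exp hA hB
  set H := B ^ 2 / A with hHd
  set V := Q0 ^ (-(1 / 3) : ℝ) + U * z ^ (-(2 / 3) : ℝ) + Q0 * (u / z) with hV
  have v0 : 0 ≤ V := by positivity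
  have a1 := h1 S β A B (Λ * H) (C3 * Real.log (3 + Z + Λ * H) ^ 2 *
      (H * Λ ^ (3 / 4 : ℝ) + (H * B) ^ (2 / 3 : ℝ) * Λ ^ (5 / 12 : ℝ) +
        H ^ (1 / 3 : ℝ) * B * Λ ^ (1 / 12 : ℝ) * V) * nw S β B +
      C3 * Q0 * H ^ (1 / 3 : ℝ) * Λ ^ (1 / 12 : ℝ) * E ^ 2) _ hA hB (by positivity) (by positivity) hP
    (fun τ => (h3 S β B H Z Λ Q0 z u U E τ hB hH hZ hΛ hQ hz hu hU hS hR hW).trans (by
      rw [add_mul _ _ ((1 + |τ|) ^ 2)]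
      refine add_le_add (le_mul_of_one_le_right (by positivity)
        (one_le_pow₀ (by linarith [abs_nonneg τ]))) le_rfl))
    (fun τ K => h4 S β B H Z Λ τ K hB hH hZ hΛ hS)
  have a2 := h2 S β A B z u hA hB hz0 hu fun b hb => ⟨(hR b hb).1, (hR b hb).2.1⟩
  have a3 := h5 S β A B z u hA hB hz0 hu fun b hb => ⟨hP b hb, (hR b hb).1, (hR b hb).2.1⟩
  have a4 := (re_le_norm _).trans a2
  rw [sub_re, ofReal_re] at a4
  have a5 := mul_le_mul_of_nonneg_left (sq_le_nw (fun h => (hP 0 h).ne_zero rfl) β hB)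
    (show 0 ≤ C1 * A by positivity)
  set l := Real.log (3 + Z + Λ * H) ^ 2
  set n := nw S β B
  set W := (A * B) ^ (2 / 3 : ℝ)
  have w0 : 0 ≤ W := by positivity
  have pw : ∀ a : ℝ, a ≤ 1 → Λ ^ a ≤ Λ := fun a ha => by
    simpa using Real.rpow_le_rpow_of_exponent_le hΛ ha
  set P1 := B ^ (4 / 3 + 3 / 100 : ℝ) * A ^ (-(1 / 6) - 1 / 100 : ℝ) +
    A ^ (1 / 3 + 1 / 100 : ℝ) * B ^ (2 / 3 : ℝ) with hP1
  set P := P1 + B * Λ + A ^ (1 / 3 : ℝ) * B * Λ + W * (Λ ^ (-(5 / 6) : ℝ) + Λ * V) with hPd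
  have p1 : 0 ≤ P1 := by positivity
  have p2 : 0 ≤ B * Λ := by positivity
  have p3 : 0 ≤ A ^ (1 / 3 : ℝ) * B * Λ := by positivity
  have p4 : 0 ≤ W * Λ ^ (-(5 / 6) : ℝ) := by positivity
  have p5 : 0 ≤ W * (Λ * V) := by positivity
  have p6 : W * (u / z) ≤ W * (Λ * V) := by
    refine mul_le_mul_of_nonneg_left (le_trans ?_ (le_mul_of_one_le_left v0 hΛ)) w0
    have : u / z ≤ Q0 * (u / z) := le_mul_of_one_le_left (by positivity) hQ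
    have : 0 ≤ Q0 ^ (-(1 / 3) : ℝ) + U * z ^ (-(2 / 3) : ℝ) := by positivity
    rw [hV]; linarith
  set R := A + A ^ (5 / 6 : ℝ) * B ^ (1 / 3 : ℝ) + l * P with hRd
  have p0 : 0 ≤ P := by positivity
  have r0 : P ≤ l * P := le_mul_of_one_le_left p0 l2
  have r1 : 0 ≤ A ^ (5 / 6 : ℝ) * B ^ (1 / 3 : ℝ) := by positivity
  have q1 : A ≤ R := by rw [hRd]; linarith
  have q2 : A ^ (5 / 6 : ℝ) * B ^ (1 / 3 : ℝ) + W * (u / z) ≤ R := by
    rw [hRd]; rw [hPd] at r0 ⊢; linarith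
  have q3 : P1 + W * (u / z) ≤ R := by rw [hRd]; rw [hPd] at r0 ⊢; linarith
  have q4 : A / B * (H * Λ ^ (3 / 4 : ℝ) + (H * B) ^ (2 / 3 : ℝ) * Λ ^ (5 / 12 : ℝ) +
      H ^ (1 / 3 : ℝ) * B * Λ ^ (1 / 12 : ℝ) * V) ≤ P := by
    have b1 := mul_le_mul_of_nonneg_left (pw (3 / 4) (by norm_num)) hB.le
    have b2 := mul_le_mul_of_nonneg_left (pw (5 / 12) (by norm_num))
      (show 0 ≤ A ^ (1 / 3 : ℝ) * B by positivity)
    have b3 := mul_le_mul_of_nonneg_left (pw (1 / 12) (by norm_num)) (show 0 ≤ W * V by positivity)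
    calc _ = A / B * H * Λ ^ (3 / 4 : ℝ) + A / B * (H * B) ^ (2 / 3 : ℝ) * Λ ^ (5 / 12 : ℝ) +
          A / B * (H ^ (1 / 3 : ℝ) * B) * V * Λ ^ (1 / 12 : ℝ) := by ring
      _ ≤ _ := by rw [e1, e2, e3, hPd]; linarith
  have q5 : A / B * (H * Λ ^ (-(1 / 6) : ℝ) + H ^ (1 / 3 : ℝ) * B * Λ ^ (-(5 / 6) : ℝ) +
      (H * B) ^ (2 / 3 : ℝ) * Λ ^ (-(1 / 2) : ℝ)) ≤ P := by
    have b1 := mul_le_mul_of_nonneg_left (pw (-(1 / 6)) (by norm_num)) hB.le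
    have b2 := mul_le_mul_of_nonneg_left (pw (-(1 / 2)) (by norm_num))
      (show 0 ≤ A ^ (1 / 3 : ℝ) * B by positivity)
    calc _ = A / B * H * Λ ^ (-(1 / 6) : ℝ) + A / B * (H * B) ^ (2 / 3 : ℝ) * Λ ^ (-(1 / 2) : ℝ) +
          A / B * (H ^ (1 / 3 : ℝ) * B) * Λ ^ (-(5 / 6) : ℝ) := by ring
      _ ≤ _ := by rw [e1, e2, e3, hPd]; linarith
  have q6 : l * P ≤ R := by rw [hRd]; linarith
  have l0 : 0 ≤ l := by linarith
  have s1 := mul_le_mul_of_nonneg_left q1 (show 0 ≤ C1 * n by positivity)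
  have s2 := mul_le_mul_of_nonneg_left q2 (show 0 ≤ C2 * n by positivity)
  have s3 := mul_le_mul_of_nonneg_left q3 (show 0 ≤ C5 * n by positivity)
  have s4 := mul_le_mul_of_nonneg_left ((mul_le_mul_of_nonneg_left q4 l0).trans q6)
    (show 0 ≤ C1 * C3 * n by positivity)
  have s5 := mul_le_mul_of_nonneg_left ((mul_le_mul_of_nonneg_left q5 l0).trans q6)
    (show 0 ≤ C1 * C4 * n by positivity)
  have s6 : C1 * C3 * (A / B * H ^ (1 / 3 : ℝ) * (Q0 * E ^ 2) * Λ ^ (1 / 12 : ℝ)) ≤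
      (C1 + C2 + C5 + C1 * C3 + C1 * C4) * Q0 * Λ * W * E ^ 2 / B := by
    rw [e4]
    refine (mul_le_mul (show C1 * C3 ≤ C1 + C2 + C5 + C1 * C3 + C1 * C4 by
      linarith [mul_pos hC1 hC4]) (mul_le_mul_of_nonneg_left (pw (1 / 12) (by norm_num))
        (by positivity)) (by positivity) (by positivity)).trans (le_of_eq (by ring))
  linarith

theorem disp_pow {K A a : ℝ} (hK : 0 < K) (hA : 0 < A) (h : |a| ≤ 1) :
    K ^ a ≤ A ^ a * (K / A + A / K) := by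
  rcases le_total 0 a with h0 | h0
  · exact dc3_pow hK hA h0 ((le_abs_self a).trans h)
  · have := dc3_pow (inv_pos.2 hK) (inv_pos.2 hA) (a := -a) (by linarith) ((neg_le_abs a).trans h)
    rwa [Real.inv_rpow hK.le, Real.inv_rpow hA.le, ← Real.rpow_neg hK.le, ← Real.rpow_neg hA.le,
      neg_neg, inv_div_inv, inv_div_inv, add_comm] at this

/-- The shape of the bound in dd_le. -/
noncomputable def dispR (A B Z Λ V : ℝ) : ℝ :=
  A + A ^ (5 / 6 : ℝ) * B ^ (1 / 3 : ℝ) + Real.log (3 + Z + Λ * (B ^ 2 / A)) ^ 2 *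
    (B ^ (4 / 3 + 3 / 100 : ℝ) * A ^ (-(1 / 6) - 1 / 100 : ℝ) +
    A ^ (1 / 3 + 1 / 100 : ℝ) * B ^ (2 / 3 : ℝ) + B * Λ + A ^ (1 / 3 : ℝ) * B * Λ +
    (A * B) ^ (2 / 3 : ℝ) * (Λ ^ (-(5 / 6) : ℝ) + Λ * V))

theorem dispR_le {K A B Z Λ V : ℝ} (hK : 0 < K) (hA : 0 < A) (hB : 0 < B) (hZ : 0 < Z) (hΛ : 0 < Λ)
    (hV : 0 ≤ V) : dispR K B Z Λ V ≤ dispR A B Z Λ V * (K / A + A / K) ^ 3 := by
  have t1 := dc3_two hK hA
  set t := K / A + A / K with ht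
  have t3 : t ≤ t ^ 3 := le_self_pow₀ t1 (by norm_num)
  have pw : ∀ a : ℝ, |a| ≤ 1 → K ^ a ≤ A ^ a * t := fun a h => disp_pow hK hA h
  have l1 : 1 ≤ Real.log (3 + Z + Λ * (B ^ 2 / A)) := by
    rw [add_assoc]; exact ls_one_le_log (by positivity)
  have l2 : Real.log (3 + Z + Λ * (B ^ 2 / K)) ≤ Real.log (3 + Z + Λ * (B ^ 2 / A)) * t := by
    have b1 : Λ * (B ^ 2 / K) ≤ Λ * (B ^ 2 / A) * t := by
      have : Λ * (B ^ 2 / K) = Λ * (B ^ 2 / A) * (A / K) := by field_simp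
      rw [this]
      refine mul_le_mul_of_nonneg_left ?_ (by positivity)
      have : 0 < K / A := by positivity
      linarith
    have b2 := Real.log_le_log (by positivity)
      (show 3 + Z + Λ * (B ^ 2 / K) ≤ (3 + Z + Λ * (B ^ 2 / A)) * t by nlinarith)
    rw [Real.log_mul (by positivity) (by positivity)] at b2
    have b3 := Real.log_le_sub_one_of_pos (show 0 < t by linarith)
    nlinarith
  have l3 := pow_le_pow_left₀ (Real.log_nonneg (by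
    have : 0 < Λ * (B ^ 2 / K) := by positivity
    linarith)) l2 2
  have a1 : K ≤ A * t := by simpa using pw 1 (by norm_num)
  have a2 := mul_le_mul_of_nonneg_right (pw (5 / 6) (by rw [abs_of_pos] <;> norm_num))
    (show 0 ≤ B ^ (1 / 3 : ℝ) by positivity)
  have a3 := mul_le_mul_of_nonneg_left (pw (-(1 / 6) - 1 / 100) (by rw [abs_of_neg] <;> norm_num))
    (show 0 ≤ B ^ (4 / 3 + 3 / 100 : ℝ) by positivity)
  have a4 := mul_le_mul_of_nonneg_right (pw (1 / 3 + 1 / 100) (by rw [abs_of_pos] <;> norm_num))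
    (show 0 ≤ B ^ (2 / 3 : ℝ) by positivity)
  have a5 := mul_le_mul_of_nonneg_left t1 (show 0 ≤ B * Λ by positivity)
  have a6 := mul_le_mul_of_nonneg_right (pw (1 / 3) (by rw [abs_of_pos] <;> norm_num))
    (show 0 ≤ B * Λ by positivity)
  have a7 := mul_le_mul_of_nonneg_right (pw (2 / 3) (by rw [abs_of_pos] <;> norm_num))
    (show 0 ≤ B ^ (2 / 3 : ℝ) * (Λ ^ (-(5 / 6) : ℝ) + Λ * V) by positivity)
  unfold dispR
  rw [Real.mul_rpow hK.le hB.le, Real.mul_rpow hA.le hB.le]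
  have b1 := mul_le_mul l3 (show B ^ (4 / 3 + 3 / 100 : ℝ) * K ^ (-(1 / 6) - 1 / 100 : ℝ) +
    K ^ (1 / 3 + 1 / 100 : ℝ) * B ^ (2 / 3 : ℝ) + B * Λ + K ^ (1 / 3 : ℝ) * B * Λ +
    K ^ (2 / 3 : ℝ) * B ^ (2 / 3 : ℝ) * (Λ ^ (-(5 / 6) : ℝ) + Λ * V) ≤
    (B ^ (4 / 3 + 3 / 100 : ℝ) * A ^ (-(1 / 6) - 1 / 100 : ℝ) +
    A ^ (1 / 3 + 1 / 100 : ℝ) * B ^ (2 / 3 : ℝ) + B * Λ + A ^ (1 / 3 : ℝ) * B * Λ +
    A ^ (2 / 3 : ℝ) * B ^ (2 / 3 : ℝ) * (Λ ^ (-(5 / 6) : ℝ) + Λ * V)) * t by linarith)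
    (by positivity) (by positivity)
  have b2 := mul_le_mul_of_nonneg_left t3 hA.le
  have b3 := mul_le_mul_of_nonneg_left t3
    (show 0 ≤ A ^ (5 / 6 : ℝ) * B ^ (1 / 3 : ℝ) by positivity)
  linarith

theorem disp_key {L b s l m u : ℝ} (eL : L = Real.exp l) (l0 : 0 ≤ l) (hm : 3 ≤ m)
    (h1 : L * (1 / 3) ≤ b) (h2 : b ≤ L * (1 / 2) + l * -(9 * m)) (h3 : l * (13 * m + 3) ≤ s)
    (h4 : 20 * m * l ≤ L) (u1 : u / Real.exp s ≤ Real.exp (l - s)) :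
    Real.exp b ^ (4 / 3 + 3 / 100 : ℝ) * Real.exp (L - b) ^ (-(1 / 6) - 1 / 100 : ℝ) +
      Real.exp (L - b) ^ (1 / 3 + 1 / 100 : ℝ) * Real.exp b ^ (2 / 3 : ℝ) +
      Real.exp b * L ^ (2 * m) + Real.exp (L - b) ^ (1 / 3 : ℝ) * Real.exp b * L ^ (2 * m) +
      (Real.exp (L - b) * Real.exp b) ^ (2 / 3 : ℝ) * ((L ^ (2 * m)) ^ (-(5 / 6) : ℝ) +
        L ^ (2 * m) * ((L ^ (9 * m)) ^ (-(1 / 3) : ℝ) + L * Real.exp s ^ (-(2 / 3) : ℝ) +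
          L ^ (9 * m) * (u / Real.exp s))) ≤ 8 * Real.exp (L * (2 / 3) - m * l) := by
  have pw : ∀ a : ℝ, L ^ a = Real.exp (l * a) := fun a => by rw [eL, ← Real.exp_mul]
  have ml : 0 ≤ m * l := mul_nonneg (by linarith) l0
  have ml3 : 3 * l ≤ m * l := mul_le_mul_of_nonneg_right hm l0
  have L0 : 0 < L := by rw [eL]; positivity
  generalize hw : Real.exp (L * (2 / 3) - m * l) = w
  have c8 := mul_le_mul_of_nonneg_left u1 (show 0 ≤ (Real.exp (L - b) * Real.exp b) ^ (2 / 3 : ℝ) *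
    L ^ (2 * m) * L ^ (9 * m) by positivity)
  have c7 : (Real.exp (L - b) * Real.exp b) ^ (2 / 3 : ℝ) * L ^ (2 * m) * Real.exp l *
      Real.exp s ^ (-(2 / 3) : ℝ) ≤ w := by
    simp only [pw, ← Real.exp_add, ← Real.exp_mul, ← hw, Real.exp_le_exp]; linarith
  rw [← eL] at c7
  have c9 : (Real.exp (L - b) * Real.exp b) ^ (2 / 3 : ℝ) * L ^ (2 * m) * L ^ (9 * m) *
      Real.exp (l - s) ≤ w := by
    simp only [pw, ← Real.exp_add, ← Real.exp_mul, ← hw, Real.exp_le_exp]; linarith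
  have c1 : Real.exp b ^ (4 / 3 + 3 / 100 : ℝ) * Real.exp (L - b) ^ (-(1 / 6) - 1 / 100 : ℝ) ≤ w := by
    simp only [← Real.exp_add, ← Real.exp_mul, ← hw, Real.exp_le_exp]; linarith
  have c2 : Real.exp (L - b) ^ (1 / 3 + 1 / 100 : ℝ) * Real.exp b ^ (2 / 3 : ℝ) ≤ w := by
    simp only [← Real.exp_add, ← Real.exp_mul, ← hw, Real.exp_le_exp]; linarith
  have c3 : Real.exp b * L ^ (2 * m) ≤ w := by
    simp only [pw, ← Real.exp_add, ← hw, Real.exp_le_exp]; linarith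
  have c4 : Real.exp (L - b) ^ (1 / 3 : ℝ) * Real.exp b * L ^ (2 * m) ≤ w := by
    simp only [pw, ← Real.exp_add, ← Real.exp_mul, ← hw, Real.exp_le_exp]; linarith
  have c5 : (Real.exp (L - b) * Real.exp b) ^ (2 / 3 : ℝ) * (L ^ (2 * m)) ^ (-(5 / 6) : ℝ) ≤ w := by
    simp only [pw, ← Real.exp_add, ← Real.exp_mul, ← hw, Real.exp_le_exp]; linarith
  have c6 : (Real.exp (L - b) * Real.exp b) ^ (2 / 3 : ℝ) * L ^ (2 * m) *
      (L ^ (9 * m)) ^ (-(1 / 3) : ℝ) ≤ w := by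
    simp only [pw, ← Real.exp_add, ← Real.exp_mul, ← hw, Real.exp_le_exp]; linarith
  linarith

theorem disp_num {X A B L z u m : ℝ} (hA : 0 < A) (hB : 0 < B) (hAB : A * B = X)
    (hL : Real.log X = L) (hL1 : 1352 ≤ L) (hm : 3 ≤ m) (h1 : X ^ (1 / 3 : ℝ) ≤ B)
    (h2 : B ≤ X ^ (1 / 2 : ℝ) * L ^ (-(9 * m))) (h3 : L ^ (13 * m + 3) ≤ z) (hu0 : 0 ≤ u)
    (hu : u ≤ L) (h4 : 20 * m * Real.log L ≤ L) :
    dispR A B (X ^ 12) (L ^ (2 * m)) ((L ^ (9 * m)) ^ (-(1 / 3) : ℝ) + L * z ^ (-(2 / 3) : ℝ) +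
      L ^ (9 * m) * (u / z)) ≤
      2 * X ^ (2 / 3 : ℝ) * (((X ^ (1 / 3 : ℝ) / B) ^ (1 / 4 : ℝ)) ^ 2 + L ^ (3 - m)) ∧
    u / z ≤ L ^ (3 - m) := by
  have hL0 : 0 < L := by linarith
  have hz : 0 < z := lt_of_lt_of_le (by positivity) h3
  have hX : 0 < X := by rw [← hAB]; positivity
  obtain ⟨b, rfl⟩ : ∃ b, B = Real.exp b := ⟨_, (Real.exp_log hB).symm⟩
  obtain ⟨s, rfl⟩ : ∃ s, z = Real.exp s := ⟨_, (Real.exp_log hz).symm⟩
  have eX : X = Real.exp L := by rw [← hL, Real.exp_log hX]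
  have eA : A = Real.exp (L - b) := by
    rw [Real.exp_sub, ← eX, ← hAB]; field_simp
  have l0 : 0 ≤ Real.log L := Real.log_nonneg (by linarith)
  have eL : L = Real.exp (Real.log L) := (Real.exp_log hL0).symm
  generalize Real.log L = l at h4 l0 eL
  have pw : ∀ a : ℝ, L ^ a = Real.exp (l * a) := fun a => by rw [eL, ← Real.exp_mul]
  have u1 : u / Real.exp s ≤ Real.exp (l - s) := by
    rw [Real.exp_sub, ← eL]; exact div_le_div_of_nonneg_right hu (by positivity)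
  clear hAB hL
  subst eX eA
  simp only [pw, ← Real.exp_add, ← Real.exp_mul, Real.exp_le_exp] at h1 h2 h3
  have ml : 0 ≤ m * l := mul_nonneg (by linarith) l0
  refine ⟨?_, u1.trans (by rw [pw, Real.exp_le_exp]; linarith)⟩
  have lg : Real.log (3 + Real.exp L ^ 12 + L ^ (2 * m) * (Real.exp b ^ 2 / Real.exp (L - b))) ≤
      13 * L := by
    rw [Real.log_le_iff_le_exp (by positivity), pw]
    simp only [← Real.exp_nat_mul, ← Real.exp_sub, ← Real.exp_add]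
    have c1 : Real.exp (l * (2 * m) + ((2 : ℕ) * b - (L - b))) ≤ Real.exp ((12 : ℕ) * L) :=
      Real.exp_le_exp.2 (by push_cast; linarith)
    have c2 : 5 ≤ Real.exp L := by linarith [Real.add_one_le_exp L]
    have c3 : Real.exp L ≤ Real.exp ((12 : ℕ) * L) := Real.exp_le_exp.2 (by push_cast; linarith)
    have c4 : Real.exp (13 * L) = Real.exp ((12 : ℕ) * L) * Real.exp L := by
      rw [← Real.exp_add]; congr 1; push_cast; ring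
    have c5 := mul_le_mul_of_nonneg_left c2 (Real.exp_pos ((12 : ℕ) * L)).le
    linarith
  have lg2 := pow_le_pow_left₀ (Real.log_nonneg (by
    have : 0 < Real.exp L ^ 12 + L ^ (2 * m) * (Real.exp b ^ 2 / Real.exp (L - b)) := by positivity
    linarith)) lg 2
  unfold dispR
  have k2 := mul_le_mul lg2 (disp_key eL l0 hm h1 h2 h3 h4 u1) (by positivity) (by positivity)
  have k3 : (13 * L) ^ 2 * (8 * Real.exp (L * (2 / 3) - m * l)) ≤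
      Real.exp L ^ (2 / 3 : ℝ) * L ^ (3 - m) := by
    have : Real.exp L ^ (2 / 3 : ℝ) * L ^ (3 - m) = L ^ 3 * Real.exp (L * (2 / 3) - m * l) := by
      rw [← Real.rpow_natCast L 3]
      simp only [pw, ← Real.exp_add, ← Real.exp_mul]
      congr 1; push_cast; ring
    rw [this]
    have := mul_le_mul_of_nonneg_right hL1
      (show 0 ≤ L ^ 2 * Real.exp (L * (2 / 3) - m * l) by positivity)
    linarith
  have k4 : Real.exp (L - b) ≤ Real.exp L ^ (2 / 3 : ℝ) *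
      ((Real.exp L ^ (1 / 3 : ℝ) / Real.exp b) ^ (1 / 4 : ℝ)) ^ 2 := by
    simp only [← Real.exp_nat_mul, ← Real.exp_sub, ← Real.exp_add, ← Real.exp_mul, Real.exp_le_exp]
    push_cast; linarith
  have k5 : Real.exp (L - b) ^ (5 / 6 : ℝ) * Real.exp b ^ (1 / 3 : ℝ) ≤ Real.exp L ^ (2 / 3 : ℝ) *
      ((Real.exp L ^ (1 / 3 : ℝ) / Real.exp b) ^ (1 / 4 : ℝ)) ^ 2 := by
    simp only [← Real.exp_nat_mul, ← Real.exp_sub, ← Real.exp_add, ← Real.exp_mul, Real.exp_le_exp]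
    push_cast; linarith
  have k6 : 0 ≤ Real.exp L ^ (2 / 3 : ℝ) * L ^ (3 - m) := by positivity
  linarith

theorem disp_one (hT : TP cs) : ∃ C : ℝ, 0 < C ∧ ∀ (S T : Finset Eis) (α β : Eis → ℂ)
    (A B Z Λ Q0 z u U E : ℝ), 0 < A → 0 < B → 0 < Z → 1 ≤ Λ → 1 ≤ Q0 → 1 ≤ z → 0 ≤ u → 0 ≤ U →
    (∀ a ∈ S, PS a) → T ⊆ PB Z →
    (∀ b ∈ T, Ro z b ∧ ((pf b).card : ℝ) ≤ u ∧ ((dv b).card : ℝ) ≤ U) → SW T β B Q0 E →
      ‖∑ a ∈ S, α a * G a *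
        (Ua T β a - ((cs * N a ^ (-(1 / 6) : ℝ) : ℝ) : ℂ) * th a * bt T β)‖ ^ 2 ≤
      C * (dispR A B Z Λ (Q0 ^ (-(1 / 3) : ℝ) + U * z ^ (-(2 / 3) : ℝ) + Q0 * (u / z)) * nw T β B +
        Q0 * Λ * (A * B) ^ (2 / 3 : ℝ) * E ^ 2 / B) * nw S α A := by
  obtain ⟨C1, hC1, h1⟩ := dyw
  obtain ⟨C2, hC2, h2⟩ := dd_le hT
  have v1 := Vw_pos 1
  refine ⟨C1 * (C2 / Vw 1), by positivity,
    fun S T α β A B Z Λ Q0 z u U E hA hB hZ hΛ hQ hz hu hU hS hT hR hW => ?_⟩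
  have hΛ0 : 0 < Λ := by linarith
  have hQ0 : 0 < Q0 := by linarith
  have hz0 : 0 < z := by linarith
  set V := Q0 ^ (-(1 / 3) : ℝ) + U * z ^ (-(2 / 3) : ℝ) + Q0 * (u / z) with hV
  have v0 : 0 ≤ V := by positivity
  have n0 := nw_nonneg T β B
  have r0 : 0 ≤ dispR A B Z Λ V := by unfold dispR; positivity
  set R : Eis → ℂ := fun a => Ua T β a - ((cs * N a ^ (-(1 / 6) : ℝ) : ℝ) : ℂ) * th a * bt T β
  refine (h1 _ (subQ_norm_sq fun a => α a * G a * R a) S α A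
    (C2 / Vw 1 * (dispR A B Z Λ V * nw T β B + Q0 * Λ * (A * B) ^ (2 / 3 : ℝ) * E ^ 2 / B)) hA
    (by positivity) hS fun K hK S' _ s2 => ?_).trans (le_of_eq (by ring))
  have a1 : ‖∑ a ∈ S', α a * G a * R a‖ ^ 2 ≤ sq S' α * ∑ a ∈ S', ‖R a‖ ^ 2 := by
    refine le_trans (pow_le_pow_left₀ (norm_nonneg _) ((norm_sum_le _ _).trans
      (Finset.sum_le_sum fun a _ => ?_)) 2) (Finset.sum_mul_sq_le_sq_mul_sq _ _ _)
    rw [norm_mul, norm_mul]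
    exact mul_le_mul_of_nonneg_right (mul_le_of_le_one_right (norm_nonneg _) (norm_G_le a))
      (norm_nonneg _)
  have a2 : Vw 1 * ∑ a ∈ S', ‖R a‖ ^ 2 ≤ DD T β K := by
    refine le_trans ?_ ((summable_DD T β hK).sum_le_tsum S' fun a _ => ?_)
    · rw [Finset.mul_sum]
      refine Finset.sum_le_sum fun a ha => ?_
      obtain ⟨b1, -, b2⟩ := mem_PD.1 (s2 ha)
      rw [if_pos b1.1]
      exact mul_le_mul_of_nonneg_right (Vw_anti ((div_le_one hK).2 b2)) (by positivity)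
    · split_ifs
      · exact mul_nonneg (Vw_pos _).le (by positivity)
      · exact le_rfl
  have a3 := h2 T β K B Z Λ Q0 z u U E hK hB hZ hΛ hQ hz hu hU hT hR hW
  have a4 := mul_le_mul_of_nonneg_right (dispR_le hK hA hB hZ hΛ0 v0) (mul_nonneg hC2.le n0)
  have t1 := dc3_two hK hA
  have a5 : (K * B) ^ (2 / 3 : ℝ) ≤ (A * B) ^ (2 / 3 : ℝ) * (K / A + A / K) ^ 3 := by
    rw [Real.mul_rpow hK.le hB.le, Real.mul_rpow hA.le hB.le, mul_right_comm]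
    exact mul_le_mul_of_nonneg_right ((dc3_pow hK hA (by norm_num) (by norm_num)).trans
      (mul_le_mul_of_nonneg_left (le_self_pow₀ t1 (by norm_num)) (by positivity))) (by positivity)
  have a6 := mul_le_mul_of_nonneg_left a5 (show 0 ≤ C2 * Q0 * Λ * E ^ 2 / B by positivity)
  have a7 : ∑ a ∈ S', ‖R a‖ ^ 2 ≤ C2 / Vw 1 * (dispR A B Z Λ V * nw T β B +
      Q0 * Λ * (A * B) ^ (2 / 3 : ℝ) * E ^ 2 / B) * (K / A + A / K) ^ 3 := by
    rw [div_mul_eq_mul_div, div_mul_eq_mul_div, le_div_iff₀ v1]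
    have a8 : DD T β K ≤ C2 * dispR K B Z Λ V * nw T β B +
      C2 * Q0 * Λ * (K * B) ^ (2 / 3 : ℝ) * E ^ 2 / B := a3
    have e1 : C2 * Q0 * Λ * (K * B) ^ (2 / 3 : ℝ) * E ^ 2 / B =
      C2 * Q0 * Λ * E ^ 2 / B * (K * B) ^ (2 / 3 : ℝ) := by ring
    have e2 : C2 * (dispR A B Z Λ V * nw T β B + Q0 * Λ * (A * B) ^ (2 / 3 : ℝ) * E ^ 2 / B) *
      (K / A + A / K) ^ 3 = dispR A B Z Λ V * (K / A + A / K) ^ 3 * (C2 * nw T β B) +
        C2 * Q0 * Λ * E ^ 2 / B * ((A * B) ^ (2 / 3 : ℝ) * (K / A + A / K) ^ 3) := by ring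
    linarith
  rw [mul_comm _ (sq S' α)]
  exact a1.trans (mul_le_mul_of_nonneg_left a7 (sq_nonneg' _ _))

theorem disp_split {S T : Finset Eis} (hS : ∀ a ∈ S, PS a) (hT : ∀ b ∈ T, PS b) (α β : Eis → ℂ) :
    ‖Bil S T α β‖ ≤ ‖∑ a ∈ S, α a * G a *
        (Ua T β a - ((cs * N a ^ (-(1 / 6) : ℝ) : ℝ) : ℂ) * th a * bt T β)‖ +
      cs * ∑ a ∈ S, ∑ b ∈ T, if IsCoprime a b then 0 else
        ‖α a‖ * N a ^ (-(1 / 6) : ℝ) * (‖β b‖ * N b ^ (-(1 / 6) : ℝ)) := by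
  have e : Bil S T α β = ∑ a ∈ S, α a * G a *
        (Ua T β a - ((cs * N a ^ (-(1 / 6) : ℝ) : ℝ) : ℂ) * th a * bt T β) +
      ∑ a ∈ S, ∑ b ∈ T, if IsCoprime a b then 0 else
        α a * β b * ((cs * N a ^ (-(1 / 6) : ℝ) * N b ^ (-(1 / 6) : ℝ) : ℝ) : ℂ) := by
    unfold Bil Ua bt
    rw [← Finset.sum_add_distrib]
    refine Finset.sum_congr rfl fun a ha => ?_
    have g1 : G a * conj (G a) = 1 := by
      rw [mul_conj, normSq_eq_norm_sq, norm_G (hS a ha)]; simp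
    rw [Finset.mul_sum, ← Finset.sum_sub_distrib, Finset.mul_sum, ← Finset.sum_add_distrib]
    refine Finset.sum_congr rfl fun b hb => ?_
    rw [Dl_mul (hS a ha) (hT b hb), th_PS (hS a ha), cop_comm]
    unfold cop
    push_cast
    split_ifs
    · linear_combination (α a * β b * cs * ((N a ^ (-(1 / 6) : ℝ) : ℝ) : ℂ) *
        ((N b ^ (-(1 / 6) : ℝ) : ℝ) : ℂ)) * g1
    · linear_combination (α a * β b * cs * ((N a ^ (-(1 / 6) : ℝ) : ℝ) : ℂ) *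
        ((N b ^ (-(1 / 6) : ℝ) : ℝ) : ℂ)) * g1
  rw [e]
  refine (norm_add_le _ _).trans (add_le_add le_rfl ?_)
  rw [Finset.mul_sum]
  refine (norm_sum_le _ _).trans (Finset.sum_le_sum fun a _ => ?_)
  rw [Finset.mul_sum]
  refine (norm_sum_le _ _).trans (Finset.sum_le_sum fun b _ => le_of_eq ?_)
  have := N_nonneg a
  have := N_nonneg b
  have := cs_pos
  split_ifs
  · simp
  · rw [norm_mul, norm_mul, norm_real, Real.norm_of_nonneg (by positivity)]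
    ring

theorem disp_ev (M : ℝ) : ∀ᶠ X : ℝ in atTop, M ≤ Real.log X ∧
    M * Real.log (Real.log X) ≤ Real.log X := by
  have h1 := Real.tendsto_log_atTop.eventually_ge_atTop M
  have h2 := Real.tendsto_log_atTop.eventually
    ((Real.isLittleO_log_id_atTop.const_mul_left M).bound one_pos)
  filter_upwards [h1, h2, Real.tendsto_log_atTop.eventually_ge_atTop 0] with X a b c
  refine ⟨a, (le_abs_self _).trans ?_⟩
  simpa [abs_of_nonneg c] using b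

theorem disp_fin {D1 D2 c f1 f2 R v e nS nS' nT x ρ y Q : ℝ} (hD1 : 0 < D1) (hD2 : 0 < D2)
    (hc : 0 < c) (n0 : 0 ≤ nS') (n1 : nS' ≤ nS) (n2 : 0 ≤ nT) (x0 : 0 ≤ x) (ρ0 : 0 ≤ ρ)
    (y0 : 0 ≤ y) (Q0 : 0 ≤ Q) (a1 : f1 ^ 2 ≤ D1 * (R * nT + e) * nS')
    (a2 : f2 ^ 2 ≤ D2 * x ^ 2 * v * nS' * nT) (k1 : R ≤ 2 * x ^ 2 * (ρ ^ 2 + y ^ 2))
    (k2 : v ≤ y ^ 2) (k3 : e ≤ Q ^ 2) :
    f1 + c * f2 ≤ (√(2 * D1) + c * √D2) * √nS * (√nT * x * (ρ + y) + Q) := by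
  have n4 := Real.sq_sqrt n2
  have n5 := Real.sq_sqrt (n0.trans n1)
  have p1 : (ρ ^ 2 + y ^ 2) * (x ^ 2 * nT) ≤ (√nT * x * (ρ + y)) ^ 2 := by
    rw [mul_pow, mul_pow, n4, mul_comm, mul_comm (x ^ 2)]
    exact mul_le_mul_of_nonneg_left (by nlinarith [mul_nonneg ρ0 y0]) (by positivity)
  have P0 : 0 ≤ √nT * x * (ρ + y) := by positivity
  generalize √nT * x * (ρ + y) = P at p1 P0
  have p3 := mul_le_mul_of_nonneg_right k1 n2
  have q1 := abs_le_of_sq_le_sq' (a1.trans (show _ ≤ (√(2 * D1) * √nS * (P + Q)) ^ 2 by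
    rw [mul_pow, mul_pow, n5, Real.sq_sqrt (by positivity), mul_right_comm (2 * D1)]
    refine mul_le_mul ?_ n1 n0 (by positivity)
    rw [mul_comm 2 D1, mul_assoc D1]
    refine mul_le_mul_of_nonneg_left ?_ hD1.le
    nlinarith [mul_nonneg P0 Q0, sq_nonneg Q])) (by positivity)
  have q2 := abs_le_of_sq_le_sq' (a2.trans (show _ ≤ (√D2 * √nS * (P + Q)) ^ 2 by
    rw [mul_pow, mul_pow, n5, Real.sq_sqrt (by positivity), mul_right_comm D2 nS,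
      mul_right_comm _ nS']
    refine mul_le_mul ?_ n1 n0 (by positivity)
    rw [mul_assoc D2, mul_assoc D2]
    refine mul_le_mul_of_nonneg_left ?_ hD2.le
    have := mul_le_mul_of_nonneg_right k2 (show 0 ≤ x ^ 2 * nT by positivity)
    have : 0 ≤ ρ ^ 2 * (x ^ 2 * nT) := by positivity
    nlinarith [mul_nonneg P0 Q0, sq_nonneg Q])) (by positivity)
  have := mul_le_mul_of_nonneg_left q2.2 hc.le
  linarith [q1.2]

theorem disp (hT : TP cs) : ∃ C : ℝ, 0 < C ∧ ∀ C1 : ℝ, ∃ C2 : ℝ, 0 < C2 ∧ ∀ᶠ X : ℝ in atTop,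
    ∀ (S T : Finset Eis) (α β : Eis → ℂ) (A B E : ℝ), 0 < A → A * B = X → X ^ (1 / 3 : ℝ) ≤ B →
    B ≤ X ^ (1 / 2 : ℝ) * Real.log X ^ (-C2) → 0 ≤ E → (∀ a ∈ S, Prim a) →
    (∀ b ∈ T, PS b ∧ Ro (zz X) b ∧ N b ≤ X ^ 12) → SW T β B (Real.log X ^ C2) E →
      ‖Bil S T α β‖ ≤ C * √(nw S α A) * (√(nw T β B) * X ^ (1 / 3 : ℝ) *
        ((X ^ (1 / 3 : ℝ) / B) ^ (1 / 4 : ℝ) + Real.log X ^ (-C1)) +
        X ^ (1 / 3 : ℝ) * B ^ (-(1 / 2) : ℝ) * E * Real.log X ^ C2) := by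
  obtain ⟨D1, hD1, h1⟩ := disp_one hT
  obtain ⟨D2, hD2, h2⟩ := ncop_le
  have c0 := cs_pos
  refine ⟨√(2 * D1) + cs * √D2, by positivity, fun C1 => ?_⟩
  obtain ⟨m, m3, m1⟩ : ∃ m : ℝ, 3 ≤ m ∧ 2 * C1 + 3 ≤ m :=
    ⟨max 3 (2 * C1 + 3), le_max_left _ _, le_max_right _ _⟩
  refine ⟨9 * m, by linarith, ?_⟩
  filter_upwards [disp_ev 1352, disp_ev (20 * m), le_zz (13 * m + 3), card_pf_zz,
    eventually_gt_atTop 0] with X ⟨x1, _⟩ ⟨_, x2⟩ x3 x4 hX S T α β A B E hA hAB b1 b2 hE hS hT hW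
  have hB : 0 < B := lt_of_lt_of_le (by positivity) b1
  have L1 : 1 ≤ Real.log X := by linarith
  have L0 : 0 < Real.log X := by linarith
  have u0 : 0 ≤ Real.log (Real.log X) := Real.log_nonneg L1
  have u1 : Real.log (Real.log X) ≤ Real.log X := by linarith [Real.log_le_sub_one_of_pos L0]
  have z1 : 1 ≤ zz X := (Real.one_le_rpow L1 (by linarith)).trans x3
  obtain ⟨k1, k2⟩ := disp_num hA hB hAB rfl x1 m3 b1 b2 x3 u0 u1 x2
  have s1 : ∀ a ∈ S.filter PS, PS a := fun a ha => (Finset.mem_filter.1 ha).2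
  have t1 : ∀ b ∈ T, PS b := fun b hb => (hT b hb).1
  have a1 := h1 (S.filter PS) T α β A B (X ^ 12) (Real.log X ^ (2 * m)) (Real.log X ^ (9 * m))
    (zz X) (Real.log (Real.log X)) (Real.log X) E hA hB
    (by positivity) (Real.one_le_rpow L1 (by linarith)) (Real.one_le_rpow L1 (by linarith)) z1 u0
    L0.le s1 (fun b hb => mem_PB.2 ⟨t1 b hb, (hT b hb).2.2⟩)
    (fun b hb => ⟨(hT b hb).2.1, x4 b (hT b hb).2.1 (hT b hb).2.2⟩) hW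
  have a2 := h2 (S.filter PS) T α β A B (zz X) (Real.log (Real.log X)) hA hB (by linarith) u0
    (fun h => (s1 0 h).ne_zero rfl) fun b hb => ⟨(hT b hb).2.1, (x4 b (hT b hb).2.1 (hT b hb).2.2).1⟩
  generalize Real.log X = L at *
  have w1 : L ^ (3 - m) ≤ (L ^ (-C1)) ^ 2 := by
    rw [← Real.rpow_natCast, ← Real.rpow_mul L0.le]
    exact Real.rpow_le_rpow_of_exponent_le L1 (by push_cast; linarith)
  have w2 : X ^ (2 / 3 : ℝ) = (X ^ (1 / 3 : ℝ)) ^ 2 := by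
    rw [← Real.rpow_natCast, ← Real.rpow_mul hX.le]; norm_num
  have w3 : L ^ (9 * m) * L ^ (2 * m) ≤ (L ^ (9 * m)) ^ 2 := by
    rw [_root_.sq]
    exact mul_le_mul_of_nonneg_left (Real.rpow_le_rpow_of_exponent_le L1 (by linarith))
      (by positivity)
  have w4 : B⁻¹ = (B ^ (-(1 / 2) : ℝ)) ^ 2 := by
    rw [← Real.rpow_natCast, ← Real.rpow_mul hB.le, ← Real.rpow_neg_one]; norm_num
  rw [hAB] at a1 a2
  rw [w2] at a1 a2 k1
  rw [Bil_filter hS (fun b hb => (t1 b hb).1), Finset.filter_true_of_mem t1]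
  refine (disp_split s1 t1 α β).trans (disp_fin hD1 hD2 c0 (nw_nonneg _ _ _)
    (nw_mono (Finset.filter_subset _ _) (fun _ _ => le_rfl) _) (nw_nonneg _ _ _) (by positivity)
    (by positivity) (by positivity) (by positivity) a1 a2 (k1.trans (mul_le_mul_of_nonneg_left
      (add_le_add le_rfl w1) (by positivity))) (k2.trans w1) ?_)
  have := mul_le_mul_of_nonneg_left w3
    (show 0 ≤ (X ^ (1 / 3 : ℝ)) ^ 2 * E ^ 2 * B⁻¹ by positivity)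
  rw [mul_pow, mul_pow, mul_pow, ← w4, div_eq_mul_inv]
  linarith

end Vale.Agent.P006
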