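import Vale.Agent.P006.PriA

/-! Divisor sums, rough and smooth elements (second half; primes, Mertens bounds and Euler
products are in PriA). -/

namespace Vale.Agent.P006

open Vale.Agent.P026 Eis Complex MeasureTheory Filter Topology
open scoped Classical ComplexConjugate

theorem eta_nonneg (n : Eis) : 0 ≤ eta n :=
  Finset.sum_nonneg fun D _ => inv_nonneg.2 (N_nonneg D)

theorem pri_prod_le {S : Finset Eis} {f : Eis → ℝ} (h : ∀ p ∈ S, 0 ≤ f p) :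
    ∏ p ∈ S, (1 + f p) ≤ Real.exp (∑ p ∈ S, f p) := by
  rw [Real.exp_sum]
  exact Finset.prod_le_prod (fun p hp => by linarith [h p hp])
    fun p _ => by linarith [Real.add_one_le_exp (f p)]

theorem pri_card_pf {n : Eis} (hn : n ≠ 0) : ((pf n).card : ℝ) ≤ 2 * Real.log (N n) := by
  have h := card_dv_le_N hn
  rw [card_dv_eq hn] at h
  push_cast at h
  have h1 := Real.log_le_log (by positivity) h
  rw [Real.log_pow] at h1
  nlinarith [Real.log_two_gt_d9, Nat.cast_nonneg (α := ℝ) (pf n).card]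

theorem pri_one_le_log {x : ℝ} (hx : 0 ≤ x) : 1 ≤ Real.log (3 + x) := by
  rw [Real.le_log_iff_exp_le (by linarith)]
  linarith [Real.exp_one_lt_d9]

theorem eta_le {e : ℝ} (he : 0 < e) : ∃ C : ℝ, 0 < C ∧ ∀ n : Eis, n ≠ 0 →
    eta n ≤ C * Real.log (3 + N n) ^ e := by
  obtain ⟨C, hC, h⟩ := mertens_inv
  refine ⟨Real.exp (C + 1) * (2 ^ e / (e / 2) ^ 2), by positivity, fun n hn => ?_⟩
  have hL := pri_one_le_log (N_nonneg n)
  have hL' := Real.log_le_log (N_pos hn) (show N n ≤ 3 + N n by linarith)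
  set L := Real.log (3 + N n)
  have h1 : eta n = ∏ p ∈ pf n, (1 + (N p)⁻¹) :=
    sum_dv_eq_prod hn (fun D => (N D)⁻¹) (by simp) fun x y _ _ _ => by rw [N_mul, mul_inv]
  have h2 : ∑ p ∈ pf n, (N p)⁻¹ ≤ ∑ p ∈ pz (2 * L), (N p)⁻¹ + 1 := by
    rw [← Finset.sum_filter_add_sum_filter_not (pf n) (fun p => N p ≤ 2 * L)]
    refine add_le_add (Finset.sum_le_sum_of_subset_of_nonneg (fun p hp => ?_)
      fun p _ _ => inv_nonneg.2 (N_nonneg p)) ?_
    · obtain ⟨k1, k2⟩ := Finset.mem_filter.1 hp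
      exact mem_pz.2 ⟨((mem_pf hn).1 k1).1, ((mem_pf hn).1 k1).2.1, k2⟩
    · refine (Finset.sum_le_card_nsmul _ _ (2 * L)⁻¹ fun p hp =>
        inv_anti₀ (by linarith) (not_le.1 (Finset.mem_filter.1 hp).2).le).trans ?_
      rw [nsmul_eq_mul, ← div_eq_mul_inv, div_le_one (by linarith)]
      refine (Nat.cast_le.2 (Finset.card_filter_le _ _)).trans ?_
      linarith [pri_card_pf hn]
  have h3 := h (2 * L) (by linarith)
  have h4 : 0 < Real.log (2 * L) := Real.log_pos (by linarith)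
  have h5 := Real.log_le_rpow_div (show 0 ≤ 2 * L by linarith) (half_pos he)
  have h6 : ((2 * L) ^ (e / 2)) ^ 2 = 2 ^ e * L ^ e := by
    rw [← Real.rpow_two, ← Real.rpow_mul (by linarith), div_mul_cancel₀ _ two_ne_zero,
      Real.mul_rpow zero_le_two (by linarith)]
  have h7 := pow_le_pow_left₀ h4.le h5 2
  rw [div_pow, h6] at h7
  rw [h1]
  refine (pri_prod_le fun p _ => inv_nonneg.2 (N_nonneg p)).trans
    ((Real.exp_le_exp.2 (show _ ≤ C + 1 + Real.log (Real.log (2 * L) ^ 2) by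
      rw [Real.log_pow]; push_cast; linarith)).trans ?_)
  rw [Real.exp_add, Real.exp_log (by positivity), mul_assoc]
  refine mul_le_mul_of_nonneg_left (h7.trans (le_of_eq ?_)) (Real.exp_pos _).le
  ring

theorem pri_omw {n : Eis} (hn : n ≠ 0) : omw n = ∏ p ∈ pf n, (1 + N p ^ (-(2 / 3) : ℝ)) :=
  sum_dv_eq_prod hn (fun D => N D ^ (-(2 / 3) : ℝ)) (by simp) fun x y _ _ _ => by
    rw [N_mul, Real.mul_rpow (N_nonneg x) (N_nonneg y)]

theorem pri_one_le (S : Finset Eis) : 1 ≤ ∏ p ∈ S, (1 + N p ^ (-(2 / 3) : ℝ)) :=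
  Finset.one_le_prod fun p _ => le_add_of_nonneg_right (Real.rpow_nonneg (N_nonneg p) _)

theorem one_le_omw {n : Eis} (hn : n ≠ 0) : 1 ≤ omw n := by
  rw [pri_omw hn]
  exact pri_one_le _

theorem pri_pf_mul {x y : Eis} (hx : x ≠ 0) (hy : y ≠ 0) : pf (x * y) = pf x ∪ pf y := by
  ext p
  rw [Finset.mem_union, mem_pf hx, mem_pf hy, mem_pf (mul_ne_zero hx hy)]
  exact ⟨fun h => (h.1.dvd_or_dvd h.2.2).imp (fun k => ⟨h.1, h.2.1, k⟩) fun k => ⟨h.1, h.2.1, k⟩,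
    fun h => h.elim (fun k => ⟨k.1, k.2.1, k.2.2.mul_right _⟩)
      fun k => ⟨k.1, k.2.1, k.2.2.mul_left _⟩⟩

theorem omw_mul_le {x y : Eis} (hx : x ≠ 0) (hy : y ≠ 0) : omw (x * y) ≤ omw x * omw y := by
  rw [pri_omw hx, pri_omw hy, pri_omw (mul_ne_zero hx hy), pri_pf_mul hx hy,
    ← Finset.prod_union_inter]
  exact le_mul_of_one_le_right (zero_le_one.trans (pri_one_le _)) (pri_one_le _)

theorem omw_le {e : ℝ} (he : 0 < e) : ∃ C : ℝ, 0 < C ∧ ∀ n : Eis, n ≠ 0 → omw n ≤ C * N n ^ e := by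
  obtain ⟨C, hC, h⟩ := card_dv_le he
  refine ⟨C, hC, fun n hn => le_trans ?_ (h n hn)⟩
  refine (Finset.sum_le_card_nsmul _ _ 1 fun D hD => ?_).trans (by rw [nsmul_eq_mul, mul_one])
  exact Real.rpow_le_one_of_one_le_of_nonpos (one_le_N ((mem_dv hn).1 hD).1.ne_zero) (by norm_num)

theorem pri_omw_prime {p x : Eis} (hp : Prime p) (h1 : Prim p) (hx : x ≠ 0) (h : ¬ p ∣ x) :
    omw (p * x) = (1 + N p ^ (-(2 / 3) : ℝ)) * omw x := by
  rw [pri_omw hx, pri_omw (mul_ne_zero hp.ne_zero hx), pf_prime_mul hp h1 hx,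
    Finset.prod_insert fun j => h ((mem_pf hx).1 j).2.2]

theorem pri_mul_div {p x D : Eis} (h : D ∣ x) : p * x / D = p * (x / D) :=
  EuclideanDomain.mul_div_assoc p h

theorem omw_conv : ∃ C : ℝ, 0 < C ∧ ∀ n : Eis, PS n →
    ∑ D ∈ dv n, N D ^ (-(2 / 3) : ℝ) / omw (n / D) ≤ C := by
  have hs := summable_N_rpow (s := 4 / 3) (by norm_num)
  refine ⟨Real.exp (∑' p : Eis, N p ^ (-(4 / 3) : ℝ)), Real.exp_pos _, fun n hn => ?_⟩
  refine le_trans ?_ (Real.exp_le_exp.2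
    (hs.sum_le_tsum (pf n) fun p _ => Real.rpow_nonneg (N_nonneg p) _))
  refine PS.induction (Pr := fun n => ∑ D ∈ dv n, N D ^ (-(2 / 3) : ℝ) / omw (n / D) ≤
    Real.exp (∑ p ∈ pf n, N p ^ (-(4 / 3) : ℝ))) ?_ (fun p x hp h1 hx h ih => ?_) hn
  · simp [dv_one, bas_pf_one, omw]
  · have h0 := hx.ne_zero
    have t0 : 0 ≤ N p ^ (-(2 / 3) : ℝ) := Real.rpow_nonneg (N_nonneg p) _
    have e : N p ^ (-(4 / 3) : ℝ) = (N p ^ (-(2 / 3) : ℝ)) ^ 2 := by
      rw [← Real.rpow_two, ← Real.rpow_mul (N_nonneg p)]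
      norm_num
    rw [sum_dv_prime_mul hp h1 h0 h, pf_prime_mul hp h1 h0,
      Finset.sum_insert fun j => h ((mem_pf h0).1 j).2.2, Real.exp_add, e]
    generalize ht : N p ^ (-(2 / 3) : ℝ) = t at t0
    have k : ∑ D ∈ dv x, (N D ^ (-(2 / 3) : ℝ) / omw (p * x / D) +
        N (p * D) ^ (-(2 / 3) : ℝ) / omw (p * x / (p * D))) =
        ((1 + t)⁻¹ + t) * ∑ D ∈ dv x, N D ^ (-(2 / 3) : ℝ) / omw (x / D) := by
      rw [Finset.mul_sum]
      refine Finset.sum_congr rfl fun D hD => ?_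
      obtain ⟨a, b⟩ := (mem_dv h0).1 hD
      have c := (hx.of_dvd a.1 b).2.1.ne_zero
      rw [EuclideanDomain.mul_div_mul_cancel hp.ne_zero b, pri_mul_div b,
        pri_omw_prime hp h1 c fun j => h (by rw [← lp_div_mul a.ne_zero b]; exact j.mul_left _),
        N_mul, Real.mul_rpow (N_nonneg p) (N_nonneg D), ht]
      have := one_le_omw c
      field_simp
    rw [k]
    refine mul_le_mul (le_trans ?_ (Real.add_one_le_exp _)) ih (Finset.sum_nonneg fun D hD => ?_)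
      (Real.exp_pos _).le
    · have : (1 + t)⁻¹ ≤ 1 - t + t ^ 2 := by
        rw [inv_le_iff_one_le_mul₀ (by linarith)]
        nlinarith [pow_nonneg t0 3]
      linarith
    · exact div_nonneg (Real.rpow_nonneg (N_nonneg D) _)
        (Finset.sum_nonneg fun E _ => Real.rpow_nonneg (N_nonneg E) _)

theorem one_le_card_dp {n : Eis} (hn : n ≠ 0) : 1 ≤ (dp n).card :=
  Finset.card_pos.2 ⟨1, (mem_dp hn).2 ⟨Prim.one, one_dvd n⟩⟩

theorem card_dp_mul {x y : Eis} (hx : Prim x) (hy : Prim y) :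
    (dp (x * y)).card ≤ (dp x).card * (dp y).card := by
  rw [← Finset.card_product]
  refine (Finset.card_le_card (t := (dp x ×ˢ dp y).image fun d => d.1 * d.2) fun d hd => ?_).trans
    Finset.card_image_le
  obtain ⟨h1, h2⟩ := (mem_dp (hx.mul hy).ne_zero).1 hd
  obtain ⟨a, b, ha, hb, rfl⟩ := exists_dvd_and_dvd_of_dvd_mul h2
  obtain ⟨_, ⟨u, rfl⟩, h3⟩ := exists_prim_assoc (x := a) fun k => hx.not_lam_dvd (k.trans ha)
  have e : (u : Eis) * a * ((u⁻¹ : Eisˣ) * b) = a * b := by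
    rw [mul_mul_mul_comm, Units.mul_inv, one_mul]
  exact Finset.mem_image.2 ⟨(u * a, (u⁻¹ : Eisˣ) * b), Finset.mem_product.2
    ⟨(mem_dp hx.ne_zero).2 ⟨h3, Units.mul_left_dvd.2 ha⟩,
      (mem_dp hy.ne_zero).2 ⟨h3.of_mul (e ▸ h1), Units.mul_left_dvd.2 hb⟩⟩, e⟩

theorem pri_dp_pow {p : Eis} (hp : Prime p) (h1 : Prim p) (a : ℕ) : (dp (p ^ a)).card ≤ a + 1 := by
  refine (Finset.card_le_card (t := (Finset.range (a + 1)).image (p ^ ·)) fun d hd => ?_).trans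
    (Finset.card_image_le.trans (by rw [Finset.card_range]))
  obtain ⟨k1, k2⟩ := (mem_dp (h1.pow a).ne_zero).1 hd
  obtain ⟨i, hi, k⟩ := (dvd_prime_pow hp a).1 k2
  exact Finset.mem_image.2 ⟨i, Finset.mem_range.2 (Nat.lt_succ_of_le hi),
    (k1.eq_of_associated (h1.pow i) k).symm⟩

theorem pri_dp_one : dp 1 = {1} := by rw [← dv_eq_dp PS.one, dv_one]

theorem Ro.of_dvd {z : ℝ} {x d : Eis} (hx : Ro z x) (hd : Prim d) (h : d ∣ x) : Ro z d :=
  ⟨hd, fun p hp k => hx.2 p hp (k.trans h)⟩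
theorem Smo.of_dvd {z : ℝ} {x d : Eis} (hx : Smo z x) (hd : Prim d) (h : d ∣ x) : Smo z d :=
  ⟨hd, fun p hp k => hx.2 p hp (k.trans h)⟩

theorem card_dp_rough {z : ℝ} (hz : 1 < z) {n : Eis} (hn : Ro z n) :
    ((dp n).card : ℝ) ≤ N n ^ (Real.log 2 / Real.log z) := by
  have l := Real.log_pos hz
  have t0 : 0 ≤ Real.log 2 / Real.log z := div_nonneg (Real.log_nonneg one_le_two) l.le
  have e : z ^ (Real.log 2 / Real.log z) = 2 := by
    rw [Real.rpow_def_of_pos (by linarith), mul_div_cancel₀ _ l.ne', Real.exp_log two_pos]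
  refine Prim.induction (Pr := fun n => Ro z n →
    ((dp n).card : ℝ) ≤ N n ^ (Real.log 2 / Real.log z)) (fun _ => by simp [pri_dp_one])
    (fun p x hp h1 hx ih k => ?_) hn.1 hn
  have a := ih (k.of_dvd hx (dvd_mul_left _ _))
  have b := Real.rpow_le_rpow (by linarith) (k.2 p hp (dvd_mul_right _ _)).le t0
  have c := pri_dp_pow hp h1 1
  rw [pow_one] at c
  have d : ((dp (p * x)).card : ℝ) ≤ 2 * (dp x).card := by
    exact_mod_cast (card_dp_mul h1 hx).trans (Nat.mul_le_mul_right _ c)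
  rw [N_mul, Real.mul_rpow (N_nonneg p) (N_nonneg x)]
  exact d.trans (mul_le_mul (e.symm.trans_le b) a (Nat.cast_nonneg _) (Real.rpow_nonneg (N_nonneg p) _))

theorem card_pf_rough {z : ℝ} (hz : 1 < z) {n : Eis} (hn : Ro z n) :
    ((pf n).card : ℝ) ≤ Real.log (N n) / Real.log z := by
  rw [le_div_iff₀ (Real.log_pos hz)]
  refine Prim.induction (Pr := fun n => Ro z n →
    ((pf n).card : ℝ) * Real.log z ≤ Real.log (N n)) (fun _ => by simp [bas_pf_one])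
    (fun p x hp h1 hx ih k => ?_) hn.1 hn
  have a := ih (k.of_dvd hx (dvd_mul_left _ _))
  have b := Real.log_le_log (by linarith) (k.2 p hp (dvd_mul_right _ _)).le
  have c : ((pf (p * x)).card : ℝ) ≤ (pf x).card + 1 := by
    rw [pf_prime_mul hp h1 hx.ne_zero]
    exact_mod_cast Finset.card_insert_le _ _
  rw [N_mul, Real.log_mul (N_pos hp.ne_zero).ne' (N_pos hx.ne_zero).ne']
  nlinarith [Real.log_pos hz]

theorem pri_five : ∃ K : ℝ, 0 < K ∧ ∀ t : ℝ, 0 ≤ t → t ≤ 1 / 2 → ∀ k : ℕ,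
    ∑ a ∈ Finset.range k, ((a : ℝ) + 1) ^ 5 * t ^ a ≤ Real.exp (K * t) := by
  have hs : Summable fun a : ℕ => 4 * (((a + 2 : ℕ) : ℝ) ^ 5 * (1 / 2 : ℝ) ^ (a + 2)) :=
    ((summable_nat_add_iff 2).2 (summable_pow_mul_geometric_of_norm_lt_one 5
      (r := (1 / 2 : ℝ)) (by norm_num))).mul_left 4
  have h0 : 0 ≤ ∑' a : ℕ, 4 * (((a + 2 : ℕ) : ℝ) ^ 5 * (1 / 2 : ℝ) ^ (a + 2)) :=
    tsum_nonneg fun a => by positivity
  refine ⟨_ + 1, add_pos_of_nonneg_of_pos h0 one_pos, fun t t0 t1 k => ?_⟩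
  refine le_trans (Finset.sum_le_sum_of_subset_of_nonneg (Finset.range_subset_range.2
    (Nat.le_succ k)) fun a _ _ => by positivity) (le_trans ?_ (Real.add_one_le_exp _))
  rw [Finset.sum_range_succ']
  have h1 : ∑ a ∈ Finset.range k, (((a + 1 : ℕ) : ℝ) + 1) ^ 5 * t ^ (a + 1) ≤
      (∑ a ∈ Finset.range k, 4 * (((a + 2 : ℕ) : ℝ) ^ 5 * (1 / 2 : ℝ) ^ (a + 2))) * t := by
    rw [Finset.sum_mul]
    refine Finset.sum_le_sum fun a _ => ?_
    have := pow_le_pow_left₀ t0 t1 a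
    have e : 4 * (((a + 2 : ℕ) : ℝ) ^ 5 * (1 / 2 : ℝ) ^ (a + 2)) * t =
        (((a + 1 : ℕ) : ℝ) + 1) ^ 5 * ((1 / 2) ^ a * t) := by
      push_cast
      ring
    rw [e, pow_succ t]
    gcongr
  have h2 := mul_le_mul_of_nonneg_right
    (hs.sum_le_tsum (Finset.range k) fun a _ => by positivity) t0
  simp only [Nat.cast_zero, zero_add, one_pow, pow_zero, mul_one]
  linarith

theorem sum_card_dp_pow : ∃ (C : ℝ) (k : ℕ), 0 < C ∧ ∀ x : ℝ, 0 < x →
    ∑ n ∈ (ball x).filter Prim, ((dp n).card : ℝ) ^ 5 ≤ C * x * Real.log (3 + x) ^ k := by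
  obtain ⟨K, hK, h⟩ := pri_five
  obtain ⟨C, hC, hm⟩ := mertens_inv
  refine ⟨Real.exp (K * C), ⌈2 * K⌉₊, Real.exp_pos _, fun x hx => ?_⟩
  have h1 := euler_le (f := fun n => ((dp n).card : ℝ) ^ 5 * (N n)⁻¹)
    (fun n => mul_nonneg (by positivity) (inv_nonneg.2 (N_nonneg n))) (by simp [pri_dp_one])
    (fun p m a _ hp hm _ => by
      have : ((dp (p ^ a * m)).card : ℝ) ≤ (dp (p ^ a)).card * (dp m).card := by
        exact_mod_cast card_dp_mul (hp.pow a) hm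
      rw [N_mul, mul_inv, mul_mul_mul_comm, ← mul_pow]
      exact mul_le_mul_of_nonneg_right (pow_le_pow_left₀ (Nat.cast_nonneg _) this 5)
        (mul_nonneg (inv_nonneg.2 (N_nonneg _)) (inv_nonneg.2 (N_nonneg _)))) (pz (3 + x))
    (fun p hp => ⟨(mem_pz.1 hp).1, (mem_pz.1 hp).2.1⟩) (fun p => Real.exp (K * (N p)⁻¹))
    (fun p hp k => by
      have t0 := inv_nonneg.2 (N_nonneg p)
      refine le_trans (Finset.sum_le_sum fun a _ => ?_) (h _ t0 (pri_inv_le (mem_pz.1 hp).1) k)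
      have : ((dp (p ^ a)).card : ℝ) ≤ a + 1 := by
        exact_mod_cast pri_dp_pow (mem_pz.1 hp).1 (mem_pz.1 hp).2.1 a
      rw [N_pow, ← inv_pow]
      gcongr)
    ((ball x).filter Prim) (fun n hn => by
      obtain ⟨k1, k2⟩ := Finset.mem_filter.1 hn
      exact ⟨k2, fun p a b d => mem_pz.2 ⟨a, b, (N_le_of_dvd k2.ne_zero d).trans
        ((mem_ball.1 k1).2.trans (by linarith))⟩⟩)
  have hL := pri_one_le_log hx.le
  have h2 := mul_le_mul_of_nonneg_left (hm (3 + x) (by linarith)) hK.le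
  have h3 : Real.exp (K * (2 * Real.log (Real.log (3 + x)) + C)) ≤
      Real.exp (K * C) * Real.log (3 + x) ^ ⌈2 * K⌉₊ := by
    rw [← Real.exp_log (pow_pos (one_pos.trans_le hL) ⌈2 * K⌉₊), ← Real.exp_add, Real.log_pow]
    refine Real.exp_le_exp.2 ?_
    nlinarith [Nat.le_ceil (2 * K), Real.log_nonneg hL]
  rw [← Real.exp_sum, ← Finset.mul_sum] at h1
  have h4 := (h1.trans (Real.exp_le_exp.2 h2)).trans h3
  rw [mul_right_comm]
  refine le_trans ?_ (mul_le_mul_of_nonneg_right h4 hx.le)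
  rw [Finset.sum_mul]
  refine Finset.sum_le_sum fun n hn => ?_
  obtain ⟨k1, k2⟩ := mem_ball.1 (Finset.mem_filter.1 hn).1
  rw [mul_assoc]
  refine le_mul_of_one_le_right (by positivity) ?_
  rw [← div_eq_inv_mul, one_le_div (N_pos k1)]
  exact k2

theorem Ro.one (z : ℝ) : Ro z 1 := ⟨Prim.one, fun _ hp h => absurd h hp.not_dvd_one⟩
theorem Smo.one (z : ℝ) : Smo z 1 := ⟨Prim.one, fun _ hp h => absurd h hp.not_dvd_one⟩
theorem ro_one_iff {n : Eis} : Ro 1 n ↔ Prim n :=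
  ⟨fun h => h.1, fun h => ⟨h, fun _ hp _ => one_lt_two.trans_le (cnt_two_le hp)⟩⟩
theorem smo_one_iff {n : Eis} : Smo 1 n ↔ n = 1 := by
  refine ⟨fun h => by_contra fun k => ?_, fun h => h ▸ Smo.one 1⟩
  obtain ⟨p, a, -, c⟩ := exists_prime_dvd h.1 k
  linarith [h.2 p a c, cnt_two_le a]
theorem Ro.mul {z : ℝ} {x y : Eis} (hx : Ro z x) (hy : Ro z y) : Ro z (x * y) :=
  ⟨hx.1.mul hy.1, fun p hp h => (hp.dvd_or_dvd h).elim (hx.2 p hp) (hy.2 p hp)⟩
theorem Smo.mul {z : ℝ} {x y : Eis} (hx : Smo z x) (hy : Smo z y) : Smo z (x * y) :=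
  ⟨hx.1.mul hy.1, fun p hp h => (hp.dvd_or_dvd h).elim (hx.2 p hp) (hy.2 p hp)⟩
theorem Ro.lt_N {z : ℝ} {x : Eis} (hx : Ro z x) (h1 : x ≠ 1) : z < N x := by
  obtain ⟨p, a, -, c⟩ := exists_prime_dvd hx.1 h1
  exact (hx.2 p a c).trans_le (N_le_of_dvd hx.1.ne_zero c)
theorem ro_smo_coprime {z : ℝ} {x y : Eis} (hx : Ro z x) (hy : Smo z y) : IsCoprime x y := by
  by_contra h
  obtain ⟨p, a, -, c, d⟩ := (not_cop_iff hx.1).1 h
  exact (hx.2 p a c).not_ge (hy.2 p a d)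

theorem pri_ro {z : ℝ} {p : Eis} (hp : Prime p) (h1 : Prim p) (h : z < N p) : Ro z p :=
  ⟨h1, fun q hq k => by rwa [pri_N_assoc hp.ne_zero (hq.associated_of_dvd hp k)]⟩
theorem pri_smo {z : ℝ} {p : Eis} (hp : Prime p) (h1 : Prim p) (h : N p ≤ z) : Smo z p :=
  ⟨h1, fun q hq k => by rwa [pri_N_assoc hp.ne_zero (hq.associated_of_dvd hp k)]⟩

theorem exists_ro_smo (z : ℝ) {n : Eis} (hn : Prim n) :
    ∃ r s, Ro z r ∧ Smo z s ∧ n = r * s := by
  refine Prim.induction (Pr := fun n => ∃ r s, Ro z r ∧ Smo z s ∧ n = r * s)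
    ⟨1, 1, Ro.one z, Smo.one z, (mul_one 1).symm⟩ (fun p x hp h1 _ ⟨r, s, a, b, c⟩ => ?_) hn
  rcases lt_or_ge z (N p) with h | h
  · exact ⟨p * r, s, (pri_ro hp h1 h).mul a, b, by rw [c, mul_assoc]⟩
  · exact ⟨r, p * s, a, (pri_smo hp h1 h).mul b, by rw [c, mul_left_comm]⟩
theorem ro_smo_unique {z : ℝ} {r r' s s' : Eis} (hr : Ro z r) (hr' : Ro z r') (hs : Smo z s)
    (hs' : Smo z s') (h : r * s = r' * s') : r = r' ∧ s = s' := by
  obtain rfl : r = r' := hr.1.eq_of_associated hr'.1 (associated_of_dvd_dvd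
    ((ro_smo_coprime hr hs').dvd_of_dvd_mul_right ⟨s, h.symm⟩)
    ((ro_smo_coprime hr' hs).dvd_of_dvd_mul_right ⟨s', h⟩))
  exact ⟨rfl, mul_left_cancel₀ hr.1.ne_zero h⟩

theorem pri_smo_mul {z : ℝ} {x y : Eis} (hx : Prim x) (hy : Prim y) :
    Smo z (x * y) ↔ Smo z x ∧ Smo z y :=
  ⟨fun h => ⟨h.of_dvd hx (dvd_mul_right _ _), h.of_dvd hy (dvd_mul_left _ _)⟩,
    fun h => h.1.mul h.2⟩

theorem pri_ro_iff {z : ℝ} {n : Eis} (hn : Prim n) : Ro z n ↔ ∀ p ∈ pf n, z < N p := by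
  refine ⟨fun h p hp => h.2 p ((mem_pf hn.ne_zero).1 hp).1 ((mem_pf hn.ne_zero).1 hp).2.2,
    fun h => ⟨hn, fun p hp k => ?_⟩⟩
  obtain ⟨q, a, b, c⟩ := exists_prim_prime hn hp k
  rw [pri_N_assoc a.ne_zero c]
  exact h q ((mem_pf hn.ne_zero).2 ⟨a, b, c.symm.dvd.trans k⟩)

theorem pri_smo_iff {z : ℝ} {n : Eis} (hn : Prim n) : Smo z n ↔ ∀ p ∈ pf n, N p ≤ z := by
  refine ⟨fun h p hp => h.2 p ((mem_pf hn.ne_zero).1 hp).1 ((mem_pf hn.ne_zero).1 hp).2.2,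
    fun h => ⟨hn, fun p hp k => ?_⟩⟩
  obtain ⟨q, a, b, c⟩ := exists_prim_prime hn hp k
  rw [pri_N_assoc a.ne_zero c]
  exact h q ((mem_pf hn.ne_zero).2 ⟨a, b, c.symm.dvd.trans k⟩)

/-- Sieve of Eratosthenes. -/
theorem ro_ind (z : ℝ) {n : Eis} (hn : Prim n) :
    (if Ro z n then (1 : ℂ) else 0) = ∑ d ∈ dv n, if Smo z d then mu d else 0 := by
  rw [sum_dv_eq_prod hn.ne_zero (fun d => if Smo z d then mu d else 0)
    (by rw [if_pos (Smo.one z), mu_one]) fun x y hx hy h => by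
      rw [mu_mul hx, cop, if_pos h.symm, mul_one, pri_smo_mul hx.1 hy.1]
      by_cases a : Smo z x <;> by_cases b : Smo z y <;> simp [a, b]]
  split_ifs with h
  · refine (Finset.prod_eq_one fun p hp => ?_).symm
    obtain ⟨a, -, c⟩ := (mem_pf hn.ne_zero).1 hp
    rw [if_neg fun k : Smo z p => (h.2 p a c).not_ge (k.2 p a dvd_rfl), add_zero]
  · rw [pri_ro_iff hn] at h
    push Not at h
    obtain ⟨p, hp, k⟩ := h
    obtain ⟨a, b, -⟩ := (mem_pf hn.ne_zero).1 hp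
    exact (Finset.prod_eq_zero hp (by rw [if_pos (pri_smo a b k), mu_prime a b]; ring)).symm

theorem pri_mu_mul {x y : Eis} (hx : Prim x) (h : IsCoprime x y) : mu (x * y) = mu x * mu y := by
  by_cases k : PS x
  · rw [mu_mul k, cop, if_pos h.symm, mul_one]
  · rw [not_not.1 (mt mu_ne_zero.1 k), zero_mul]
    exact not_not.1 (mt mu_ne_zero.1 fun j => k (PS.of_mul hx j).1)

theorem pri_sum_div {s : Eis} (hs : Prim s) : ∑ d ∈ dp s, mu (s / d) = if s = 1 then 1 else 0 := by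
  have h0 := hs.ne_zero
  have key : ∀ d ∈ dp s, s / d ∈ dp s ∧ s / (s / d) = d := fun d hd => by
    obtain ⟨a, b⟩ := (mem_dp h0).1 hd
    have c := prim_div a hs b
    have e := lp_div_mul a.ne_zero b
    exact ⟨(mem_dp h0).2 ⟨c, Dvd.intro_left _ e⟩,
      (EuclideanDomain.eq_div_of_mul_eq_left c.ne_zero e).symm⟩
  rw [← sum_mu_prim hs, Finset.sum_subset (dv_subset_dp s) fun d hd k => not_not.1
    (mt mu_ne_zero.1 fun j => k ((mem_dv h0).2 ⟨j, ((mem_dp h0).1 hd).2⟩))]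
  exact Finset.sum_bij' (fun d _ => s / d) (fun d _ => s / d) (fun d hd => (key d hd).1)
    (fun d hd => (key d hd).1) (fun d hd => (key d hd).2) (fun d hd => (key d hd).2) fun _ _ => rfl

/-- The rough Moebius function is the convolution of mu with the smooth indicator. -/
theorem ro_mu (z : ℝ) {n : Eis} (hn : Prim n) :
    (if Ro z n then mu n else 0) = ∑ s ∈ dp n, if Smo z s then mu (n / s) else 0 := by
  obtain ⟨r, t, hr, ht, rfl⟩ := exists_ro_smo z hn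
  have e : (dp (r * t)).filter (Smo z) = dp t := by
    ext s
    rw [Finset.mem_filter, mem_dp hn.ne_zero, mem_dp ht.1.ne_zero]
    exact ⟨fun h => ⟨h.1.1, (ro_smo_coprime hr h.2).symm.dvd_of_dvd_mul_left h.1.2⟩,
      fun h => ⟨⟨h.1, h.2.mul_left _⟩, ht.of_dvd h.1 h.2⟩⟩
  have e2 : ∀ s ∈ dp t, mu (r * t / s) = mu r * mu (t / s) := fun s hs => by
    obtain ⟨a, b⟩ := (mem_dp ht.1.ne_zero).1 hs
    rw [pri_mul_div b, pri_mu_mul hr.1 (ro_smo_coprime hr (ht.of_dvd (prim_div a ht.1 b)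
      (Dvd.intro_left _ (lp_div_mul a.ne_zero b))))]
  rw [← Finset.sum_filter, e, Finset.sum_congr rfl e2, ← Finset.mul_sum, pri_sum_div ht.1]
  by_cases h : t = 1
  · rw [h, mul_one, if_pos hr, if_pos rfl, mul_one]
  · rw [if_neg h, mul_zero, if_neg fun k => h
      (ro_smo_unique k hr (Smo.one z) ht (mul_one _)).2.symm]

end Vale.Agent.P006
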