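import Vale.Agent.P006.OLS
import Vale.Agent.P006.Pri

/-! Frequencies far from cubes. -/

namespace Vale.Agent.P006

open Vale.Agent.P026 Eis Complex MeasureTheory Filter Topology
open scoped Classical ComplexConjugate

theorem far_cover {ι : Type} (A : Finset Eis) (T : Finset ι) (g : ι → Eis) (E : Eis → ℝ)
    (hE : ∀ h, 0 ≤ E h) (h : ∀ x ∈ A, ∃ t ∈ T, g t = x) : ∑ x ∈ A, E x ≤ ∑ t ∈ T, E (g t) := by
  have h1 : A ⊆ T.image g := fun x hx => by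
    obtain ⟨t, ht, e⟩ := h x hx
    exact Finset.mem_image.2 ⟨t, ht, e⟩
  refine (Finset.sum_le_sum_of_subset_of_nonneg h1 (fun _ _ _ => hE _)).trans ?_
  rw [← Finset.sum_fiberwise_of_maps_to (s := T) (t := T.image g) (g := g)
    (fun t ht => Finset.mem_image_of_mem g ht)]
  refine Finset.sum_le_sum fun x hx => ?_
  obtain ⟨t, ht, e⟩ := Finset.mem_image.1 hx
  have : t ∈ T.filter (fun t => g t = x) := Finset.mem_filter.2 ⟨ht, e⟩
  have h2 := Finset.single_le_sum (f := fun t => E (g t)) (fun i _ => hE (g i)) this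
  simpa [e] using h2

theorem far_c1 : ∃ C : ℝ, 0 < C ∧ ∀ s : Finset Eis, ∑ c ∈ s, N c ^ (-(4 / 3) : ℝ) ≤ C := by
  have h := summable_N_rpow (s := 4 / 3) (by norm_num)
  refine ⟨∑' c : Eis, N c ^ (-(4 / 3) : ℝ) + 1, ?_, fun s => ?_⟩
  · have : 0 ≤ ∑' c : Eis, N c ^ (-(4 / 3) : ℝ) :=
      tsum_nonneg fun c => Real.rpow_nonneg (N_nonneg c) _
    linarith
  · have := h.sum_le_tsum s (fun c _ => Real.rpow_nonneg (N_nonneg c) _)
    linarith

theorem far_sq_le {S : Finset Eis} (a b : Eis → ℂ) (hb : ∀ n, ‖b n‖ ≤ 1) :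
    sq S (fun n => a n * b n) ≤ sq S a := by
  unfold sq
  refine Finset.sum_le_sum fun n _ => ?_
  rw [norm_mul]
  have := hb n
  have h0 := norm_nonneg (a n)
  have h1 := norm_nonneg (b n)
  have : ‖a n‖ * ‖b n‖ ≤ ‖a n‖ := by nlinarith
  exact pow_le_pow_left₀ (by positivity) this 2

theorem far_inv_le {x e : ℝ} (hx : 1 ≤ x) (he : 4 / 3 ≤ e) : x ^ (-e) ≤ x ^ (-(4 / 3) : ℝ) :=
  Real.rpow_le_rpow_of_exponent_le hx (by linarith)

/-- The monomials at M = H / (x ^ 2 y ^ 3). -/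
theorem far_mono {H K r x y : ℝ} (hH : 0 < H) (hK : 0 < K) (hr : 0 ≤ r) (hx : 1 ≤ x) (hy : 1 ≤ y) :
    H / (x ^ 2 * y ^ 3) + K + (H / (x ^ 2 * y ^ 3) * K) ^ (2 / 3 : ℝ) +
      r ^ (2 / 3 : ℝ) * (H / (x ^ 2 * y ^ 3)) ^ (4 / 3 : ℝ) ≤
    K + (H + (H * K) ^ (2 / 3 : ℝ) + r ^ (2 / 3 : ℝ) * H ^ (4 / 3 : ℝ)) *
      (x ^ (-(4 / 3) : ℝ) * y ^ (-(4 / 3) : ℝ)) := by
  have hx0 : 0 < x := by linarith
  have hy0 : 0 < y := by linarith
  set u : ℝ := (x ^ 2 * y ^ 3)⁻¹ with hu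
  have h1 : 1 ≤ x ^ 2 * y ^ 3 := one_le_mul_of_one_le_of_one_le (one_le_pow₀ hx) (one_le_pow₀ hy)
  have hu0 : 0 < u := by positivity
  have hu1 : u ≤ 1 := inv_le_one_of_one_le₀ h1
  have h2 : u ^ (2 / 3 : ℝ) ≤ x ^ (-(4 / 3) : ℝ) * y ^ (-(4 / 3) : ℝ) := by
    rw [hu, Real.inv_rpow (by positivity), Real.mul_rpow (by positivity) (by positivity), mul_inv,
      ← Real.rpow_natCast x, ← Real.rpow_natCast y, ← Real.rpow_mul hx0.le, ← Real.rpow_mul hy0.le,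
      ← Real.rpow_neg hx0.le, ← Real.rpow_neg hy0.le]
    exact mul_le_mul (far_inv_le hx (by norm_num)) (far_inv_le hy (by norm_num)) (by positivity)
      (by positivity)
  have h3 : u ≤ u ^ (2 / 3 : ℝ) := by
    have := Real.rpow_le_rpow_of_exponent_ge hu0 hu1 (show (2 / 3 : ℝ) ≤ 1 by norm_num)
    simpa using this
  have h4 : u ^ (4 / 3 : ℝ) ≤ u ^ (2 / 3 : ℝ) :=
    Real.rpow_le_rpow_of_exponent_ge hu0 hu1 (by norm_num)
  rw [div_eq_mul_inv, ← hu, show H * u * K = H * K * u by ring,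
    Real.mul_rpow (by positivity) hu0.le, Real.mul_rpow hH.le hu0.le]
  set v := x ^ (-(4 / 3) : ℝ) * y ^ (-(4 / 3) : ℝ)
  have a1 : H * u ≤ H * v := mul_le_mul_of_nonneg_left (h3.trans h2) hH.le
  have a2 : (H * K) ^ (2 / 3 : ℝ) * u ^ (2 / 3 : ℝ) ≤ (H * K) ^ (2 / 3 : ℝ) * v :=
    mul_le_mul_of_nonneg_left h2 (by positivity)
  have a3 : r ^ (2 / 3 : ℝ) * H ^ (4 / 3 : ℝ) * u ^ (4 / 3 : ℝ) ≤
      r ^ (2 / 3 : ℝ) * H ^ (4 / 3 : ℝ) * v := mul_le_mul_of_nonneg_left (h4.trans h2) (by positivity)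
  nlinarith

theorem far_sqrt {R y : ℝ} (hR : 0 ≤ R) (hy : 1 ≤ y) : √(R / y ^ 3) ≤ √R * y ^ (-(4 / 3) : ℝ) := by
  have hy0 : 0 < y := by linarith
  rw [div_eq_mul_inv, Real.sqrt_mul hR]
  refine mul_le_mul_of_nonneg_left ?_ (Real.sqrt_nonneg _)
  rw [Real.sqrt_eq_rpow, ← Real.rpow_natCast, ← Real.rpow_neg hy0.le, ← Real.rpow_mul hy0.le]
  exact Real.rpow_le_rpow_of_exponent_le hy (by norm_num)

/-- The part with a large first component. -/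
theorem far_big : ∃ C : ℝ, 0 < C ∧ ∀ (f r N0 : ℝ), 0 ≤ f → 0 ≤ r → LSf f r N0 →
    ∀ (S : Finset Eis) (a : Eis → ℂ) (H K R : ℝ), 0 < H → 0 < K → K ≤ N0 → 0 < R → S ⊆ PB K →
      ∀ A : Finset Eis, (∀ h ∈ A, ∃ s ∈ S9, ∃ k1 k2 l, PS k1 ∧ k2 ≠ 0 ∧ l ≠ 0 ∧
        N k2 ^ 2 * N l ^ 3 ≤ R ∧ N k1 ≤ H / (N k2 ^ 2 * N l ^ 3) ∧ h = s * k1 * k2 ^ 2 * l ^ 3) →
      ∑ h ∈ A, ‖∑ n ∈ S, a n * cub h n‖ ^ 2 ≤
        C * f * (K * √R + (H + (H * K) ^ (2 / 3 : ℝ) + r ^ (2 / 3 : ℝ) * H ^ (4 / 3 : ℝ))) *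
          sq S a := by
  obtain ⟨C1, hC1, h1⟩ := far_c1
  refine ⟨9 * (16 * C1 + C1 * C1), by positivity, fun f r N0 hf hr hL S a H K R hH hK hN hR hS A hA => ?_⟩
  set B := H + (H * K) ^ (2 / 3 : ℝ) + r ^ (2 / 3 : ℝ) * H ^ (4 / 3 : ℝ) with hB
  have hB0 : 0 ≤ B := by positivity
  have hq := sq_nonneg' S a
  let T : Finset (Σ _ : Eis, Σ _ : Eis, Σ _ : Eis, Eis) :=
    S9.sigma fun _ => (ball R).sigma fun l => (ball √(R / N l ^ 3)).sigma fun k =>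
      PB (H / (N k ^ 2 * N l ^ 3))
  refine (far_cover A T (fun t => t.1 * t.2.2.2 * t.2.2.1 ^ 2 * t.2.1 ^ 3)
    (fun h => ‖∑ n ∈ S, a n * cub h n‖ ^ 2) (fun _ => by positivity) ?_).trans ?_
  · intro h hh
    obtain ⟨s, hs, k1, k2, l, p1, p2, p3, p4, p5, e⟩ := hA h hh
    have b2 := one_le_N p2
    have b3 := one_le_N p3
    refine ⟨⟨s, l, k2, k1⟩, ?_, e.symm⟩
    simp only [T, Finset.mem_sigma]
    refine ⟨hs, mem_ball.2 ⟨p3, ?_⟩, mem_ball.2 ⟨p2, ?_⟩, mem_PB.2 ⟨p1, p5⟩⟩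
    · have : N l ≤ N l ^ 3 := le_self_pow₀ b3 (by norm_num)
      have : N l ^ 3 ≤ N k2 ^ 2 * N l ^ 3 :=
        le_mul_of_one_le_left (by positivity) (one_le_pow₀ b2)
      linarith
    · refine Real.le_sqrt_of_sq_le ?_
      rw [le_div_iff₀ (by positivity)]
      exact p4
  simp only [T, Finset.sum_sigma]
  have key : ∀ s : Eis, ∀ l ∈ ball R, ∀ k ∈ ball √(R / N l ^ 3),
      ∑ k1 ∈ PB (H / (N k ^ 2 * N l ^ 3)), ‖∑ n ∈ S, a n * cub (s * k1 * k ^ 2 * l ^ 3) n‖ ^ 2 ≤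
        f * (K + B * (N k ^ (-(4 / 3) : ℝ) * N l ^ (-(4 / 3) : ℝ))) * sq S a := by
    intro s l hl k hk
    have b2 := one_le_N (mem_ball.1 hk).1
    have b3 := one_le_N (mem_ball.1 hl).1
    have hM : 0 < H / (N k ^ 2 * N l ^ 3) := by positivity
    have e1 := QL_subset (hL _ K hM hK hN) hS (fun n => a n * cub (s * k ^ 2 * l ^ 3) n)
    have e2 : QL (H / (N k ^ 2 * N l ^ 3)) S (fun n => a n * cub (s * k ^ 2 * l ^ 3) n) =
        ∑ k1 ∈ PB (H / (N k ^ 2 * N l ^ 3)), ‖∑ n ∈ S, a n * cub (s * k1 * k ^ 2 * l ^ 3) n‖ ^ 2 := by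
      unfold QL
      refine Finset.sum_congr rfl fun k1 _ => ?_
      congr 2
      refine Finset.sum_congr rfl fun n hn => ?_
      have hn' := (mem_PB.1 (hS hn)).1.1.not_lam_dvd
      rw [show s * k1 * k ^ 2 * l ^ 3 = s * k ^ 2 * l ^ 3 * k1 by ring, cub_mul_left _ k1 hn',
        mul_assoc]
    rw [← e2]
    refine e1.trans (mul_le_mul (mul_le_mul_of_nonneg_left (far_mono hH hK hr b2 b3) hf)
      (far_sq_le _ _ fun n => norm_cub_le _ _) (sq_nonneg' _ _) ?_)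
    positivity
  have key2 : ∀ s : Eis, ∑ l ∈ ball R, ∑ k ∈ ball √(R / N l ^ 3),
      ∑ k1 ∈ PB (H / (N k ^ 2 * N l ^ 3)), ‖∑ n ∈ S, a n * cub (s * k1 * k ^ 2 * l ^ 3) n‖ ^ 2 ≤
        (16 * C1 + C1 * C1) * f * (K * √R + B) * sq S a := by
    intro s
    have e1 : ∀ l ∈ ball R, ∑ k ∈ ball √(R / N l ^ 3),
        ∑ k1 ∈ PB (H / (N k ^ 2 * N l ^ 3)), ‖∑ n ∈ S, a n * cub (s * k1 * k ^ 2 * l ^ 3) n‖ ^ 2 ≤
          f * (16 * K * √R + B * C1) * sq S a * N l ^ (-(4 / 3) : ℝ) := by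
      intro l hl
      have b3 := one_le_N (mem_ball.1 hl).1
      refine (Finset.sum_le_sum (key s l hl)).trans ?_
      rw [← Finset.sum_mul, ← Finset.mul_sum, Finset.sum_add_distrib, Finset.sum_const, nsmul_eq_mul,
        ← Finset.mul_sum, ← Finset.sum_mul]
      have c1 := (card_ball_le (Real.sqrt_nonneg (R / N l ^ 3))).trans
        (mul_le_mul_of_nonneg_left (far_sqrt hR.le b3) (by norm_num))
      have c2 := h1 (ball √(R / N l ^ 3))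
      have c3 : 0 ≤ N l ^ (-(4 / 3) : ℝ) := by positivity
      have c4 : ((ball √(R / N l ^ 3)).card : ℝ) * K + B * ((∑ i ∈ ball √(R / N l ^ 3),
          N i ^ (-(4 / 3) : ℝ)) * N l ^ (-(4 / 3) : ℝ)) ≤
          (16 * K * √R + B * C1) * N l ^ (-(4 / 3) : ℝ) := by
        have d1 := mul_le_mul_of_nonneg_right c1 hK.le
        have d2 := mul_le_mul_of_nonneg_left (mul_le_mul_of_nonneg_right c2 c3) hB0
        nlinarith
      have := mul_le_mul_of_nonneg_right (mul_le_mul_of_nonneg_left c4 hf) hq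
      linarith
    refine (Finset.sum_le_sum e1).trans ?_
    rw [← Finset.mul_sum]
    refine (mul_le_mul_of_nonneg_left (h1 _) (by positivity)).trans ?_
    have c1 : (16 * K * √R + B * C1) * C1 ≤ (16 * C1 + C1 * C1) * (K * √R + B) := by
      have : 0 ≤ K * √R := by positivity
      nlinarith [mul_nonneg hB0 hC1.le, mul_nonneg this (mul_pos hC1 hC1).le]
    have := mul_le_mul_of_nonneg_right (mul_le_mul_of_nonneg_left c1 hf) hq
    linarith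
  refine (Finset.sum_le_sum fun s _ => key2 s).trans ?_
  rw [Finset.sum_const, nsmul_eq_mul]
  have c9 : (S9.card : ℝ) ≤ 9 := by exact_mod_cast card_S9
  have := mul_le_mul_of_nonneg_right c9
    (show 0 ≤ (16 * C1 + C1 * C1) * f * (K * √R + B) * sq S a by positivity)
  linarith

/-- The part with a small first component. -/
theorem far_small : ∃ C : ℝ, 0 < C ∧
    ∀ (S : Finset Eis) (a : Eis → ℂ) (H K Z L : ℝ), 0 < H → 0 < K → 0 < Z → 0 ≤ L → S ⊆ PB K →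
      ∀ A : Finset Eis, (∀ h ∈ A, ∃ s ∈ S9, ∃ k1 k2 l, PS k1 ∧ PS k2 ∧ IsCoprime k1 k2 ∧ l ≠ 0 ∧
        N l ≤ L ∧ N k1 ≤ Z ∧ N k1 * N k2 ^ 2 ≤ H / N l ^ 3 ∧ h = s * k1 * k2 ^ 2 * l ^ 3) →
      ∑ h ∈ A, ‖∑ n ∈ S, a n * cub h n‖ ^ 2 ≤ C * (K * L + H * Z) * sq S a := by
  obtain ⟨C1, hC1, h1⟩ := far_c1
  obtain ⟨C2, hC2, h2⟩ := sum_ball_rpow (s := 1 / 2) (by norm_num)
  obtain ⟨C3, hC3, h3⟩ := ols
  refine ⟨C3 * (16 + 144 * C2 * C1), by positivity, fun S a H K Z L hH hK hZ hL hS A hA => ?_⟩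
  have hq := sq_nonneg' S a
  let T0 : ℝ → Finset (Σ _ : Eis, Σ _ : Eis, Eis) := fun R =>
    S9.sigma fun _ => (ball Z).sigma fun k1 => ball √(R / N k1)
  let J : ℝ → Finset Eis := fun R =>
    ((T0 R).image fun t => t.1 * t.2.1 * t.2.2 ^ 2).filter (KerF √(Z * R))
  have hJ : ∀ R, 0 < R → √(Z * R) * ((J R).card : ℝ) ≤ 144 * C2 * (Z * R) := by
    intro R hR
    have c1 : ((J R).card : ℝ) ≤ (T0 R).card := by
      exact_mod_cast (Finset.card_filter_le _ _).trans Finset.card_image_le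
    have c2 : ((T0 R).card : ℝ) ≤ 144 * C2 * √(Z * R) := by
      simp only [T0, Finset.card_sigma, Finset.sum_const, smul_eq_mul]
      push_cast
      have c9 : (S9.card : ℝ) ≤ 9 := by exact_mod_cast card_S9
      have d1 : ∑ k1 ∈ ball Z, ((ball √(R / N k1)).card : ℝ) ≤ 16 * C2 * √(Z * R) := by
        have d2 : ∀ k1 ∈ ball Z, ((ball √(R / N k1)).card : ℝ) ≤
            16 * √R * N k1 ^ (-(1 / 2) : ℝ) := by
          intro k1 hk
          have := N_pos (mem_ball.1 hk).1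
          refine (card_ball_le (Real.sqrt_nonneg _)).trans (le_of_eq ?_)
          rw [div_eq_mul_inv, Real.sqrt_mul hR.le, Real.sqrt_eq_rpow (N k1)⁻¹,
            Real.inv_rpow this.le, ← Real.rpow_neg this.le, mul_assoc]
        refine (Finset.sum_le_sum d2).trans ?_
        rw [← Finset.mul_sum]
        refine (mul_le_mul_of_nonneg_left (h2 Z hZ) (by positivity)).trans (le_of_eq ?_)
        rw [Real.sqrt_mul hZ.le, Real.sqrt_eq_rpow Z]
        norm_num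
        ring
      have d0 : 0 ≤ ∑ k1 ∈ ball Z, ((ball √(R / N k1)).card : ℝ) :=
        Finset.sum_nonneg fun _ _ => by positivity
      nlinarith
    have c3 := mul_le_mul_of_nonneg_left (c1.trans c2) (Real.sqrt_nonneg (Z * R))
    have c4 : √(Z * R) * √(Z * R) = Z * R := Real.mul_self_sqrt (by positivity)
    refine c3.trans (le_of_eq ?_)
    rw [show √(Z * R) * (144 * C2 * √(Z * R)) = 144 * C2 * (√(Z * R) * √(Z * R)) by ring, c4]
  let T : Finset (Σ _ : Eis, Eis) := (ball L).sigma fun l => J (H / N l ^ 3)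
  refine (far_cover A T (fun t => t.2 * t.1 ^ 3)
    (fun h => ‖∑ n ∈ S, a n * cub h n‖ ^ 2) (fun _ => by positivity) ?_).trans ?_
  · intro h hh
    obtain ⟨s, hs, k1, k2, l, p1, p2, p3, p4, p5, p6, p7, e⟩ := hA h hh
    have b1 := N_pos p1.ne_zero
    refine ⟨⟨l, s * k1 * k2 ^ 2⟩, ?_, e.symm⟩
    simp only [T, J, Finset.mem_sigma, Finset.mem_filter, Finset.mem_image]
    refine ⟨mem_ball.2 ⟨p4, p5⟩, ⟨⟨s, k1, k2⟩, ?_, rfl⟩, s, hs, k1, k2, p1, p2, p3, rfl, ?_⟩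
    · simp only [T0, Finset.mem_sigma]
      refine ⟨hs, mem_ball.2 ⟨p1.ne_zero, p6⟩, mem_ball.2 ⟨p2.ne_zero, ?_⟩⟩
      refine Real.le_sqrt_of_sq_le ?_
      rw [le_div_iff₀ b1]
      linarith
    · refine Real.le_sqrt_of_sq_le ?_
      have := mul_le_mul p6 p7 (by have := N_nonneg k2; positivity) hZ.le
      nlinarith
  simp only [T, Finset.sum_sigma]
  have key : ∀ l ∈ ball L, ∑ q ∈ J (H / N l ^ 3), ‖∑ n ∈ S, a n * cub (q * l ^ 3) n‖ ^ 2 ≤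
      C3 * (K + 144 * C2 * (Z * H) * N l ^ (-(4 / 3) : ℝ)) * sq S a := by
    intro l hl
    have b3 := one_le_N (mem_ball.1 hl).1
    have hR : 0 < H / N l ^ 3 := by positivity
    have e1 := h3 √(Z * (H / N l ^ 3)) K (J (H / N l ^ 3)) S (fun n => a n * cop l n)
      (Real.sqrt_nonneg _) hK (fun q hq => (Finset.mem_filter.1 hq).2)
      (fun n hn => ⟨(mem_PB.1 (hS hn)).1.1, (mem_PB.1 (hS hn)).2⟩)
    have e2 : ∑ q ∈ J (H / N l ^ 3), ‖∑ n ∈ S, a n * cub (q * l ^ 3) n‖ ^ 2 =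
        ∑ q ∈ J (H / N l ^ 3), ‖∑ n ∈ S, a n * cop l n * cub q n‖ ^ 2 := by
      refine Finset.sum_congr rfl fun q _ => ?_
      congr 2
      refine Finset.sum_congr rfl fun n hn => ?_
      rw [cub_mul_cube q l (mem_PB.1 (hS hn)).1.1]
      ring
    rw [e2]
    refine e1.trans (mul_le_mul (mul_le_mul_of_nonneg_left ?_ hC3.le)
      (far_sq_le _ _ fun n => norm_cop_le _ _) (sq_nonneg' _ _) (by positivity))
    have e3 := hJ _ hR
    have e4 : H / N l ^ 3 ≤ H * N l ^ (-(4 / 3) : ℝ) := by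
      rw [div_eq_mul_inv, ← Real.rpow_natCast, ← Real.rpow_neg (by linarith)]
      exact mul_le_mul_of_nonneg_left (far_inv_le b3 (by norm_num)) hH.le
    have e5 := mul_le_mul_of_nonneg_left e4 (show 0 ≤ 144 * C2 * Z by positivity)
    nlinarith
  refine (Finset.sum_le_sum key).trans ?_
  rw [← Finset.sum_mul, ← Finset.mul_sum, Finset.sum_add_distrib, Finset.sum_const, nsmul_eq_mul,
    ← Finset.mul_sum]
  refine mul_le_mul_of_nonneg_right ?_ hq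
  rw [mul_assoc C3]
  refine mul_le_mul_of_nonneg_left ?_ hC3.le
  have d1 := mul_le_mul_of_nonneg_right (card_ball_le hL) hK.le
  have d2 := mul_le_mul_of_nonneg_left (h1 (ball L)) (show 0 ≤ 144 * C2 * (Z * H) by positivity)
  have d3 : 0 ≤ K * L := by positivity
  have d4 : 0 ≤ H * Z := by positivity
  nlinarith [mul_nonneg d3 (mul_pos hC2 hC1).le]

theorem far_log {H : ℝ} (hH : 0 < H) : 1 ≤ 2 * Real.log (2 + H) := by
  have h1 := Real.log_le_log (by norm_num : (0 : ℝ) < 2) (show 2 ≤ 2 + H by linarith)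
  have := Real.log_two_gt_d9
  linarith

theorem far1 : ∃ C : ℝ, 0 < C ∧ ∀ (f r N0 : ℝ), 0 ≤ f → 0 ≤ r → LSf f r N0 →
    ∀ (S : Finset Eis) (a : Eis → ℂ) (H K Q : ℝ), 0 < H → 0 < K → K ≤ N0 → 0 < Q → S ⊆ PB K →
      ∑ h ∈ (ball H).filter (fun h => ¬ Near Q h), ‖∑ n ∈ S, a n * cub h n‖ ^ 2 ≤
        C * (f * (H + (H * K) ^ (2 / 3 : ℝ) + r ^ (2 / 3 : ℝ) * H ^ (4 / 3 : ℝ)) +
          Real.log (2 + H) * ((H * K) ^ (2 / 3 : ℝ) + H ^ (1 / 3 : ℝ) * K * Q ^ (-(1 / 3) : ℝ))) *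
          sq S a := by
  obtain ⟨C1, hC1, h1⟩ := far_big
  obtain ⟨C2, hC2, h2⟩ := far_small
  refine ⟨2 * C1 + 2 * C2, by positivity, fun f r N0 hf hr hL S a H K Q hH hK hN hQ hS => ?_⟩
  have hq := sq_nonneg' S a
  set Z : ℝ := (H * K) ^ (2 / 3 : ℝ) / H with hZ
  have hZ0 : 0 < Z := by positivity
  have z1 : H * Z = (H * K) ^ (2 / 3 : ℝ) := by rw [hZ]; field_simp
  have z2 : K * √(H / Z) = (H * K) ^ (2 / 3 : ℝ) := by
    have hp : 0 < (H * K) ^ (2 / 3 : ℝ) := by positivity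
    have e1 : (H * K) ^ (2 / 3 : ℝ) * ((H * K) ^ (2 / 3 : ℝ) * (H * K) ^ (2 / 3 : ℝ)) =
        (H * K) ^ 2 := by
      rw [← Real.rpow_add (by positivity), ← Real.rpow_add (by positivity), ← Real.rpow_natCast]
      norm_num
    have e2 : H / Z = ((H * K) ^ (2 / 3 : ℝ) / K) ^ 2 := by
      rw [hZ]
      field_simp
      nlinarith
    rw [e2, Real.sqrt_sq (by positivity)]
    field_simp
  let P : Eis → Prop := fun h => ∃ s ∈ S9, ∃ k1 k2 l, PS k1 ∧ k2 ≠ 0 ∧ l ≠ 0 ∧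
    N k2 ^ 2 * N l ^ 3 ≤ H / Z ∧ N k1 ≤ H / (N k2 ^ 2 * N l ^ 3) ∧ h = s * k1 * k2 ^ 2 * l ^ 3
  rw [← Finset.sum_filter_add_sum_filter_not _ P]
  have a1 := h1 f r N0 hf hr hL S a H K (H / Z) hH hK hN (by positivity) hS
    (((ball H).filter (fun h => ¬ Near Q h)).filter P) (fun h hh => (Finset.mem_filter.1 hh).2)
  have a2 := h2 S a H K Z (H ^ (1 / 3 : ℝ) * Q ^ (-(1 / 3) : ℝ)) hH hK hZ0 (by positivity) hS
    (((ball H).filter (fun h => ¬ Near Q h)).filter fun h => ¬ P h) ?_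
  · rw [z2] at a1
    rw [z1] at a2
    have l1 := far_log hH
    set B := H + (H * K) ^ (2 / 3 : ℝ) + r ^ (2 / 3 : ℝ) * H ^ (4 / 3 : ℝ) with hB
    set U := (H * K) ^ (2 / 3 : ℝ) + H ^ (1 / 3 : ℝ) * K * Q ^ (-(1 / 3) : ℝ) with hU
    have u0 : 0 ≤ U := by positivity
    have b1 : (H * K) ^ (2 / 3 : ℝ) ≤ B := by
      have : 0 ≤ r ^ (2 / 3 : ℝ) * H ^ (4 / 3 : ℝ) := by positivity
      linarith
    have b0 : 0 ≤ B := by positivity
    have c1 : C1 * f * ((H * K) ^ (2 / 3 : ℝ) + B) ≤ 2 * C1 * (f * B) := by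
      have := mul_le_mul_of_nonneg_left b1 (mul_nonneg hC1.le hf)
      nlinarith
    have c2 : C2 * (K * (H ^ (1 / 3 : ℝ) * Q ^ (-(1 / 3) : ℝ)) + (H * K) ^ (2 / 3 : ℝ)) ≤
        2 * C2 * (Real.log (2 + H) * U) := by
      have := mul_le_mul_of_nonneg_left l1 (mul_nonneg hC2.le u0)
      have e : K * (H ^ (1 / 3 : ℝ) * Q ^ (-(1 / 3) : ℝ)) + (H * K) ^ (2 / 3 : ℝ) = U := by
        rw [hU]; ring
      rw [e]
      nlinarith
    have c3 := mul_le_mul_of_nonneg_right (add_le_add c1 c2) hq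
    have c4 : 0 ≤ f * B := by positivity
    have c5 : 0 ≤ Real.log (2 + H) * U := mul_nonneg (by linarith) u0
    have c6 : 2 * C1 * (f * B) + 2 * C2 * (Real.log (2 + H) * U) ≤
        (2 * C1 + 2 * C2) * (f * B + Real.log (2 + H) * U) := by
      nlinarith [mul_nonneg hC1.le c5, mul_nonneg hC2.le c4]
    have c7 := mul_le_mul_of_nonneg_right c6 hq
    linarith
  · intro h hh
    obtain ⟨hh, hP⟩ := Finset.mem_filter.1 hh
    obtain ⟨hh, hQ'⟩ := Finset.mem_filter.1 hh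
    obtain ⟨h0, hH'⟩ := mem_ball.1 hh
    obtain ⟨q, l, hk, hl, e⟩ := exists_ker h0
    have q1 : Q < N q := lt_of_not_ge fun hc => hQ' ⟨q, l, hk, hc, e⟩
    obtain ⟨s, hs, k1, k2, p1, p2, p3, e'⟩ := hk
    have b0 := one_le_N (S9_spec hs).1
    have b1 := one_le_N p1.ne_zero
    have b2 := one_le_N p2.ne_zero
    have b3 := one_le_N hl
    have n1 : N h = N q * N l ^ 3 := by rw [e, N_mul, N_pow]
    have n2 : N q = N s * (N k1 * N k2 ^ 2) := by rw [e', N_mul, N_mul, N_pow, mul_assoc]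
    have n3 : N k1 * N k2 ^ 2 * N l ^ 3 ≤ H := by
      have : N k1 * N k2 ^ 2 ≤ N q := by
        rw [n2]; exact le_mul_of_one_le_left (by positivity) b0
      have := mul_le_mul_of_nonneg_right this (show 0 ≤ N l ^ 3 by positivity)
      linarith
    refine ⟨s, hs, k1, k2, l, p1, p2, p3, hl, ?_, ?_, ?_, by rw [e, e']⟩
    · have c1 : N l ^ 3 ≤ H / Q := by
        rw [le_div_iff₀ hQ]
        have := mul_le_mul_of_nonneg_right q1.le (show 0 ≤ N l ^ 3 by positivity)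
        linarith
      have c2 := Real.rpow_le_rpow (by positivity) c1 (show (0 : ℝ) ≤ 1 / 3 by norm_num)
      rw [← Real.rpow_natCast, ← Real.rpow_mul (by linarith), Real.div_rpow hH.le hQ.le,
        div_eq_mul_inv (H ^ (1 / 3 : ℝ)), ← Real.rpow_neg hQ.le] at c2
      norm_num at c2 ⊢
      exact c2
    · refine le_of_not_gt fun hc => hP ⟨s, hs, k1, k2, l, p1, p2.ne_zero, hl, ?_, ?_, by rw [e, e']⟩
      · rw [le_div_iff₀ hZ0]
        have := mul_le_mul_of_nonneg_right hc.le (show 0 ≤ N k2 ^ 2 * N l ^ 3 by positivity)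
        nlinarith
      · rw [le_div_iff₀ (by positivity)]
        nlinarith
    · rw [le_div_iff₀ (by positivity)]
      exact n3

theorem far_pow {x d : ℝ} (hx : 0 ≤ x) (hd : 0 < d) (k : ℕ) (e : ℝ) :
    (x / d ^ k) ^ e = x ^ e * d ^ (-(k * e)) := by
  rw [Real.div_rpow hx (by positivity), ← Real.rpow_natCast, ← Real.rpow_mul hd.le,
    Real.rpow_neg hd.le, div_eq_mul_inv]

theorem far_mono2 {f r H K Q d L : ℝ} (hf : 0 ≤ f) (hr : 0 ≤ r) (hH : 0 < H) (hK : 0 < K)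
    (hQ : 0 < Q) (hd : 1 ≤ d) (hL : Real.log (2 + H / d ^ 2) ≤ L) :
    d * (f * (H / d ^ 2 + (H / d ^ 2 * (K / d)) ^ (2 / 3 : ℝ) +
        r ^ (2 / 3 : ℝ) * (H / d ^ 2) ^ (4 / 3 : ℝ)) +
      Real.log (2 + H / d ^ 2) * ((H / d ^ 2 * (K / d)) ^ (2 / 3 : ℝ) +
        (H / d ^ 2) ^ (1 / 3 : ℝ) * (K / d) * Q ^ (-(1 / 3) : ℝ))) ≤
    (f * (H + (H * K) ^ (2 / 3 : ℝ) + r ^ (2 / 3 : ℝ) * H ^ (4 / 3 : ℝ)) +
      L * (H * K) ^ (2 / 3 : ℝ)) * d⁻¹ +
      L * (H ^ (1 / 3 : ℝ) * K) * (d ^ (-(2 / 3) : ℝ) * Q ^ (-(1 / 3) : ℝ)) := by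
  have hd0 : 0 < d := by linarith
  have l0 : 0 ≤ Real.log (2 + H / d ^ 2) :=
    Real.log_nonneg (by have : 0 < H / d ^ 2 := by positivity
                        linarith)
  have e1 : d * (H / d ^ 2) = H * d⁻¹ := by field_simp
  have e2 : d * (H / d ^ 2 * (K / d)) ^ (2 / 3 : ℝ) = (H * K) ^ (2 / 3 : ℝ) * d⁻¹ := by
    rw [show H / d ^ 2 * (K / d) = H * K / d ^ 3 by field_simp, far_pow (by positivity) hd0]
    norm_num
    field_simp
  have e3 : d * (H / d ^ 2) ^ (4 / 3 : ℝ) ≤ H ^ (4 / 3 : ℝ) * d⁻¹ := by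
    rw [far_pow hH.le hd0, mul_left_comm]
    refine mul_le_mul_of_nonneg_left ?_ (by positivity)
    have := Real.rpow_le_rpow_of_exponent_le hd
      (show 1 + -(((2 : ℕ) : ℝ) * (4 / 3)) ≤ -1 by norm_num)
    rwa [Real.rpow_add hd0, Real.rpow_one, Real.rpow_neg_one] at this
  have e4 : d * ((H / d ^ 2) ^ (1 / 3 : ℝ) * (K / d) * Q ^ (-(1 / 3) : ℝ)) =
      H ^ (1 / 3 : ℝ) * K * (d ^ (-(2 / 3) : ℝ) * Q ^ (-(1 / 3) : ℝ)) := by
    rw [far_pow hH.le hd0, show -(((2 : ℕ) : ℝ) * (1 / 3)) = -(2 / 3) by norm_num]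
    field_simp
  have e5 := mul_le_mul_of_nonneg_left e3 (show 0 ≤ f * r ^ (2 / 3 : ℝ) by positivity)
  have e6 := mul_le_mul_of_nonneg_right hL (show 0 ≤ (H * K) ^ (2 / 3 : ℝ) * d⁻¹ +
    H ^ (1 / 3 : ℝ) * K * (d ^ (-(2 / 3) : ℝ) * Q ^ (-(1 / 3) : ℝ)) by positivity)
  calc _ = f * (d * (H / d ^ 2) + d * (H / d ^ 2 * (K / d)) ^ (2 / 3 : ℝ)) +
        f * r ^ (2 / 3 : ℝ) * (d * (H / d ^ 2) ^ (4 / 3 : ℝ)) +
        Real.log (2 + H / d ^ 2) * (d * (H / d ^ 2 * (K / d)) ^ (2 / 3 : ℝ) +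
        d * ((H / d ^ 2) ^ (1 / 3 : ℝ) * (K / d) * Q ^ (-(1 / 3) : ℝ))) := by ring
    _ ≤ _ := by
      rw [e1, e2, e4]
      nlinarith

theorem far_swap {S : Finset Eis} (hS : (0 : Eis) ∉ S) (H : ℝ) (u : Eis → ℝ) (hu : ∀ n, 0 ≤ u n)
    (g : Eis → ℝ) (hg : ∀ n, 0 ≤ g n) :
    ∑ D ∈ PB H, g D * ∑ n ∈ S.filter (fun n => D ∣ n), u n ≤ ∑ n ∈ S, u n * ∑ D ∈ dv n, g D := by
  simp only [Finset.mul_sum, Finset.sum_filter]
  rw [Finset.sum_comm]
  refine Finset.sum_le_sum fun n hn => ?_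
  have hn0 : n ≠ 0 := fun h => hS (h ▸ hn)
  have : ∑ D ∈ PB H, g D * (if D ∣ n then u n else 0) =
      ∑ D ∈ (PB H).filter (fun D => D ∣ n), u n * g D := by
    rw [Finset.sum_filter]
    refine Finset.sum_congr rfl fun D _ => ?_
    split_ifs <;> ring
  rw [this]
  refine Finset.sum_le_sum_of_subset_of_nonneg (fun D hD => ?_)
    (fun D _ _ => mul_nonneg (hu n) (hg D))
  obtain ⟨h1, h2⟩ := Finset.mem_filter.1 hD
  exact (mem_dv hn0).2 ⟨(mem_PB.1 h1).1, h2⟩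

theorem far_fibre {S : Finset Eis} {K : ℝ} (hS : S ⊆ PB K) (γ : Eis → ℂ) {D : Eis} (hD : PS D)
    (h : Eis) : qt S γ (h * D ^ 2) D = N D *
      ‖∑ m ∈ (S.filter (fun n => D ∣ n)).image (fun n => n / D),
        γ (D * m) * cub (D ^ 2) m * cub h m‖ ^ 2 := by
  unfold qt
  rw [sum_filter_dvd hD.ne_zero]
  congr 3
  refine Finset.sum_congr rfl fun m hm => ?_
  have := (mem_PB.1 (image_div_subset hD.1 hS hm)).1.1.not_lam_dvd
  rw [lp_mul_div hD.ne_zero, cub_mul_left _ _ this]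
  ring

theorem far : ∃ C : ℝ, 0 < C ∧ ∀ (f r N0 : ℝ), 0 ≤ f → 0 ≤ r → LSf f r N0 →
    ∀ (S : Finset Eis) (γ : Eis → ℂ) (H K Q0 D0 : ℝ), 0 < H → 0 < K → K ≤ N0 → 1 ≤ Q0 → 1 ≤ D0 →
    S ⊆ PB K → FAR S γ H Q0 D0 ≤
      C * ((f * (H + (H * K) ^ (2 / 3 : ℝ) + r ^ (2 / 3 : ℝ) * H ^ (4 / 3 : ℝ)) +
          Real.log (2 + H) * ((H * K) ^ (2 / 3 : ℝ) + H ^ (1 / 3 : ℝ) * K * Q0 ^ (-(1 / 3) : ℝ))) *
          ∑ n ∈ S, ‖γ n‖ ^ 2 * eta n +
        Real.log (2 + H) * H ^ (1 / 3 : ℝ) * K * D0 ^ (-(2 / 3) : ℝ) *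
          ∑ n ∈ S, ‖γ n‖ ^ 2 * (dv n).card) := by
  obtain ⟨C, hC, h1⟩ := far1
  refine ⟨2 * C, by positivity, fun f r N0 hf hr hL S γ H K Q0 D0 hH hK hN hQ hD hS => ?_⟩
  set L := Real.log (2 + H) with hLd
  have l0 : 0 ≤ L := by have := far_log hH; linarith
  set A := f * (H + (H * K) ^ (2 / 3 : ℝ) + r ^ (2 / 3 : ℝ) * H ^ (4 / 3 : ℝ)) +
    L * ((H * K) ^ (2 / 3 : ℝ) + H ^ (1 / 3 : ℝ) * K * Q0 ^ (-(1 / 3) : ℝ)) with hA
  set B := L * H ^ (1 / 3 : ℝ) * K * D0 ^ (-(2 / 3) : ℝ) with hB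
  have a0 : 0 ≤ A := by positivity
  have b0 : 0 ≤ B := by positivity
  have S0 : (0 : Eis) ∉ S := fun h => (mem_PB.1 (hS h)).1.ne_zero rfl
  unfold FAR
  rw [sum_sqd_swap]
  have key : ∀ D ∈ PB H, ∑ h ∈ ball (H / N D ^ 2),
      (if Far Q0 D0 (h * D ^ 2) D then qt S γ (h * D ^ 2) D else 0) ≤
      (2 * C * (A * (N D)⁻¹ + B)) * ∑ n ∈ S.filter (fun n => D ∣ n), ‖γ n‖ ^ 2 := by
    intro D hD'
    have hD := (mem_PB.1 hD').1
    have d1 := one_le_N hD.ne_zero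
    have d0 : 0 < N D := by linarith
    set Q : ℝ := if D0 < N D then 1 / 2 else Q0 * N D with hQd
    have q0 : 0 < Q := by
      rw [hQd]; split_ifs
      · norm_num
      · positivity
    have e1 : ∀ h, Far Q0 D0 (h * D ^ 2) D ↔ ¬ Near Q h := by
      intro h
      unfold Far
      rw [mul_comm h, lp_mul_div (pow_ne_zero 2 hD.ne_zero), hQd]
      split_ifs with hc
      · refine ⟨fun _ ⟨q, l, hq, hq', _⟩ => ?_, fun _ => Or.inl hc⟩
        have := one_le_N hq.ne_zero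
        linarith
      · simp [hc]
    set T := (S.filter (fun n => D ∣ n)).image (fun n => n / D) with hT
    have e2 := h1 f r N0 hf hr hL T (fun m => γ (D * m) * cub (D ^ 2) m) (H / N D ^ 2) (K / N D) Q
      (by positivity) (by positivity) ((div_le_self hK.le d1).trans hN) q0 (image_div_subset hD.1 hS)
    have e3 : sq T (fun m => γ (D * m) * cub (D ^ 2) m) ≤
        ∑ n ∈ S.filter (fun n => D ∣ n), ‖γ n‖ ^ 2 := by
      refine (far_sq_le _ _ fun n => norm_cub_le _ _).trans (le_of_eq ?_)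
      rw [sum_filter_dvd hD.ne_zero]
      rfl
    have e4 := far_mono2 hf hr hH hK q0 d1 (L := L) (Real.log_le_log (by positivity)
      (by have := div_le_self hH.le (one_le_pow₀ d1 (n := 2)); linarith))
    have e5 : N D ^ (-(2 / 3) : ℝ) * Q ^ (-(1 / 3) : ℝ) ≤
        Q0 ^ (-(1 / 3) : ℝ) * (N D)⁻¹ + 2 * D0 ^ (-(2 / 3) : ℝ) := by
      rw [hQd]
      split_ifs with hc
      · have c1 : N D ^ (-(2 / 3) : ℝ) ≤ D0 ^ (-(2 / 3) : ℝ) :=
          Real.rpow_le_rpow_of_nonpos (by linarith) hc.le (by norm_num)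
        have c2 : (1 / 2 : ℝ) ^ (-(1 / 3) : ℝ) ≤ 2 := by
          have := Real.rpow_le_rpow_of_exponent_ge (show (0 : ℝ) < 1 / 2 by norm_num)
            (by norm_num) (show (-1 : ℝ) ≤ -(1 / 3) by norm_num)
          rw [Real.rpow_neg_one] at this
          linarith
        have c3 := mul_le_mul c1 c2 (by positivity) (by positivity)
        have c4 : 0 ≤ Q0 ^ (-(1 / 3) : ℝ) * (N D)⁻¹ := by positivity
        linarith
      · rw [Real.mul_rpow (by linarith) d0.le, mul_left_comm, ← Real.rpow_add d0,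
          show (-(2 / 3) : ℝ) + -(1 / 3) = -1 by norm_num, Real.rpow_neg_one]
        have : 0 ≤ D0 ^ (-(2 / 3) : ℝ) := by positivity
        linarith
    have e6 := mul_le_mul_of_nonneg_left e5 (show 0 ≤ L * (H ^ (1 / 3 : ℝ) * K) by positivity)
    have e7 := e4.trans (show _ ≤ 2 * (A * (N D)⁻¹ + B) by
      have c1 : 0 ≤ A * (N D)⁻¹ := by positivity
      have c2 : A * (N D)⁻¹ = (f * (H + (H * K) ^ (2 / 3 : ℝ) + r ^ (2 / 3 : ℝ) * H ^ (4 / 3 : ℝ)) +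
        L * (H * K) ^ (2 / 3 : ℝ)) * (N D)⁻¹ +
        L * (H ^ (1 / 3 : ℝ) * K) * (Q0 ^ (-(1 / 3) : ℝ) * (N D)⁻¹) := by rw [hA]; ring
      have c3 : B = L * (H ^ (1 / 3 : ℝ) * K) * D0 ^ (-(2 / 3) : ℝ) := by rw [hB]; ring
      nlinarith)
    rw [← Finset.sum_filter, Finset.filter_congr (fun h _ => e1 h),
      Finset.sum_congr rfl (fun h _ => far_fibre hS γ hD h), ← Finset.mul_sum]
    refine (mul_le_mul_of_nonneg_left e2 d0.le).trans ?_
    rw [← mul_assoc, mul_left_comm (N D)]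
    refine mul_le_mul ?_ e3 (sq_nonneg' _ _) (by positivity)
    have := mul_le_mul_of_nonneg_left e7 hC.le
    linarith
  refine (Finset.sum_le_sum key).trans ((far_swap S0 H _ (fun _ => by positivity) _
    (fun D => by have := N_nonneg D; positivity)).trans (le_of_eq ?_))
  simp only [Finset.mul_sum, mul_add, ← Finset.sum_add_distrib]
  refine Finset.sum_congr rfl fun n _ => ?_
  unfold eta
  simp only [Finset.sum_add_distrib, ← Finset.mul_sum, Finset.sum_const, nsmul_eq_mul]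
  ring

end Vale.Agent.P006
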