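import Vale.Agent.P006.Pri
import Vale.Agent.P006.GaussP

/-! Kummer sums as Gauss sums, and Abel summation over balls. -/

namespace Vale.Agent.P006

open Vale.Agent.P026 Eis Complex MeasureTheory Filter Topology
open scoped Classical ComplexConjugate

theorem fin_conj {z : ℂ} (h : z ^ 3 = 1) : conj z = z ^ 2 := by
  have h1 : ‖z‖ = 1 := by
    have := congrArg (fun w : ℂ => ‖w‖) h
    simp only [norm_pow, norm_one] at this
    exact (pow_eq_one_iff_of_nonneg (norm_nonneg z) (by norm_num)).1 this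
  have h2 : z * conj z = 1 := by rw [mul_conj, normSq_eq_norm_sq, h1]; norm_num
  calc conj z = z ^ 3 * conj z := by rw [h, one_mul]
    _ = z ^ 2 * (z * conj z) := by ring
    _ = z ^ 2 := by rw [h2, mul_one]

theorem fin_cube {F : Type} [Field F] [Fintype F] (χ : MulChar F ℂ) (h3 : orderOf χ = 3) {ζ : F}
    (hζ : IsPrimitiveRoot ζ 3) (f : F → ℂ) :
    ∑ x, f (x ^ 3) = ∑ y, (1 + χ y + conj (χ y)) * f y := by
  have hc : ∀ y : F, y ≠ 0 → χ y ^ 3 = 1 := fun y hy => by
    rw [← MulChar.pow_apply' χ (by norm_num), ← h3, pow_orderOf_eq_one,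
      MulChar.one_apply (Ne.isUnit hy)]
  rw [← Finset.sum_fiberwise Finset.univ (fun x : F => x ^ 3)]
  refine Finset.sum_congr rfl fun y _ => ?_
  rw [Finset.sum_congr rfl (fun x hx => by rw [(Finset.mem_filter.1 hx).2]), Finset.sum_const,
    nsmul_eq_mul]
  congr 1
  by_cases hy : y = 0
  · subst hy
    have : Finset.univ.filter (fun x : F => x ^ 3 = 0) = {0} := by
      ext x; simp
    rw [this, MulChar.map_zero]
    simp
  have e : Finset.univ.filter (fun x : F => x ^ 3 = y) = (Polynomial.nthRoots 3 y).toFinset := by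
    ext x
    rw [Finset.mem_filter, Multiset.mem_toFinset, Polynomial.mem_nthRoots (by norm_num)]
    simp
  rw [e, Multiset.toFinset_card_of_nodup (hζ.nthRoots_nodup hy), hζ.card_nthRoots]
  split_ifs with h
  · obtain ⟨a, rfl⟩ := h
    have ha : a ≠ 0 := fun h0 => hy (by rw [h0]; simp)
    rw [map_pow, hc a ha]
    norm_num
  · have h1 : χ y ≠ 1 := fun h1 => h ?_
    · have h2 := hc y hy
      rw [fin_conj h2]
      have : (χ y - 1) * (1 + χ y + χ y ^ 2) = 0 := by linear_combination h2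
      rw [(mul_eq_zero.1 this).resolve_left (sub_ne_zero.2 h1)]
      simp
    obtain ⟨g, hg⟩ := IsCyclic.exists_monoid_generator (α := Fˣ)
    have hg1 : χ g ≠ 1 := fun k => by
      have : χ = 1 := MulChar.eq_one_iff.2 fun a => by
        obtain ⟨n, rfl⟩ := hg a
        simp only [Units.val_pow_eq_pow_val, map_pow, k, one_pow]
      rw [this, orderOf_one] at h3
      omega
    have ho : orderOf (χ g) = 3 :=
      haveI : Fact (Nat.Prime 3) := ⟨Nat.prime_three⟩
      orderOf_eq_prime (hc g g.ne_zero) hg1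
    obtain ⟨n, hn⟩ := hg (Units.mk0 y hy)
    have hn' : (g : F) ^ n = y := by simpa using congrArg Units.val hn
    rw [← hn', map_pow, ← orderOf_dvd_iff_pow_eq_one, ho] at h1
    obtain ⟨m, rfl⟩ := h1
    exact ⟨(g : F) ^ m, by rw [← hn', ← pow_mul, mul_comm]⟩

theorem fin_cube_res {p : Eis} (hp : Prime p) (h1 : Prim p) (h : Eis) :
    ∑ x ∈ res p, psi p (h * x ^ 3) =
      ∑ y ∈ res p, (1 + cub y p + conj (cub y p)) * psi p (h * y) := by
  have := finite_quot hp.ne_zero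
  let _ := Fintype.ofFinite (Eis ⧸ Ideal.span {p})
  have := sym_max hp
  let _ := Ideal.Quotient.field (Ideal.span {p})
  obtain ⟨χ, hχ, h3⟩ := exists_mulChar_cub hp h1.not_lam_dvd
  obtain ⟨e, he, -⟩ := exists_addChar hp.ne_zero
  have hζ : IsPrimitiveRoot (Ideal.Quotient.mk (Ideal.span {p}) om) 3 := by
    have : Fact (Nat.Prime 3) := ⟨Nat.prime_three⟩
    refine IsPrimitiveRoot.iff_orderOf.2 (orderOf_eq_prime ?_ fun k => ?_)
    · rw [← map_pow, show om ^ 3 = 1 by decide, map_one]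
    · have k1 : p ∣ om - 1 := Ideal.mem_span_singleton.1 (Ideal.Quotient.eq.1 (k.trans (map_one _).symm))
      have k2 : p ∣ 3 := k1.trans ⟨om ^ 2 - 1, by decide⟩
      exact hp.not_isUnit (h1.coprime_three.isUnit_of_dvd k2)
  have key := fin_cube χ h3 hζ (fun z => e (Ideal.Quotient.mk _ h * z))
  rw [← sum_res_quot hp.ne_zero, ← sum_res_quot hp.ne_zero] at key
  simp only [← map_pow, ← map_mul, he, hχ] at key
  exact key

theorem fin_mod {q : ℕ} (hq : q.Prime) {π : Eis} (hp : Prime π) (h1 : Prim π) (hN : N π = q) :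
    q % 3 = 1 := by
  rcases prime_norm hp h1 with ⟨r, -, h3, hr⟩ | ⟨r, hr, -, rfl⟩
  · have : r = q := by exact_mod_cast hr.symm.trans hN
    rwa [← this]
  · rw [N_neg, N_natCast] at hN
    have : r ^ 2 = q := by exact_mod_cast hN
    exact absurd (this ▸ hq) (Nat.Prime.not_prime_pow le_rfl)

theorem fin_ne_cj {q : ℕ} (hq : q.Prime) {π : Eis} (hp : Prime π) (h1 : Prim π) (hN : N π = q) :
    π ≠ cj π := by
  obtain ⟨π0, -, -, -, h2, -, h3⟩ := exists_split hq (fin_mod hq hp h1 hN)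
  rcases h3 π hp h1 hN with rfl | rfl
  · exact h2
  · rw [cj_cj]; exact h2.symm

theorem fin_int_dvd {q : ℕ} (hq : q.Prime) {π : Eis} (hn : nrm π = q) {m : ℤ}
    (h : π ∣ (m : Eis)) : (q : ℤ) ∣ m := by
  obtain ⟨y, hy⟩ := h
  have h2 := congrArg nrm hy
  rw [nrm_mul, hn] at h2
  refine (Nat.prime_iff_prime_int.1 hq).dvd_of_dvd_pow (n := 2) ⟨nrm y, ?_⟩
  rw [← h2]
  simp [nrm]

theorem fin_kum {q : ℕ} (hq : q.Prime) {π : Eis} (hp : Prime π) (h1 : Prim π) (hN : N π = q) :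
    ∃ h : Eis, conj (cub h π) = cub 3 π ∧ ¬ π ∣ h ∧
      ∀ x : ℕ, psi π (h * (x : Eis) ^ 3) = cexp (2 * Real.pi * I * (x : ℂ) ^ 3 / q) := by
  have hn : nrm π = q := by
    unfold N at hN
    exact_mod_cast hN
  have hl := h1.not_lam_dvd
  have hq' : π * cj π = (q : Eis) := by rw [mul_cj, hn, Int.cast_natCast]
  have hnd : ¬ π ∣ cj π := fun k => fin_ne_cj hq hp h1 hN
    (h1.eq_of_associated h1.cj (hp.associated_of_dvd (r3_prime_cj hp) k))
  have hco : IsCoprime (cj π) π := (hp.coprime_iff_not_dvd.2 hnd).symm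
  have hc1 : cub (cj π) π = 1 := by
    have a1 := cub_cj (cj π) hl
    rw [cj_cj, ← cub_recip h1.cj h1, fin_conj (cub_cube hco)] at a1
    have a2 := cub_cube hco
    have a3 : cub (cj π) π ≠ 0 := fun k => by rw [k] at a2; norm_num at a2
    exact mul_left_cancel₀ a3 (by linear_combination -a1)
  set t : ℤ := 2 * π.a - π.b with ht
  have ht' : (t : Eis) = π + cj π := by ext <;> simp [ht]; ring
  have hqt : ¬ (q : ℤ) ∣ t := fun ⟨y, hy⟩ => hnd (by
    have : cj π = π * (cj π * y - 1) := by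
      rw [mul_sub, ← mul_assoc, hq', mul_one, eq_sub_iff_add_eq, add_comm, ← ht', hy]
      push_cast; ring
    exact ⟨_, this⟩)
  obtain ⟨u, s, hus⟩ := (Nat.prime_iff_prime_int.1 hq).coprime_iff_not_dvd.2 hqt
  have hus' : (u : Eis) * (π * cj π) + s * (π + cj π) = 1 := by
    rw [hq', ← ht']
    exact_mod_cast congrArg (Int.cast : ℤ → Eis) hus
  have hs1 : cub s π = 1 := by
    have a1 : cub ((s : Eis) * cj π) π = cub 1 π :=
      cub_congr ⟨-(u * cj π) - s, by linear_combination hus'⟩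
    rwa [cub_mul_left _ _ hl, hc1, mul_one, cub_one_left hl] at a1
  have hla : IsCoprime lam π := prime_lam.coprime_iff_not_dvd.2 hl
  refine ⟨lam * s, ?_, fun k => ?_, fun x => ?_⟩
  · rw [cub_mul_left _ _ hl, hs1, mul_one, fin_conj (cub_cube hla), ← cub_pow_left _ hl, lam_sq,
      cub_neg_left _ hl]
  · rcases hp.dvd_or_dvd k with k | k
    · exact hp.not_isUnit (hla.isUnit_of_dvd' k dvd_rfl)
    · have := (cub_eq_zero hp.ne_zero).2 fun c => hp.not_isUnit (c.isUnit_of_dvd' k dvd_rfl)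
      rw [hs1] at this
      exact one_ne_zero this
  · have e : (lam * s * (x : Eis) ^ 3 * cj π).b = (x : ℤ) ^ 3 - u * x ^ 3 * q := by
      have : lam * s * (x : Eis) ^ 3 * cj π = ((s * x ^ 3 : ℤ) : Eis) * (lam * cj π) := by
        push_cast; ring
      rw [this]
      simp only [mul_b, mul_a, intCast_a, intCast_b, lam_a, lam_b, cj_a, cj_b]
      linear_combination (x : ℤ) ^ 3 * hus - s * (x : ℤ) ^ 3 * ht
    have hq0 : (q : ℂ) ≠ 0 := Nat.cast_ne_zero.2 hq.ne_zero
    rw [psi, e, hN, ← mul_one (cexp (2 * Real.pi * I * (x : ℂ) ^ 3 / q)),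
      ← Complex.exp_int_mul_two_pi_mul_I (-(u * x ^ 3)), ← Complex.exp_add]
    congr 1
    push_cast
    field_simp
    ring

theorem fin_bridge {q : ℕ} (hq : q.Prime) {π : Eis} (hp : Prime π) (h1 : Prim π) (hN : N π = q) :
    ∑ x ∈ Finset.range q, cexp (2 * Real.pi * I * (x : ℂ) ^ 3 / q) =
      (ab π : ℂ) * (G π + G (cj π)) := by
  obtain ⟨h, h3, hh, hx⟩ := fin_kum hq hp h1 hN
  have hn : nrm π = q := by
    unfold N at hN
    exact_mod_cast hN
  have hP := PS.of_prime hp h1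
  have per : Per π fun x => psi π (h * x ^ 3) := fun x y =>
    psi_congr ⟨h * (3 * x ^ 2 * y + 3 * x * π * y ^ 2 + π ^ 2 * y ^ 3), by ring⟩
  rw [← Finset.sum_congr rfl fun x _ => hx x,
    resid_sum hp.ne_zero per (Finset.range q) (fun x : ℕ => (x : Eis)) (fun i hi j hj k => ?_)
      (by rw [Finset.card_range, hN]), fin_cube_res hp h1]
  · simp only [add_mul, Finset.sum_add_distrib, one_mul]
    have a1 := gauss_cub' hP h
    have a2 := gauss_conj_cub hP h
    rw [gauss] at a1 a2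
    rw [a1, a2, sum_psi hp.ne_zero, if_neg hh, G_cj, G, if_pos hP, ← h3, map_mul, conj_conj]
    ring
  · have k2 : (q : ℤ) ∣ (i : ℤ) - j := fin_int_dvd hq hn (by push_cast; exact k)
    rw [Finset.mem_range] at hi hj
    have := Int.eq_zero_of_abs_lt_dvd k2 (by rw [abs_lt]; omega)
    omega

theorem fin_split (F : Eis → ℂ) (f : ℕ → ℂ) (X : ℝ)
    (h : ∀ (q : ℕ) (π : Eis), q.Prime → Prime π → Prim π → N π = q → F π + F (cj π) = f q) :
    ∑ p ∈ pz X, F p = ∑ q ∈ (Finset.range (⌊X⌋₊ + 1)).filter (fun q => q.Prime ∧ q % 3 = 1), f q +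
      ∑ q ∈ (Finset.range (⌊√X⌋₊ + 1)).filter (fun q => q.Prime ∧ q % 3 = 2), F (-(q : Eis)) := by
  rw [← Finset.sum_filter_add_sum_filter_not (pz X)
    (fun p => ∃ q : ℕ, q.Prime ∧ q % 3 = 1 ∧ N p = q)]
  congr 1
  · rw [← Finset.sum_fiberwise_of_maps_to (g := fun p => ⌊N p⌋₊)
      (t := (Finset.range (⌊X⌋₊ + 1)).filter (fun q => q.Prime ∧ q % 3 = 1))]
    · refine Finset.sum_congr rfl fun q hq => ?_
      obtain ⟨k1, k2, k3⟩ := Finset.mem_filter.1 hq
      obtain ⟨π, a1, a2, a3, a4, -, a6⟩ := exists_split k2 k3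
      have hX : (q : ℝ) ≤ X := by
        rw [Finset.mem_range, Nat.lt_succ_iff] at k1
        exact (Nat.le_floor_iff' k2.ne_zero).1 k1
      rw [← h q π k2 a1 a2 a3, ← Finset.sum_pair a4]
      refine Finset.sum_congr ?_ fun _ _ => rfl
      ext p
      rw [Finset.mem_filter, Finset.mem_filter, mem_pz, Finset.mem_insert, Finset.mem_singleton]
      constructor
      · rintro ⟨⟨⟨b1, b2, -⟩, r, -, -, b3⟩, b4⟩
        rw [b3, Nat.floor_natCast] at b4
        exact a6 p b1 b2 (b4 ▸ b3)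
      · rintro (rfl | rfl)
        · exact ⟨⟨⟨a1, a2, a3 ▸ hX⟩, q, k2, k3, a3⟩, by rw [a3, Nat.floor_natCast]⟩
        · have a7 := (gp_N_cj π).trans a3
          exact ⟨⟨⟨r3_prime_cj a1, a2.cj, a7 ▸ hX⟩, q, k2, k3, a7⟩, by rw [a7, Nat.floor_natCast]⟩
    · intro p hp
      obtain ⟨b1, q, b2, b3, b4⟩ := Finset.mem_filter.1 hp
      rw [b4, Nat.floor_natCast, Finset.mem_filter, Finset.mem_range, Nat.lt_succ_iff]
      exact ⟨Nat.le_floor (b4 ▸ (mem_pz.1 b1).2.2), b2, b3⟩
  · symm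
    refine Finset.sum_bij (fun q _ => -(q : Eis)) (fun q hq => ?_) (fun a _ b _ e => ?_)
      (fun p hp => ?_) fun _ _ => rfl
    · obtain ⟨k1, k2, k3⟩ := Finset.mem_filter.1 hq
      obtain ⟨a1, a2⟩ := inert_prime k2 k3
      rw [Finset.mem_range, Nat.lt_succ_iff, Nat.le_floor_iff' k2.ne_zero,
        Real.le_sqrt' (Nat.cast_pos.2 k2.pos)] at k1
      rw [Finset.mem_filter, mem_pz, N_neg, N_natCast]
      refine ⟨⟨a1, a2, k1⟩, fun ⟨r, b1, _, b3⟩ => ?_⟩
      have : q ^ 2 = r := by exact_mod_cast b3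
      exact absurd (this ▸ b1) (Nat.Prime.not_prime_pow le_rfl)
    · have := congrArg Eis.a (neg_injective e)
      simpa using this
    · obtain ⟨b1, b2⟩ := Finset.mem_filter.1 hp
      obtain ⟨c1, c2, c3⟩ := mem_pz.1 b1
      obtain ⟨q, d1, d2, rfl⟩ := (prime_norm c1 c2).resolve_left b2
      rw [N_neg, N_natCast] at c3
      refine ⟨q, Finset.mem_filter.2 ⟨?_, d1, d2⟩, rfl⟩
      rw [Finset.mem_range, Nat.lt_succ_iff]
      exact Nat.le_floor (Real.le_sqrt_of_sq_le c3)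

theorem fin_abel {E : Type} [NormedAddCommGroup E] [NormedSpace ℝ E] [CompleteSpace E]
    {F : Eis → E} {a : ℝ} (hF : ∀ n, n ≠ 0 → N n < a → F n = 0) {g g' : ℝ → ℝ}
    (hg : ∀ t, a ≤ t → HasDerivAt g (g' t) t) (hc : ContinuousOn g' (Set.Ici a)) {X : ℝ}
    (hX : a ≤ X) : IntervalIntegrable (fun t => g' t • ∑ n ∈ ball t, F n) volume a X ∧
      ∑ n ∈ ball X, g (N n) • F n =
        g X • ∑ n ∈ ball X, F n - ∫ t in a..X, g' t • ∑ n ∈ ball t, F n := by
  have hi : ∀ b, a ≤ b → b ≤ X → IntervalIntegrable g' volume b X := fun b h1 h2 =>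
    (hc.mono fun t ht => by
      rw [Set.uIcc_of_le h2] at ht
      exact h1.trans ht.1).intervalIntegrable
  have e : ∀ t ∈ Set.uIcc a X, ∑ n ∈ ball X, (Set.Ici (N n)).indicator g' t • F n =
      g' t • ∑ n ∈ ball t, F n := fun t ht => by
    rw [Set.uIcc_of_le hX] at ht
    rw [Finset.smul_sum]
    symm
    refine Finset.sum_subset_zero_on_sdiff (ball_mono ht.2) (fun n hn => ?_) fun n hn => ?_
    · obtain ⟨k1, k2⟩ := Finset.mem_sdiff.1 hn
      rw [Set.indicator_of_notMem (show t ∉ Set.Ici (N n) from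
        fun k => k2 (mem_ball.2 ⟨(mem_ball.1 k1).1, k⟩)), zero_smul]
    · rw [Set.indicator_of_mem (show t ∈ Set.Ici (N n) from (mem_ball.1 hn).2)]
  have hi2 : ∀ n ∈ ball X, IntervalIntegrable
      (fun t => (Set.Ici (N n)).indicator g' t • F n) volume a X := fun n _ =>
    ⟨((hi a le_rfl hX).1.indicator measurableSet_Ici).smul_const _,
      ((hi a le_rfl hX).2.indicator measurableSet_Ici).smul_const _⟩
  refine ⟨?_, ?_⟩
  · refine IntervalIntegrable.congr (fun t ht => e t (Set.uIoc_subset_uIcc ht)) ?_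
    have := IntervalIntegrable.sum _ hi2
    rwa [Finset.sum_fn] at this
  rw [← intervalIntegral.integral_congr e, intervalIntegral.integral_finsetSum hi2,
    Finset.smul_sum, ← Finset.sum_sub_distrib]
  refine Finset.sum_congr rfl fun n hn => ?_
  obtain ⟨k1, k2⟩ := mem_ball.1 hn
  rcases lt_or_ge (N n) a with k | k
  · simp [hF n k1 k]
  rw [intervalIntegral.integral_smul_const, ← sub_smul]
  congr 1
  have e2 : ∫ t in a..X, (Set.Ici (N n)).indicator g' t = ∫ t in (N n)..X, g' t := by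
    rw [intervalIntegral.integral_of_le hX, intervalIntegral.integral_of_le k2,
      setIntegral_indicator measurableSet_Ici, ← integral_Icc_eq_integral_Ioc]
    refine setIntegral_congr_set ?_
    refine (Ioc_ae_eq_Icc.inter (ae_eq_refl _)).trans (EventuallyEq.of_eq ?_)
    ext t
    exact ⟨fun h => ⟨h.2, h.1.2⟩, fun h => ⟨⟨k.trans h.1, h.2⟩, h.1⟩⟩
  rw [e2, intervalIntegral.integral_eq_sub_of_hasDerivAt (fun t ht => hg t ?_) (hi _ k k2)]
  · ring
  · rw [Set.uIcc_of_le k2] at ht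
    exact k.trans ht.1

theorem fin_lim {E : Type} [NormedAddCommGroup E] [NormedSpace ℝ E] [CompleteSpace E]
    {F : Eis → E} {a : ℝ} (hF : ∀ n, n ≠ 0 → N n < a → F n = 0) {g g' Φ φ : ℝ → ℝ}
    (hg : ∀ t, a ≤ t → HasDerivAt g (g' t) t) (hc : ContinuousOn g' (Set.Ici a))
    (hΦ : ∀ t, a ≤ t → HasDerivAt Φ (φ t) t) (hφ : ContinuousOn φ (Set.Ici a))
    (hT : Tendsto Φ atTop atTop) {l1 l2 : E}
    (h1 : Tendsto (fun X => (Φ X)⁻¹ • g X • ∑ n ∈ ball X, F n) atTop (𝓝 l1))
    (h2 : ∀ e : ℝ, 0 < e → ∀ᶠ t in atTop, ‖g' t • ∑ n ∈ ball t, F n + φ t • l2‖ ≤ e * φ t) :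
    Tendsto (fun X => (Φ X)⁻¹ • ∑ n ∈ ball X, g (N n) • F n) atTop (𝓝 (l1 + l2)) := by
  set H : ℝ → E := fun t => g' t • ∑ n ∈ ball t, F n + φ t • l2 with hH
  have hi : ∀ b X, a ≤ b → b ≤ X → IntervalIntegrable φ volume b X := fun b X h1 h2 =>
    (hφ.mono fun t ht => by
      rw [Set.uIcc_of_le h2] at ht
      exact h1.trans ht.1).intervalIntegrable
  have hv : ∀ b X, a ≤ b → b ≤ X → ∫ t in b..X, φ t = Φ X - Φ b := fun b X h1 h2 =>
    intervalIntegral.integral_eq_sub_of_hasDerivAt (fun t ht => hΦ t (by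
      rw [Set.uIcc_of_le h2] at ht
      exact h1.trans ht.1)) (hi b X h1 h2)
  have hj : ∀ X, a ≤ X → IntervalIntegrable (fun t => φ t • l2) volume a X := fun X hX =>
    ⟨(hi a X le_rfl hX).1.smul_const _, (hi a X le_rfl hX).2.smul_const _⟩
  have hI : ∀ X, a ≤ X → IntervalIntegrable H volume a X := fun X hX =>
    (fin_abel hF hg hc hX).1.add (hj X hX)
  have h3 : Tendsto (fun X => (Φ X)⁻¹ • ∫ t in a..X, H t) atTop (𝓝 0) := by
    refine NormedAddGroup.tendsto_nhds_zero.2 fun e he => ?_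
    obtain ⟨T, hT1⟩ := eventually_atTop.1 ((h2 (e / 3) (by positivity)).and (eventually_ge_atTop a))
    have ha := (hT1 T le_rfl).2
    filter_upwards [eventually_ge_atTop T, hT.eventually_gt_atTop 0,
      hT.eventually_ge_atTop ((‖∫ t in a..T, H t‖ + e / 3 * |Φ T|) / (e / 3))] with X k1 k2 k3
    have i1 := hI X (ha.trans k1)
    have i2 : IntervalIntegrable H volume T X := (hI T ha).symm.trans i1
    have b1 : ‖∫ t in T..X, H t‖ ≤ e / 3 * (Φ X - Φ T) := by
      rw [← hv T X ha k1, ← intervalIntegral.integral_const_mul]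
      exact intervalIntegral.norm_integral_le_of_norm_le k1
        (Eventually.of_forall fun t ht => (hT1 t ht.1.le).1) ((hi T X ha k1).const_mul _)
    rw [← intervalIntegral.integral_add_adjacent_intervals (hI T ha) i2, norm_smul, norm_inv,
      Real.norm_of_nonneg k2.le, inv_mul_lt_iff₀ k2]
    rw [div_le_iff₀ (by positivity)] at k3
    have b2 := norm_add_le (∫ t in a..T, H t) (∫ t in T..X, H t)
    have b3 := neg_abs_le (Φ T)
    nlinarith [mul_pos he k2]
  have h4 : Tendsto (fun X => ((Φ X)⁻¹ * (Φ X - Φ a)) • l2) atTop (𝓝 ((1 - 0 * Φ a : ℝ) • l2)) := by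
    refine Tendsto.smul_const ?_ _
    refine ((hT.inv_tendsto_atTop.mul_const (Φ a)).const_sub 1).congr' ?_
    filter_upwards [hT.eventually_gt_atTop 0] with X k
    rw [Pi.inv_apply, mul_sub, inv_mul_cancel₀ k.ne']
  have h5 := (h1.sub h3).add h4
  rw [sub_zero, zero_mul, sub_zero, one_smul] at h5
  refine h5.congr' ?_
  filter_upwards [eventually_ge_atTop a] with X k
  obtain ⟨i1, i2⟩ := fin_abel hF hg hc k
  rw [i2, hH, intervalIntegral.integral_add i1 (hj X k),
    intervalIntegral.integral_smul_const, hv a X le_rfl k, smul_add, smul_sub, mul_smul]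
  abel

end Vale.Agent.P006
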