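import Vale.Agent.P006.Pri
import Vale.Agent.P006.GaussP
import Vale.Agent.P006.FinA
import Vale.Agent.Lib.PNT

/-! From the weighted sum over primary primes to the statement over rational primes. -/

namespace Vale.Agent.P006

open Vale.Agent.P026 Eis Complex MeasureTheory Filter Topology
open scoped Classical ComplexConjugate

/-- Kummer's sum. -/
noncomputable def kum (p : ℕ) : ℂ :=
  ∑ x ∈ Finset.range p, cexp (2 * Real.pi * I * (x : ℂ) ^ 3 / p)

/-- The integers 0 ≤ x < q are a residue system modulo π (resid_sum); psi π (lam x) = exp (2 π i a x / q)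
with a = π + cj π, and cub a π = cub (cj π) π = 1 (cub_recip, cub_cj). The number of cube roots of y is
1 + cub y π + conj (cub y π) (exists_mulChar_cub, or count directly); cub x (cj π) = conj (cub x π) for
integers x. -/
theorem bridge {q : ℕ} (hq : q.Prime) {π : Eis} (hp : Prime π) (h1 : Prim π) (hN : N π = q) :
    G π + G (cj π) = kum q / ((√(q : ℝ) : ℝ) : ℂ) := by
  rw [kum, fin_bridge hq hp h1 hN, ← hN, ← ab,
    mul_div_cancel_left₀ _ (ofReal_ne_zero.2 (ab_pos hp.ne_zero).ne')]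
/-- Split and inert primes (prime_norm, exists_split). -/
theorem sum_pz_split (F : Eis → ℂ) (f : ℕ → ℂ) (X : ℝ)
    (h : ∀ (q : ℕ) (π : Eis), q.Prime → Prime π → Prim π → N π = q → F π + F (cj π) = f q) :
    ∑ p ∈ pz X, F p = ∑ q ∈ (Finset.range (⌊X⌋₊ + 1)).filter (fun q => q.Prime ∧ q % 3 = 1), f q +
      ∑ q ∈ (Finset.range (⌊√X⌋₊ + 1)).filter (fun q => q.Prime ∧ q % 3 = 2), F (-(q : Eis)) :=
  fin_split F f X h
theorem fin_sqrt : Tendsto (fun X : ℝ => √X / X) atTop (𝓝 0) :=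
  (Real.tendsto_sqrt_atTop.inv_tendsto_atTop).congr fun x => by simp [Real.sqrt_div_self']
theorem fin_lam (X : ℝ) : ∑ n ∈ ball X, Lam n =
    2 * ∑ q ∈ (Finset.range (⌊X⌋₊ + 1)).filter (fun q => q.Prime ∧ q % 3 = 1), Real.log q +
      2 * ∑ q ∈ (Finset.range (⌊√X⌋₊ + 1)).filter (fun q => q.Prime ∧ q % 3 = 2), Real.log q := by
  have e : ∑ n ∈ ball X, Lam n = ∑ p ∈ pz X, Real.log (N p) := by
    rw [pz, Finset.sum_filter]
    exact Finset.sum_congr rfl fun n _ => if_congr and_comm rfl rfl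
  have k := fin_split (fun p => (Real.log (N p) : ℂ)) (fun q => ((2 * Real.log q : ℝ) : ℂ)) X
    fun q π _ _ _ h => by rw [gp_N_cj, h, two_mul, ofReal_add]
  simp only [N_neg, N_natCast, Real.log_pow] at k
  rw [e, Finset.mul_sum, Finset.mul_sum]
  exact_mod_cast k
open ArithmeticFunction ArithmeticFunction.vonMangoldt in
theorem fin_theta : Tendsto (fun X : ℝ => (∑ q ∈ (Finset.range (⌊X⌋₊ + 1)).filter
    (fun q => q.Prime ∧ q % 3 = 1), Real.log q) / X) atTop (𝓝 (1 / 2)) := by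
  have h1 := Vale.Agent.Lib.PNT.psi_ap_asymp (q := 3) (a := 1) isUnit_one
  rw [show Nat.totient 3 = 2 by decide, Nat.cast_ofNat, ← one_div] at h1
  have h2 := Vale.Agent.Lib.PNT.psi_asymp.sub Vale.Agent.Lib.PNT.theta_asymp
  have h3 := h1.sub h2
  rw [sub_self, sub_zero] at h3
  have e : ∀ X : ℝ, ∑ q ∈ (Finset.range (⌊X⌋₊ + 1)).filter (fun q => q.Prime ∧ q % 3 = 1),
      Real.log q = ∑ q ∈ Finset.Icc 1 ⌊X⌋₊, if q.Prime ∧ q % 3 = 1 then Real.log q else 0 := by
    intro X
    rw [← Finset.sum_filter]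
    refine Finset.sum_congr ?_ fun _ _ => rfl
    ext q
    simp only [Finset.mem_filter, Finset.mem_range, Finset.mem_Icc]
    exact ⟨fun h => ⟨⟨h.2.1.pos, by omega⟩, h.2⟩, fun h => ⟨by omega, h.2⟩⟩
  have key : ∀ k : ℕ, residueClass (1 : ZMod 3) k = if k % 3 = 1 then vonMangoldt k else 0 :=
      fun k => by
    rw [residueClass, Set.indicator_apply]
    refine if_congr ?_ rfl rfl
    rw [Set.mem_ofPred_eq, ← Nat.cast_one (R := ZMod 3), ZMod.natCast_eq_natCast_iff']
  refine tendsto_of_tendsto_of_tendsto_of_le_of_le' h3 h1 ?_ ?_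
  · filter_upwards [eventually_gt_atTop 0] with X hX
    rw [← sub_div, ← sub_div, e]
    refine div_le_div_of_nonneg_right ?_ hX.le
    rw [← Vale.Agent.Lib.PNT.sum_Icc_eq_psi, Chebyshev.theta, Finset.sum_filter,
      ← Finset.Icc_add_one_left_eq_Ioc, zero_add, ← Finset.sum_sub_distrib,
      ← Finset.sum_sub_distrib]
    refine Finset.sum_le_sum fun k _ => ?_
    have := vonMangoldt_nonneg (n := k)
    rw [key]
    by_cases a : k.Prime <;> by_cases b : k % 3 = 1 <;> simp [a, b, this]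
    exact (vonMangoldt_apply_prime a).ge
  · filter_upwards [eventually_gt_atTop 0] with X hX
    rw [e]
    refine div_le_div_of_nonneg_right (Finset.sum_le_sum fun k _ => ?_) hX.le
    have := vonMangoldt_nonneg (n := k)
    rw [key]
    by_cases a : k.Prime <;> by_cases b : k % 3 = 1 <;> simp [a, b, this]
    exact (vonMangoldt_apply_prime a).ge
/-- Prime number theorem for primary primes (Vale.Agent.Lib.PNT.psi_ap_asymp with q = 3, a = 1; prime
powers and inert primes contribute O (√X log X), Chebyshev.abs_psi_sub_theta_le_sqrt_mul_log). -/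
theorem pnt_prim : Tendsto (fun X : ℝ => (∑ n ∈ ball X, Lam n) / X) atTop (𝓝 1) := by
  have h2 : Tendsto (fun X : ℝ => (∑ q ∈ (Finset.range (⌊√X⌋₊ + 1)).filter
      (fun q => q.Prime ∧ q % 3 = 2), Real.log q) / X) atTop (𝓝 0) := by
    have h3 := fin_sqrt.const_mul (Real.log 4)
    rw [mul_zero] at h3
    refine tendsto_of_tendsto_of_tendsto_of_le_of_le' tendsto_const_nhds h3 ?_ ?_
    · filter_upwards [eventually_gt_atTop 0] with X hX
      exact div_nonneg (Finset.sum_nonneg fun q _ => Real.log_natCast_nonneg q) hX.le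
    · filter_upwards [eventually_gt_atTop 0] with X hX
      rw [← mul_div_assoc]
      refine div_le_div_of_nonneg_right (le_trans ?_
        (Chebyshev.theta_le_log4_mul_x (Real.sqrt_nonneg X))) hX.le
      refine Finset.sum_le_sum_of_subset_of_nonneg (fun q hq => ?_)
        fun q _ _ => Real.log_natCast_nonneg q
      simp only [Finset.mem_filter, Finset.mem_range, Finset.mem_Ioc] at hq ⊢
      exact ⟨⟨hq.2.1.pos, by omega⟩, hq.2.1⟩
  have h4 := (fin_theta.const_mul 2).add (h2.const_mul 2)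
  rw [show (2 : ℝ) * (1 / 2) + 2 * 0 = 1 by norm_num] at h4
  refine h4.congr fun X => ?_
  rw [fin_lam, add_div, mul_div_assoc, mul_div_assoc]
/-- Partial summation: if A x / x ^ a → l and 0 < a + b then the sum weighted by N n ^ b (log N n) ^ (-k)
is asymptotic to l a / (a + b) x ^ (a + b) (log x) ^ (-k). Only (a, b, k) = (1, -1/6, 0) and (5/6, 0, 1)
are needed. Group by the norm (a natural number) and use sum_mul_eq_sub_integral_mul, or write the weight
as g X - ∫ g' and exchange the finite sum with the integral. -/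
theorem abel_pow {F : Eis → ℝ} (h : Tendsto (fun X : ℝ => (∑ n ∈ ball X, F n) / X) atTop (𝓝 1)) :
    Tendsto (fun X : ℝ => (∑ n ∈ ball X, F n * N n ^ (-(1 / 6) : ℝ)) / X ^ (5 / 6 : ℝ)) atTop
      (𝓝 (6 / 5)) := by
  have d : ∀ p t : ℝ, 1 ≤ t → HasDerivAt (fun x : ℝ => x ^ p) (p * t ^ (p - 1)) t :=
    fun p t ht => Real.hasDerivAt_rpow_const (Or.inl (by linarith))
  have c : ∀ p : ℝ, ContinuousOn (fun t : ℝ => p * t ^ (p - 1)) (Set.Ici 1) := fun p =>
    continuousOn_const.mul (continuousOn_id.rpow_const fun t ht =>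
      Or.inl (by simp only [Set.mem_Ici, id] at ht ⊢; linarith))
  have k := fin_lim (F := F) (a := 1) (l1 := 1) (l2 := 1 / 5)
    (fun n hn h => absurd (one_le_N hn) (not_le.2 h)) (d (-(1 / 6))) (c _) (d (5 / 6)) (c _)
    (tendsto_rpow_atTop (by norm_num)) (h.congr' ?_) fun e he => ?_
  · rw [show (1 : ℝ) + 1 / 5 = 6 / 5 by norm_num] at k
    refine k.congr fun X => ?_
    simp only [smul_eq_mul, div_eq_inv_mul, mul_comm]
  · filter_upwards [eventually_gt_atTop 0] with X hX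
    rw [smul_eq_mul, smul_eq_mul, ← mul_assoc, ← Real.rpow_neg hX.le, ← Real.rpow_add hX,
      show -(5 / 6 : ℝ) + -(1 / 6) = -1 by norm_num, Real.rpow_neg_one, div_eq_inv_mul]
  · filter_upwards [eventually_gt_atTop 0, Metric.tendsto_nhds.1 h e he] with t ht h1
    have e1 : t ^ (-(1 / 6) - 1 : ℝ) = t ^ (5 / 6 - 1 : ℝ) / t := by
      rw [← Real.rpow_sub_one ht.ne']
      norm_num
    have p1 : 0 < t ^ (5 / 6 - 1 : ℝ) := Real.rpow_pos_of_pos ht _
    rw [Real.dist_eq] at h1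
    rw [smul_eq_mul, smul_eq_mul, e1, show -(1 / 6) * (t ^ (5 / 6 - 1 : ℝ) / t) *
      (∑ n ∈ ball t, F n) + 5 / 6 * t ^ (5 / 6 - 1 : ℝ) * (1 / 5) =
        -(1 / 6 * t ^ (5 / 6 - 1 : ℝ)) * ((∑ n ∈ ball t, F n) / t - 1) by ring, norm_mul, norm_neg,
      Real.norm_of_nonneg (by positivity), Real.norm_eq_abs]
    nlinarith [mul_pos he p1, mul_le_mul_of_nonneg_left h1.le p1.le]
theorem abel_log {F : Eis → ℂ} {l : ℂ} (h1 : ∀ n, N n < 2 → F n = 0)
    (h : Tendsto (fun X : ℝ => (∑ n ∈ ball X, F n) / ((X ^ (5 / 6 : ℝ) : ℝ) : ℂ)) atTop (𝓝 l)) :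
    Tendsto (fun X : ℝ => (∑ n ∈ ball X, F n / (Real.log (N n) : ℂ)) /
      ((X ^ (5 / 6 : ℝ) / Real.log X : ℝ) : ℂ)) atTop (𝓝 l) := by
  have lp : ∀ t : ℝ, 2 ≤ t → 0 < Real.log t := fun t ht => Real.log_pos (by linarith)
  have cl : ContinuousOn (fun t : ℝ => Real.log t) (Set.Ici 2) :=
    Real.continuousOn_log.mono fun t ht => by
      simp only [Set.mem_Ici, Set.mem_compl_iff, Set.mem_singleton_iff] at ht ⊢
      linarith
  have ci : ContinuousOn (fun t : ℝ => t⁻¹) (Set.Ici 2) :=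
    continuousOn_id.inv₀ fun t ht => by
      simp only [Set.mem_Ici, id] at ht ⊢
      linarith
  have cp : ∀ p : ℝ, ContinuousOn (fun t : ℝ => t ^ p) (Set.Ici 2) := fun p =>
    continuousOn_id.rpow_const fun t ht => Or.inl (by simp only [Set.mem_Ici, id] at ht ⊢; linarith)
  have k := fin_lim (F := F) (a := 2) (l1 := l) (l2 := 0) (g := fun t => (Real.log t)⁻¹)
    (g' := fun t => -t⁻¹ / Real.log t ^ 2) (Φ := fun t => t ^ (5 / 6 : ℝ) / Real.log t)
    (φ := fun t => (5 / 6 * t ^ (5 / 6 - 1 : ℝ) * Real.log t - t ^ (5 / 6 : ℝ) * t⁻¹) /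
      Real.log t ^ 2) (fun n _ => h1 n)
    (fun t ht => (Real.hasDerivAt_log (by linarith)).inv (lp t ht).ne')
    (ci.neg.div (cl.pow 2) fun t ht => pow_ne_zero 2 (lp t ht).ne')
    (fun t ht => (Real.hasDerivAt_rpow_const (Or.inl (by linarith))).div
      (Real.hasDerivAt_log (by linarith)) (lp t ht).ne')
    ((((continuousOn_const.mul (cp _)).mul cl).sub ((cp _).mul ci)).div (cl.pow 2)
      fun t ht => pow_ne_zero 2 (lp t ht).ne') ?_ (h.congr' ?_) fun e he => ?_
  · rw [add_zero] at k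
    refine k.congr fun X => ?_
    simp only [Complex.real_smul, div_eq_inv_mul, ofReal_inv]
  · have := (isLittleO_log_rpow_atTop (r := 5 / 6) (by norm_num)).tendsto_div_nhds_zero
    have h2 : Tendsto (fun t : ℝ => Real.log t / t ^ (5 / 6 : ℝ)) atTop (𝓝[>] 0) :=
      tendsto_nhdsWithin_iff.2 ⟨this, by
        filter_upwards [eventually_ge_atTop 2] with t ht
        exact div_pos (lp t ht) (Real.rpow_pos_of_pos (by linarith) _)⟩
    exact h2.inv_tendsto_nhdsGT_zero.congr fun t => by rw [Pi.inv_apply, inv_div]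
  · filter_upwards [eventually_ge_atTop 2] with X hX
    rw [smul_smul, inv_div, div_mul_eq_mul_div, mul_inv_cancel₀ (lp X hX).ne', Complex.real_smul,
      one_div, ofReal_inv, div_eq_inv_mul]
  · filter_upwards [eventually_ge_atTop 2, h.norm.eventually_lt_const (lt_add_one _),
      Real.tendsto_log_atTop.eventually_ge_atTop (6 / 5 * ((‖l‖ + 1) / e + 1))] with t ht h2 h3
    have t0 : 0 < t := by linarith
    have p1 : 0 < t ^ (5 / 6 : ℝ) := Real.rpow_pos_of_pos t0 _
    have p2 := lp t ht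
    rw [norm_div, Complex.norm_real, Real.norm_of_nonneg p1.le, div_lt_iff₀ p1] at h2
    have h4 : ‖l‖ + 1 ≤ e * (5 / 6 * Real.log t - 1) := by
      rw [← div_le_iff₀' he]
      linarith
    rw [smul_zero, add_zero, norm_smul, Real.rpow_sub_one t0.ne', neg_div, norm_neg,
      Real.norm_of_nonneg (by positivity), show e * ((5 / 6 * (t ^ (5 / 6 : ℝ) / t) * Real.log t -
        t ^ (5 / 6 : ℝ) * t⁻¹) / Real.log t ^ 2) = t⁻¹ / Real.log t ^ 2 *
          (e * (5 / 6 * Real.log t - 1) * t ^ (5 / 6 : ℝ)) by ring]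
    exact mul_le_mul_of_nonneg_left (h2.le.trans (mul_le_mul_of_nonneg_right h4 p1.le))
      (by positivity)
theorem fin_prim (h : Tendsto (fun X : ℝ =>
    (∑ n ∈ ball X, (Lam n : ℂ) * Dl n) / ((X ^ (5 / 6 : ℝ) : ℝ) : ℂ)) atTop (𝓝 0)) :
    Tendsto (fun X : ℝ => (∑ p ∈ pz X, G p) / ((X ^ (5 / 6 : ℝ) / Real.log X : ℝ) : ℂ)) atTop
      (𝓝 ((6 / 5 * cs : ℝ) : ℂ)) := by
  have h2 := (continuous_ofReal.tendsto _).comp ((abel_pow pnt_prim).mul_const cs)
  have h3 := h.add h2
  rw [zero_add] at h3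
  have h4 := abel_log (F := fun n => (Lam n : ℂ) * G n) (fun n hn => by
    rw [Lam, if_neg fun k => by linarith [four_le_N k.1 k.2.ne_one], ofReal_zero, zero_mul])
    (h3.congr fun X => by
      rw [Function.comp_apply, div_mul_eq_mul_div, ofReal_div, ← add_div, Finset.sum_mul,
        ofReal_sum, ← Finset.sum_add_distrib]
      refine congrArg (· / _) (Finset.sum_congr rfl fun n _ => ?_)
      unfold Lam Dl
      split_ifs with a b
      · push_cast
        ring
      · exact absurd (PS.of_prime a.2 a.1) b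
      · simp
      · simp)
  refine h4.congr fun X => ?_
  rw [pz, Finset.sum_filter]
  refine congrArg (· / _) (Finset.sum_congr rfl fun n _ => ?_)
  unfold Lam
  by_cases a : Prim n ∧ Prime n
  · rw [if_pos a, if_pos a.symm, mul_div_cancel_left₀ _ (ofReal_ne_zero.2
      (Real.log_pos (by linarith [four_le_N a.1 a.2.ne_one])).ne')]
  · rw [if_neg a, if_neg fun k => a k.symm, ofReal_zero, zero_mul, zero_div]
theorem fin_rat (h : Tendsto (fun X : ℝ =>
    (∑ p ∈ pz X, G p) / ((X ^ (5 / 6 : ℝ) / Real.log X : ℝ) : ℂ)) atTop (𝓝 ((6 / 5 * cs : ℝ) : ℂ))) :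
    Tendsto (fun X : ℝ =>
      (∑ p ∈ (Finset.range (⌊X⌋₊ + 1)).filter (fun p => p.Prime ∧ p % 3 = 1),
        kum p / ((2 * √(p : ℝ) : ℝ) : ℂ)) / ((X ^ (5 / 6 : ℝ) / Real.log X : ℝ) : ℂ)) atTop
      (𝓝 (((2 * Real.pi) ^ (2 / 3 : ℝ) / (5 * Real.Gamma (2 / 3)) : ℝ) : ℂ)) := by
  have h2 : Tendsto (fun X : ℝ => (∑ q ∈ (Finset.range (⌊√X⌋₊ + 1)).filter
      (fun q => q.Prime ∧ q % 3 = 2), G (-(q : Eis))) /
        ((X ^ (5 / 6 : ℝ) / Real.log X : ℝ) : ℂ)) atTop (𝓝 0) := by
    have h3 := (isLittleO_log_rpow_atTop (r := 1 / 3) (by norm_num)).tendsto_div_nhds_zero.const_mul 2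
    rw [mul_zero] at h3
    refine squeeze_zero_norm' ?_ h3
    filter_upwards [eventually_ge_atTop 2] with X hX
    have X0 : 0 < X := by linarith
    have p1 : 0 < Real.log X := Real.log_pos (by linarith)
    have p2 : 0 < X ^ (1 / 3 : ℝ) := Real.rpow_pos_of_pos X0 _
    have p3 : 1 ≤ √X := Real.one_le_sqrt.2 (by linarith)
    have e : X ^ (5 / 6 : ℝ) = √X * X ^ (1 / 3 : ℝ) := by
      rw [Real.sqrt_eq_rpow, ← Real.rpow_add X0]
      norm_num
    have b : ‖∑ q ∈ (Finset.range (⌊√X⌋₊ + 1)).filter (fun q => q.Prime ∧ q % 3 = 2),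
        G (-(q : Eis))‖ ≤ 2 * √X := by
      refine (norm_sum_le _ _).trans ((Finset.sum_le_card_nsmul _ _ 1
        fun q _ => norm_G_le _).trans ?_)
      have b1 : (((Finset.range (⌊√X⌋₊ + 1)).filter (fun q => q.Prime ∧ q % 3 = 2)).card : ℝ) ≤
          (⌊√X⌋₊ + 1 : ℕ) := Nat.cast_le.2 ((Finset.card_filter_le _ _).trans
            (Finset.card_range _).le)
      have b2 := Nat.floor_le (Real.sqrt_nonneg X)
      push_cast at b1
      rw [nsmul_eq_mul, mul_one]
      linarith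
    rw [norm_div, Complex.norm_real, e, Real.norm_of_nonneg (by positivity),
      div_le_iff₀ (by positivity)]
    refine b.trans (le_of_eq ?_)
    field_simp
  have h4 := (h.sub h2).div_const 2
  have e : (((6 / 5 * cs : ℝ) : ℂ) - 0) / 2 =
      (((2 * Real.pi) ^ (2 / 3 : ℝ) / (5 * Real.Gamma (2 / 3)) : ℝ) : ℂ) := by
    have := Real.Gamma_pos_of_pos (s := 2 / 3) (by norm_num)
    rw [sub_zero, ← ofReal_ofNat, ← ofReal_div, cs]
    congr 1
    field_simp
    norm_num
  rw [e] at h4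
  refine h4.congr fun X => ?_
  rw [sum_pz_split G (fun q => kum q / ((√(q : ℝ) : ℝ) : ℂ)) X fun _ _ a b => bridge a b, ← sub_div,
    add_sub_cancel_right, div_right_comm, Finset.sum_div]
  refine congrArg (· / _) (Finset.sum_congr rfl fun q _ => ?_)
  rw [div_div, ofReal_mul, ofReal_ofNat, mul_comm]

end Vale.Agent.P006
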