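import Vale.Agent.P006.Ari
import Vale.Agent.P006.LC
import Vale.Agent.P026.Asym
import Vale.Agent.P006.GKzA

/-! Kubota Gauss sums at the cusps (0, 1) and (1, j), and the residues of the constant terms. -/

namespace Vale.Agent.P006

open Vale.Agent.P026 Eis Complex MeasureTheory Filter Topology
open scoped Classical ComplexConjugate

/-- Copy of gK_prime_pow (kb_split, kb_mul only need Prim). -/
theorem gK_prime_pow' (A q : Eis) {p c : Eis} (hp : Prime p) (h1 : Prim p) (hc : ¬ p ∣ c) (k : ℕ)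
    (r : Eis) : gK (kapS A q) r (p ^ k * c) =
      cub 9 p ^ k * gauss (fun u => cub u p ^ k) (p ^ k) r * gK (kapS A q) (r * p ^ k) c := by
  have hc0 : c ≠ 0 := fun h => hc (h ▸ dvd_zero p)
  have hcop : IsCoprime (p ^ k) c := (ga_cop hp hc).symm.pow_left
  rw [kb_split A q (h1.pow k) hc0 hcop, kb_mul A q (h1.pow k) hc0 hcop, conj_cub]
  simp only [cub_pow_right _ hp.ne_zero]
  ring
theorem gK_mul_prime' (A q : Eis) {p c : Eis} (hp : Prime p) (h1 : Prim p) (hc : ¬ p ∣ c) (r : Eis) :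
    gK (kapS A q) (r * p) c = conj (cub c p) * gK (kapS A q) r c :=
  kb_mul A q h1 (fun h : c = 0 => hc (h ▸ dvd_zero p)) (ga_cop hp hc).symm r
theorem gz_div {q r : Eis} (hq : q ≠ 0) (hr : r ≠ 0) {F : Eis → ℂ} (hF : Per (q * r) F) :
    ∑ x ∈ res (q * r), (if q ∣ x then F x else 0) = ∑ v ∈ res r, F (q * v) := by
  have per : Per (q * r) fun x => if q ∣ x then F x else 0 := fun x y => by
    simp only [dvd_add_left ((dvd_mul_right q r).mul_right y), hF x y]
  rw [sum_res_mul hq hr per, Finset.sum_eq_single_of_mem (0 % q) (mod_mem_res hq 0)]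
  · refine Finset.sum_congr rfl fun v _ => ?_
    rw [EuclideanDomain.zero_mod, zero_add, if_pos (dvd_mul_right _ _)]
  · intro u hu hne
    refine Finset.sum_eq_zero fun v _ => if_neg fun c => ?_
    refine hne (res_unique hu (mod_mem_res hq 0) ?_)
    rw [EuclideanDomain.zero_mod, sub_zero]
    exact (dvd_add_left (dvd_mul_right _ _)).1 c

theorem gz_not_prim : ¬ Prim 0 := fun h => h.ne_zero rfl

theorem gz_N_three : N 3 = 9 := by
  rw [show (3 : Eis) = ((3 : ℕ) : Eis) by norm_num, N_natCast]; norm_num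

/-- kb_kapS_two; write d = 3 (u + c v), u modulo c, v modulo 3 (sum_res_mul, sum_psi). -/
theorem gK_inf (r c : Eis) : gK (kapS 0 1) r c = if Prim c ∧ (3 : Eis) ∣ r then
    9 * (cub 3 c * gauss (fun u => cub u c) c (r / 3)) else 0 := by
  have h3 : (3 : Eis) ≠ 0 := by decide
  simp only [gK, kb_kapS_two gz_not_prim, EuclideanDomain.zero_mod, mul_zero, add_zero]
  by_cases hc : Prim c
  · have h0 := hc.ne_zero
    have per : ∀ q, c ∣ q → Per q fun d => cub d c * psi q (r * d) := fun q hq =>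
      ((ga_cub.per c).of_dvd hq).mul (per_psi q r)
    simp only [hc, and_true, true_and, ite_mul, zero_mul]
    rw [show 9 * c = 3 * (c * 3) by ring, gz_div h3 (mul_ne_zero h0 h3) (per _ ⟨9, by ring⟩)]
    have e1 : ∀ v, cub (3 * v) c * psi (3 * (c * 3)) (r * (3 * v)) =
        cub 3 c * (cub v c * psi (c * 3) (r * v)) := fun v => by
      rw [cub_mul_left _ _ hc.not_lam_dvd, mul_left_comm r, mul_comm 3 (c * 3), psi_mul_left h3,
        mul_assoc]
    simp only [e1]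
    rw [← Finset.mul_sum, sum_res_mul h0 h3 (per _ (dvd_mul_right _ _))]
    have e2 : ∀ u, ∑ v ∈ res 3, cub (u + c * v) c * psi (c * 3) (r * (u + c * v)) =
        cub u c * psi (c * 3) (r * u) * if (3 : Eis) ∣ r then (N 3 : ℂ) else 0 := fun u => by
      rw [← sum_psi h3, Finset.mul_sum]
      refine Finset.sum_congr rfl fun v _ => ?_
      rw [cub_congr (a := u + c * v) (b := u) (by simp), show r * (u + c * v) = r * u + c * (r * v) by ring, psi_add,
        mul_comm c 3, psi_mul_left h0, mul_assoc]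
    simp only [e2]
    split_ifs with hr
    · obtain ⟨s, rfl⟩ := hr
      rw [lp_mul_div h3, gauss, gz_N_three, ← Finset.sum_mul]
      simp only [mul_assoc (3 : Eis), psi_mul_left h3]
      push_cast; ring
    · simp
  · simp [hc]
theorem gK_inf_three (c : Eis) : gK (kapS 0 1) 3 c = 9 * (ab c : ℂ) * G c := by
  rw [gK_inf]
  by_cases hc : Prim c
  · rw [if_pos ⟨hc, dvd_rfl⟩, EuclideanDomain.div_self (by decide), gauss_cub_one hc, mul_assoc]
  · rw [if_neg fun h => hc h.1, G_of_not fun h => hc h.1, mul_zero]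
theorem gz_c_zero (j r : Eis) : gK (kapS 1 j) r 0 = 0 := by
  refine Finset.sum_eq_zero fun d hd => ?_
  have h1 : N d ≤ N (9 * 0) :=
    (finite_nrm_le (N (9 * 0))).mem_toFinset.1 (Finset.mem_filter.1 hd).1
  rw [mul_zero, N_zero] at h1
  rw [N_eq_zero.1 (le_antisymm h1 (N_nonneg d)), kb_kapS_one Prim.one,
    if_neg fun h => gz_not_prim h.2, zero_mul]

/-- kb_kapS_one; shift d by 3 lam c y (cub_shift_lam, sum_res_affine). -/
theorem gK_one_supp (j : Eis) {r : Eis} (hr : ¬ lam ∣ r) (c : Eis) : gK (kapS 1 j) r c = 0 := by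
  by_cases hc : c = 0
  · rw [hc, gz_c_zero]
  have hl : -lam ≠ 0 := by decide
  have h3 : 3 * lam * c ≠ 0 := mul_ne_zero (by decide) hc
  have e9 : 9 * c = -lam * (3 * lam * c) := by linear_combination (3 * c) * lam_sq
  have e1 : ∀ y, gK (kapS 1 j) r c = gK (kapS 1 j) r c * psi (-lam) (r * y) := fun y => by
    have e := sum_res_affine (kb_nine_ne hc) ((kb_per (adm_kapS 1 j) c).mul (per_psi (9 * c) r))
      isCoprime_one_left (3 * lam * c * y)
    unfold gK
    rw [Finset.sum_mul]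
    refine e.symm.trans (Finset.sum_congr rfl fun d _ => ?_)
    have a1 : (3 : Eis) ∣ c - (d + 3 * lam * c * y) * (j % 3) ↔ (3 : Eis) ∣ c - d * (j % 3) :=
      kb_dvd_iff ⟨-(lam * c * y * (j % 3)), by ring⟩
    have a2 : Prim (d + 3 * lam * c * y) ↔ Prim d := kb_prim_iff ⟨lam * c * y, by ring⟩
    have a3 : kapS 1 j c (d + 3 * lam * c * y) = kapS 1 j c d := by
      simp only [kb_kapS_one Prim.one, a1, a2]
      split_ifs with h
      · exact cub_shift_lam h.2 y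
      · rfl
    rw [one_mul, a3, show r * (d + 3 * lam * c * y) = r * d + 3 * lam * c * (r * y) by ring,
      psi_add, mul_assoc (kapS 1 j c d)]
    congr 2
    rw [e9, psi_mul_left h3]
  have e2 := Finset.sum_congr (rfl : res (-lam) = _) fun y _ => e1 y
  rw [← Finset.mul_sum, sum_psi hl, if_neg (by rwa [neg_dvd]), mul_zero, Finset.sum_const,
    nsmul_eq_mul] at e2
  refine (mul_eq_zero.1 e2).resolve_left fun h => (N_pos hl).ne' ?_
  rw [← card_res hl]
  exact_mod_cast h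
/-- sum_prim_cub, cub_of_cube, sum_prim_cop. For c = 0 both sides vanish (res 0 = {0} or empty). -/
theorem gK_one_zero (j c : Eis) : gK (kapS 1 j) 0 c =
    if (3 : Eis) ∣ c - j ∧ Cube c then ((9 * N c * phi c : ℝ) : ℂ) else 0 := by
  by_cases hc : c = 0
  · rw [hc, gz_c_zero]; simp
  have e : ∀ d, kapS 1 j c d * psi (9 * c) (0 * d) =
      if (3 : Eis) ∣ c - j then (if Prim d then 1 else 0) * cub c d else 0 := fun d => by
    rw [kb_kapS_one Prim.one, zero_mul, psi_zero, mul_one]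
    by_cases hd : Prim d
    · have a : (3 : Eis) ∣ c - d * (j % 3) ↔ (3 : Eis) ∣ c - j := kb_dvd_iff (by
        rw [show c - d * (j % 3) - (c - j) = (j - j % 3) - (d - 1) * (j % 3) by ring]
        exact dvd_sub (dvd_sub_mod 3 j) (Dvd.dvd.mul_right hd _))
      simp [hd, a]
    · simp [hd]
  simp only [gK, e]
  by_cases h1 : (3 : Eis) ∣ c - j
  · simp only [h1, if_true, true_and]
    split_ifs with h2
    · rw [← sum_prim_cop hc]
      refine Finset.sum_congr rfl fun d _ => ?_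
      split_ifs with hd
      · rw [cub_of_cube h2 hd, cop_comm]
      · rw [zero_mul, zero_mul]
    · exact sum_prim_cub hc 1 (pow_one c).symm.dvd h2
  · simp [h1]
theorem gK_inf_zero (c : Eis) : gK (kapS 0 1) 0 c =
    if Prim c ∧ Cube c then ((9 * N c * phi c : ℝ) : ℂ) else 0 := by
  rw [gK_inf]
  by_cases hc : Prim c
  · simp only [hc, dvd_zero, and_true, true_and, if_true, EuclideanDomain.zero_div]
    split_ifs with h
    · rw [funext fun u => (show cub u c = cop c u from ?_), gauss_cop_zero hc]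
      · obtain ⟨m, rfl⟩ := h
        have hm : m ≠ 0 := fun k => hc.ne_zero (by simp [k])
        rw [kb_cub_cube hm, cop, if_pos ((IsCoprime.pow_left_iff (by norm_num)).1 hc.coprime_three)]
        push_cast; ring
      · obtain ⟨m, rfl⟩ := h
        have hm : m ≠ 0 := fun k => hc.ne_zero (by simp [k])
        rw [kb_cub_cube hm, cop, cop]
        exact if_congr (isCoprime_comm.trans (IsCoprime.pow_right_iff (by norm_num)).symm) rfl rfl
    · obtain ⟨d, hd, h1, h2⟩ := exists_cub_ne_one hc.ne_zero h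
      have e := sum_res_affine hc.ne_zero (ga_cub.per c) h1 0
      simp only [add_zero, cub_mul_left _ _ hc.not_lam_dvd, ← Finset.mul_sum, cub_recip hd hc] at e
      have h3 : (cub c d - 1) * ∑ x ∈ res c, cub x c = 0 := by linear_combination e
      simp [gauss, (mul_eq_zero.1 h3).resolve_left (sub_ne_zero.2 h2)]
  · simp [hc]

theorem Z0_pos : 0 < Z0 := by
  have := Real.Gamma_pos_of_pos (s := 4 / 3) (by norm_num)
  have := Real.pi_pos
  have := one_pos.trans_le one_le_zP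
  unfold Z0 c0
  positivity
theorem sg0_pos : 0 < sg0 := by
  have := Z0_pos
  have := Real.pi_pos
  unfold sg0 V9
  positivity
/-- The basic sum. -/
noncomputable def U0 (χ : Eis → ℝ) (t : ℝ) : ℝ :=
  t ^ (1 / 3 : ℝ) * ∑' m : Eis, if Prim m then χ m * phi m * Real.exp (-(t * N m ^ 3)) else 0
theorem gz_U0 (χ : Eis → ℝ) (t : ℝ) : (U0 χ t : ℂ) = gzU (fun m => (χ m : ℂ)) t := by
  rw [U0, gzU, Complex.ofReal_mul, Complex.ofReal_tsum]
  congr 1
  refine tsum_congr fun m => ?_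
  split_ifs
  · rw [← phi_eq, ex]; push_cast; ring
  · simp

theorem gz_real {χ : Eis → ℝ} {χ' : Eis → ℂ} (h : ∀ m, χ' m = χ m) {z : ℝ}
    (H : Tendsto (gzU χ') (𝓝[>] 0) (𝓝 (z : ℂ)) ∧ ∃ B : ℝ, ∀ x, 0 < x → ‖gzU χ' x‖ ≤ B) :
    Tendsto (U0 χ) (𝓝[>] 0) (𝓝 z) ∧ ∃ B : ℝ, ∀ t, 0 < t → |U0 χ t| ≤ B := by
  rw [funext h, ← funext (gz_U0 χ)] at H
  obtain ⟨h1, B, h2⟩ := H
  exact ⟨tendsto_ofReal_iff.1 h1, B, fun t ht => by simpa using h2 t ht⟩

theorem gz_D1 : gzD 1 = (zP : ℂ)⁻¹ := by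
  simpa [gzD] using hasSum_mu_sq.tsum_eq

theorem gz_lim1 : Tendsto (gzU 1) (𝓝[>] 0) (𝓝 (Z0 : ℂ)) ∧
    ∃ B : ℝ, ∀ x, 0 < x → ‖gzU 1 x‖ ≤ B := by
  have h := gz_Ulim (χ := 1) (fun _ => norm_one.le) (fun _ _ => (one_mul _).symm) gz_T1.1 gz_T1.2
  rwa [gz_D1, show (zP : ℂ)⁻¹ * ((Real.Gamma (4 / 3) * c0 : ℝ) : ℂ) = (Z0 : ℂ) by
    rw [Z0]; push_cast; ring] at h

theorem gz_mul_off {p : Eis} (hp : Prime p) (d m : Eis) : (if p ∣ d * m then 0 else 1 : ℂ) =
    (if p ∣ d then 0 else 1) * (if p ∣ m then 0 else 1) := by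
  by_cases hd : p ∣ d <;> by_cases hm : p ∣ m <;> simp [hp.dvd_mul, hd, hm]

theorem gz_Doff {p : Eis} (hp : Prime p) (h1 : Prim p) :
    gzD (fun m => if p ∣ m then 0 else 1) * (1 - ((N p : ℂ) ^ 2)⁻¹) = (zP : ℂ)⁻¹ := by
  have h := gz_off h1 (h := fun m => mu m / (N m : ℂ) ^ 2) (K := 1) fun m _ => as_hZ norm_mu_le m
  have z : ∀ m, ¬ Prim m → mu m = 0 := fun m hm => gz_mu_zero fun k => hm k.1
  have e1 : ∑' m, (if Prim m then (if p ∣ m then 0 else 1) * (mu m / (N m : ℂ) ^ 2) else 0) =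
      gzD (fun m => if p ∣ m then 0 else 1) := tsum_congr fun m => by
    by_cases hm : Prim m
    · rw [if_pos hm]; ring
    · simp [hm, z m hm]
  have e2 : ∑' m, (if Prim m then mu m / (N m : ℂ) ^ 2 else 0) = (zP : ℂ)⁻¹ := by
    rw [← hasSum_mu_sq.tsum_eq]
    refine tsum_congr fun m => ?_
    by_cases hm : Prim m
    · rw [if_pos hm]
    · simp [hm, z m hm]
  have e3 : ∑' m, (if Prim m then mu (p * m) / (N (p * m) : ℂ) ^ 2 else 0) =
      -(gzD (fun m => if p ∣ m then 0 else 1) * ((N p : ℂ) ^ 2)⁻¹) := by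
    rw [gzD, ← tsum_mul_right, ← tsum_neg]
    refine tsum_congr fun m => ?_
    by_cases hm : Prim m
    · rw [if_pos hm, mu_mul (PS.of_prime hp h1), mu_prime hp h1, lp_cop_prime hp, N_mul]
      push_cast; ring
    · simp [hm, z m hm]
  rw [e1, e2, e3] at h
  linear_combination h

theorem gz_limoff {p : Eis} (hp : Prime p) (h1 : Prim p) :
    Tendsto (gzU fun m => if p ∣ m then 0 else 1) (𝓝[>] 0)
      (𝓝 ((Z0 * (N p / (N p + 1)) : ℝ) : ℂ)) ∧
    ∃ B : ℝ, ∀ x, 0 < x → ‖gzU (fun m => if p ∣ m then 0 else 1) x‖ ≤ B := by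
  obtain ⟨hT, B, hB⟩ := gz_T1
  set κ : ℝ := Real.Gamma (4 / 3) * c0 with hκ
  have hN := N_pos h1.ne_zero
  have hN1 := four_le_N h1 hp.ne_one
  have hN' : (N p : ℂ) ≠ 0 := ofReal_ne_zero.2 hN.ne'
  have b4 : Tendsto (gzT fun m => if p ∣ m then 0 else 1) (𝓝[>] 0)
      (𝓝 ((κ : ℂ) - (N p : ℂ)⁻¹ * κ)) := by
    refine (hT.sub ((hT.comp (as_scale (pow_pos hN 3))).const_mul _)).congr' ?_
    filter_upwards [self_mem_nhdsWithin] with x hx using (gz_Toff h1 hx).symm
  have b5 : ∀ x, 0 < x → ‖gzT (fun m => if p ∣ m then 0 else 1) x‖ ≤ B + ‖(N p : ℂ)⁻¹‖ * B := by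
    intro x hx
    rw [gz_Toff h1 hx]
    refine (norm_sub_le _ _).trans (add_le_add (hB x hx) ?_)
    rw [norm_mul]
    exact mul_le_mul_of_nonneg_left (hB _ (mul_pos hx (pow_pos hN 3))) (norm_nonneg _)
  have h := gz_Ulim (χ := fun m => if p ∣ m then 0 else 1) (fun c => by split_ifs <;> simp)
    (gz_mul_off hp) b4 ⟨_, b5⟩
  have e1 : (N p : ℂ) + 1 ≠ 0 := by
    rw [← ofReal_one, ← ofReal_add]; exact ofReal_ne_zero.2 (by positivity)
  have e3 : gzD (fun m => if p ∣ m then 0 else 1) * ((κ : ℂ) - (N p : ℂ)⁻¹ * κ) =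
      ((Z0 * (N p / (N p + 1)) : ℝ) : ℂ) := by
    rw [show Z0 = zP⁻¹ * κ by rw [Z0, hκ]; ring]
    push_cast
    rw [← gz_Doff hp h1]
    field_simp
    ring
  rwa [e3] at h

/-- ∑ over primary m with N m ≤ x of phi m is c0 x / zP + O (x ^ (3/4)) (phi_eq, sum_dv_swap, gc_prim,
hasSum_mu_sq); then lc with g x = exp (- t x ^ 3), ∫ g = Gamma (4/3) t ^ (-1/3). Alternatively copy
P026.AsymA, P026.Asym. -/
theorem U0_lim : Tendsto (U0 1) (𝓝[>] 0) (𝓝 Z0) ∧ ∃ B : ℝ, ∀ t, 0 < t → |U0 1 t| ≤ B :=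
  gz_real (χ' := 1) (fun _ => rfl) gz_lim1
/-- m = p ^ k m'; phi (p m) = phi m if p ∣ m and (1 - 1 / N p) phi m otherwise, so with V = U0 of the
indicator of p ∤ m: U0 1 t = V t + (1 / N p) (U0 1 (t N p ^ 3) - V (t N p ^ 3) / N p). Solve, or use pc. -/
theorem U0_off {p : Eis} (hp : Prime p) (h1 : Prim p) :
    Tendsto (U0 (fun m => if p ∣ m then 0 else 1)) (𝓝[>] 0) (𝓝 (Z0 * (N p / (N p + 1)))) ∧
    ∃ B : ℝ, ∀ t, 0 < t → |U0 (fun m => if p ∣ m then 0 else 1) t| ≤ B :=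
  gz_real (fun m => by split_ifs <;> simp) (gz_limoff hp h1)
/-- The elements ± lam ^ (3 k). -/
def gzS (i : Bool × ℕ) : Eis := (if i.1 then 1 else -1) * lam ^ (3 * i.2)

theorem gz_sgn (b : Bool) : IsUnit (if b then 1 else -1 : Eis) := by cases b <;> simp

theorem gz_N_S (i : Bool × ℕ) : N (gzS i) = 27 ^ i.2 := by
  have h : N lam = 3 := by simp [N, nrm, lam]
  rw [gzS, N_mul, N_pow, h, pow_mul]
  cases i.1 <;> norm_num

theorem gz_S_dvd {q : Eis} (h1 : Prim q) (i : Bool × ℕ) (m : Eis) :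
    q ∣ gzS i * m ↔ q ∣ m := by
  rw [gzS, mul_assoc, (gz_sgn _).dvd_mul_left]
  exact ⟨(prime_lam.coprime_iff_not_dvd.2 h1.not_lam_dvd).symm.pow_right.dvd_of_dvd_mul_left,
    fun h => h.mul_left _⟩

theorem gz_split {F : Eis → ℂ} (hF : Summable F) (hc : ∀ c, F c ≠ 0 → c ≠ 0 ∧ Cube c) :
    ∑' c, F c = ∑' i, ∑' m, if Prim m then F (gzS i * m ^ 3) else 0 := by
  have h := (st_hasSum_iff (φ := fun p : (Bool × ℕ) × Eis => gzS p.1 * p.2 ^ 3)
    (S := fun p => Prim p.2) (f := F) (fun a b ha hb h => ?_) fun y hy => ?_).2 hF.hasSum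
  · rw [← h.tsum_eq, h.summable.tsum_prod]
  · obtain ⟨⟨b1, k1⟩, m1⟩ := a
    obtain ⟨⟨b2, k2⟩, m2⟩ := b
    obtain ⟨e1, e2, e3⟩ := three_part_unique (gz_sgn b1) (gz_sgn b2) (ha.pow 3) (hb.pow 3) h
    have e4 := (cube_unique' PS.one PS.one ha hb (by rw [one_mul, one_mul]; exact e3)).2
    have e5 : b1 = b2 := by
      revert e1
      cases b1 <;> cases b2 <;> decide
    exact Prod.ext (Prod.ext e5 (by simp only at e2 ⊢; omega)) e4
  · obtain ⟨h0, n, rfl⟩ := hc y hy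
    obtain ⟨u, k, x, hu, hx, rfl⟩ := exists_three_part (r := n) fun k => h0 (by simp [k])
    have h3 : u ^ 3 = 1 ∨ u ^ 3 = -1 := by
      rcases isUnit_iff.1 hu with h | h | h | h | h | h <;> subst h <;> decide
    rcases h3 with h3 | h3
    · exact ⟨((true, k), x), hx, by simp only [gzS, mul_pow, h3, if_true]; ring⟩
    · exact ⟨((false, k), x), hx, by simp only [gzS, mul_pow, h3, Bool.false_eq_true, if_false]; ring⟩

theorem gz_hasSum (j : Eis) : HasSum (fun i : Bool × ℕ =>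
    if (3 : Eis) ∣ gzS i - j then (9 * (1 / 3) ^ i.2 : ℝ) else 0) (if Ess j then 9 else 0) := by
  have g := hasSum_geometric_of_lt_one (r := 1 / 3) (by norm_num) (by norm_num)
  have s : Summable fun i : Bool × ℕ =>
      if (3 : Eis) ∣ gzS i - j then (9 * (1 / 3) ^ i.2 : ℝ) else 0 := by
    refine Summable.of_nonneg_of_le (fun i => ?_) (fun i => ?_)
      ((summable_of_hasFiniteSupport (f := fun _ : Bool => (9 : ℝ)) (Set.toFinite _)).mul_of_nonneg
        g.summable (fun _ => by norm_num) fun _ => by positivity)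
    · split_ifs
      · positivity
      · exact le_rfl
    · split_ifs
      · exact le_rfl
      · positivity
  have h1 : ∀ b : Bool, HasSum (fun k : ℕ =>
      if (3 : Eis) ∣ gzS (b, k) - j then (9 * (1 / 3) ^ k : ℝ) else 0)
      ((if (3 : Eis) ∣ j then 9 / 2 else 0) + if (3 : Eis) ∣ gzS (b, 0) - j then 9 else 0) := by
    intro b
    have e : ∀ k, (3 : Eis) ∣ gzS (b, k + 1) - j ↔ (3 : Eis) ∣ j := fun k => by
      rw [← dvd_neg (b := j)]
      refine kb_dvd_iff ⟨-((if b then 1 else -1) * lam ^ (3 * k + 1)), ?_⟩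
      simp only [gzS]
      linear_combination ((if b then 1 else -1) * lam ^ (3 * k + 1)) * lam_sq
    refine (hasSum_nat_add_iff' 1).1 ?_
    simp only [e, Finset.sum_range_one, pow_zero, mul_one, add_sub_cancel_right]
    split_ifs
    · refine (congrArg₂ HasSum (funext fun k => ?_) ?_).mp (g.mul_left 3)
      · ring
      · norm_num
    · exact hasSum_zero
  have h2 := (s.hasSum.prod_fiberwise h1).unique (hasSum_fintype _)
  have l3 : lam ∣ 3 := ⟨-lam, by linear_combination lam_sq⟩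
  have n1 : ¬ (3 : Eis) ∣ 1 := fun h => Prim.one.not_lam_dvd (l3.trans h)
  have n2 : ¬ (3 : Eis) ∣ -2 := fun h => prim_neg_two.not_lam_dvd (l3.trans h)
  have a1 : (3 : Eis) ∣ gzS (true, 0) - j ↔ (3 : Eis) ∣ j - 1 := by
    rw [dvd_sub_comm]; simp [gzS]
  have a2 : (3 : Eis) ∣ gzS (false, 0) - j ↔ (3 : Eis) ∣ j + 1 := by
    rw [dvd_sub_comm]; simp [gzS]
  refine (congrArg (HasSum _) (h2.trans ?_)).mp s.hasSum
  rw [Fintype.sum_bool, a1, a2, Ess]
  by_cases x : (3 : Eis) ∣ j <;> by_cases y : (3 : Eis) ∣ j - 1 <;> by_cases z : (3 : Eis) ∣ j + 1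
  · exact absurd (by simpa using dvd_sub x y) n1
  · exact absurd (by simpa using dvd_sub x y) n1
  · exact absurd (by simpa using dvd_sub z x) n1
  · norm_num [x, y, z]
  · exact absurd ((dvd_sub y z).trans (by ring_nf; rfl)) n2
  · simp [x, y, z]
  · simp [x, y, z]
  · simp [x, y, z]

theorem gz_main {χ : Eis → ℂ} (h1 : ∀ c, ‖χ c‖ ≤ 1) (hs : ∀ i m, χ (gzS i * m ^ 3) = χ m)
    {k : Eis → Eis → ℂ} {j : Eis} (hk : ∀ c, gK k 0 c = χ c * gK (kapS 1 j) 0 c) {z : ℝ}
    (hU : Tendsto (gzU χ) (𝓝[>] 0) (𝓝 (z : ℂ)) ∧ ∃ B : ℝ, ∀ x, 0 < x → ‖gzU χ x‖ ≤ B) :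
    Tendsto (Rs k 0 ex) (𝓝[>] 0) (𝓝 (if Ess j then ((9 * z : ℝ) : ℂ) else 0)) ∧
      ∃ B : ℝ, ∀ x, 0 < x → ‖Rs k 0 ex x‖ ≤ B := by
  set a : Bool × ℕ → ℝ := fun i => if (3 : Eis) ∣ gzS i - j then 9 * (1 / 3) ^ i.2 else 0 with ha
  have sa := gz_hasSum j
  have hR : ∀ t, 0 < t → Rs k 0 ex t = ∑' i, (a i : ℂ) * gzU χ (t * 27 ^ i.2) := by
    intro t ht
    have hF : Summable fun c : Eis => gK k 0 c / (N c : ℂ) * ex (t * N c) := by
      refine Summable.of_norm_bounded ((summable_exp ht).mul_left 81) fun c => ?_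
      rw [norm_mul, as_norm_ex]
      refine mul_le_mul_of_nonneg_right ?_ (Real.exp_pos _).le
      by_cases hc : c = 0
      · simp [hc]
      · rw [norm_div, as_norm_N, div_le_iff₀ (N_pos hc), hk, norm_mul]
        calc ‖χ c‖ * ‖gK (kapS 1 j) 0 c‖ ≤ 1 * (81 * N c) :=
              mul_le_mul (h1 c) (norm_gK_le (adm_kapS 1 j) 0 hc) (norm_nonneg _) zero_le_one
          _ = _ := one_mul _
    unfold Rs
    rw [gz_split hF fun c hc => ⟨fun h => hc (by simp [h]), by_contra fun h => hc (by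
      rw [hk, gK_one_zero, if_neg fun k => h k.2]; simp)⟩, ← tsum_mul_left]
    refine tsum_congr fun i => ?_
    have hS : gzS i ≠ 0 := fun h => by
      have := gz_N_S i
      rw [h, N_zero] at this
      exact absurd this (by positivity)
    have h2 : ∑' m, (if Prim m then gK k 0 (gzS i * m ^ 3) / (N (gzS i * m ^ 3) : ℂ) *
        ex (t * N (gzS i * m ^ 3)) else 0) = (if (3 : Eis) ∣ gzS i - j then 9 else 0) *
          ∑' m : Eis, if Prim m then
            (∑ d ∈ dv m, mu d / (N d : ℂ)) * (χ m * ex (t * 27 ^ i.2 * N m ^ 3)) else 0 := by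
      rw [← tsum_mul_left]
      refine tsum_congr fun m => ?_
      by_cases hm : Prim m
      · have h0 : gzS i * m ^ 3 ≠ 0 := mul_ne_zero hS (hm.pow 3).ne_zero
        have hM : (N (gzS i * m ^ 3) : ℂ) ≠ 0 := ofReal_ne_zero.2 (N_pos h0).ne'
        have b1 : (3 : Eis) ∣ gzS i * m ^ 3 - j ↔ (3 : Eis) ∣ gzS i - j := kb_dvd_iff (by
          rw [show gzS i * m ^ 3 - j - (gzS i - j) = gzS i * (m ^ 3 - 1) by ring]
          exact Dvd.dvd.mul_left (hm.pow 3) _)
        have b2 : Cube (gzS i * m ^ 3) := ⟨(if i.1 then 1 else -1) * lam ^ i.2 * m, by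
          rw [gzS]; cases i.1 <;> simp only [Bool.false_eq_true, if_false, if_true] <;> ring⟩
        have b3 : phi (gzS i * m ^ 3) = phi m := phi_congr h0 hm.ne_zero fun q hq h =>
          (gz_S_dvd h i _).trans (hq.dvd_pow_iff_dvd (by norm_num))
        rw [if_pos hm, if_pos hm, hk, gK_one_zero, hs, b3, ← phi_eq, mul_assoc t, ← gz_N_S, ← N_pow,
          ← N_mul]
        simp only [b1, b2, and_true]
        split_ifs
        · push_cast; field_simp
        · simp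
      · simp [hm]
    have h3 : (t * 27 ^ i.2) ^ (1 / 3 : ℝ) = t ^ (1 / 3 : ℝ) * 3 ^ i.2 := by
      rw [Real.mul_rpow ht.le (by positivity), show (27 : ℝ) ^ i.2 = (3 ^ i.2) ^ 3 by
        rw [← pow_mul, mul_comm, pow_mul]; norm_num, one_div, ← Nat.cast_ofNat (n := 3),
        Real.pow_rpow_inv_natCast (by positivity) (by norm_num)]
    rw [h2, gzU, h3]
    simp only [ha]
    split_ifs
    · push_cast
      rw [div_pow, one_pow]
      field_simp
    · simp
  obtain ⟨a1, B, a2⟩ := gz_tann (a := fun i => (a i : ℂ)) (b := fun i => 27 ^ i.2)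
    (by simpa only [Complex.norm_real] using sa.summable.norm) (fun _ _ => by positivity) hU.1 hU.2
  refine ⟨?_, B, fun x hx => ?_⟩
  · rw [← ofReal_tsum, sa.tsum_eq, show (((if Ess j then 9 else 0 : ℝ) : ℂ)) * z =
      if Ess j then ((9 * z : ℝ) : ℂ) else 0 by split_ifs <;> simp] at a1
    refine a1.congr' ?_
    filter_upwards [self_mem_nhdsWithin] with x hx using (hR x hx).symm
  · rw [hR x hx]; exact a2 x hx

/-- The cubes c ≡ 1 (resp. -1) modulo 3 are m ^ 3 (resp. - m ^ 3) with a unique primary m; the nonzero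
cubes divisible by 3 are ± lam ^ (3 k) m ^ 3, k ≥ 1, and 2 ∑ 3 ^ (-k) = 1 (as_tann). -/
theorem rs_one (j : Eis) : Tendsto (Rs (kapS 1 j) 0 ex) (𝓝[>] 0)
    (𝓝 (if Ess j then ((9 * Z0 : ℝ) : ℂ) else 0)) ∧
    ∃ B : ℝ, ∀ t, 0 < t → ‖Rs (kapS 1 j) 0 ex t‖ ≤ B :=
  gz_main (χ := 1) (fun _ => norm_one.le) (fun _ _ => rfl) (fun _ => (one_mul _).symm) gz_lim1
theorem rs_inf : Tendsto (Rs (kapS 0 1) 0 ex) (𝓝[>] 0) (𝓝 ((9 * Z0 : ℝ) : ℂ)) ∧
    ∃ B : ℝ, ∀ t, 0 < t → ‖Rs (kapS 0 1) 0 ex t‖ ≤ B := by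
  have h := gz_main (χ := 1) (k := kapS 0 1) (j := 1) (fun _ => norm_one.le) (fun _ _ => rfl)
    (fun c => by rw [gK_inf_zero, gK_one_zero]; exact (one_mul _).symm) gz_lim1
  rwa [if_pos (show Ess 1 from Or.inr (Or.inl (by simp)))] at h
theorem rs_off {p : Eis} (hp : Prime p) (h1 : Prim p) :
    Tendsto (Rs (off p kap0) 0 ex) (𝓝[>] 0) (𝓝 ((9 * Z0 * (N p / (N p + 1)) : ℝ) : ℂ)) ∧
    ∃ B : ℝ, ∀ t, 0 < t → ‖Rs (off p kap0) 0 ex t‖ ≤ B := by
  have h := gz_main (χ := fun m => if p ∣ m then 0 else 1) (k := off p kap0) (j := 0)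
    (fun c => by split_ifs <;> simp)
    (fun i m => by simp only [gz_S_dvd h1, hp.dvd_pow_iff_dvd (show 3 ≠ 0 by norm_num)])
    (fun c => by rw [gK_off, kapS_one_zero]; split_ifs <;> simp) (gz_limoff hp h1)
  rwa [if_pos (show Ess 0 from Or.inl (dvd_zero _)), ← mul_assoc] at h

end Vale.Agent.P006
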