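import Vale.Agent.P006.HLSA

/-! The hybrid cubic large sieve. -/

namespace Vale.Agent.P006

open Vale.Agent.P026 Eis Complex MeasureTheory Filter Topology
open scoped Classical ComplexConjugate

theorem hls_log4 {x H K K0 T : ℝ} (hx : 0 < x) (hK : 0 ≤ K) (hKK : K ≤ K0) (hT : 1 ≤ T)
    (hH0 : 0 ≤ H) (hH : H ≤ K ^ 2) :
    Real.log (3 + K + x * H) ^ 2 ≤ 50 * Real.log (3 + K0 + T) ^ 2 * (1 + x / T ^ 3) := by
  have hT0 : 0 < T := by linarith
  have h1 := hls_log2 hx.le hK hH0 hH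
  have u0 : 0 < x / T ^ 3 := by positivity
  have h2 : 1 + x ≤ T ^ 3 * (1 + x / T ^ 3) := by
    have : 1 ≤ T ^ 3 := one_le_pow₀ hT
    rw [mul_add, mul_div_cancel₀ _ (by positivity)]
    linarith
  have h3 := Real.log_le_log (by positivity) h2
  rw [Real.log_mul (by positivity) (by positivity), Real.log_pow] at h3
  have h4 := hls_log1 u0.le
  have h5 : Real.log T ≤ Real.log (3 + K0 + T) := Real.log_le_log hT0 (by linarith)
  have h6 : Real.log (3 + K) ≤ Real.log (3 + K0 + T) := Real.log_le_log (by linarith) (by linarith)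
  have h7 := ls_one_le_log hK
  have s0 := Real.sqrt_nonneg (x / T ^ 3)
  have s1 := Real.mul_self_sqrt u0.le
  push_cast at h3
  have h8 : Real.log (3 + K + x * H) ≤ 5 * Real.log (3 + K0 + T) + 2 * √(x / T ^ 3) := by linarith
  have h9 : 0 ≤ Real.log (3 + K + x * H) := Real.log_nonneg (by nlinarith [mul_nonneg hx.le hH0])
  refine (pow_le_pow_left₀ h9 h8 2).trans ?_
  set l := Real.log (3 + K0 + T)
  have l2 : 1 ≤ l ^ 2 := one_le_pow₀ (by linarith)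
  nlinarith [sq_nonneg (5 * l - 2 * √(x / T ^ 3)), mul_le_mul_of_nonneg_right l2 u0.le]

theorem hls_scale {K' K a : ℝ} (h0 : 0 < K') (h : K' ≤ K) (ha : 1 / 2 ≤ a) :
    K' ^ a ≤ K ^ a * (K' / K) ^ (1 / 2 : ℝ) := by
  have hK : 0 < K := h0.trans_le h
  have e : K' ^ a = K ^ a * (K' / K) ^ a := by
    rw [← Real.mul_rpow hK.le (by positivity)]
    congr 1
    field_simp
  rw [e]
  exact mul_le_mul_of_nonneg_left (Real.rpow_le_rpow_of_exponent_ge (by positivity)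
    ((div_le_one hK).2 h) ha) (by positivity)

theorem hls_blk {Y K T : ℝ} (hY : 0 < Y) (hK : 1 ≤ K) (hT : 1 ≤ T) :
    Y / K * ((K ^ 2 / Y) ^ (1 / 3 : ℝ) * K * T ^ (-(5 / 12) : ℝ) +
      (K ^ 2 / Y * K) ^ (2 / 3 : ℝ) * T ^ (-(1 / 12) : ℝ) + K ^ 2 / Y * T ^ (1 / 4 : ℝ) +
      (K ^ 2 / Y) ^ (1 / 3 : ℝ) * K * T ^ (-(1 / 6) : ℝ) +
      (K ^ 2 / Y) ^ (2 / 3 : ℝ) * (K ^ (2 / 3 : ℝ) / T + T ^ 20 * K ^ (27 / 50 - 1 / 3 : ℝ)) *
        T ^ (1 / 2 : ℝ) + K ^ 2 / Y * T ^ (3 / 2 : ℝ)) ≤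
    2 * (K * T ^ 2 + ((Y * K) ^ (2 / 3 : ℝ) + Y ^ (1 / 3 : ℝ) * K) * T ^ (-(1 / 12) : ℝ) +
      Y ^ (1 / 3 : ℝ) * K ^ (3 / 5 : ℝ) * T ^ 25) := by
  have hK0 : 0 < K := by linarith
  have hT0 : 0 < T := by linarith
  obtain ⟨e1, e2, -, e4⟩ := ls_exp hY hK0
  obtain ⟨-, -, -, e5, e6⟩ := hls_exp hY hK0
  have t1 : T ^ (-(5 / 12) : ℝ) ≤ T ^ (-(1 / 12) : ℝ) :=
    Real.rpow_le_rpow_of_exponent_le hT (by norm_num)
  have t2 : T ^ (-(1 / 6) : ℝ) ≤ T ^ (-(1 / 12) : ℝ) :=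
    Real.rpow_le_rpow_of_exponent_le hT (by norm_num)
  have t3 : T ^ (1 / 4 : ℝ) ≤ T ^ 2 := by
    rw [← Real.rpow_natCast]; exact Real.rpow_le_rpow_of_exponent_le hT (by norm_num)
  have t4 : T ^ (3 / 2 : ℝ) ≤ T ^ 2 := by
    rw [← Real.rpow_natCast]; exact Real.rpow_le_rpow_of_exponent_le hT (by norm_num)
  have t5 : T⁻¹ * T ^ (1 / 2 : ℝ) ≤ T ^ (-(1 / 12) : ℝ) := by
    rw [← Real.rpow_neg_one, ← Real.rpow_add hT0]
    exact Real.rpow_le_rpow_of_exponent_le hT (by norm_num)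
  have t6 : T ^ 20 * T ^ (1 / 2 : ℝ) ≤ T ^ 25 := by
    rw [← Real.rpow_natCast, ← Real.rpow_natCast, ← Real.rpow_add hT0]
    exact Real.rpow_le_rpow_of_exponent_le hT (by norm_num)
  have t7 : K ^ (27 / 50 : ℝ) ≤ K ^ (3 / 5 : ℝ) := Real.rpow_le_rpow_of_exponent_le hK (by norm_num)
  have a1 := mul_le_mul_of_nonneg_left t1 (show 0 ≤ (Y * K) ^ (2 / 3 : ℝ) by positivity)
  have a2 := mul_le_mul_of_nonneg_left t2 (show 0 ≤ (Y * K) ^ (2 / 3 : ℝ) by positivity)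
  have a3 := mul_le_mul_of_nonneg_left t3 hK0.le
  have a4 := mul_le_mul_of_nonneg_left t4 hK0.le
  have a5 := mul_le_mul_of_nonneg_left t5 (show 0 ≤ Y ^ (1 / 3 : ℝ) * K by positivity)
  have a6 := mul_le_mul (mul_le_mul_of_nonneg_left t7 (show 0 ≤ Y ^ (1 / 3 : ℝ) by positivity)) t6
    (by positivity) (by positivity)
  have a7 : 0 ≤ Y ^ (1 / 3 : ℝ) * K ^ (3 / 5 : ℝ) * T ^ 25 := by positivity
  calc _ = Y / K * ((K ^ 2 / Y) ^ (1 / 3 : ℝ) * K) * T ^ (-(5 / 12) : ℝ) +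
        Y / K * (K ^ 2 / Y * K) ^ (2 / 3 : ℝ) * T ^ (-(1 / 12) : ℝ) +
        Y / K * (K ^ 2 / Y) * T ^ (1 / 4 : ℝ) +
        Y / K * ((K ^ 2 / Y) ^ (1 / 3 : ℝ) * K) * T ^ (-(1 / 6) : ℝ) +
        Y / K * (K ^ 2 / Y) ^ (2 / 3 : ℝ) * K ^ (2 / 3 : ℝ) * (T⁻¹ * T ^ (1 / 2 : ℝ)) +
        Y / K * (K ^ 2 / Y) ^ (2 / 3 : ℝ) * K ^ (27 / 50 - 1 / 3 : ℝ) * (T ^ 20 * T ^ (1 / 2 : ℝ)) +
        Y / K * (K ^ 2 / Y) * T ^ (3 / 2 : ℝ) := by ring
    _ ≤ _ := by
      rw [e1, e2, e4, e5, e6]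
      linarith

theorem hls_one_le {S : Finset Eis} (γ : Eis → ℂ) {h : Eis} (hh : h ≠ 0) :
    ‖∑ n ∈ S, γ n * cub h n‖ ^ 2 ≤ ∑ D ∈ sqd h, qt S γ h D := by
  refine le_trans (le_of_eq ?_) (Finset.single_le_sum (fun D _ => qt_nonneg S γ h D) (one_mem_sqd hh))
  have : N (1 : Eis) = 1 := by simp
  simp [qt, this]

theorem als : ∃ C : ℝ, 0 < C ∧ ∀ (S : Finset Eis) (γ : Eis → ℂ) (K Y T : ℝ), 0 < K → 1 ≤ Y →
    1 ≤ T → S ⊆ PB K → ∀ Hs : Finset Eis, (0 : Eis) ∉ Hs →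
      ∑ h ∈ Hs, lg (T ^ 2) (N h / Y) * ‖∑ n ∈ S, γ n * cub h n‖ ^ 2 ≤
        C * Real.log (3 + K + T) ^ 3 * (Y / T + K * T ^ 2 +
          ((Y * K) ^ (2 / 3 : ℝ) + Y ^ (1 / 3 : ℝ) * K) * T ^ (-(1 / 12) : ℝ) +
          Y ^ (1 / 3 : ℝ) * K ^ (3 / 5 : ℝ) * T ^ 25) * sq S γ := by
  obtain ⟨C1, hC1, h1⟩ := pb
  obtain ⟨C2, hC2, h2⟩ := lsh
  obtain ⟨C3, hC3, h3⟩ := f1
  obtain ⟨C4, hC4, h4⟩ := dy (θ := 1 / 2) (by norm_num)
  refine ⟨C4 * C1 * (1 + 2 * (50 * C2 + C3)), by positivity,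
    fun S γ K Y T hK hY hT hS Hs hH => ?_⟩
  have hY0 : 0 < Y := by linarith
  have hT0 : 0 < T := by linarith
  have l1 : 1 ≤ Real.log (3 + K + T) := by
    rw [add_assoc]; exact ls_one_le_log (by positivity)
  set l := Real.log (3 + K + T) with hl
  set Λ := (50 * C2 + C3) * l ^ 2 with hΛ
  have Λ0 : 0 ≤ Λ := by positivity
  set Ψ := K * T ^ 2 + ((Y * K) ^ (2 / 3 : ℝ) + Y ^ (1 / 3 : ℝ) * K) * T ^ (-(1 / 12) : ℝ) +
    Y ^ (1 / 3 : ℝ) * K ^ (3 / 5 : ℝ) * T ^ 25 with hΨ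
  have p0 : 0 ≤ Ψ := by positivity
  have hsub : SubQ fun S => ∑ h ∈ Hs, lg (T ^ 2 / 2) (N h / Y) * ∑ D ∈ sqd h, qt S γ h D :=
    SubQ.sum Hs fun h _ => (SubQ.sum _ fun D _ => subQ_qt γ h D).const_mul (lg_pos _ _).le
  refine le_trans (Finset.sum_le_sum fun h hh => mul_le_mul
    (lg_anti (show T ^ 2 / 2 ≤ T ^ 2 by nlinarith) _) (hls_one_le γ fun e => hH (e ▸ hh))
    (by positivity) (lg_pos _ _).le) ((h4 _ hsub S γ K (C1 * (Y / T)) (C1 * (Λ * (2 * Ψ))) hK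
      (by positivity) (by positivity) hS ?_).trans ?_)
  · intro K' hK' hKK S' _ hS'
    have hq := sq_nonneg' S' γ
    rcases lt_or_ge K' 1 with hK1 | hK1
    · have : S' = ∅ := Finset.subset_empty.1 (ls_PB_empty hK1 ▸ hS'.trans (PD_subset _))
      subst this
      simp [qt, sq]
    set H := K' ^ 2 / Y with hHd
    have H0 : 0 < H := by positivity
    have H2 : H ≤ K' ^ 2 := div_le_self (by positivity) hY
    set V := K' ^ (2 / 3 : ℝ) / T + T ^ 20 * K' ^ (27 / 50 - 1 / 3 : ℝ) with hV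
    have v0 : 0 ≤ V := by positivity
    refine (h1 S' K' Y T (Λ * (H ^ (1 / 3 : ℝ) * K')) (Λ * (H * K') ^ (2 / 3 : ℝ)) (Λ * H)
      (Λ * (H ^ (1 / 3 : ℝ) * K')) (Λ * (H ^ (2 / 3 : ℝ) * V)) (Λ * H) hK' hY0 hT (by positivity)
      (by positivity) (by positivity) (by positivity) (by positivity) (by positivity) hS'
      (fun γ x hx => ?_) (fun γ x hx _ => ?_) γ Hs hH).trans (mul_le_mul_of_nonneg_right ?_ hq)
    · refine (h2 S' γ (x * H) K' K' (by positivity) hK' hK' (hS'.trans (PD_subset _))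
        (hS'.trans (PD_subset _))).trans (mul_le_mul_of_nonneg_right ?_ (sq_nonneg' _ _))
      have a1 := hls_log4 hx hK'.le hKK hT H0.le H2
      rw [mul_assoc x H K', Real.mul_rpow hx.le H0.le, Real.mul_rpow hx.le (by positivity)]
      have a2 : C2 * Real.log (3 + K' + x * H) ^ 2 ≤ Λ * (1 + x / T ^ 3) := by
        have := mul_le_mul_of_nonneg_left a1 hC2.le
        have : 0 ≤ C3 * l ^ 2 * (1 + x / T ^ 3) := by positivity
        rw [hΛ]; nlinarith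
      refine (mul_le_mul_of_nonneg_right a2 (by positivity)).trans (le_of_eq ?_)
      ring
    · refine (h3 S' γ (x * H) K' T (by positivity) hK1 hT hS').trans
        (mul_le_mul_of_nonneg_right ?_ (sq_nonneg' _ _))
      rw [Real.mul_rpow hx.le H0.le, Real.mul_rpow hx.le H0.le, ← hV]
      have a1 : Real.log (3 + K') ≤ l := Real.log_le_log (by linarith) (by linarith)
      have a2 : C3 * Real.log (3 + K') ^ 2 ≤ Λ := by
        have := mul_le_mul_of_nonneg_left (pow_le_pow_left₀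
          (Real.log_nonneg (by linarith)) a1 2) hC3.le
        have : 0 ≤ C2 * l ^ 2 := by positivity
        rw [hΛ]; nlinarith
      refine (mul_le_mul_of_nonneg_right a2 (by positivity)).trans (le_of_eq ?_)
      ring
    · have a1 := hls_blk hY0 hK1 hT
      rw [← hHd, ← hV] at a1
      set t := (K' / K) ^ (1 / 2 : ℝ)
      have s1 : K' ≤ K * t := by
        have := hls_scale hK' hKK (a := 1) (by norm_num)
        rwa [Real.rpow_one, Real.rpow_one] at this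
      have s2 : K' ^ (3 / 5 : ℝ) ≤ K ^ (3 / 5 : ℝ) * t := hls_scale hK' hKK (by norm_num)
      have s3 : (Y * K') ^ (2 / 3 : ℝ) ≤ (Y * K) ^ (2 / 3 : ℝ) * t := by
        rw [Real.mul_rpow hY0.le hK'.le, Real.mul_rpow hY0.le hK.le, mul_assoc]
        exact mul_le_mul_of_nonneg_left (hls_scale hK' hKK (by norm_num)) (by positivity)
      have b1 := mul_le_mul_of_nonneg_right s1 (show 0 ≤ T ^ 2 by positivity)
      have b2 := mul_le_mul_of_nonneg_right s3 (show 0 ≤ T ^ (-(1 / 12) : ℝ) by positivity)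
      have b3 := mul_le_mul_of_nonneg_right s1
        (show 0 ≤ Y ^ (1 / 3 : ℝ) * T ^ (-(1 / 12) : ℝ) by positivity)
      have b4 := mul_le_mul_of_nonneg_right s2 (show 0 ≤ Y ^ (1 / 3 : ℝ) * T ^ 25 by positivity)
      have a2 := a1.trans (show _ ≤ 2 * Ψ * t by rw [hΨ]; linarith)
      have a3 := mul_le_mul_of_nonneg_left (mul_le_mul_of_nonneg_left a2 Λ0) hC1.le
      linarith
  · refine mul_le_mul_of_nonneg_right ?_ (sq_nonneg' _ _)
    have a1 : Real.log (2 + K) ≤ l := Real.log_le_log (by linarith) (by linarith)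
    have a2 : l ≤ l ^ 3 := le_self_pow₀ l1 (by norm_num)
    have a3 : l ^ 2 ≤ l ^ 3 := pow_le_pow_right₀ l1 (by norm_num)
    have y0 : 0 ≤ Y / T := by positivity
    have b1 := mul_le_mul_of_nonneg_left (a1.trans a2) y0
    have b2 := mul_le_mul_of_nonneg_right a3 (show 0 ≤ 2 * (50 * C2 + C3) * Ψ by positivity)
    have b3 : 0 ≤ l ^ 3 * Ψ := by positivity
    have b4 : 0 ≤ 2 * (50 * C2 + C3) * (l ^ 3 * (Y / T)) := by positivity
    have b5 := mul_le_mul_of_nonneg_left (show Y / T * Real.log (2 + K) + Λ * (2 * Ψ) ≤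
      (1 + 2 * (50 * C2 + C3)) * (l ^ 3 * (Y / T + Ψ)) by rw [hΛ]; nlinarith) (mul_pos hC4 hC1).le
    rw [show Y / T + K * T ^ 2 + ((Y * K) ^ (2 / 3 : ℝ) + Y ^ (1 / 3 : ℝ) * K) * T ^ (-(1 / 12) : ℝ) +
      Y ^ (1 / 3 : ℝ) * K ^ (3 / 5 : ℝ) * T ^ 25 = Y / T + Ψ by rw [hΨ]; ring]
    linarith

theorem hls_pow {Y M a : ℝ} (hY : 0 < Y) (hM : 0 < M) (h0 : 0 ≤ a) (h1 : a ≤ 1) :
    Y ^ a ≤ M ^ a * (1 + Y / M) := by
  have e : Y ^ a = M ^ a * (Y / M) ^ a := by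
    rw [← Real.mul_rpow hM.le (by positivity)]
    congr 1
    field_simp
  rw [e]
  refine mul_le_mul_of_nonneg_left ?_ (by positivity)
  have u0 : 0 < Y / M := by positivity
  rcases le_total (Y / M) 1 with h | h
  · have := Real.rpow_le_one u0.le h h0
    linarith
  · have := Real.rpow_le_rpow_of_exponent_le h h1
    rw [Real.rpow_one] at this
    linarith

/-- The shape of the hybrid bound. -/
noncomputable def hlsP (M K T : ℝ) : ℝ := M / T + K * T ^ 2 +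
  ((M * K) ^ (2 / 3 : ℝ) + M ^ (1 / 3 : ℝ) * K) * T ^ (-(1 / 12) : ℝ) +
  M ^ (1 / 3 : ℝ) * K ^ (3 / 5 : ℝ) * T ^ 25

theorem hlsP_le {M K M' K' T u v : ℝ} (hM : 0 < M) (hK : 0 < K) (hM' : 0 < M') (hK' : 0 < K')
    (hT : 0 < T) (hu : ∀ a : ℝ, 0 ≤ a → a ≤ 1 → M' ^ a ≤ M ^ a * u)
    (hv : ∀ a : ℝ, 0 ≤ a → a ≤ 1 → K' ^ a ≤ K ^ a * v) : hlsP M' K' T ≤ hlsP M K T * (u * v) := by
  have u0 : 1 ≤ u := by simpa using hu 0 le_rfl (by norm_num)
  have u1 : M' ≤ M * u := by simpa using hu 1 (by norm_num) le_rfl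
  have v0 : 1 ≤ v := by simpa using hv 0 le_rfl (by norm_num)
  have v1 : K' ≤ K * v := by simpa using hv 1 (by norm_num) le_rfl
  have hu0 : 0 ≤ u := by linarith
  have hv0 : 0 ≤ v := by linarith
  have a1 := mul_le_mul_of_nonneg_right (mul_le_mul u1 v0 (by norm_num) (by positivity))
    (show 0 ≤ T⁻¹ by positivity)
  have a2 := mul_le_mul_of_nonneg_right (mul_le_mul u0 v1 hK'.le hu0) (show 0 ≤ T ^ 2 by positivity)
  have a3 := mul_le_mul_of_nonneg_right (mul_le_mul (hu (2 / 3) (by norm_num) (by norm_num))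
    (hv (2 / 3) (by norm_num) (by norm_num)) (by positivity) (by positivity))
    (show 0 ≤ T ^ (-(1 / 12) : ℝ) by positivity)
  have a4 := mul_le_mul_of_nonneg_right (mul_le_mul (hu (1 / 3) (by norm_num) (by norm_num))
    v1 (by positivity) (by positivity)) (show 0 ≤ T ^ (-(1 / 12) : ℝ) by positivity)
  have a5 := mul_le_mul_of_nonneg_right (mul_le_mul (hu (1 / 3) (by norm_num) (by norm_num))
    (hv (3 / 5) (by norm_num) (by norm_num)) (by positivity) (by positivity))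
    (show 0 ≤ T ^ 25 by positivity)
  unfold hlsP
  rw [Real.mul_rpow hM.le hK.le, Real.mul_rpow hM'.le hK'.le, div_eq_mul_inv M, div_eq_mul_inv M']
  linarith

theorem hls : ∃ C : ℝ, 0 < C ∧ ∀ (J S : Finset Eis) (a : Eis → ℂ) (K M T : ℝ), 0 < K → 0 < M →
    1 ≤ T → J ⊆ PB K → S ⊆ PB M →
      ∫ τ, ∑ j ∈ J, ‖∑ n ∈ S, tw a τ n * cub j n‖ ^ 2 ∂muT T ≤
        C * Real.log (3 + K + T) ^ 3 * (M / T + K * T ^ 2 +
          ((M * K) ^ (2 / 3 : ℝ) + M ^ (1 / 3 : ℝ) * K) * T ^ (-(1 / 12) : ℝ) +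
          M ^ (1 / 3 : ℝ) * K ^ (3 / 5 : ℝ) * T ^ 25) * sq S a := by
  obtain ⟨C1, hC1, h1⟩ := hd
  obtain ⟨C2, hC2, h2⟩ := als
  refine ⟨C1 * C2, by positivity, fun J S a K M T hK hM hT hJ hS => ?_⟩
  have hT0 : 0 < T := by linarith
  rcases lt_or_ge M 1 with hM1 | hM1
  · have : S = ∅ := Finset.subset_empty.1 (ls_PB_empty hM1 ▸ hS)
    subst this
    simp [sq]
  have l1 : 1 ≤ Real.log (3 + K + T) := by
    rw [add_assoc]; exact ls_one_le_log (by positivity)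
  have S0 : (0 : Eis) ∉ S := fun h => (mem_PB.1 (hS h)).1.ne_zero rfl
  have p0 : 0 ≤ hlsP M K T := by unfold hlsP; positivity
  have key : ∀ Y : ℝ, 1 ≤ Y → ∀ b : Eis → ℂ, ∑ n ∈ S, lg (T ^ 2) (N n / Y) * 1 *
      ‖∑ j ∈ J, b j * cub j n‖ ^ 2 ≤ C2 * Real.log (3 + K + T) ^ 3 * hlsP Y K T *
        ∑ j ∈ J, ‖b j‖ ^ 2 := by
    intro Y hY b
    refine le_trans (le_of_eq ?_) (h2 J b K Y T hK hY hT hJ S S0)
    refine Finset.sum_congr rfl fun n hn => ?_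
    rw [mul_one]
    congr 3
    exact Finset.sum_congr rfl fun j hj => by
      rw [cub_recip (mem_PB.1 (hJ hj)).1.1 (mem_PB.1 (hS hn)).1.1]
  refine (h1 Eis J S (fun j n => cub j n) (fun _ => 1) T M
    (C2 * Real.log (3 + K + T) ^ 3 * hlsP M K T) hT hM (by positivity) (hS.trans (PB_subset _))
    (fun _ _ => one_pos) (fun Y hY b => ?_) a).trans (le_of_eq ?_)
  · have b0 : 0 ≤ ∑ j ∈ J, ‖b j‖ ^ 2 := Finset.sum_nonneg fun _ _ => by positivity
    rcases le_total 1 Y with hY1 | hY1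
    · refine (key Y hY1 b).trans (mul_le_mul_of_nonneg_right ?_ b0)
      rw [mul_assoc _ (hlsP M K T)]
      refine mul_le_mul_of_nonneg_left ?_ (by positivity)
      have := hlsP_le hM hK hY hK hT0 (v := 1) (fun a h0 h1 => hls_pow hY hM h0 h1)
        (fun a _ _ => by rw [mul_one])
      rwa [mul_one] at this
    · refine le_trans (Finset.sum_le_sum fun n hn => ?_) ((key 1 le_rfl b).trans
        (mul_le_mul_of_nonneg_right ?_ b0))
      · refine mul_le_mul_of_nonneg_right (mul_le_mul_of_nonneg_right ?_ zero_le_one)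
          (by positivity)
        have n1 := one_le_N (mem_PB.1 (hS hn)).1.ne_zero
        unfold lg
        rw [div_one, Real.exp_le_exp, neg_le_neg_iff]
        refine mul_le_mul_of_nonneg_left (pow_le_pow_left₀ (Real.log_nonneg n1)
          (Real.log_le_log (by linarith) ?_) 2) (by positivity)
        rw [le_div_iff₀ hY]
        nlinarith
      · rw [mul_assoc _ (hlsP M K T)]
        refine mul_le_mul_of_nonneg_left ?_ (by positivity)
        have := hlsP_le hM hK one_pos hK hT0 (u := 1) (v := 1) (fun a h0 _ => by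
          rw [mul_one]; exact Real.rpow_le_rpow (by norm_num) hM1 h0) (fun a _ _ => by rw [mul_one])
        rw [mul_one, mul_one] at this
        have : 0 ≤ Y / M := by positivity
        nlinarith
  · simp only [div_one]
    unfold hlsP sq
    ring

theorem hls_pow2 {Y M a : ℝ} (hY : 0 < Y) (hM : 0 < M) (h0 : 0 ≤ a) (h1 : a ≤ 1) :
    Y ^ a ≤ M ^ a * (Y / M + M / Y) ^ 3 := by
  refine (hls_pow hY hM h0 h1).trans (mul_le_mul_of_nonneg_left ?_ (by positivity))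
  have u0 : 0 < Y / M := by positivity
  have e : M / Y = (Y / M)⁻¹ := by rw [inv_div]
  rw [e]
  set u := Y / M
  have a1 : 2 ≤ u + u⁻¹ := by
    have : u * u⁻¹ = 1 := mul_inv_cancel₀ u0.ne'
    have h2 : 0 < u⁻¹ := by positivity
    nlinarith [sq_nonneg (u - 1), mul_pos u0 h2]
  have a2 : 0 < u⁻¹ := by positivity
  nlinarith [mul_le_mul a1 a1 (by norm_num) (by linarith)]

/-- The two variable sum. -/
noncomputable def hlsX (α β : Eis → ℂ) (c : Eis → Eis → ℂ) (S T : Finset Eis) (τ : ℝ) : ℂ :=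
  ∑ a ∈ S, ∑ b ∈ T, tw α τ a * tw β τ b * c a b

theorem hls_contX (α β : Eis → ℂ) (c : Eis → Eis → ℂ) (S T : Finset Eis) :
    Continuous (hlsX α β c S T) := by
  unfold hlsX tw
  refine continuous_finsetSum _ fun a _ => continuous_finsetSum _ fun b _ => ?_
  exact ((continuous_const.mul (continuous_nit a)).mul
    (continuous_const.mul (continuous_nit b))).mul continuous_const

theorem hls_intX (μ : Measure ℝ) [IsFiniteMeasure μ] (α β : Eis → ℂ) (c : Eis → Eis → ℂ)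
    (S T : Finset Eis) : Integrable (fun τ => ‖hlsX α β c S T τ‖ ^ 2) μ := by
  refine Integrable.of_bound (C := (∑ a ∈ S, ∑ b ∈ T, ‖α a‖ * ‖β b‖ * ‖c a b‖) ^ 2)
    ((hls_contX α β c S T).norm.pow 2).aestronglyMeasurable (Eventually.of_forall fun τ => ?_)
  rw [Real.norm_of_nonneg (by positivity)]
  refine pow_le_pow_left₀ (norm_nonneg _) ((norm_sum_le _ _).trans
    (Finset.sum_le_sum fun a _ => (norm_sum_le _ _).trans (le_of_eq ?_))) 2
  simp only [norm_mul, norm_tw]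

theorem continuous_Bil (S T : Finset Eis) (α β : Eis → ℂ) :
    Continuous fun τ => Bil S T (tw α τ) (tw β τ) :=
  hls_contX α β (fun a b => Dl (a * b)) S T

theorem hls_gauss : ∃ C : ℝ, 0 < C ∧ ∀ (S T : Finset Eis) (α β : Eis → ℂ) (A B Z U : ℝ), 0 < A →
    0 < B → 0 < Z → 1 ≤ U → (∀ a ∈ S, PS a ∧ N a ≤ Z) → (∀ b ∈ T, PS b) →
      ∫ τ, ‖hlsX α β (fun a b => G a * G b * conj (cub a b)) S T τ‖ ^ 2 ∂muT U ≤
        C * Real.log (3 + Z + U) ^ 3 * hlsP B A U * nw S α A * nw T β B := by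
  obtain ⟨C1, hC1, h1⟩ := dyw
  obtain ⟨C2, hC2, h2⟩ := hls
  refine ⟨C1 * (C1 * C2), by positivity, fun S T α β A B Z U hA hB hZ hU hS hT => ?_⟩
  have hU0 : 0 < U := by linarith
  have l1 : 1 ≤ Real.log (3 + Z + U) := by
    rw [add_assoc]; exact ls_one_le_log (by positivity)
  set l := Real.log (3 + Z + U) with hl
  have p0 : 0 ≤ hlsP B A U := by unfold hlsP; positivity
  have n0 := nw_nonneg T β B
  set c : Eis → Eis → ℂ := fun a b => G a * G b * conj (cub a b) with hc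
  refine (h1 (fun S' => ∫ τ, ‖hlsX α β c S' T τ‖ ^ 2 ∂muT U)
    (SubQ.integral (fun τ => subQ_norm_sq _) fun S' => hls_intX _ α β c S' T) S α A
    (C1 * (C2 * l ^ 3 * hlsP B A U) * nw T β B) hA (by positivity) (fun a ha => (hS a ha).1)
    fun K hK S' s1 s2 => ?_).trans (le_of_eq (by ring))
  have q0 := sq_nonneg' S' α
  refine (h1 (fun T' => ∫ τ, ‖hlsX α β c S' T' τ‖ ^ 2 ∂muT U)
    (SubQ.integral (fun τ => ?_) fun T' => hls_intX _ α β c S' T') T β B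
    (C2 * l ^ 3 * hlsP B A U * ((K / A + A / K) ^ 3 * sq S' α)) hB (by positivity) hT
    fun M hM T' t1 t2 => ?_).trans (le_of_eq (by ring))
  · simp only [hlsX, Finset.sum_comm (s := S')]
    exact subQ_norm_sq _
  set β' : Eis → ℂ := fun b => conj (β b * G b) with hβ
  have a1 : ∀ τ, ‖hlsX α β c S' T' τ‖ ^ 2 ≤
      sq S' α * ∑ a ∈ S', ‖∑ b ∈ T', tw β' (-τ) b * cub a b‖ ^ 2 := by
    intro τ
    refine le_trans (pow_le_pow_left₀ (norm_nonneg _) ((norm_sum_le _ _).trans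
      (Finset.sum_le_sum fun a _ => ?_)) 2) (Finset.sum_mul_sq_le_sq_mul_sq _ _ _)
    have e : ∑ b ∈ T', tw α τ a * tw β τ b * c a b =
        tw α τ a * G a * conj (∑ b ∈ T', tw β' (-τ) b * cub a b) := by
      rw [map_sum, Finset.mul_sum]
      refine Finset.sum_congr rfl fun b _ => ?_
      simp only [hc, hβ, tw, map_mul, conj_nit, neg_neg, conj_conj]
      ring
    rw [e, norm_mul, norm_mul, norm_tw, RCLike.norm_conj]
    exact mul_le_mul_of_nonneg_right (mul_le_of_le_one_right (norm_nonneg _) (norm_G_le a))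
      (norm_nonneg _)
  have a2 : Integrable (fun τ => ∑ a ∈ S', ‖∑ b ∈ T', tw β' τ b * cub a b‖ ^ 2) (muT U) :=
    integrable_finsetSum _ fun a _ => integrable_tw _ _ _ _
  have hneg : MeasurePreserving (fun τ : ℝ => -τ) (muT U) (muT U) := ⟨measurable_neg, muT_neg U⟩
  have hemb : MeasurableEmbedding (fun τ : ℝ => -τ) := (MeasurableEquiv.neg ℝ).measurableEmbedding
  have a3 := hneg.integral_comp hemb (fun τ => ∑ a ∈ S', ‖∑ b ∈ T', tw β' τ b * cub a b‖ ^ 2)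
  have a4 := (hneg.integrable_comp_emb hemb).2 a2
  refine (integral_mono (hls_intX _ α β c S' T') (a4.const_mul (sq S' α)) a1).trans ?_
  rw [integral_const_mul]
  refine (le_of_eq (congrArg _ a3)).trans ?_
  have k0 : 0 < min K Z := lt_min hK hZ
  have a5 := h2 S' T' β' (min K Z) M U k0 hM hU (ls_min (s2.trans (PD_subset _))
    fun a ha => mem_PB.2 (hS a (s1 ha))) (t2.trans (PD_subset _))
  have a6 : sq T' β' ≤ sq T' β := by
    refine le_trans (le_of_eq ?_) (far_sq_le β G norm_G_le)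
    simp only [sq, hβ, RCLike.norm_conj]
  have a7 : hlsP M (min K Z) U ≤ hlsP B A U * ((M / B + B / M) ^ 3 * (K / A + A / K) ^ 3) :=
    hlsP_le hB hA hM k0 hU0 (fun a h0 h1 => hls_pow2 hM hB h0 h1) fun a h0 h1 =>
      (Real.rpow_le_rpow k0.le (min_le_left _ _) h0).trans (hls_pow2 hK hA h0 h1)
  have a8 : Real.log (3 + min K Z + U) ^ 3 ≤ l ^ 3 :=
    pow_le_pow_left₀ (Real.log_nonneg (by linarith)) (Real.log_le_log (by linarith)
      (by linarith [min_le_right K Z])) 3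
  have a9 := mul_le_mul (mul_le_mul (mul_le_mul_of_nonneg_left a8 hC2.le) a7
    (by unfold hlsP; positivity) (by positivity)) a6 (sq_nonneg' _ _) (by positivity)
  refine (mul_le_mul_of_nonneg_left (a5.trans a9) q0).trans (le_of_eq (by ring))

theorem hls_model : ∃ C : ℝ, 0 < C ∧ ∀ (S T : Finset Eis) (α β : Eis → ℂ) (A B U : ℝ), 0 < A →
    0 < B → 1 ≤ U → (∀ a ∈ S, PS a) → (∀ b ∈ T, PS b) →
      ∫ τ, ‖hlsX α β (fun a b => ((cs * N a ^ (-(1 / 6) : ℝ) * N b ^ (-(1 / 6) : ℝ) : ℝ) : ℂ) *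
        cop a b) S T τ‖ ^ 2 ∂muT U ≤
        C * (A ^ (2 / 3 : ℝ) * (B ^ (2 / 3 : ℝ) / U + B ^ (1 / 6 : ℝ))) * nw S α A * nw T β B := by
  obtain ⟨C1, hC1, h1⟩ := dyw
  obtain ⟨C2, hC2, h2⟩ := mvt
  obtain ⟨C3, hC3, h3⟩ := l1_le (b := -(1 / 6)) (by norm_num) (by norm_num)
  have c0 := cs_pos
  refine ⟨(cs * C3) ^ 2 * (C1 * (2 * C2)), by positivity, fun S T α β A B U hA hB hU hS hT => ?_⟩
  have hU0 : 0 < U := by linarith
  have n0 := nw_nonneg T β B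
  set f : Eis → Eis → ℂ := fun a b => ((N b ^ (-(1 / 6) : ℝ) : ℝ) : ℂ) * cop a b with hf
  set F := 2 * C2 * (B ^ (2 / 3 : ℝ) / U + B ^ (1 / 6 : ℝ)) with hF
  have a1 : ∀ a, ∫ τ, ‖∑ b ∈ T, tw β τ b * f a b‖ ^ 2 ∂muT U ≤ C1 * F * nw T β B := by
    intro a
    refine h1 (fun T' => ∫ τ, ‖∑ b ∈ T', tw β τ b * f a b‖ ^ 2 ∂muT U)
      (SubQ.integral (fun τ => subQ_norm_sq _) fun T' => integrable_tw _ _ _ _) T β B F hB
      (by positivity) hT fun M hM T' _ t2 => ?_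
    have b1 := h2 T' (fun b => β b * f a b) U M hU hM (t2.trans ((PD_subset _).trans (PB_subset _)))
    have b2 : sq T' (fun b => β b * f a b) ≤ 2 * M ^ (-(1 / 3) : ℝ) * sq T' β := by
      unfold sq
      rw [Finset.mul_sum]
      refine Finset.sum_le_sum fun b hb => ?_
      obtain ⟨-, m1, -⟩ := mem_PD.1 (t2 hb)
      have m0 : 0 < N b := lt_trans (by positivity) m1
      rw [norm_mul, mul_pow, mul_comm]
      refine mul_le_mul_of_nonneg_right ?_ (by positivity)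
      have d1 : ‖f a b‖ ≤ N b ^ (-(1 / 6) : ℝ) := by
        rw [hf]
        simp only [norm_mul, norm_real, Real.norm_of_nonneg (Real.rpow_nonneg m0.le _)]
        exact mul_le_of_le_one_right (by positivity) (norm_cop_le _ _)
      refine (pow_le_pow_left₀ (norm_nonneg _) d1 2).trans ?_
      rw [← Real.rpow_natCast, ← Real.rpow_mul m0.le]
      refine (Real.rpow_le_rpow_of_nonpos (by positivity) m1.le (by norm_num)).trans ?_
      rw [div_eq_mul_inv, mul_comm M, Real.mul_rpow (by norm_num) hM.le]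
      refine mul_le_mul ?_ (le_of_eq (by norm_num)) (by positivity) (by norm_num)
      have := Real.rpow_le_rpow_of_exponent_ge (show (0 : ℝ) < 2⁻¹ by norm_num)
        (by norm_num) (show (-1 : ℝ) ≤ -(1 / 6) * (2 : ℕ) by norm_num)
      rwa [Real.rpow_neg_one, inv_inv] at this
    have b3 : (M / U + √M) * M ^ (-(1 / 3) : ℝ) ≤
        (B ^ (2 / 3 : ℝ) / U + B ^ (1 / 6 : ℝ)) * (M / B + B / M) ^ 3 := by
      have d1 : M * M ^ (-(1 / 3) : ℝ) = M ^ (2 / 3 : ℝ) := by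
        rw [mul_comm, ← Real.rpow_add_one hM.ne']; norm_num
      have d2 : √M * M ^ (-(1 / 3) : ℝ) = M ^ (1 / 6 : ℝ) := by
        rw [Real.sqrt_eq_rpow, ← Real.rpow_add hM]; norm_num
      have d3 := mul_le_mul_of_nonneg_right (hls_pow2 hM hB (a := 2 / 3) (by norm_num) (by norm_num))
        (show 0 ≤ U⁻¹ by positivity)
      have d4 := hls_pow2 hM hB (a := 1 / 6) (by norm_num) (by norm_num)
      rw [add_mul, d2, div_mul_eq_mul_div, d1, div_eq_mul_inv, div_eq_mul_inv (B ^ (2 / 3 : ℝ))]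
      linarith
    have b4 := mul_le_mul_of_nonneg_right (mul_le_mul_of_nonneg_left b3
      (show 0 ≤ 2 * C2 by positivity)) (sq_nonneg' T' β)
    have b5 := mul_le_mul_of_nonneg_left b2 (show 0 ≤ C2 * (M / U + √M) by positivity)
    have e : (fun τ => ‖∑ b ∈ T', tw β τ b * f a b‖ ^ 2) =
        fun τ => ‖∑ b ∈ T', tw (fun b => β b * f a b) τ b‖ ^ 2 := by
      funext τ
      congr 2
      exact Finset.sum_congr rfl fun b _ => by simp only [tw]; ring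
    rw [e, hF]
    linarith
  set u : Eis → ℝ := fun a => cs * (‖α a‖ * N a ^ (-(1 / 6) : ℝ)) with hu
  have u0 : ∀ a, 0 ≤ u a := fun a => by have := N_nonneg a; positivity
  have a2 : ∀ τ, ‖hlsX α β (fun a b => ((cs * N a ^ (-(1 / 6) : ℝ) * N b ^ (-(1 / 6) : ℝ) : ℝ) : ℂ) *
      cop a b) S T τ‖ ^ 2 ≤ (∑ a ∈ S, u a) * ∑ a ∈ S, u a * ‖∑ b ∈ T, tw β τ b * f a b‖ ^ 2 := by
    intro τ
    refine le_trans (pow_le_pow_left₀ (norm_nonneg _) ((norm_sum_le _ _).trans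
      (Finset.sum_le_sum (g := fun a => u a * ‖∑ b ∈ T, tw β τ b * f a b‖) fun a _ => ?_)) 2)
      (Finset.sum_sq_le_sum_mul_sum_of_sq_eq_mul _ (fun a _ => u0 a)
        (fun a _ => mul_nonneg (u0 a) (by positivity)) fun a _ => by ring)
    have e : ∑ b ∈ T, tw α τ a * tw β τ b *
        (((cs * N a ^ (-(1 / 6) : ℝ) * N b ^ (-(1 / 6) : ℝ) : ℝ) : ℂ) * cop a b) =
        tw α τ a * ((cs * N a ^ (-(1 / 6) : ℝ) : ℝ) : ℂ) * ∑ b ∈ T, tw β τ b * f a b := by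
      rw [Finset.mul_sum]
      refine Finset.sum_congr rfl fun b _ => ?_
      simp only [hf]
      push_cast
      ring
    have := N_nonneg a
    rw [e, norm_mul, norm_mul, norm_tw, norm_real, Real.norm_of_nonneg (by positivity), hu]
    exact le_of_eq (by ring)
  have a3 : ∀ a ∈ S, Integrable (fun τ => u a * ‖∑ b ∈ T, tw β τ b * f a b‖ ^ 2) (muT U) :=
    fun a _ => (integrable_tw _ _ _ _).const_mul _
  refine (integral_mono (hls_intX _ _ _ _ _ _) ((integrable_finsetSum _ a3).const_mul _) a2).trans ?_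
  rw [integral_const_mul, integral_finsetSum _ a3]
  have a4 : ∑ a ∈ S, ∫ τ, u a * ‖∑ b ∈ T, tw β τ b * f a b‖ ^ 2 ∂muT U ≤
      (∑ a ∈ S, u a) * (C1 * F * nw T β B) := by
    rw [Finset.sum_mul]
    refine Finset.sum_le_sum fun a _ => ?_
    rw [integral_const_mul]
    exact mul_le_mul_of_nonneg_left (a1 a) (u0 a)
  have a5 : ∑ a ∈ S, u a ≤ cs * (C3 * √(nw S α A) * A ^ (1 / 3 : ℝ)) := by
    rw [← Finset.mul_sum]
    refine mul_le_mul_of_nonneg_left ((h3 A hA S α fun h => (hS 0 h).ne_zero rfl).trans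
      (le_of_eq ?_)) c0.le
    norm_num
  have s0 : 0 ≤ ∑ a ∈ S, u a := Finset.sum_nonneg fun a _ => u0 a
  refine (mul_le_mul_of_nonneg_left a4 s0).trans ?_
  rw [← mul_assoc]
  refine (mul_le_mul_of_nonneg_right (mul_le_mul a5 a5 s0 (by positivity)) (by positivity)).trans
    (le_of_eq ?_)
  have e1 := Real.mul_self_sqrt (nw_nonneg S α A)
  have e2 : A ^ (1 / 3 : ℝ) * A ^ (1 / 3 : ℝ) = A ^ (2 / 3 : ℝ) := by
    rw [← Real.rpow_add hA]; norm_num
  calc _ = (cs * C3) ^ 2 * (C1 * F * nw T β B) * (√(nw S α A) * √(nw S α A)) *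
        (A ^ (1 / 3 : ℝ) * A ^ (1 / 3 : ℝ)) := by ring
    _ = _ := by rw [e1, e2, hF]; ring

theorem bilH : ∃ C : ℝ, 0 < C ∧ ∀ (S T : Finset Eis) (α β : Eis → ℂ) (A B Z U : ℝ), 0 < A →
    0 < B → 0 < Z → 1 ≤ U → (∀ a ∈ S, Prim a ∧ N a ≤ Z) → (∀ b ∈ T, Prim b) →
      ∫ τ, ‖Bil S T (tw α τ) (tw β τ)‖ ^ 2 ∂muT U ≤
        C * Real.log (3 + Z + U) ^ 3 * (B / U + A * U ^ 2 +
          ((A * B) ^ (2 / 3 : ℝ) + B ^ (1 / 3 : ℝ) * A) * U ^ (-(1 / 12) : ℝ) +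
          B ^ (1 / 3 : ℝ) * A ^ (3 / 5 : ℝ) * U ^ 25 + A ^ (2 / 3 : ℝ) * B ^ (1 / 6 : ℝ)) *
          nw S α A * nw T β B := by
  obtain ⟨C1, hC1, h1⟩ := hls_gauss
  obtain ⟨C2, hC2, h2⟩ := hls_model
  refine ⟨2 * C1 + 2 * C2, by positivity, fun S T α β A B Z U hA hB hZ hU hS hT => ?_⟩
  have hU0 : 0 < U := by linarith
  set S' := S.filter PS
  set T' := T.filter PS
  have s1 : ∀ a ∈ S', PS a := fun a ha => (Finset.mem_filter.1 ha).2
  have t1 : ∀ a ∈ T', PS a := fun a ha => (Finset.mem_filter.1 ha).2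
  have a1 := h1 S' T' α β A B Z U hA hB hZ hU
    (fun a ha => ⟨s1 a ha, (hS a (Finset.mem_filter.1 ha).1).2⟩) t1
  have a2 := h2 S' T' α β A B U hA hB hU s1 t1
  set c1 : Eis → Eis → ℂ := fun a b => G a * G b * conj (cub a b)
  set c2 : Eis → Eis → ℂ := fun a b =>
    ((cs * N a ^ (-(1 / 6) : ℝ) * N b ^ (-(1 / 6) : ℝ) : ℝ) : ℂ) * cop a b
  have a3 : ∀ τ, ‖Bil S T (tw α τ) (tw β τ)‖ ^ 2 ≤
      2 * ‖hlsX α β c1 S' T' τ‖ ^ 2 + 2 * ‖hlsX α β c2 S' T' τ‖ ^ 2 := by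
    intro τ
    have e : Bil S T (tw α τ) (tw β τ) = hlsX α β c1 S' T' τ - hlsX α β c2 S' T' τ := by
      rw [Bil_filter (fun a ha => (hS a ha).1) hT]
      unfold Bil hlsX
      simp only [← Finset.sum_sub_distrib]
      refine Finset.sum_congr rfl fun a ha => Finset.sum_congr rfl fun b hb => ?_
      rw [Dl_mul (s1 a ha) (t1 b hb)]
      ring
    rw [e]
    refine (pow_le_pow_left₀ (norm_nonneg _) (norm_sub_le _ _) 2).trans ?_
    nlinarith [sq_nonneg (‖hlsX α β c1 S' T' τ‖ - ‖hlsX α β c2 S' T' τ‖)]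
  refine (integral_mono (hls_intX _ α β (fun a b => Dl (a * b)) S T)
    (((hls_intX _ α β c1 S' T').const_mul 2).add ((hls_intX _ α β c2 S' T').const_mul 2)) a3).trans ?_
  simp only [Pi.add_apply]
  rw [integral_add ((hls_intX _ α β c1 S' T').const_mul 2) ((hls_intX _ α β c2 S' T').const_mul 2),
    integral_const_mul, integral_const_mul]
  have l1 : 1 ≤ Real.log (3 + Z + U) := by
    rw [add_assoc]; exact ls_one_le_log (by positivity)
  have l3 : 1 ≤ Real.log (3 + Z + U) ^ 3 := one_le_pow₀ l1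
  set l := Real.log (3 + Z + U) ^ 3
  set Ψ := B / U + A * U ^ 2 + ((A * B) ^ (2 / 3 : ℝ) + B ^ (1 / 3 : ℝ) * A) * U ^ (-(1 / 12) : ℝ) +
    B ^ (1 / 3 : ℝ) * A ^ (3 / 5 : ℝ) * U ^ 25 + A ^ (2 / 3 : ℝ) * B ^ (1 / 6 : ℝ) with hΨ
  have p0 : 0 ≤ Ψ := by positivity
  have p1 : hlsP B A U ≤ Ψ := by
    have : 0 ≤ A ^ (2 / 3 : ℝ) * B ^ (1 / 6 : ℝ) := by positivity
    unfold hlsP
    rw [hΨ, mul_comm B A]
    linarith
  have p2 : A ^ (2 / 3 : ℝ) * (B ^ (2 / 3 : ℝ) / U + B ^ (1 / 6 : ℝ)) ≤ Ψ := by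
    have d1 : U⁻¹ ≤ U ^ (-(1 / 12) : ℝ) := by
      rw [← Real.rpow_neg_one]; exact Real.rpow_le_rpow_of_exponent_le hU (by norm_num)
    have d2 := mul_le_mul_of_nonneg_left d1 (show 0 ≤ (A * B) ^ (2 / 3 : ℝ) by positivity)
    have d3 : 0 ≤ B / U + A * U ^ 2 + B ^ (1 / 3 : ℝ) * A * U ^ (-(1 / 12) : ℝ) +
      B ^ (1 / 3 : ℝ) * A ^ (3 / 5 : ℝ) * U ^ 25 := by positivity
    rw [hΨ, div_eq_mul_inv (B ^ (2 / 3 : ℝ)), mul_add, ← mul_assoc, ← Real.mul_rpow hA.le hB.le]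
    linarith
  have n1 : nw S' α A * nw T' β B ≤ nw S α A * nw T β B :=
    mul_le_mul (nw_mono (Finset.filter_subset _ _) (fun _ _ => le_rfl) _)
      (nw_mono (Finset.filter_subset _ _) (fun _ _ => le_rfl) _) (nw_nonneg _ _ _) (nw_nonneg _ _ _)
  have n0 : 0 ≤ nw S' α A * nw T' β B := mul_nonneg (nw_nonneg _ _ _) (nw_nonneg _ _ _)
  have b1 := mul_le_mul (mul_le_mul_of_nonneg_left p1 (show 0 ≤ C1 * l by positivity)) n1 n0
    (by positivity)
  have b2 := mul_le_mul (mul_le_mul_of_nonneg_left (p2.trans (le_mul_of_one_le_left p0 l3)) hC2.le)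
    n1 n0 (by positivity)
  linarith

end Vale.Agent.P006
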