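import Vale.Agent.P006.PB
import Vale.Agent.P006.Bil

/-! The hybrid cubic large sieve. -/

namespace Vale.Agent.P006

open Vale.Agent.P026 Eis Complex MeasureTheory Filter Topology
open scoped Classical ComplexConjugate

theorem hls_int_near (μ : Measure ℝ) [IsFiniteMeasure μ] (S : Finset Eis) (γ : Eis → ℂ)
    (H Q D : ℝ) : Integrable (fun τ => NEAR S (tw γ τ) H Q D) μ := by
  unfold NEAR
  refine integrable_finsetSum _ fun h _ => integrable_finsetSum _ fun d _ => ?_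
  split_ifs
  · exact integrable_zero _ _ _
  · exact integrable_qt μ S γ h d

theorem f2 : ∃ C : ℝ, 0 < C ∧ ∀ (S : Finset Eis) (γ : Eis → ℂ) (H K T : ℝ), 0 < H → 1 ≤ K →
    1 ≤ T → S ⊆ PB K → QA (muT T) S γ H ≤ C * Real.log (3 + K + H) ^ 2 *
      (H + (H * K) ^ (2 / 3 : ℝ) + H ^ (1 / 3 : ℝ) * (K / T + T ^ 20 * K ^ (27 / 50 : ℝ))) *
      sq S γ := by
  obtain ⟨C1, hC1, h1⟩ := near
  obtain ⟨C2, hC2, h2⟩ := osp2
  obtain ⟨C3, hC3, h3⟩ := farh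
  obtain ⟨C4, hC4, h4⟩ := card_dv_le (e := 1 / 150) (by norm_num)
  refine ⟨C1 * C2 + C3 * (1 + C4), by positivity, fun S γ H K T hH hK hT hS => ?_⟩
  have hK0 : 0 < K := by linarith
  have hT0 : 0 < T := by linarith
  have hq := sq_nonneg' S γ
  have d1 : 1 ≤ K ^ (1 / 100 : ℝ) := Real.one_le_rpow hK (by norm_num)
  have d2 : 1 ≤ T ^ 2 * K ^ (1 / 100 : ℝ) := one_le_mul_of_one_le_of_one_le (one_le_pow₀ hT) d1
  have d3 : 1 ≤ T ^ 3 := one_le_pow₀ hT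
  have a1 := h1 (muT T) T⁻¹ C2 (by positivity) hC2.le (h2 T hT) S γ H K _ _ hH hK0 d3 d2 hS
  have l1 : 1 ≤ Real.log (3 + K + H) := by
    rw [add_assoc]; exact ls_one_le_log (by positivity)
  have l2 : 1 ≤ Real.log (3 + K + H) ^ 2 := one_le_pow₀ l1
  set L := Real.log (3 + K + H) ^ 2
  set V := K / T + T ^ 20 * K ^ (27 / 50 : ℝ) with hV
  set Ψ := H + (H * K) ^ (2 / 3 : ℝ) + H ^ (1 / 3 : ℝ) * V with hΨ
  have e1 : T⁻¹ * K + (T ^ 3 * (T ^ 2 * K ^ (1 / 100 : ℝ))) ^ 4 * √K = V := by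
    have : (K ^ (1 / 100 : ℝ)) ^ 4 * √K = K ^ (27 / 50 : ℝ) := by
      rw [Real.sqrt_eq_rpow, ← Real.rpow_natCast, ← Real.rpow_mul hK0.le, ← Real.rpow_add hK0]
      norm_num
    rw [hV, ← this]
    field_simp
  have v0 : 0 ≤ V := by positivity
  have w0 : 0 ≤ (H * K) ^ (2 / 3 : ℝ) := by positivity
  have p0 : 0 ≤ Ψ := by positivity
  rw [e1] at a1
  have a2 : ∀ τ, FAR S (tw γ τ) H (T ^ 3) (T ^ 2 * K ^ (1 / 100 : ℝ)) ≤
      C3 * (1 + C4) * L * Ψ * sq S γ := by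
    intro τ
    refine (h3 S (tw γ τ) H K K _ _ (C4 * K ^ (1 / 150 : ℝ)) hH hK0 hK0 d3 d2 (by positivity) hS hS
      (fun n hn => (h4 n (mem_PB.1 (hS hn)).1.ne_zero).trans (mul_le_mul_of_nonneg_left
        (Real.rpow_le_rpow (N_nonneg n) (mem_PB.1 (hS hn)).2 (by norm_num)) hC4.le))).trans ?_
    rw [sq_tw]
    refine mul_le_mul_of_nonneg_right ?_ hq
    have b1 : (T ^ 3) ^ (-(1 / 3) : ℝ) = T⁻¹ := by
      rw [← Real.rpow_natCast, ← Real.rpow_mul hT0.le, ← Real.rpow_neg_one]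
      norm_num
    have b2 : K ^ (1 / 150 : ℝ) * (T ^ 2 * K ^ (1 / 100 : ℝ)) ^ (-(2 / 3) : ℝ) ≤ T⁻¹ := by
      rw [Real.mul_rpow (by positivity) (by positivity), mul_left_comm, ← Real.rpow_mul hK0.le,
        ← Real.rpow_add hK0, ← Real.rpow_natCast, ← Real.rpow_mul hT0.le, ← Real.rpow_neg_one,
        show (1 / 150 : ℝ) + 1 / 100 * -(2 / 3) = 0 by norm_num, Real.rpow_zero, mul_one]
      exact Real.rpow_le_rpow_of_exponent_le hT (by norm_num)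
    have b3 : K * T⁻¹ ≤ V := by
      have : 0 ≤ T ^ 20 * K ^ (27 / 50 : ℝ) := by positivity
      rw [hV, div_eq_mul_inv]; linarith
    have b4 : H ^ (1 / 3 : ℝ) * K * (T⁻¹ + C4 * K ^ (1 / 150 : ℝ) *
        (T ^ 2 * K ^ (1 / 100 : ℝ)) ^ (-(2 / 3) : ℝ)) ≤ (1 + C4) * (H ^ (1 / 3 : ℝ) * V) := by
      have c1 := mul_le_mul_of_nonneg_left b2 (show 0 ≤ H ^ (1 / 3 : ℝ) * K * C4 by positivity)
      have c2 := mul_le_mul_of_nonneg_left b3 (show 0 ≤ (1 + C4) * H ^ (1 / 3 : ℝ) by positivity)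
      nlinarith
    rw [b1]
    have b5 : H + (H * K) ^ (2 / 3 : ℝ) ≤ (1 + C4) * (H + (H * K) ^ (2 / 3 : ℝ)) :=
      le_mul_of_one_le_left (by positivity) (by linarith)
    have := mul_le_mul_of_nonneg_left (add_le_add b5 b4) (show 0 ≤ C3 * L by positivity)
    rw [hΨ]
    linarith
  have a3 : QA (muT T) S γ H ≤ ∫ τ, (NEAR S (tw γ τ) H (T ^ 3) (T ^ 2 * K ^ (1 / 100 : ℝ)) +
      C3 * (1 + C4) * L * Ψ * sq S γ) ∂muT T := by
    refine integral_mono (integrable_QC _ _ _ _)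
      ((hls_int_near _ _ _ _ _ _).add (integrable_const _)) fun τ => ?_
    have := a2 τ
    simp only [QC_eq S (tw γ τ) H (T ^ 3) (T ^ 2 * K ^ (1 / 100 : ℝ))]
    linarith
  rw [integral_add (hls_int_near _ _ _ _ _ _) (integrable_const _), integral_const] at a3
  simp only [probReal_univ, smul_eq_mul, one_mul] at a3
  have a4 : H ^ (1 / 3 : ℝ) * V ≤ L * Ψ :=
    le_trans (by rw [hΨ]; linarith) (le_mul_of_one_le_left p0 l2)
  have a5 := mul_le_mul_of_nonneg_right (mul_le_mul_of_nonneg_left a4 (mul_pos hC1 hC2).le) hq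
  nlinarith

theorem hls_log1 {x : ℝ} (hx : 0 ≤ x) : Real.log (1 + x) ≤ 2 * √x := by
  have s0 := Real.sqrt_nonneg x
  have s1 : √x * √x = x := Real.mul_self_sqrt hx
  have h2 := Real.log_le_log (by positivity) (show 1 + x ≤ (1 + √x) ^ 2 by nlinarith)
  rw [Real.log_pow] at h2
  have h3 := Real.log_le_sub_one_of_pos (show 0 < 1 + √x by positivity)
  push_cast at h2
  linarith

theorem hls_log2 {x H K : ℝ} (hx : 0 ≤ x) (hK : 0 ≤ K) (hH0 : 0 ≤ H) (hH : H ≤ K ^ 2) :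
    Real.log (3 + K + x * H) ≤ 2 * Real.log (3 + K) + Real.log (1 + x) := by
  have h1 : 3 + K + x * H ≤ (3 + K) ^ 2 * (1 + x) := by
    have := mul_le_mul_of_nonneg_left hH hx
    nlinarith [mul_nonneg hx hK]
  have h2 := Real.log_le_log (by positivity) h1
  rw [Real.log_mul (by positivity) (by positivity), Real.log_pow] at h2
  exact_mod_cast h2

theorem hls_log3 {x H K : ℝ} (hx : 0 < x) (hK : 0 ≤ K) (hH0 : 0 ≤ H) (hH : H ≤ K ^ 2) :
    Real.log (3 + K + x * H) ^ 2 ≤ Real.log (3 + K) ^ 2 * (8 + 32 * x ^ (1 / 2 : ℝ)) := by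
  have h1 := hls_log2 hx.le hK hH0 hH
  have l1 := ls_one_le_log hK
  have s0 := Real.sqrt_nonneg x
  have s1 : √x * √x = x := Real.mul_self_sqrt hx.le
  have h2 := Real.log_le_log (by positivity) (show 1 + x ≤ (1 + √x) ^ 2 by nlinarith)
  rw [Real.log_pow] at h2
  have h3 := hls_log1 s0
  have t0 := Real.sqrt_nonneg √x
  have t1 : √√x * √√x = √x := Real.mul_self_sqrt s0
  push_cast at h2
  rw [← Real.sqrt_eq_rpow]
  have h4 : Real.log (3 + K + x * H) ≤ Real.log (3 + K) * (2 + 4 * √√x) := by nlinarith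
  have h5 : 0 ≤ Real.log (3 + K + x * H) := Real.log_nonneg (by nlinarith [mul_nonneg hx.le hH0])
  refine (pow_le_pow_left₀ h5 h4 2).trans ?_
  rw [mul_pow]
  refine mul_le_mul_of_nonneg_left ?_ (by positivity)
  nlinarith [sq_nonneg (1 - 2 * √√x)]

theorem hls_exp {M K : ℝ} (hM : 0 < M) (hK : 0 < K) :
    M / K * (K ^ 2 / M) ^ (1 / 3 : ℝ) = M ^ (2 / 3 : ℝ) * K ^ (-(1 / 3) : ℝ) ∧
    K ^ (-(1 / 3) : ℝ) * K = K ^ (2 / 3 : ℝ) ∧
    K ^ (-(1 / 3) : ℝ) * K ^ (27 / 50 : ℝ) = K ^ (27 / 50 - 1 / 3 : ℝ) ∧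
    M / K * (K ^ 2 / M) ^ (2 / 3 : ℝ) * K ^ (2 / 3 : ℝ) = M ^ (1 / 3 : ℝ) * K ∧
    M / K * (K ^ 2 / M) ^ (2 / 3 : ℝ) * K ^ (27 / 50 - 1 / 3 : ℝ) =
      M ^ (1 / 3 : ℝ) * K ^ (27 / 50 : ℝ) := by
  obtain ⟨m, rfl⟩ : ∃ m, M = Real.exp m := ⟨_, (Real.exp_log hM).symm⟩
  obtain ⟨k, rfl⟩ : ∃ k, K = Real.exp k := ⟨_, (Real.exp_log hK).symm⟩
  simp only [← Real.exp_nat_mul, ← Real.exp_sub, ← Real.exp_add, ← Real.exp_mul]
  refine ⟨?_, ?_, ?_, ?_, ?_⟩ <;> congr 1 <;> push_cast <;> ring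

theorem f1 : ∃ C : ℝ, 0 < C ∧ ∀ (S : Finset Eis) (γ : Eis → ℂ) (M K T : ℝ), 0 < M → 1 ≤ K →
    1 ≤ T → S ⊆ PD K → QA (muT T) S γ M ≤ C * Real.log (3 + K) ^ 2 *
      (M + M ^ (1 / 3 : ℝ) * K + M ^ (2 / 3 : ℝ) *
        (K ^ (2 / 3 : ℝ) / T + T ^ 20 * K ^ (27 / 50 - 1 / 3 : ℝ))) * sq S γ := by
  obtain ⟨C1, hC1, h1⟩ := f2
  obtain ⟨C2, hC2, h2⟩ := pa
  refine ⟨C2 * (1 + 80 * C1), by positivity, fun S γ M K T hM hK hT hS => ?_⟩
  have hK0 : 0 < K := by linarith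
  have hT0 : 0 < T := by linarith
  have hq := sq_nonneg' S γ
  rcases lt_or_ge M 1 with hM1 | hM1
  · have : QA (muT T) S γ M = 0 := by simp [QA, QC, ball_eq_empty hM1]
    rw [this]
    positivity
  have l1 := ls_one_le_log hK0.le
  have l2 : 1 ≤ Real.log (3 + K) ^ 2 := one_le_pow₀ l1
  set L := Real.log (3 + K) ^ 2 with hL
  set V := K / T + T ^ 20 * K ^ (27 / 50 : ℝ) with hV
  have v0 : 0 ≤ V := by positivity
  have hH : 0 < K ^ 2 / M := by positivity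
  have hH2 : K ^ 2 / M ≤ K ^ 2 := div_le_self (by positivity) hM1
  set H := K ^ 2 / M with hHd
  refine (h2 (muT T) (muT_neg T) S K M
    (40 * C1 * L * (H + (H * K) ^ (2 / 3 : ℝ) + H ^ (1 / 3 : ℝ) * V)) hK0 hM (by positivity) hS
    (fun γ x hx => ?_) γ).trans (mul_le_mul_of_nonneg_right ?_ hq)
  · refine (h1 S γ (x * H) K T (by positivity) hK hT (hS.trans (PD_subset _))).trans
      (mul_le_mul_of_nonneg_right ?_ (sq_nonneg' _ _))
    have a1 := hls_log3 hx hK0.le hH.le hH2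
    set y := x ^ (1 / 3 : ℝ) + x ^ (3 / 2 : ℝ)
    have y1 : x ≤ y := by
      have := ls_between hx (a := 1) (by norm_num) (by norm_num)
      rwa [Real.rpow_one] at this
    have y2 : x ^ (2 / 3 : ℝ) ≤ y := ls_between hx (by norm_num) (by norm_num)
    have y3 : x ^ (1 / 2 : ℝ) * x ≤ y := by
      rw [← Real.rpow_add_one hx.ne']; exact ls_between hx (by norm_num) (by norm_num)
    have y4 : x ^ (1 / 3 : ℝ) ≤ y := ls_between hx (by norm_num) (by norm_num)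
    have y5 : x ^ (1 / 2 : ℝ) * x ^ (2 / 3 : ℝ) ≤ y := by
      rw [← Real.rpow_add hx]; exact ls_between hx (by norm_num) (by norm_num)
    have y6 : x ^ (1 / 2 : ℝ) * x ^ (1 / 3 : ℝ) ≤ y := by
      rw [← Real.rpow_add hx]; exact ls_between hx (by norm_num) (by norm_num)
    rw [mul_assoc x H K, Real.mul_rpow hx.le (by positivity), Real.mul_rpow hx.le hH.le,
      mul_assoc (x ^ (1 / 3 : ℝ))]
    set u := (H * K) ^ (2 / 3 : ℝ)
    set w := H ^ (1 / 3 : ℝ) * V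
    have u0 : 0 ≤ u := by positivity
    have w0 : 0 ≤ w := by positivity
    have a2 : (8 + 32 * x ^ (1 / 2 : ℝ)) * (x * H + x ^ (2 / 3 : ℝ) * u + x ^ (1 / 3 : ℝ) * w) ≤
        40 * (H + u + w) * y := by
      have := mul_le_mul_of_nonneg_left y1 hH.le
      have := mul_le_mul_of_nonneg_left y3 hH.le
      have := mul_le_mul_of_nonneg_left y2 u0
      have := mul_le_mul_of_nonneg_left y5 u0
      have := mul_le_mul_of_nonneg_left y4 w0
      have := mul_le_mul_of_nonneg_left y6 w0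
      nlinarith
    have a3 := mul_le_mul_of_nonneg_right a1
      (show 0 ≤ x * H + x ^ (2 / 3 : ℝ) * u + x ^ (1 / 3 : ℝ) * w by positivity)
    have a4 := mul_le_mul_of_nonneg_left a2 (show 0 ≤ L by positivity)
    have a5 := mul_le_mul_of_nonneg_left (a3.trans (le_of_eq_of_le (mul_assoc _ _ _) a4)) hC1.le
    linarith
  · obtain ⟨e1, e2, -, -⟩ := ls_exp hM hK0
    obtain ⟨e3, e4, e5, -, -⟩ := hls_exp hM hK0
    have e6 : K ≤ M ^ (1 / 3 : ℝ) * K :=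
      le_mul_of_one_le_left hK0.le (Real.one_le_rpow hM1 (by norm_num))
    have e7 : M / K * (H ^ (1 / 3 : ℝ) * V) = M ^ (2 / 3 : ℝ) *
        (K ^ (2 / 3 : ℝ) / T + T ^ 20 * K ^ (27 / 50 - 1 / 3 : ℝ)) := by
      rw [← mul_assoc, e3, hV, ← e4, ← e5]; ring
    set W := M ^ (2 / 3 : ℝ) * (K ^ (2 / 3 : ℝ) / T + T ^ 20 * K ^ (27 / 50 - 1 / 3 : ℝ))
    have w0 : 0 ≤ W := by positivity
    have e8 : M ≤ L * (M + M ^ (1 / 3 : ℝ) * K + W) :=
      le_trans (by linarith) (le_mul_of_one_le_left (by positivity) l2)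
    have e9 : K + M ^ (1 / 3 : ℝ) * K + W ≤ 2 * (M + M ^ (1 / 3 : ℝ) * K + W) := by linarith
    have e10 := mul_le_mul_of_nonneg_left e9 (show 0 ≤ 40 * C1 * L by positivity)
    calc _ = C2 * (M + 40 * C1 * L * (M / K * H + M / K * (H * K) ^ (2 / 3 : ℝ) +
          M / K * (H ^ (1 / 3 : ℝ) * V))) := by ring
      _ ≤ C2 * (L * (M + M ^ (1 / 3 : ℝ) * K + W) +
          40 * C1 * L * (2 * (M + M ^ (1 / 3 : ℝ) * K + W))) := by
        rw [e1, e2, e7]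
        exact mul_le_mul_of_nonneg_left (add_le_add e8 e10) hC2.le
      _ = _ := by ring

end Vale.Agent.P006
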