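import Vale.Agent.P006.HeckeA

/-! Splitting the residue sums according to the power of a primary prime. -/

namespace Vale.Agent.P006

open Vale.Agent.P026 Eis Complex MeasureTheory Filter Topology
open scoped Classical ComplexConjugate

theorem hk_Rs_split (A q : Eis) {p : Eis} (hp : Prime p) (h1 : Prim p) (r : Eis) (K : ℕ)
    (hK : ∀ j, K ≤ j → gauss (fun u => cub u p ^ j) (p ^ j) r = 0) {t : ℝ} (ht : 0 < t) :
    Rs (kapS A q) r phi0 t = ∑ j ∈ Finset.range K,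
      r2co p r j * Rs (off p (kapS A q)) (r * p ^ j) phi0 (t * N p ^ j) := by
  have hN := N_pos hp.ne_zero
  unfold Rs
  rw [r2_tsum_iter hp.ne_zero (r2_summable (adm_kapS A q) r ht) K]
  have h2 : ∀ c, gK (kapS A q) r (p ^ K * c) / (N (p ^ K * c) : ℂ) * phi0 (t * N (p ^ K * c)) = 0 := by
    intro c
    by_cases hc : c = 0
    · simp [hc]
    obtain ⟨n, a, ha, rfl⟩ := WfDvdMonoid.max_power_factor' hc hp.not_isUnit
    rw [← mul_assoc, ← pow_add, gK_prime_pow' A q hp h1 ha, hK _ (by omega)]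
    simp
  simp only [h2, tsum_zero, add_zero, Finset.mul_sum]
  refine Finset.sum_congr rfl fun j _ => ?_
  rw [← mul_assoc, ← tsum_mul_left, ← tsum_mul_left]
  refine tsum_congr fun c => ?_
  rw [gK_off]
  split_ifs with hc
  · simp
  · have hc0 : c ≠ 0 := fun h => hc (h ▸ dvd_zero p)
    have h3 : ((N c : ℝ) : ℂ) ≠ 0 := by exact_mod_cast (N_pos hc0).ne'
    have h4 : ((N p : ℝ) : ℂ) ≠ 0 := by exact_mod_cast hN.ne'
    have h5 : (((N p ^ j) ^ (1 / 3 : ℝ) : ℝ) : ℂ) ≠ 0 := by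
      exact_mod_cast (Real.rpow_pos_of_pos (pow_pos hN j) _).ne'
    rw [gK_prime_pow' A q hp h1 hc, N_mul, N_pow, r2co, Real.mul_rpow ht.le (pow_pos hN j).le,
      mul_assoc t]
    push_cast
    field_simp

theorem hk_Rs_cube (A q : Eis) {p : Eis} (hp : Prime p) (h1 : Prim p) (r : Eis) (f : ℝ → ℂ) :
    Rs (off p (kapS A q)) (r * p ^ 3) f = Rs (off p (kapS A q)) r f := by
  funext t
  unfold Rs
  congr 1
  refine tsum_congr fun c => ?_
  rw [gK_off, gK_off]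
  split_ifs with hc
  · rfl
  · have h2 := cub_cube (hp.coprime_iff_not_dvd.2 hc).symm
    rw [show r * p ^ 3 = r * p * p * p by ring, gK_mul_prime' A q hp h1 hc, gK_mul_prime' A q hp h1 hc,
      gK_mul_prime' A q hp h1 hc, ← mul_assoc, ← mul_assoc, ← map_mul, ← map_mul,
      show cub c p * cub c p * cub c p = cub c p ^ 3 by ring, h2, map_one, one_mul]

theorem hk_rel (A q : Eis) {p : Eis} (hp : Prime p) (h1 : Prim p) {r : Eis} (K : ℕ)
    (hK : ∀ j, K ≤ j → gauss (fun u => cub u p ^ j) (p ^ j) r = 0) {ρ : ℂ} {σ : ℕ → ℂ}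
    (hρ : Tendsto (Rs (kapS A q) r phi0) (𝓝[>] 0) (𝓝 ρ))
    (hσ : ∀ j, Tendsto (Rs (off p (kapS A q)) (r * p ^ j) phi0) (𝓝[>] 0) (𝓝 (σ j))) :
    ρ = ∑ j ∈ Finset.range K, r2co p r j * σ j := by
  refine tendsto_nhds_unique hρ (Tendsto.congr' ?_ (tendsto_finsetSum _ fun j _ =>
    ((hσ j).comp (r2_tendsto_mul (pow_pos (N_pos hp.ne_zero) j))).const_mul _))
  filter_upwards [self_mem_nhdsWithin] with t ht
  exact (hk_Rs_split A q hp h1 r K hK ht).symm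

theorem hk_sq (A q : Eis) {p : Eis} (hp : Prime p) (h1 : Prim p) {r : Eis} (hr : ¬ p ∣ r)
    {ρ : Eis → ℂ} (hρ : ∀ x, x ≠ 0 → Tendsto (Rs (kapS A q) x phi0) (𝓝[>] 0) (𝓝 (ρ x)))
    (hσ : ∀ x, x ≠ 0 → Tendsto (Rs (off p (kapS A q)) x phi0) (𝓝[>] 0)
      (𝓝 (((N p / (N p + 1) : ℝ) : ℂ) * ρ x))) (hc : ρ (r * p ^ 2 * p ^ 3) = ρ (r * p ^ 2)) :
    ρ (r * p ^ 2) = 0 := by
  have hr0 : r ≠ 0 := fun h => hr (h ▸ dvd_zero p)
  have hp0 := hp.ne_zero
  have hN := N_pos hp0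
  have h2 := hk_rel A q hp h1 (r := r * p ^ 2) 4 (fun j hj => ?_)
    (hρ _ (mul_ne_zero hr0 (pow_ne_zero _ hp0)))
    (fun j => hσ _ (mul_ne_zero (mul_ne_zero hr0 (pow_ne_zero _ hp0)) (pow_ne_zero _ hp0)))
  swap
  · rw [gauss_prime_pow' hp h1 (by omega), if_neg]
    intro h
    have h3 : p * p ^ 2 ∣ r * p ^ 2 := by
      rw [← pow_succ']
      exact (pow_dvd_pow p (by omega)).trans h
    exact hr ((mul_dvd_mul_iff_right (pow_ne_zero 2 hp0)).1 h3)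
  have e1 : r2co p (r * p ^ 2) 1 = 0 := by
    rw [r2co, pow_one p, gauss_prime_zero' hp h1 (by norm_num) ⟨r * p, by ring⟩]
    simp
  have e2 : r2co p (r * p ^ 2) 2 = 0 := by
    have h3 : r * p ^ 2 / p ^ (2 - 1) = r * p := by
      rw [show r * p ^ 2 = r * p * p ^ (2 - 1) by ring, mul_div_cancel_right₀ _ (pow_ne_zero _ hp0)]
    rw [r2co, gauss_prime_pow' hp h1 (by norm_num), h3,
      gauss_prime_zero' hp h1 (by norm_num) (dvd_mul_left _ _)]
    simp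
  have h4 : ((N p : ℝ) : ℂ) ≠ 0 := by exact_mod_cast hN.ne'
  have e3 : r2co p (r * p ^ 2) 3 = -((N p : ℂ) ^ 2)⁻¹ := by
    rw [r2co, gauss_prime_pow' hp h1 (by norm_num), if_pos (dvd_mul_left _ _),
      mul_div_cancel_right₀ _ (pow_ne_zero _ hp0), gauss_prime_cube' hp h1 (by norm_num) dvd_rfl,
      if_neg hr, cub_cube (r2_cop_nine h1).symm, r2_rpow _ hN.le]
    push_cast
    field_simp
  simp only [Finset.sum_range_succ, Finset.sum_range_zero, r2co_zero, e1, e2, e3, hc, pow_zero,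
    mul_one] at h2
  have h5 : ((N p : ℝ) : ℂ) + 1 ≠ 0 := by exact_mod_cast (by positivity : N p + 1 ≠ 0)
  push_cast at h2
  field_simp at h2
  have h6 : (((N p : ℝ) : ℂ) + 1) * ρ (r * p ^ 2) = 0 := by linear_combination h2
  exact (mul_eq_zero.1 h6).resolve_left h5

theorem hk_one (A q : Eis) {p : Eis} (hp : Prime p) (h1 : Prim p) {r : Eis} (hr : ¬ p ∣ r)
    {ρ : Eis → ℂ} (hρ : ∀ x, x ≠ 0 → Tendsto (Rs (kapS A q) x phi0) (𝓝[>] 0) (𝓝 (ρ x)))
    (hσ : ∀ x, x ≠ 0 → Tendsto (Rs (off p (kapS A q)) x phi0) (𝓝[>] 0)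
      (𝓝 (((N p / (N p + 1) : ℝ) : ℂ) * ρ x))) :
    ρ (r * p) * ((ab p ^ (1 / 3 : ℝ) : ℝ) : ℂ) =
      conj (cub 9 p) * cub r p * conj (g3 p) * ρ r := by
  have hr0 : r ≠ 0 := fun h => hr (h ▸ dvd_zero p)
  have hp0 := hp.ne_zero
  have hN := N_pos hp0
  have hP := PS.of_prime hp h1
  have h2 := hk_rel A q hp h1 (r := r) 2 (fun j hj => ?_) (hρ _ hr0)
    (fun j => hσ _ (mul_ne_zero hr0 (pow_ne_zero _ hp0)))
  swap
  · rw [gauss_prime_pow' hp h1 (by omega), if_neg]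
    exact fun h => hr ((dvd_pow_self p (by omega)).trans h)
  obtain ⟨u, hu, hu'⟩ : ∃ u : ℝ, 0 < u ∧ ab p = u ^ 3 :=
    ⟨ab p ^ (1 / 3 : ℝ), Real.rpow_pos_of_pos (ab_pos hp0) _, by
      rw [← Real.rpow_natCast, ← Real.rpow_mul (ab_nonneg p)]; norm_num⟩
  have hNu : N p = (u ^ 2) ^ 3 := by rw [← ab_sq, hu']; ring
  have h4 : (u : ℂ) ≠ 0 := by exact_mod_cast hu.ne'
  have e1 : r2co p r 1 = cub 9 p * conj (cub r p) * g3 p / (u : ℂ) ^ 5 := by
    simp only [r2co, pow_one]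
    rw [gauss_cub' hP, hu', hNu, r2_rpow _ (by positivity)]
    push_cast
    field_simp
  simp only [Finset.sum_range_succ, Finset.sum_range_zero, r2co_zero, e1, pow_zero, pow_one,
    mul_one] at h2
  have h5 : (u : ℂ) ^ 6 + 1 ≠ 0 := by exact_mod_cast (by positivity : u ^ 6 + 1 ≠ 0)
  rw [hNu, ← pow_mul] at h2
  push_cast at h2
  field_simp at h2
  have h6 : ρ r = cub 9 p * conj (cub r p) * g3 p * u * ρ (r * p) := by linear_combination h2
  have n1 : ∀ z : ℂ, ‖z‖ = 1 → conj z * z = 1 := fun z hz => by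
    rw [mul_comm, Complex.mul_conj, Complex.normSq_eq_norm_sq, hz]
    simp
  have k1 := n1 _ (norm_cub (r2_cop_nine h1).symm)
  have k2 := n1 _ (norm_cub (hp.coprime_iff_not_dvd.2 hr).symm)
  have k3 := n1 _ (norm_g3' hP)
  rw [hu', r2_rpow _ hu.le, h6]
  calc _ = (conj (cub 9 p) * cub 9 p) * (conj (cub r p) * cub r p) * (conj (g3 p) * g3 p) *
        (ρ (r * p) * u) := by rw [k1, k2, k3]; ring
    _ = _ := by ring

end Vale.Agent.P006
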