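import Vale.Agent.P006.GKz
import Vale.Agent.P026.L2
import Vale.Agent.P026.Res2
import Vale.Agent.P006.HeckeB

/-! The theta function with Hecke relations at all primary primes. The theorems M0_pos and
exists_theta are in HeckeA. -/

namespace Vale.Agent.P006

open Vale.Agent.P026 Eis Complex MeasureTheory Filter Topology
open scoped Classical ComplexConjugate

/-- Copy res_shape (with the explicit m = π / M), P026.Res2A (with gK_prime_pow', gK_mul_prime',
gauss_prime_pow', gauss_prime_cube', gauss_prime_zero', gauss_cub') and exists_isCoef. -/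
theorem exists_TH : ∃ θ tau, TH θ tau := by
  obtain ⟨θ, hθ, hoff⟩ := exists_theta
  obtain ⟨M, hM, hM'⟩ := M0_pos
  have h := hk_shape hM hM'
  have hm : 0 < Real.pi / M := div_pos Real.pi_pos hM
  set m := Real.pi / M with hmd
  have hV : (V9 : ℂ) ≠ 0 := by exact_mod_cast V9_pos.ne'
  have hme : ∀ s : SL, Measurable fun Q => θ (act s Q) := fun s =>
    hθ.meas.comp (continuous_act s).measurable
  let ρ : (Eis → Eis → ℂ) → Eis → ℂ := fun k r => limUnder (𝓝[>] 0) (Rs k r phi0)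
  have h1 : ∀ A q r, r ≠ 0 → Tendsto (Rs (kapS A q) r phi0) (𝓝[>] 0) (𝓝 (ρ (kapS A q) r)) ∧
      ∀ᵐ p ∂(volume.restrict DE), ∫ z in F9, θ (act (sig A q) (pt z p.1 p.2)) * conj (eR r z) =
        (m : ℂ) * ρ (kapS A q) r * ((p.1 ^ (-(2 / 3) : ℝ) * p.2 ^ (-(1 / 3) : ℝ) *
          kk (c0 * ab r * (√p.2 / p.1)) : ℝ) : ℂ) := by
    intro A q r hr
    obtain ⟨x, k1, k2⟩ := h _ (adm_kapS A q) _ (hme _) (hθ.conv A q) r hr
    have k3 : ρ (kapS A q) r = x := k1.limUnder_eq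
    rw [k3]
    exact ⟨k1, k2⟩
  have h2 : ∀ A q p, Prime p → Prim p → ∀ r, r ≠ 0 →
      Tendsto (Rs (off p (kapS A q)) r phi0) (𝓝[>] 0)
        (𝓝 (((N p / (N p + 1) : ℝ) : ℂ) * ρ (kapS A q) r)) := by
    intro A q p hp hp1 r hr
    obtain ⟨x, k1, k2⟩ := h _ (adm_off p (adm_kapS A q)) _ ((hme _).const_mul _)
      (hoff A q p hp hp1) r hr
    obtain ⟨y, hy, k3, k4⟩ := r2_exists (k2.and (h1 A q r hr).2)
    have hD : 0 < y.1 := hy.1
    have hE : 0 < y.2 := one_pos.trans_le hy.2.1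
    have k5 := kk_pos (c0 * ab r * (√y.2 / y.1))
    simp only [mul_assoc (((N p / (N p + 1) : ℝ) : ℂ))] at k3
    rw [integral_const_mul, k4, ← mul_assoc] at k3
    have k6 := mul_right_cancel₀ (by exact_mod_cast (by positivity)) k3
    rw [mul_left_comm] at k6
    rwa [mul_left_cancel₀ (by exact_mod_cast hm.ne') k6]
  have h3 : ∀ A q p, Prime p → Prim p → ∀ r, r ≠ 0 →
      ρ (kapS A q) (r * p ^ 3) = ρ (kapS A q) r := by
    intro A q p hp hp1 r hr
    have k1 := h2 A q p hp hp1 _ (mul_ne_zero hr (pow_ne_zero 3 hp.ne_zero))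
    have hN := N_pos hp.ne_zero
    rw [hk_Rs_cube A q hp hp1] at k1
    exact mul_left_cancel₀ (by exact_mod_cast (by positivity))
      (tendsto_nhds_unique k1 (h2 A q p hp hp1 r hr))
  let tau : Eis → Eis → Eis → ℂ := fun A q r =>
    m * ρ (kapS A q) r * ((ab r ^ (1 / 3 : ℝ) : ℝ) : ℂ) / V9
  have h0 : ∀ A q, tau A q 0 = 0 := fun A q => by simp [tau, ab]
  have h4 : ∀ A q r, r ≠ 0 → ∀ᵐ p ∂(volume.restrict DE),
      ∫ z in F9, θ (act (sig A q) (pt z p.1 p.2)) * conj (eR r z) =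
        (V9 : ℂ) * (tau A q r / (ab r : ℂ)) *
          ((p.2 ^ (-(2 / 3) : ℝ) * kap (ab r * (√p.2 / p.1)) : ℝ) : ℂ) := by
    intro A q r hr
    filter_upwards [(h1 A q r hr).2, ae_restrict_mem measurableSet_DE] with p hp hp'
    have hD : 0 < p.1 := hp'.1
    have hE : 0 < p.2 := one_pos.trans_le hp'.2.1
    have ha := ab_pos hr
    have k1 : p.1 ^ (-(2 / 3) : ℝ) * p.2 ^ (-(1 / 3) : ℝ) * ab r =
        ab r ^ (1 / 3 : ℝ) * (p.2 ^ (-(2 / 3) : ℝ) * (ab r * (√p.2 / p.1)) ^ (2 / 3 : ℝ)) := by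
      rw [Real.mul_rpow ha.le (by positivity), Real.div_rpow (by positivity) hD.le,
        Real.sqrt_eq_rpow, ← Real.rpow_mul hE.le, Real.rpow_neg hD.le,
        show (-(1 / 3) : ℝ) = -(2 / 3) + 1 / 2 * (2 / 3) by norm_num, Real.rpow_add hE]
      conv_lhs => rw [← Real.rpow_one (ab r), show (1 : ℝ) = 1 / 3 + 2 / 3 by norm_num,
        Real.rpow_add ha]
      ring_nf
    have k2 : ((ab r : ℝ) : ℂ) ≠ 0 := by exact_mod_cast ha.ne'
    have k3 := congrArg (fun x : ℝ => (x : ℂ)) k1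
    rw [hp]
    simp only [tau, kap, mul_assoc c0]
    generalize kk (c0 * (ab r * (√p.2 / p.1))) = K
    generalize (ab r * (√p.2 / p.1)) ^ (2 / 3 : ℝ) = Z at k3 ⊢
    generalize ρ (kapS A q) r = x
    push_cast at k3 ⊢
    field_simp
    linear_combination m * x * K * k3
  have hk : Hk tau := by
    refine ⟨fun A q r p hp hp1 => ?_, fun A q r p hp hp1 hr => ?_, fun A q r p hp hp1 hr => ?_⟩
    · by_cases hr : r = 0
      · rw [hr, zero_mul, h0, mul_zero]
      · simp only [tau]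
        rw [h3 A q p hp hp1 r hr, ab_mul, ab_pow,
          Real.mul_rpow (ab_nonneg _) (pow_nonneg (ab_nonneg _) _), r2_rpow _ (ab_nonneg _)]
        push_cast
        ring
    · have hr0 : r ≠ 0 := fun h => hr (h ▸ dvd_zero p)
      simp only [tau]
      rw [hk_sq A q hp hp1 hr (fun x hx => (h1 A q x hx).1) (h2 A q p hp hp1)
        (h3 A q p hp hp1 _ (mul_ne_zero hr0 (pow_ne_zero 2 hp.ne_zero)))]
      simp
    · have k1 := hk_one A q hp hp1 hr (fun x hx => (h1 A q x hx).1) (h2 A q p hp hp1)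
      simp only [tau]
      rw [ab_mul, Real.mul_rpow (ab_nonneg _) (ab_nonneg _)]
      push_cast
      linear_combination m * ((ab r ^ (1 / 3 : ℝ) : ℝ) : ℂ) / V9 * k1
  refine ⟨θ, tau, hθ, ⟨h0, ?_, fun A q A' q' hA hq => ?_, fun A q r p hp hp1 => hk.cube A q r p hp hp1.1,
    fun A q r p hp hp1 => hk.sq A q r p hp hp1.1, fun A q r p hp hp1 => hk.one A q r p hp hp1.1, h4,
    r2_const hθ⟩, hk, fun A q r hr => ?_⟩
  · obtain ⟨C, hC⟩ := r2_bound hθ
    refine ⟨C, fun A q r => ?_⟩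
    by_cases hr : r = 0
    · rw [hr, h0]
      simp [ab]
    · exact hC _ r _ hr (h4 A q r hr)
  · have k1 : kapS A q = kapS A' q' := by
      funext c d
      unfold kapS
      rw [sig_congr hA hq]
    simp only [tau, k1]
  · have ha := ab_pos hr
    have k1 : tau A q r * ((V9 * ab r ^ (-(1 / 3) : ℝ) / Real.pi : ℝ) : ℂ) * M0 =
        ρ (kapS A q) r := by
      have k2 : (((ab r) ^ (1 / 3 : ℝ) : ℝ) : ℂ) ≠ 0 := by
        exact_mod_cast (Real.rpow_pos_of_pos ha _).ne'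
      have k3 : (M : ℂ) ≠ 0 := by exact_mod_cast hM.ne'
      have k4 : (Real.pi : ℂ) ≠ 0 := by exact_mod_cast Real.pi_ne_zero
      simp only [tau]
      rw [hM', hmd, Real.rpow_neg ha.le]
      generalize (ab r) ^ (1 / 3 : ℝ) = x at k2 ⊢
      push_cast
      field_simp
    rw [k1]
    exact (h1 A q r hr).1

theorem TH.eq_zero {θ : HF → ℂ} {tau : Eis → Eis → Eis → ℂ} (h : TH θ tau) {A q r : Eis}
    (h0 : ∀ c, gK (kapS A q) r c = 0) : tau A q r = 0 := by
  by_cases hr : r = 0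
  · rw [hr, h.isC.zero]
  have h1 := h.lim A q r hr
  have h2 : Rs (kapS A q) r phi0 = fun _ => 0 := by
    funext t
    simp [Rs, h0]
  rw [h2] at h1
  have h3 := tendsto_nhds_unique h1 tendsto_const_nhds
  obtain ⟨M, hM, hM'⟩ := M0_pos
  have hV := V9_pos
  have ha := ab_pos hr
  have hpi := Real.pi_pos
  have h4 : ((V9 * ab r ^ (-(1 / 3) : ℝ) / Real.pi : ℝ) : ℂ) ≠ 0 :=
    Complex.ofReal_ne_zero.2 (by positivity)
  have h5 : M0 ≠ 0 := by
    rw [hM']
    exact Complex.ofReal_ne_zero.2 hM.ne'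
  exact (mul_eq_zero.1 ((mul_eq_zero.1 h3).resolve_right h5)).resolve_right h4
theorem TH.supp_inf {θ : HF → ℂ} {tau : Eis → Eis → Eis → ℂ} (h : TH θ tau) {r : Eis}
    (hr : ¬ (3 : Eis) ∣ r) : tau 0 1 r = 0 :=
  h.eq_zero fun c => by rw [gK_inf, if_neg fun h' => hr h'.2]
theorem TH.supp_one {θ : HF → ℂ} {tau : Eis → Eis → Eis → ℂ} (h : TH θ tau) (j : Eis) {r : Eis}
    (hr : ¬ lam ∣ r) : tau 1 j r = 0 :=
  h.eq_zero (gK_one_supp j hr)

theorem hk_ab_one : ab 1 = 1 := by simp [ab]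

theorem hk_tau_cube {tau : Eis → Eis → Eis → ℂ} (h : Hk tau) (A q r : Eis) {d : Eis} (hd : Prim d) :
    tau A q (r * d ^ 3) = (ab d : ℂ) * tau A q r := by
  refine Prim.induction (Pr := fun d => tau A q (r * d ^ 3) = (ab d : ℂ) * tau A q r) ?_
    (fun p x hp h1 _ ih => ?_) hd
  · simp [hk_ab_one]
  · rw [show r * (p * x) ^ 3 = r * x ^ 3 * p ^ 3 by ring, h.cube _ _ _ _ hp h1, ih, ab_mul]
    push_cast
    ring

theorem hk_tau_sq {tau : Eis → Eis → Eis → ℂ} (h : Hk tau) (A q : Eis) {s e : Eis}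
    (hs : ∀ p, Prime p → Prim p → ¬ p ∣ s) (he : PS e) :
    tau A q (s * e) = tau A q s * conj (cub 9 e) * cub s e * conj (g3 e) := by
  refine PS.induction (Pr := fun e =>
    tau A q (s * e) = tau A q s * conj (cub 9 e) * cub s e * conj (g3 e)) ?_
    (fun p x hp h1 hx hpx ih => ?_) he
  · simp [cub_one_right, g3_one]
  · have h4 : conj (cub p x ^ 2) = cub x p := by
      rw [map_pow, conj_cub, ← pow_mul, cub_pow_four, cub_recip h1 hx.1]
    rw [show s * (p * x) = s * x * p by ring,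
      h.one _ _ _ _ hp h1 (hp.not_dvd_mul (hs p hp h1) hpx), ih,
      g3_mul' (PS.of_prime hp h1) hx (hp.coprime_iff_not_dvd.2 hpx),
      cub_mul_right _ hp.ne_zero hx.ne_zero, cub_mul_right _ hp.ne_zero hx.ne_zero,
      cub_mul_left _ _ h1.not_lam_dvd, map_mul, map_mul, map_mul, h4]
    ring

/-- Model: tau_struct, tau_supp in P026.Struct; s has no primary prime factor. -/
theorem Hk.struct {tau : Eis → Eis → Eis → ℂ} (h : Hk tau) (A q : Eis) {s e d : Eis}
    (hs : ∀ p, Prime p → Prim p → ¬ p ∣ s) (he : PS e) (hd : Prim d) :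
    tau A q (s * e * d ^ 3) = tau A q s * conj (cub 9 e) * cub s e * conj (g3 e) * (ab d : ℂ) := by
  rw [hk_tau_cube h A q _ hd, hk_tau_sq h A q hs he, mul_comm]
theorem Hk.supp {tau : Eis → Eis → Eis → ℂ} (h : Hk tau) (A q : Eis) {s x : Eis}
    (hs : ∀ p, Prime p → Prim p → ¬ p ∣ s) (hx : Prim x) (h0 : tau A q (s * x) ≠ 0) :
    ∃ e d, PS e ∧ Prim d ∧ x = e * d ^ 3 := by
  rcases cube_or' hx with h1 | ⟨p, y, k, hp, h1, -, hy, rfl⟩
  · exact h1
  · refine absurd ?_ h0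
    rw [show s * (y * p ^ 2 * (p ^ 3) ^ k) = s * y * p ^ 2 * (p ^ k) ^ 3 by ring,
      hk_tau_cube h A q _ (h1.pow k),
      h.sq _ _ _ _ hp h1 (hp.not_dvd_mul (hs p hp h1) hy), mul_zero]
theorem Hk.three {tau : Eis → Eis → Eis → ℂ} (h : Hk tau) (A q : Eis) {n : Eis} (hn : Prim n) :
    tau A q (3 * n) = tau A q 3 * th n := by
  have hs : ∀ p, Prime p → Prim p → ¬ p ∣ 3 := fun p hp h1 =>
    hp.coprime_iff_not_dvd.1 h1.coprime_three
  by_cases h1 : ∃ e d, PS e ∧ Prim d ∧ n = e * d ^ 3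
  · obtain ⟨e, d, he, hd, rfl⟩ := h1
    have k1 : cub 9 e = cub 3 e * cub 3 e := by
      rw [← cub_mul_left _ _ he.1.not_lam_dvd]
      norm_num
    have k2 : cub 3 e * conj (cub 3 e) = 1 := by
      rw [conj_cub]
      linear_combination cub_cube he.1.coprime_three.symm
    rw [← mul_assoc, h.struct A q hs he hd, th_eq he hd, G, if_pos he, k1, map_mul, map_mul]
    linear_combination tau A q 3 * conj (cub 3 e) * conj (g3 e) * (ab d : ℂ) * k2
  · have k1 : tau A q (3 * n) = 0 := by_contra fun h0 => h1 (h.supp A q hs hn h0)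
    have k2 : th n = 0 := by_contra fun h0 => h1 (th_ne_zero h0)
    rw [k1, k2, mul_zero]
theorem Hk.norm_le {tau : Eis → Eis → Eis → ℂ} (h : Hk tau) (A q : Eis) {s x : Eis}
    (hs : ∀ p, Prime p → Prim p → ¬ p ∣ s) (hx : Prim x) :
    ‖tau A q (s * x)‖ = ‖tau A q s‖ * ‖th x‖ := by
  by_cases h1 : ∃ e d, PS e ∧ Prim d ∧ x = e * d ^ 3
  · obtain ⟨e, d, he, hd, rfl⟩ := h1
    have k1 : IsCoprime e s := by_contra fun h0 => by
      obtain ⟨p, hp, h2, -, h3⟩ := (not_cop_iff he.1).1 h0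
      exact hs p hp h2 h3
    rw [← mul_assoc, h.struct A q hs he hd, th_eq he hd]
    simp only [norm_mul, Complex.norm_conj]
    rw [norm_cub (r2_cop_nine he.1).symm, norm_cub k1.symm, norm_g3' he, norm_G he]
    ring
  · have k1 : tau A q (s * x) = 0 := by_contra fun h0 => h1 (h.supp A q hs hx h0)
    have k2 : th x = 0 := by_contra fun h0 => h1 (th_ne_zero h0)
    rw [k1, k2, norm_zero, mul_zero]

end Vale.Agent.P006
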