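import Vale.Agent.P006.GKz
import Vale.Agent.P026.L2
import Vale.Agent.P026.Res2

/-! The theta function: equidistribution among lines at all primary primes. -/

namespace Vale.Agent.P006

open Vale.Agent.P026 Eis Complex MeasureTheory Filter Topology
open scoped Classical ComplexConjugate

theorem M0_pos : ∃ M : ℝ, 0 < M ∧ M0 = M := r1M_phi0

theorem hk_G_lim {β : HF → ENNReal} (hβ : IsBeta β) {p : Eis} (hp : Prime p) (h1 : Prim p) :
    Tendsto (fun t => ∫⁻ Q, β Q * ENNReal.ofReal (l2G p t Q) ∂nu) (𝓝[>] 0) (𝓝 0) := by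
  obtain ⟨hl, B, hB⟩ := rs_one 0
  rw [kapS_one_zero] at hl hB
  rw [if_pos (show Ess 0 from Or.inl (dvd_zero 3))] at hl
  obtain ⟨hl', B', hB'⟩ := rs_off hp h1
  generalize 9 * Z0 = l at hl hl'
  have a1 := (l2I_lim adm_kap0 l2_kap00 (fun s _ => l2_sigma_kap0 s) hB hl).comp
    (tendsto_id.prodMk tendsto_id)
  have ho0 : off p kap0 0 0 = 0 := by simp [off]
  have a2 := (l2I_lim (adm_off p adm_kap0) ho0 (fun s _ => by
    simp [off, (Real.exp_pos _).le]) hB' hl').comp (tendsto_id.prodMk tendsto_id)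
  have hN : (0 : ℝ) < N p + 1 := by have := N_nonneg p; positivity
  have hN' : ((N p + 1 : ℝ) : ℂ) ≠ 0 := by exact_mod_cast hN.ne'
  have a3 := ((a1.sub a2).div_const 9).sub ((a1.div_const 9).div_const ((N p + 1 : ℝ) : ℂ))
  have e0 : (Real.pi * (l * l2c) - Real.pi * (((l * (N p / (N p + 1)) : ℝ) : ℂ) * l2c)) / 9
      - Real.pi * (l * l2c) / 9 / ((N p + 1 : ℝ) : ℂ) = 0 := by
    push_cast at hN' ⊢
    field_simp
    ring
  rw [e0] at a3
  have a4 := ENNReal.tendsto_ofReal ((Complex.continuous_re.tendsto _).comp a3)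
  simp only [Complex.zero_re, ENNReal.ofReal_zero] at a4
  refine a4.congr' ?_
  filter_upwards [self_mem_nhdsWithin] with t ht
  have hl00 : lin p (0, 1) kap0 0 0 = 0 := by simp [lin, l2_kap00]
  have iL := l2F_int (l2_norm_lin p (0, 1) norm_kap0_le) hl00 ht ht
  obtain ⟨i1, e1⟩ := integral_unfold hβ (l2F_meas _ t t) iL
  obtain ⟨i2, e2⟩ := l2_pair hβ ht ht
  have e3 : ∫ Q, l2F (lin p (0, 1) kap0) t t Q ∂nu =
      ∫ Q, l2F kap0 t t Q ∂nu - ∫ Q, l2F (off p kap0) t t Q ∂nu := by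
    rw [← integral_sub (l2F_int norm_kap0_le l2_kap00 ht ht)
      (l2F_int (adm_off p adm_kap0).1 ho0 ht ht)]
    refine integral_congr_ae ?_
    filter_upwards [l2_ae_slab] with Q hQ
    simp only [l2F, l2_Es_off p norm_kap0_le ht hQ]; ring
  have hae : (fun Q => (((t ^ (4 / 3 : ℝ) * t ^ (4 / 3 : ℝ) : ℝ) : ℂ) / 9) *
      (((β Q).toReal : ℂ) * ∑' g : G3, l2F (lin p (0, 1) kap0) t t (act g Q)) -
      ((β Q).toReal : ℂ) * (l2T kap0 t Q * conj (l2T kap0 t Q)) / ((N p + 1 : ℝ) : ℂ)) =ᵐ[nu]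
      fun Q => (((β Q).toReal * l2G p t Q : ℝ) : ℂ) := by
    filter_upwards [l2_ae_slab] with Q hQ
    rw [Complex.ofReal_mul (β Q).toReal, l2G_eq hp ht hQ]; ring
  have i3 := ((i1.const_mul _).sub (i2.div_const _)).congr hae
  have i4 : Integrable (fun Q => (β Q).toReal * l2G p t Q) nu := by
    simpa using i3.re
  have e4 : ((∫ Q, (β Q).toReal * l2G p t Q ∂nu : ℝ) : ℂ) =
      (l2I kap0 t t - l2I (off p kap0) t t) / 9 - l2I kap0 t t / 9 / ((N p + 1 : ℝ) : ℂ) := by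
    rw [← integral_complex_ofReal]
    rw [← integral_congr_ae hae]
    rw [integral_sub (i1.const_mul _) (i2.div_const _), integral_const_mul, integral_div, e1, e2, e3]
    unfold l2I; ring
  have hG : ∀ Q, 0 ≤ l2G p t Q := fun Q => Finset.sum_nonneg fun l _ => by positivity
  simp only [Function.comp_def, id]
  rw [← e4, Complex.ofReal_re, ofReal_integral_eq_lintegral_ofReal i4
    (Eventually.of_forall fun Q => mul_nonneg ENNReal.toReal_nonneg (hG Q))]
  refine lintegral_congr fun Q => ?_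
  rw [ENNReal.ofReal_mul ENNReal.toReal_nonneg, ENNReal.ofReal_toReal
    (lt_of_le_of_lt (hβ.2.1 Q) ENNReal.one_lt_top).ne]

theorem hk_conv_off {θ : HF → ℂ} (hθ : IsTheta θ) (A q p : Eis) (hp : Prime p) (hp1 : Prim p) :
    Conv (off p (kapS A q)) (fun Q => ((N p / (N p + 1) : ℝ) : ℂ) * θ (act (sig A q) Q)) := by
  intro D1 D2 h1 h2
  obtain ⟨β, hβ⟩ := exists_beta
  have hθm := hθ.meas
  have hconv : Tendsto (fun t => ∫⁻ Q in box D1 D2,
      ‖l2T kap0 t (act (sig A q) Q) - θ (act (sig A q) Q)‖ₑ ^ 2) (𝓝[>] 0) (𝓝 0) := by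
    simp only [l2T_sig]
    exact hθ.conv A q D1 D2 h1 h2
  set s := sig A q with hs
  have hprim : ¬ (p ∣ (row (0, 1) s⁻¹).1 ∧ p ∣ (row (0, 1) s⁻¹).2) := by
    rintro ⟨a1, a2⟩
    simp only [row, SL.inv_a, SL.inv_b, SL.inv_c, SL.inv_d, zero_mul, one_mul, zero_add,
      dvd_neg] at a1 a2
    apply hp.not_dvd_one
    rw [← s.det]
    exact dvd_sub (a2.mul_right _) (a1.mul_left _)
  obtain ⟨l, hl, hl2, -⟩ := l2_exists_line hp hprim
  have hlin := l2_lin_eq hp hprim (l2_prim_Lam hp hl) hl2 kap0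
  have hE : ∀ t Q, l2T (lin p l kap0) t (act s Q) = l2T (lin p (0, 1) (kapS A q)) t Q := by
    intro t Q
    unfold l2T
    rw [← hlin, Es_act]
    congr 2
    funext c d
    rw [l2_lin_row, ← row_mul, inv_mul_cancel, row_one]
    rfl
  have hG := l2_box_lim hβ (G := fun t Q => ENNReal.ofReal (l2G p t Q))
    (fun t => (l2G_meas p t).ennreal_ofReal) (fun t ht g hg => by
      filter_upwards [l2_ae_slab] with Q hQ
      rw [l2G_inv hp ht hQ hg]) (hk_G_lim hβ hp hp1) s h1 h2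
  have h3 := (ENNReal.Tendsto.const_mul (a := 2) hconv (Or.inr (by simp))).add
    (ENNReal.Tendsto.const_mul (a := 2) hG (Or.inr (by simp)))
  simp only [mul_zero, add_zero] at h3
  refine tendsto_of_tendsto_of_tendsto_of_le_of_le' tendsto_const_nhds h3
    (Eventually.of_forall fun _ => bot_le) ?_
  filter_upwards [self_mem_nhdsWithin] with t ht
  have hma : Measurable (act s) := (continuous_act s).measurable
  have m1 : Measurable fun Q => ‖l2T kap0 t (act s Q) - θ (act s Q)‖ₑ ^ 2 := by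
    have := (l2T_meas kap0 t).comp hma
    have := hθm.comp hma
    fun_prop
  have m2 : Measurable fun Q => ENNReal.ofReal (l2G p t (act s Q)) :=
    ((l2G_meas p t).comp hma).ennreal_ofReal
  rw [← lintegral_const_mul _ m1, ← lintegral_const_mul _ m2,
    ← lintegral_add_left (m1.const_mul _)]
  refine setLIntegral_mono' (measurableSet_box D1 D2) fun Q hQ => ?_
  have hN := N_nonneg p
  have hN' : ((N p + 1 : ℝ) : ℂ) ≠ 0 := by
    have : (0 : ℝ) < N p + 1 := by positivity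
    exact_mod_cast this.ne'
  have e1 : ((t ^ (4 / 3 : ℝ) : ℝ) : ℂ) * Es (off p (kapS A q)) t Q -
      ((N p / (N p + 1) : ℝ) : ℂ) * θ (act s Q) =
      ((N p / (N p + 1) : ℝ) : ℂ) * (l2T kap0 t (act s Q) - θ (act s Q)) -
        (l2T (lin p l kap0) t (act s Q) - l2T kap0 t (act s Q) / ((N p + 1 : ℝ) : ℂ)) := by
    rw [hE, hs, l2T_sig]
    unfold l2T
    rw [l2_Es_off p (adm_kapS A q).1 ht hQ.1]
    push_cast at hN' ⊢
    field_simp
    ring
  rw [e1]
  refine le_trans (l2_enorm_split _ _ (by positivity)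
    (div_le_one_of_le₀ (by linarith) (by positivity))) ?_
  gcongr
  unfold l2G
  exact Finset.single_le_sum (f := fun l => ‖l2T (lin p l kap0) t (act s Q) -
    l2T kap0 t (act s Q) / ((N p + 1 : ℝ) : ℂ)‖ ^ 2) (fun _ _ => by positivity) hl

/-- Copy l2G_lim (P026.L2C) using rs_one 0 (kapS_one_zero) and rs_off, then copy exists_isTheta. -/
theorem exists_theta : ∃ θ, IsTheta θ ∧ ∀ A q p, Prime p → Prim p →
    Conv (off p (kapS A q)) (fun Q => ((N p / (N p + 1) : ℝ) : ℂ) * θ (act (sig A q) Q)) := by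
  obtain ⟨θ, hθ⟩ := exists_isTheta
  exact ⟨θ, hθ, hk_conv_off hθ⟩

theorem hk_shape {M : ℝ} (hM : 0 < M) (hM' : r1M phi0 = M) :
    ∀ (k : Eis → Eis → ℂ), Adm k → ∀ f : HF → ℂ, Measurable f →
    Conv k f → ∀ r : Eis, r ≠ 0 → ∃ ρ : ℂ, Tendsto (Rs k r phi0) (𝓝[>] 0) (𝓝 ρ) ∧
      ∀ᵐ p ∂(volume.restrict DE), ∫ z in F9, f (pt z p.1 p.2) * conj (eR r z) =
        ((Real.pi / M : ℝ) : ℂ) * ρ * ((p.1 ^ (-(2 / 3) : ℝ) * p.2 ^ (-(1 / 3) : ℝ) *
          kk (c0 * ab r * (√p.2 / p.1)) : ℝ) : ℂ) := by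
  intro k hk f hf hc r hr
  have h0 : (fun c => gK k r c / (N c : ℂ)) 0 = 0 := by simp
  have ha : 0 < c0 * ab r := mul_pos c0_pos (ab_pos hr)
  obtain ⟨ρ, hρ⟩ : ∃ ρ, Tendsto (r1S (fun c => gK k r c / (N c : ℂ)) phi0) (𝓝[>] 0) (𝓝 ρ) := by
    have h1 := (r1_lim hk hf hc hr ha (D2 := 2 * (c0 * ab r)) (by linarith)).2 _ (r1_measB _ _)
      subset_rfl
    have h2 : Tendsto (fun t : ℝ => c0 * ab r * t) (𝓝[>] 0) (𝓝[>] 0) := by
      refine tendsto_nhdsWithin_of_tendsto_nhds_of_eventually_within _ ?_ ?_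
      · have : Tendsto (fun t : ℝ => c0 * ab r * t) (𝓝 0) (𝓝 (c0 * ab r * 0)) :=
          tendsto_id.const_mul _
        rw [mul_zero] at this
        exact this.mono_left nhdsWithin_le_nhds
      · filter_upwards [self_mem_nhdsWithin] with t ht using mul_pos ha ht
    refine ⟨_, ((h1.comp h2).const_mul (((c0 * ab r) ^ (-(4 / 3) : ℝ) : ℝ) : ℂ)).congr' ?_⟩
    filter_upwards [self_mem_nhdsWithin] with t ht
    exact (r1S_scale h0 ha ht).symm
  refine ⟨ρ, hρ, ?_⟩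
  have hU : DE = ⋃ n : ℕ, r1B (1 / (n + 1)) (n + 1) := by
    ext p
    simp only [Set.mem_iUnion]
    constructor
    · rintro ⟨h1, h2⟩
      have h1' : 0 < p.1 := h1
      obtain ⟨n, hn⟩ := exists_nat_ge (max p.1 p.1⁻¹)
      refine ⟨n, ⟨?_, by linarith [le_max_left p.1 p.1⁻¹]⟩, h2⟩
      rw [one_div, inv_le_comm₀ (by positivity) h1']
      linarith [le_max_right p.1 p.1⁻¹]
    · rintro ⟨n, h1, h2⟩
      exact ⟨lt_of_lt_of_le (by positivity) h1.1, h2⟩
  rw [hU, ae_restrict_iUnion_iff]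
  intro n
  have hD : (0 : ℝ) < 1 / (n + 1) := by positivity
  have hD' : (1 : ℝ) / (n + 1) ≤ n + 1 := by
    rw [div_le_iff₀ (by positivity)]
    nlinarith [(Nat.cast_nonneg n : (0 : ℝ) ≤ n)]
  obtain ⟨i1, l1⟩ := r1_lim hk hf hc hr hD hD'
  have i2 := ((r1M_phi (a := c0 * ab r) hD hD' (r1_measB _ _) subset_rfl).1).const_mul
    (((Real.pi / M : ℝ) : ℂ) * ρ)
  have key := Integrable.ae_eq_of_forall_setIntegral_eq _ _ i1 i2 fun s hs _ => by
    rw [Measure.restrict_restrict hs, integral_const_mul]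
    have hs' := hs.inter (r1_measB (1 / (n + 1)) (n + 1))
    have h1 := r1_conv h0 (r1_gam hk r) (r1_phi0 ▸ r1T_phi one_pos one_le_two subset_rfl)
      (r1T_phi hD hD' Set.inter_subset_right) hρ (l1 _ hs' Set.inter_subset_right)
    rw [hM', (r1M_phi hD hD' hs' Set.inter_subset_right).2] at h1
    have hM0 : (M : ℂ) ≠ 0 := by exact_mod_cast hM.ne'
    have hpi : (Real.pi : ℂ) ≠ 0 := by exact_mod_cast Real.pi_ne_zero
    rw [ofReal_div, mul_assoc, mul_comm ρ, h1]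
    field_simp
  filter_upwards [key, ae_restrict_mem (r1_measB _ _)] with p hp hpB
  have hp0 : (p.1 : ℂ) ≠ 0 := by exact_mod_cast (hD.trans_le hpB.1.1).ne'
  refine mul_left_cancel₀ hp0 (hp.trans ?_)
  rw [ofReal_mul p.1, r1K]
  ring

end Vale.Agent.P006
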