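import Vale.Agent.P006.T1TA

/-! The tail of the sieve as a bilinear form. -/

namespace Vale.Agent.P006

open Vale.Agent.P026 Eis Complex MeasureTheory Filter Topology
open scoped Classical ComplexConjugate

theorem t1t_ev (A C : ℝ) {e : ℝ} (he : 0 < e) :
    ∀ᶠ X : ℝ in atTop, A * Real.log X ^ C ≤ X ^ e := by
  filter_upwards [((isLittleO_log_rpow_rpow_atTop C he).const_mul_left A).eventuallyLE,
    eventually_ge_atTop 0] with X h h0
  rw [Real.norm_of_nonneg (Real.rpow_nonneg h0 _)] at h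
  exact (le_abs_self _).trans h

theorem t1t_ev0 (A : ℝ) {e : ℝ} (he : 0 < e) : ∀ᶠ X : ℝ in atTop, A ≤ X ^ e :=
  (tendsto_rpow_atTop he).eventually_ge_atTop A

theorem t1t_le {X a b : ℝ} (hX : 1 ≤ X) (n : ℕ) (h : a + b ≤ n) : X ^ a * X ^ b ≤ X ^ n := by
  rw [← Real.rpow_add (by linarith), ← Real.rpow_natCast]
  exact Real.rpow_le_rpow_of_exponent_le hX h

theorem t1t_D {X K D : ℝ} (hX : 1 ≤ X) (h1 : X ^ (-(1 / 2) : ℝ) ≤ K) (h2 : K ≤ X ^ (27 / 50 : ℝ))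
    (h3 : K * D = X ^ (109 / 200 : ℝ)) :
    0 < K ∧ 0 < D ∧ X ^ (1 / 200 : ℝ) ≤ D ∧ D * X ^ (1 / 10 : ℝ) ≤ X ^ 2 := by
  have X0 : 0 < X := by linarith
  have K0 : 0 < K := (Real.rpow_pos_of_pos X0 _).trans_le h1
  have D0 : 0 < D := (mul_pos_iff_of_pos_left K0).1 (h3 ▸ Real.rpow_pos_of_pos X0 _)
  refine ⟨K0, D0, le_of_mul_le_mul_left ?_ K0, le_of_mul_le_mul_left ?_ K0⟩
  · rw [h3, show (109 / 200 : ℝ) = 27 / 50 + 1 / 200 by norm_num, Real.rpow_add X0]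
    gcongr
  · rw [← mul_assoc, h3, ← Real.rpow_add X0]
    refine le_trans ?_ (mul_le_mul_of_nonneg_right h1 (by positivity))
    rw [← Real.rpow_natCast, ← Real.rpow_add X0]
    exact Real.rpow_le_rpow_of_exponent_le hX (by norm_num)

/-- W2_conv; for each s use tri on pairs (k, δ) and primary m in ball (X ^ 2), the hypothesis of tri
coming from pair_push and bilw with A = K exp s, B = Y / exp s, Z = X ^ 20. Put u (k, δ) =
‖α k‖ ^ 2 vp (N k / K) w (N δ / exp s) ^ 2 vp (N δ / exp s), v m = w ^ 2 vp. For D < N δ ≤ D z one has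
(A + B + X ^ (2/3)) w (N δ / exp s) ^ 2 vp (N δ / exp s) ≤ C X ^ (2/3) exp s / N δ * lg (1/2) (N δ / exp s)
as K N δ is between X ^ (109/200) and X ^ (3/5); lg (1/2) is ≤ exp (- dist (s, [log D, log (D z)]) ^ 2 / 2);
∑ 1 / N δ is small by rank (D ≥ X ^ (1/200)). -/
theorem t1t (C : ℝ) : ∀ᶠ X : ℝ in atTop, ∀ (S : Finset Eis) (α : Eis → ℂ) (K Y t D : ℝ)
    (key : Eis → ℕ) (J : ℕ), X ^ (-(1 / 2) : ℝ) ≤ K → K ≤ X ^ (27 / 50 : ℝ) → K * Y = X →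
    K * D = X ^ (109 / 200 : ℝ) → Key (zz X) key J → (J : ℝ) ≤ Real.log X →
    (∀ k ∈ S, Ro (zz X) k ∧ N k ≤ X ^ 12) →
      ‖∑ k ∈ S, α k * ∑ δ ∈ (PB (D * zz X)).filter (Cr (zz X) D key), mu δ *
          ∑ m ∈ ball (X ^ 2), if kp (zz X) key m < kp (zz X) key δ then
            W2 Y t (δ * m) * Dl (k * (δ * m)) else 0‖ ≤
        √(nw S α K) * K ^ (-(1 / 2) : ℝ) * X ^ (5 / 6 : ℝ) * Real.log X ^ (-C) := by
  obtain ⟨C0, hC0, h⟩ := t1t_main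
  filter_upwards [rank (κ := 1 / 200) (by norm_num) (2 * (C + 4)), zz_le (κ := 1 / 10) (by norm_num),
    eventually_ge_atTop 3, Real.tendsto_log_atTop.eventually_ge_atTop 1,
    Real.tendsto_log_atTop.eventually_ge_atTop (252 * √C0)] with X hr hz hX hL hL'
  intro S α K Y t D key J hK1 hK2 hKY hKD hkey hJ hS
  have X1 : 1 ≤ X := by linarith
  have X0 : 0 < X := by linarith
  obtain ⟨K0, D0, D1, D2⟩ := t1t_D X1 hK1 hK2 hKD
  have Y0 : 0 < Y := (mul_pos_iff_of_pos_left K0).1 (hKY ▸ X0)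
  have z0 : 0 < zz X := Real.exp_pos _
  have m : ∀ δ ∈ (PB (D * zz X)).filter (Cr (zz X) D key), Smo (zz X) δ ∧ D < N δ ∧ N δ ≤ D * zz X :=
    fun δ hδ => have k := Finset.mem_filter.1 hδ; ⟨k.2.2.1, k.2.2.2.1, (mem_PB.1 k.1).2⟩
  have p20 : X ^ 12 * X ^ 2 ≤ X ^ 20 := by
    rw [← pow_add]; exact pow_le_pow_right₀ X1 (by norm_num)
  refine (h S _ α (kp (zz X) key) J X K Y t (zz X) (X ^ 20) (Real.log D) (Real.log X) (X ^ 2) K0 Y0
    (by positivity) hKY hL (fun k hk => (hS k hk).1) (fun δ hδ => ⟨(m δ hδ).1, kp_lt hkey δ, ?_, ?_⟩)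
    (fun δ hδ => ⟨Real.log_le_log D0 (m δ hδ).2.1.le, ?_⟩) fun k hk δ hδ => ?_).trans ?_
  · refine le_trans ?_ (mul_le_mul_of_nonneg_left (m δ hδ).2.1.le K0.le)
    rw [hKD]
    exact Real.rpow_le_rpow_of_exponent_le X1 (by norm_num)
  · refine (mul_le_mul_of_nonneg_left ((m δ hδ).2.2.trans
      (mul_le_mul_of_nonneg_left hz D0.le)) K0.le).trans ?_
    rw [← mul_assoc, hKD, ← Real.rpow_add X0]
    exact Real.rpow_le_rpow_of_exponent_le X1 (by norm_num)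
  · rw [← Real.log_mul D0.ne' X0.ne']
    refine Real.log_le_log (D0.trans (m δ hδ).2.1) ((m δ hδ).2.2.trans
      (mul_le_mul_of_nonneg_left (hz.trans ?_) D0.le))
    simpa using Real.rpow_le_rpow_of_exponent_le X1 (show (1 / 10 : ℝ) ≤ 1 by norm_num)
  · rw [N_mul]
    exact (mul_le_mul (hS k hk).2 ((m δ hδ).2.2.trans ((mul_le_mul_of_nonneg_left hz D0.le).trans D2))
      (N_nonneg _) (by positivity)).trans p20
  have k := hr _ fun δ hδ => ⟨(m δ hδ).1, D1.trans_lt (m δ hδ).2.1⟩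
  set L := Real.log X
  have L0 : 0 < L := by linarith
  have e1 : ell (X ^ 20) ≤ (21 * L) ^ 2 := by
    have : Real.log (3 + X ^ 20) ≤ 21 * L := by
      have h1 : 3 ≤ X ^ 20 := hX.trans (le_self_pow₀ X1 (by norm_num))
      have h2 : 3 + X ^ 20 ≤ X ^ 21 := by rw [pow_succ]; nlinarith
      simpa using Real.log_le_log (by positivity) h2
    refine (Real.rpow_le_rpow (Real.log_nonneg (by linarith [pow_pos X0 20])) this
      (by norm_num)).trans ?_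
    rw [← Real.rpow_natCast]
    exact Real.rpow_le_rpow_of_exponent_le (by linarith) (by norm_num)
  have e2 : X ^ (2 / 3 : ℝ) * Y = (K ^ (-(1 / 2) : ℝ) * X ^ (5 / 6 : ℝ)) ^ 2 := by
    rw [mul_pow, ← Real.rpow_mul_natCast K0.le, ← Real.rpow_mul_natCast X0.le,
      show (5 / 6 : ℝ) * (2 : ℕ) = 2 / 3 + 1 by norm_num, Real.rpow_add_one X0.ne',
      show (-(1 / 2) : ℝ) * (2 : ℕ) = -1 by norm_num, Real.rpow_neg_one]
    nth_rw 3 [← hKY]
    field_simp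
  have e3 : L ^ (-(2 * (C + 4))) = (L ^ (-C) / L ^ 4) ^ 2 := by
    rw [← Real.rpow_natCast L 4, ← Real.rpow_sub L0, ← Real.rpow_mul_natCast L0.le]
    congr 1; push_cast; ring
  have n0 := nw_nonneg S α K
  have e4 : √(C0 * ell (X ^ 20) * X ^ (2 / 3 : ℝ) * Y * nw S α K *
      ∑ δ ∈ (PB (D * zz X)).filter (Cr (zz X) D key), (N δ)⁻¹) ≤ √C0 * (21 * L) *
        (K ^ (-(1 / 2) : ℝ) * X ^ (5 / 6 : ℝ)) * √(nw S α K) * (L ^ (-C) / L ^ 4) := by
    refine Real.sqrt_le_iff.2 ⟨by positivity, ?_⟩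
    rw [mul_pow, mul_pow, mul_pow, mul_pow √C0, Real.sq_sqrt hC0.le, Real.sq_sqrt n0, ← e2, ← e3,
      mul_assoc _ _ Y]
    have := t1t_ell (pow_pos X0 20)
    gcongr
    exact Finset.sum_nonneg fun δ _ => inv_nonneg.2 (N_nonneg δ)
  calc _ ≤ L * (12 * L) * (√C0 * (21 * L) * (K ^ (-(1 / 2) : ℝ) * X ^ (5 / 6 : ℝ)) *
        √(nw S α K) * (L ^ (-C) / L ^ 4)) := by gcongr
    _ = √(nw S α K) * K ^ (-(1 / 2) : ℝ) * X ^ (5 / 6 : ℝ) * L ^ (-C) * (252 * √C0 / L) := by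
      field_simp
      ring
    _ ≤ _ := mul_le_of_le_one_right (by positivity) ((div_le_one L0).2 hL')
/-- Truncation errors: for δ ≠ 0 the terms with N (δ m) > X ^ 2 are negligible when Y ≤ X ^ (3/2)
(sum_lg_tail). -/
theorem trunc_le : ∀ᶠ X : ℝ in atTop, ∀ (Y : ℝ) (δ : Eis) (T : Finset Eis), 0 < Y →
    Y ≤ X ^ (3 / 2 : ℝ) → δ ≠ 0 → (∀ m ∈ T, X ^ 2 < N (δ * m)) →
      ∑ m ∈ T, lg (1 / 2) (N (δ * m) / Y) ≤ X ^ (-30 : ℝ) := by
  obtain ⟨C, hC, h⟩ := sum_lg_tail (c := 1 / 2) (by norm_num) 0 (by norm_num)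
  filter_upwards [eventually_ge_atTop 1, t1t_ev0 (C * Real.exp ((-64) ^ 2 / (4 * (1 / 2 / 2))))
    (show (0 : ℝ) < 1 / 2 by norm_num)] with X X1 hX Y δ T Y0 hY hδ hT
  have X0 : 0 < X := by linarith
  have r : X ^ (1 / 2 : ℝ) ≤ X ^ 2 / Y := by
    rw [le_div_iff₀ Y0]
    exact (mul_le_mul_of_nonneg_left hY (by positivity)).trans (t1t_le X1 2 (by norm_num))
  have k := h Y (X ^ 2 / Y) Y0 ((Real.one_le_rpow X1 (by norm_num)).trans r) (T.image (δ * ·))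
    fun n hn => by
      obtain ⟨m, hm, rfl⟩ := Finset.mem_image.1 hn
      rw [div_mul_cancel₀ _ Y0.ne']
      exact (hT m hm).le
  rw [Finset.sum_image (mul_right_injective₀ hδ).injOn] at k
  simp only [Real.rpow_zero, one_mul, zero_add, Real.rpow_one] at k
  have q := Real.rpow_le_rpow_of_nonpos (by positivity) r (show (-64 : ℝ) ≤ 0 by norm_num)
  rw [← Real.rpow_mul X0.le] at q
  calc _ ≤ C * X ^ (3 / 2 : ℝ) * (Real.exp ((-64) ^ 2 / (4 * (1 / 2 / 2))) * X ^ (1 / 2 * -64 : ℝ)) :=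
        k.trans (mul_le_mul (mul_le_mul_of_nonneg_left hY hC.le) ((lg_le_rpow (by norm_num) (-64)
          (by positivity)).trans (mul_le_mul_of_nonneg_left q (Real.exp_pos _).le)) (lg_pos _ _).le
          (by positivity))
    _ = C * Real.exp ((-64) ^ 2 / (4 * (1 / 2 / 2))) * (X ^ (3 / 2 : ℝ) * X ^ (1 / 2 * -64 : ℝ)) := by
      ring
    _ ≤ X ^ (1 / 2 : ℝ) * (X ^ (3 / 2 : ℝ) * X ^ (1 / 2 * -64 : ℝ)) := by gcongr
    _ = _ := by rw [← Real.rpow_add X0, ← Real.rpow_add X0]; norm_num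

theorem t1t_tail : ∀ᶠ X : ℝ in atTop, ∀ (Y t : ℝ) (k δ : Eis) (f : Eis → ℂ) (U : Finset Eis), 0 < Y →
    Y ≤ X ^ (3 / 2 : ℝ) → δ ≠ 0 → (∀ m, ‖f m‖ ≤ ‖W2 Y t (δ * m) * Dl (k * (δ * m))‖) →
    ball (X ^ 2 / N δ) ⊆ U →
      ‖∑ m ∈ U, f m - ∑ m ∈ ball (X ^ 2 / N δ), f m‖ ≤ (1 + cs) * X ^ (-30 : ℝ) := by
  filter_upwards [trunc_le] with X h Y t k δ f U Y0 hY hδ hf hU
  have c0 := cs_pos
  have f0 : f 0 = 0 := by
    have := hf 0
    rwa [mul_zero, mul_zero, Dl_of_not fun k => k.ne_zero rfl, mul_zero, norm_zero,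
      norm_le_zero_iff] at this
  rw [← Finset.sum_sdiff_eq_sub hU, ← Finset.sum_erase _ f0]
  refine (norm_sum_le_of_le _ fun m _ => (hf m).trans (show _ ≤ (1 + cs) *
    lg (1 / 2) (N (δ * m) / Y) from ?_)).trans ?_
  · rw [norm_mul, norm_W2, mul_comm]
    exact mul_le_mul_of_nonneg_right (norm_Dl_le _) (lg_pos _ _).le
  rw [← Finset.mul_sum]
  refine mul_le_mul_of_nonneg_left (h Y δ _ Y0 hY hδ fun m hm => ?_) (by positivity)
  simp only [Finset.mem_erase, Finset.mem_sdiff, mem_ball, not_and, not_le] at hm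
  rw [N_mul, mul_comm]
  exact (div_lt_iff₀ (N_pos hδ)).1 (hm.2.2 hm.1)

theorem t1t_tsum : ∀ᶠ X : ℝ in atTop, ∀ (Y t : ℝ) (k δ : Eis), 0 < Y → Y ≤ X ^ (3 / 2 : ℝ) → δ ≠ 0 →
    ‖∑' m, W2 Y t (δ * m) * Dl (k * (δ * m)) -
      ∑ m ∈ ball (X ^ 2 / N δ), W2 Y t (δ * m) * Dl (k * (δ * m))‖ ≤ (1 + cs) * X ^ (-30 : ℝ) := by
  filter_upwards [t1t_tail] with X h Y t k δ Y0 hY hδ
  have s : Summable fun m => W2 Y t (δ * m) * Dl (k * (δ * m)) := by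
    refine Summable.of_norm_bounded (((summable_lg (c := 1 / 2) (by norm_num) 0 Y0).comp_injective
      (mul_right_injective₀ hδ)).mul_right (1 + cs)) fun m => ?_
    simp only [Function.comp, Real.rpow_zero, one_mul, norm_mul, norm_W2]
    exact mul_le_mul_of_nonneg_left (norm_Dl_le _) (lg_pos _ _).le
  exact le_of_tendsto (s.hasSum.sub_const _).norm ((eventually_ge_atTop (ball (X ^ 2 / N δ))).mono
    fun U hU => h Y t k δ _ U Y0 hY hδ (fun _ => le_rfl) hU)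

theorem t1t_err : ∃ C : ℝ, 0 < C ∧ ∀ (S Δ : Finset Eis) (α : Eis → ℂ) (E F : Eis → Eis → ℂ)
    (K X : ℝ), 1 ≤ X → 0 < K → K ≤ X → (0 : Eis) ∉ S → Δ ⊆ ball (X ^ 2) →
    (∀ k ∈ S, ∀ δ ∈ Δ, ‖E k δ - F k δ‖ ≤ (1 + cs) * X ^ (-30 : ℝ)) →
      ‖∑ k ∈ S, α k * ∑ δ ∈ Δ, mu δ * F k δ‖ ≤ ‖∑ k ∈ S, α k * ∑ δ ∈ Δ, mu δ * E k δ‖ +
        C * √(nw S α K) * K ^ (-(1 / 2) : ℝ) := by
  obtain ⟨C, hC, h⟩ := l1_le (b := 0) (by norm_num) (by norm_num)
  have c0 := cs_pos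
  refine ⟨C * (16 * (1 + cs)), by positivity, fun S Δ α E F K X X1 K0 hK hS hΔ hE => ?_⟩
  have X0 : 0 < X := by linarith
  refine norm_le_norm_add_norm_sub' _ _ |>.trans (add_le_add_right ?_ _)
  have k := h K K0 S α hS
  simp only [Real.rpow_zero, mul_one, zero_add] at k
  rw [norm_sub_rev]
  simp only [← Finset.sum_sub_distrib, ← mul_sub]
  have b : (Δ.card : ℝ) ≤ 16 * X ^ 2 :=
    (Nat.cast_le.2 (Finset.card_le_card hΔ)).trans (card_ball_le (by positivity))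
  refine (norm_sum_le_of_le _ fun k hk => show _ ≤ ‖α k‖ * (16 * X ^ 2 * ((1 + cs) *
    X ^ (-30 : ℝ))) from ?_).trans ?_
  · rw [norm_mul]
    refine mul_le_mul_of_nonneg_left ((norm_sum_le_of_le _ fun δ hδ => show _ ≤ (1 + cs) *
      X ^ (-30 : ℝ) from ?_).trans ?_) (norm_nonneg _)
    · rw [norm_mul]
      exact (mul_le_of_le_one_left (norm_nonneg _) (norm_mu_le _)).trans (hE k hk δ hδ)
    · rw [Finset.sum_const, nsmul_eq_mul]
      gcongr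
  rw [← Finset.sum_mul]
  have e : X * X ^ 2 * X ^ (-30 : ℝ) ≤ 1 := by
    rw [← pow_succ', ← Real.rpow_natCast]
    simpa using t1t_le (a := (2 + 1 : ℕ)) (b := -30) X1 0 (by norm_num)
  calc _ ≤ C * √(nw S α K) * (K ^ (-(1 / 2) : ℝ) * X) * (16 * X ^ 2 * ((1 + cs) * X ^ (-30 : ℝ))) := by
        refine mul_le_mul_of_nonneg_right (k.trans (mul_le_mul_of_nonneg_left ?_ (by positivity)))
          (by positivity)
        rw [show (1 / 2 : ℝ) = -(1 / 2) + 1 by norm_num, Real.rpow_add_one K0.ne']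
        norm_num
        gcongr
    _ = C * (16 * (1 + cs)) * √(nw S α K) * K ^ (-(1 / 2) : ℝ) * (X * X ^ 2 * X ^ (-30 : ℝ)) := by
      ring
    _ ≤ _ := mul_le_of_le_one_right (by positivity) e

theorem t1t_Y {X K Y : ℝ} (hX : 1 ≤ X) (h1 : X ^ (-(1 / 2) : ℝ) ≤ K) (h2 : K * Y = X) :
    0 < K ∧ 0 < Y ∧ Y ≤ X ^ (3 / 2 : ℝ) := by
  have X0 : 0 < X := by linarith
  have K0 : 0 < K := (Real.rpow_pos_of_pos X0 _).trans_le h1
  refine ⟨K0, (mul_pos_iff_of_pos_left K0).1 (h2 ▸ X0), le_of_mul_le_mul_left ?_ K0⟩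
  refine le_trans ?_ (mul_le_mul_of_nonneg_right h1 (by positivity))
  rw [h2, ← Real.rpow_add X0]
  norm_num

theorem t1t_head (hT : TP cs) {κ : ℝ} (hκ : 0 < κ) (hκ' : κ ≤ 1 / 100) : ∃ C : ℝ, 0 < C ∧
    ∀ᶠ X : ℝ in atTop, ∀ (S : Finset Eis) (α : Eis → ℂ) (K Y t z D : ℝ), X ^ (-(1 / 2) : ℝ) ≤ K →
    K * Y = X → 1 ≤ D → (1 + |t|) ^ 2 * (K * D) ≤ X ^ (2 / 3 - κ) →
    (1 + |t|) ^ 2 * (K * D) ^ (3 / 2 : ℝ) ≤ X ^ (5 / 6 - κ) → |t| ≤ X ^ (1 / 5 : ℝ) →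
    (∀ k ∈ S, Ro z k ∧ N k ≤ X ^ 12) →
      ‖∑ k ∈ S, α k * ∑ δ ∈ (PB D).filter (Smo z), mu δ *
          ∑ m ∈ ball (X ^ 2 / N δ), W2 Y t (δ * m) * Dl (k * (δ * m))‖ ≤
        C * √(nw S α K) * K ^ (-(1 / 2) : ℝ) * X ^ (5 / 6 - κ / 10) := by
  obtain ⟨C1, hC1, h1⟩ := t1s hT hκ hκ'
  obtain ⟨C2, hC2, h2⟩ := t1t_err
  refine ⟨C1 + C2, by positivity, ?_⟩
  filter_upwards [eventually_ge_atTop 1, t1t_tsum] with X X1 h3 S α K Y t z D hK hY hD a1 a2 a3 hS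
  obtain ⟨K0, Y0, Y1⟩ := t1t_Y X1 hK hY
  have b1 : K * D ≤ X := by
    have := Real.rpow_le_rpow_of_exponent_le X1 (show 2 / 3 - κ ≤ 1 by linarith)
    rw [Real.rpow_one] at this
    exact (le_mul_of_one_le_left (by positivity) (one_le_pow₀ (by linarith [abs_nonneg t]))).trans
      (a1.trans this)
  have b2 : D ≤ X ^ 2 := by
    have := (Real.rpow_le_rpow_of_exponent_le X1 (show (-1 : ℝ) ≤ -(1 / 2) by norm_num)).trans hK
    rw [Real.rpow_neg_one, inv_le_iff_one_le_mul₀' (by linarith)] at this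
    nlinarith
  refine (h2 S _ α (fun k δ => ∑' m, W2 Y t (δ * m) * Dl (k * (δ * m))) _ K X X1 K0 (by nlinarith)
    (fun k => (hS 0 k).1.1.ne_zero rfl) ((Finset.filter_subset _ _).trans ((PB_subset _).trans
      (ball_mono b2))) fun k _ δ hδ => h3 Y t k δ Y0 Y1
        (Finset.mem_filter.1 hδ).2.1.ne_zero).trans ?_
  rw [add_mul, add_mul, add_mul]
  exact add_le_add (h1 S α X K Y t z D X1 hK hY hD a1 a2 a3 hS)
    (le_mul_of_one_le_right (by positivity) (Real.one_le_rpow X1 (by linarith)))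

theorem t1t_swap (M : ℝ) (g : Eis → Eis → ℂ) (F : Eis → ℂ) :
    ∑ n ∈ ball M, (∑ δ ∈ dv n, g δ (n / δ)) * F n =
      ∑ δ ∈ PB M, ∑ m ∈ ball (M / N δ), g δ m * F (δ * m) := by
  simp only [Finset.sum_mul]
  rw [sum_dv_swap subset_rfl]
  refine Finset.sum_congr rfl fun δ hδ => ?_
  have d := (mem_PB.1 hδ).1.ne_zero
  rw [sum_ball_dvd d]
  simp only [lp_mul_div d]

theorem t1t_RS {X z D : ℝ} {key : Eis → ℕ} {J : ℕ} (h : Key z key J) (hD : 1 ≤ D)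
    (h1 : D ≤ X ^ 2) (h2 : D * z ≤ X ^ 2) (Y t : ℝ) {k : Eis} (hk : Prim k) : RS X z Y t k =
      ∑ δ ∈ (PB D).filter (Smo z), mu δ *
          ∑ m ∈ ball (X ^ 2 / N δ), W2 Y t (δ * m) * Dl (k * (δ * m)) +
        ∑ δ ∈ (PB (D * z)).filter (Cr z D key), mu δ * ∑ m ∈ ball (X ^ 2 / N δ),
          if kp z key m < kp z key δ then W2 Y t (δ * m) * Dl (k * (δ * m)) else 0 := by
  have e : RS X z Y t k = ∑ n ∈ ball (X ^ 2), (∑ δ ∈ dv n, if Smo z δ ∧ N δ ≤ D then mu δ else 0) *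
      (W2 Y t n * Dl (k * n)) + ∑ n ∈ ball (X ^ 2), (∑ δ ∈ dv n, if Cr z D key δ ∧
        kp z key (n / δ) < kp z key δ then mu δ else 0) * (W2 Y t n * Dl (k * n)) := by
    rw [RS, ← Finset.sum_add_distrib]
    refine Finset.sum_congr rfl fun n _ => ?_
    by_cases hn : PS n
    · rw [buch h hD hn]; ring
    · rw [Dl_of_not fun q => hn (PS.of_mul hk q).2.1]; simp
  rw [e, t1t_swap _ fun δ _ => if Smo z δ ∧ N δ ≤ D then mu δ else 0,
    t1t_swap _ fun δ m => if Cr z D key δ ∧ kp z key m < kp z key δ then mu δ else 0]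
  congr 1
  · refine (Finset.sum_subset ((Finset.filter_subset (Smo z) _).trans (PB_mono h1))
      fun δ a b => Finset.sum_eq_zero fun m _ => ?_).symm.trans (Finset.sum_congr rfl fun δ a => ?_)
    · rw [if_neg fun q => b (Finset.mem_filter.2 ⟨mem_PB.2 ⟨(mem_PB.1 a).1, q.2⟩, q.1⟩), zero_mul]
    · rw [if_pos ⟨(Finset.mem_filter.1 a).2, (mem_PB.1 (Finset.mem_filter.1 a).1).2⟩, Finset.mul_sum]
  · refine (Finset.sum_subset ((Finset.filter_subset (Cr z D key) _).trans (PB_mono h2))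
      fun δ a b => Finset.sum_eq_zero fun m _ => ?_).symm.trans (Finset.sum_congr rfl fun δ a => ?_)
    · rw [if_neg fun q => b (Finset.mem_filter.2
        ⟨mem_PB.2 ⟨(mem_PB.1 a).1, q.1.le (by linarith)⟩, q.1⟩), zero_mul]
    · rw [Finset.mul_sum]
      refine Finset.sum_congr rfl fun m _ => ?_
      by_cases q : kp z key m < kp z key δ
      · rw [if_pos q, if_pos ⟨(Finset.mem_filter.1 a).2, q⟩]
      · rw [if_neg q, if_neg fun q' => q q'.2, zero_mul, mul_zero]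

theorem t1t_key : ∀ᶠ X : ℝ in atTop, ∃ key, Key (zz X) key ⌊Real.log X⌋₊ := by
  filter_upwards [zz_le (κ := 1 / 10) (by norm_num), eventually_ge_atTop 1,
    t1t_ev0 40 (show (0 : ℝ) < 2 / 5 by norm_num)] with X hz X1 h
  refine exists_key _ _ ?_ (Real.exp_pos _).le
  have X0 : 0 < X := by linarith
  have a1 : 1 ≤ X ^ (1 / 10 : ℝ) := Real.one_le_rpow X1 (by norm_num)
  have a2 : X ^ (1 / 10 : ℝ) * X ^ (2 / 5 : ℝ) ≤ 2 ^ ⌊Real.log X⌋₊ * 2 := by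
    rw [← Real.rpow_add X0, ← pow_succ, ← Real.rpow_natCast, Real.rpow_def_of_pos X0,
      Real.rpow_def_of_pos two_pos]
    have := Nat.lt_floor_add_one (Real.log X)
    have := Real.log_nonneg X1
    have := Real.log_two_gt_d9
    push_cast
    exact Real.exp_le_exp.2 (by nlinarith)
  nlinarith
/-- buch in RS (only squarefree m matter), sum_dv_swap, trunc_le, t1s with κ = 1/100 and
D = X ^ (109/200) / K, t1t with J = ⌊log X⌋. -/
theorem t1l (hT : TP cs) (A C : ℝ) : ∀ᶠ X : ℝ in atTop, ∀ (S : Finset Eis) (α : Eis → ℂ)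
    (K Y t : ℝ), X ^ (-(1 / 2) : ℝ) ≤ K → K ≤ X ^ (27 / 50 : ℝ) → K * Y = X →
    |t| ≤ Real.log X ^ A → (∀ k ∈ S, Ro (zz X) k ∧ N k ≤ X ^ 12) →
      ‖∑ k ∈ S, α k * RS X (zz X) Y t k‖ ≤
        √(nw S α K) * K ^ (-(1 / 2) : ℝ) * X ^ (5 / 6 : ℝ) * Real.log X ^ (-C) := by
  obtain ⟨C1, hC1, h1⟩ := t1t_head hT (κ := 1 / 100) (by norm_num) le_rfl
  obtain ⟨C2, hC2, h2⟩ := t1t_err
  filter_upwards [h1, t1t (C + 1), t1t_tail, t1t_key, zz_le (κ := 1 / 10) (by norm_num),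
    eventually_ge_atTop 1, Real.tendsto_log_atTop.eventually_ge_atTop 2,
    t1t_ev 2 A (show (0 : ℝ) < 1 / 400 by norm_num), t1t_ev0 2 (show (0 : ℝ) < 1 / 400 by norm_num),
    t1t_ev (2 * (C1 + C2)) C (show (0 : ℝ) < 1 / 100 / 10 by norm_num)]
    with X h1 h3 h4 ⟨key, hkey⟩ hz X1 hL a1 a2 a3 S α K Y t hK hK' hY ht hS
  have X0 : 0 < X := by linarith
  obtain ⟨K0, Y0, Y1⟩ := t1t_Y X1 hK hY
  obtain ⟨D, hD⟩ : ∃ D, K * D = X ^ (109 / 200 : ℝ) := ⟨_, mul_div_cancel₀ _ K0.ne'⟩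
  obtain ⟨-, D0, D1, D2⟩ := t1t_D X1 hK hK' hD
  have D3 : 1 ≤ D := (Real.one_le_rpow X1 (by norm_num)).trans D1
  have D4 : D * zz X ≤ X ^ 2 := (mul_le_mul_of_nonneg_left hz D0.le).trans D2
  have b1 : (1 + |t|) ^ 2 ≤ X ^ (1 / 200 : ℝ) := by
    rw [show (1 / 200 : ℝ) = 1 / 400 * (2 : ℕ) by norm_num, Real.rpow_mul_natCast X0.le]
    exact pow_le_pow_left₀ (by positivity) (by linarith) 2
  have k1 := h1 S α K Y t (zz X) D hK hY D3 (by
      rw [hD]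
      refine (mul_le_mul_of_nonneg_right b1 (by positivity)).trans ?_
      rw [← Real.rpow_add X0]
      exact Real.rpow_le_rpow_of_exponent_le X1 (by norm_num)) (by
      rw [hD]
      refine (mul_le_mul_of_nonneg_right b1 (by positivity)).trans ?_
      rw [← Real.rpow_mul X0.le, ← Real.rpow_add X0]
      exact Real.rpow_le_rpow_of_exponent_le X1 (by norm_num)) (by
      have := Real.rpow_le_rpow_of_exponent_le X1 (show (1 / 400 : ℝ) ≤ 1 / 5 by norm_num)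
      linarith) hS
  have k2 := (h2 S ((PB (D * zz X)).filter (Cr (zz X) D key)) α _ _ K X X1 K0 (hK'.trans (by
      simpa using Real.rpow_le_rpow_of_exponent_le X1 (show (27 / 50 : ℝ) ≤ 1 by norm_num)))
    (fun k => (hS 0 k).1.1.ne_zero rfl) ((Finset.filter_subset _ _).trans ((PB_subset _).trans
      (ball_mono D4))) fun k _ δ hδ => h4 Y t k δ (fun m => if kp (zz X) key m < kp (zz X) key δ then
        W2 Y t (δ * m) * Dl (k * (δ * m)) else 0) (ball (X ^ 2)) Y0 Y1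
        (Finset.mem_filter.1 hδ).2.1.ne_zero (fun m => by
          split_ifs
          exacts [le_rfl, norm_zero.trans_le (norm_nonneg _)])
        (ball_mono (div_le_self (by positivity) (one_le_N (Finset.mem_filter.1 hδ).2.1.ne_zero)))).trans
    (add_le_add_left (h3 S α K Y t D key _ hK hK' hY hD hkey
      (Nat.floor_le (by linarith)) hS) _)
  rw [Finset.sum_congr rfl fun k hk => by
    rw [t1t_RS hkey D3 ((le_mul_of_one_le_right D0.le (Real.one_le_rpow X1 (by norm_num))).trans D2)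
      D4 Y t (hS k hk).1.1, mul_add], Finset.sum_add_distrib]
  refine (norm_add_le_of_le k1 k2).trans ?_
  set L := Real.log X
  have L0 : 0 < L := by linarith
  have c1 : L ^ (-(C + 1)) ≤ L ^ (-C) / 2 := by
    rw [neg_add, ← sub_eq_add_neg, Real.rpow_sub_one L0.ne']
    gcongr
  have c2 : 1 ≤ X ^ (5 / 6 - 1 / 100 / 10 : ℝ) := Real.one_le_rpow X1 (by norm_num)
  have c3 : (C1 + C2) * X ^ (5 / 6 - 1 / 100 / 10 : ℝ) ≤ X ^ (5 / 6 : ℝ) * L ^ (-C) / 2 := by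
    rw [Real.rpow_sub X0, Real.rpow_neg L0.le, ← mul_div_assoc,
      div_le_div_iff₀ (by positivity) two_pos, mul_assoc (X ^ _), mul_comm (C1 + C2), mul_assoc]
    refine mul_le_mul_of_nonneg_left ?_ (by positivity)
    rw [le_inv_mul_iff₀ (by positivity)]
    linarith
  have s0 : 0 ≤ √(nw S α K) * K ^ (-(1 / 2) : ℝ) := by positivity
  have d1 := mul_le_mul_of_nonneg_left c1 (mul_nonneg s0 (Real.rpow_nonneg X0.le (5 / 6)))
  have d2 := mul_le_mul_of_nonneg_left c2 (mul_nonneg hC2.le s0)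
  have d3 := mul_le_mul_of_nonneg_left c3 s0
  linarith
/-- t1s with z = 1, D = 1, κ = 1/1000, and trunc_le. -/
theorem t1h (hT : TP cs) : ∀ᶠ X : ℝ in atTop, ∀ (S : Finset Eis) (α : Eis → ℂ) (K Y t : ℝ),
    X ^ (-(1 / 2) : ℝ) ≤ K → K * Y = X → (1 + |t|) ^ 2 * K ≤ X ^ (2 / 3 - 1 / 1000 : ℝ) →
    (1 + |t|) ^ 2 * K ^ (3 / 2 : ℝ) ≤ X ^ (5 / 6 - 1 / 1000 : ℝ) → |t| ≤ X ^ (1 / 5 : ℝ) →
    (∀ k ∈ S, Prim k ∧ N k ≤ X ^ 12) →
      ‖∑ k ∈ S, α k * RS X 1 Y t k‖ ≤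
        √(nw S α K) * K ^ (-(1 / 2) : ℝ) * X ^ (5 / 6 - 1 / 20000 : ℝ) := by
  obtain ⟨C, hC, h⟩ := t1t_head hT (κ := 1 / 1000) (by norm_num) (by norm_num)
  filter_upwards [h, eventually_ge_atTop 1, t1t_ev0 C (show (0 : ℝ) < 1 / 20000 by norm_num)]
    with X h X1 a S α K Y t hK hY a1 a2 a3 hS
  have X0 : 0 < X := by linarith
  have K0 := (t1t_Y X1 hK hY).1
  have e : (PB 1).filter (Smo 1) = {1} := by
    ext δ
    simp only [Finset.mem_filter, mem_PB, smo_one_iff, Finset.mem_singleton]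
    exact ⟨fun q => q.2, fun q => ⟨q ▸ ⟨PS.one, N_one.le⟩, q⟩⟩
  have k := h S α K Y t 1 1 hK hY le_rfl (by rwa [mul_one]) (by rwa [mul_one]) a3
    fun k hk => ⟨ro_one_iff.2 (hS k hk).1, (hS k hk).2⟩
  simp only [e, Finset.sum_singleton, mu_one, one_mul, N_one, div_one] at k
  rw [Finset.sum_congr rfl fun k hk => show α k * RS X 1 Y t k =
    α k * ∑ m ∈ ball (X ^ 2), W2 Y t m * Dl (k * m) from ?_]
  · refine k.trans ?_
    rw [show (5 / 6 - 1 / 20000 : ℝ) = 1 / 20000 + (5 / 6 - 1 / 1000 / 10) by norm_num,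
      Real.rpow_add X0]
    calc _ = √(nw S α K) * K ^ (-(1 / 2) : ℝ) * (C * X ^ (5 / 6 - 1 / 1000 / 10 : ℝ)) := by ring
      _ ≤ _ := by gcongr
  · refine congrArg _ (Finset.sum_congr rfl fun m _ => ?_)
    by_cases q : Prim m
    · rw [if_pos (ro_one_iff.2 q), one_mul]
    · rw [Dl_of_not fun q' => q ((hS k hk).1.of_mul q'.1), mul_zero, mul_zero]

end Vale.Agent.P006
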