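import Vale.Agent.P006.HLS
import Vale.Agent.P006.T1T
import Vale.Agent.P006.Box
import Vale.Agent.P006.Comb

/-! Boxes at large height, on average over a window. -/

namespace Vale.Agent.P006

open Vale.Agent.P026 Eis Complex MeasureTheory Filter Topology
open scoped Classical ComplexConjugate

theorem hb_nw : ∃ (C : ℝ) (k : ℕ), 1 ≤ C ∧ ∀ X : ℝ, 3 ≤ X → ∀ (ty : Fin 6 → Fin 3) (ρ : Fin 6 → ℝ)
    (t : ℝ) (I : Finset (Fin 6)),
      nw (fI X 1 ty ρ t I).coeff.support (fI X 1 ty ρ t I).coeff (Real.exp (∑ i ∈ I, ρ i)) ≤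
        C * Real.log X ^ k * Real.exp (∑ i ∈ I, ρ i) := by
  obtain ⟨C, k, hC, h⟩ := nv_one
  refine ⟨2 * (C + 1) ^ 6, k * 6, by nlinarith [one_le_pow₀ (n := 6) (show 1 ≤ C + 1 by linarith)],
    fun X hX ty ρ t I => (np _ _ _ _ _ _).trans ?_⟩
  have l1 : 1 ≤ Real.log X := by
    rw [Real.le_log_iff_exp_le (by linarith)]
    linarith [Real.exp_one_lt_d9]
  have l2 : 1 ≤ Real.log X ^ k := one_le_pow₀ l1
  have a1 : ∏ i ∈ I, nv X 1 (ty i) (ρ i) ≤ ∏ i ∈ I, (C + 1) * Real.log X ^ k * Real.exp (ρ i) :=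
    Finset.prod_le_prod (fun i _ => nv_nonneg _ _ _ _) fun i _ => (h X hX (ty i) (ρ i)).trans (by
      nlinarith [mul_pos (Real.exp_pos (ρ i)) (one_pos.trans_le l2)])
  rw [Finset.prod_mul_distrib, Finset.prod_const, ← Real.exp_sum] at a1
  have a2 : ((C + 1) * Real.log X ^ k) ^ I.card ≤ ((C + 1) * Real.log X ^ k) ^ 6 :=
    pow_le_pow_right₀ (by nlinarith) (by simpa using I.card_le_univ)
  have a3 := mul_le_mul_of_nonneg_right a2 (Real.exp_pos (∑ i ∈ I, ρ i)).le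
  rw [mul_pow _ _ 6, ← pow_mul] at a3
  linarith

theorem hb_avg {g : ℝ → ℂ} (hg : Continuous g) {M W : ℝ} (hM : ∀ τ, ‖g τ‖ ≤ M) (hW : 0 < W)
    (μ : Measure ℝ) [IsProbabilityMeasure μ] (h : ∫ τ, ‖g τ‖ ^ 2 ∂μ ≤ W ^ 2) :
    ∫⁻ τ, ‖g τ‖ₑ ∂μ ≤ ENNReal.ofReal W := by
  have i1 : Integrable g μ := Integrable.of_bound hg.aestronglyMeasurable M (ae_of_all _ hM)
  have i2 : Integrable (fun τ => ‖g τ‖ ^ 2) μ :=
    Integrable.of_bound (hg.norm.pow 2).aestronglyMeasurable (M ^ 2) (ae_of_all _ fun τ => by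
      rw [norm_pow, norm_norm]; exact pow_le_pow_left₀ (norm_nonneg _) (hM τ) 2)
  rw [← ofReal_integral_norm_eq_lintegral_enorm i1]
  refine ENNReal.ofReal_le_ofReal ?_
  calc _ ≤ ∫ τ, (‖g τ‖ ^ 2 / (2 * W) + W / 2) ∂μ :=
        integral_mono i1.norm ((i2.div_const _).add (integrable_const _)) fun τ => by
          dsimp only
          rw [div_add' _ _ _ (by positivity), le_div_iff₀ (by positivity)]
          nlinarith [sq_nonneg (‖g τ‖ - W)]
    _ = (∫ τ, ‖g τ‖ ^ 2 ∂μ) / (2 * W) + W / 2 := by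
        rw [integral_add (i2.div_const _) (integrable_const _), integral_div, integral_const,
          probReal_univ, one_smul]
    _ ≤ W ^ 2 / (2 * W) + W / 2 := by gcongr
    _ = W := by field_simp; norm_num

theorem hb_bd (S T : Finset Eis) (α β : Eis → ℂ) (τ : ℝ) :
    ‖Bil S T (tw α τ) (tw β τ)‖ ≤ ∑ a ∈ S, ∑ b ∈ T, ‖α a‖ * ‖β b‖ * (1 + cs) :=
  (norm_sum_le _ _).trans (Finset.sum_le_sum fun a _ => (norm_sum_le _ _).trans
    (Finset.sum_le_sum fun b _ => by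
      rw [norm_mul, norm_mul, norm_tw, norm_tw]
      exact mul_le_mul_of_nonneg_left (norm_Dl_le _) (by positivity)))

theorem hb_num {L u a : ℝ} (u0 : 0 ≤ u) (u1 : u ≤ L * (1 / 300)) (a1 : L / 3 - u / 2 ≤ a)
    (a2 : a ≤ L / 2) :
    Real.exp (L - a) / Real.exp u + Real.exp a * Real.exp u ^ 2 +
      ((Real.exp a * Real.exp (L - a)) ^ (2 / 3 : ℝ) + Real.exp (L - a) ^ (1 / 3 : ℝ) * Real.exp a) *
        Real.exp u ^ (-(1 / 12) : ℝ) +
      Real.exp (L - a) ^ (1 / 3 : ℝ) * Real.exp a ^ (3 / 5 : ℝ) * Real.exp u ^ 25 +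
      Real.exp a ^ (2 / 3 : ℝ) * Real.exp (L - a) ^ (1 / 6 : ℝ) ≤
      6 * Real.exp (L * (2 / 3) - u / 12) := by
  have k : ∀ x, x ≤ L * (2 / 3) - u / 12 → Real.exp x ≤ Real.exp (L * (2 / 3) - u / 12) :=
    fun x hx => Real.exp_le_exp.2 hx
  simp only [add_mul, ← Real.exp_add, ← Real.exp_sub, ← Real.exp_mul, ← Real.exp_nat_mul]
  push_cast
  have b1 := k (L - a - u) (by linarith)
  have b2 := k (a + 2 * u) (by linarith)
  have b3 := k (a * (2 / 3) + (L - a) * (2 / 3) + u * -(1 / 12)) (by linarith)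
  have b4 := k ((L - a) * (1 / 3) + a + u * -(1 / 12)) (by linarith)
  have b5 := k ((L - a) * (1 / 3) + a * (3 / 5) + 25 * u) (by linarith)
  have b6 := k (a * (2 / 3) + (L - a) * (1 / 6)) (by linarith)
  linarith

theorem hb_ev (K r : ℝ) {s : ℝ} (hs : 0 < s) : ∀ᶠ X : ℝ in atTop, K * Real.log X ^ r ≤ X ^ s := by
  filter_upwards [(isLittleO_log_rpow_rpow_atTop r hs).const_mul_left K |>.eventuallyLE,
    eventually_ge_atTop 0] with X h hX
  exact (Real.le_norm_self _).trans (h.trans_eq (Real.norm_of_nonneg (Real.rpow_nonneg hX _)))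

theorem hb_long (hT : TP cs) : ∀ᶠ X : ℝ in atTop, ∀ (ty : Fin 6 → Fin 3) (ρ : Fin 6 → ℝ) (t U : ℝ)
    (j : Fin 6), 1 ≤ U → U ≤ X ^ (1 / 300 : ℝ) → (1 + |t|) ^ 2 ≤ X ^ (1 / 3 - 1 / 1000 : ℝ) * √U →
    Good (Real.log X) ρ → 2 * Real.log X / 3 + Real.log U / 2 < ρ j →
      ‖Box X 1 ty ρ t‖ ≤ X ^ (5 / 6 : ℝ) * Real.log X ^ (-10 : ℝ) := by
  obtain ⟨C, k, hC, h⟩ := hb_nw
  filter_upwards [t1h hT, box_neg, eventually_ge_atTop 3, hb_ev 1 10 (s := 5 / 6) (by norm_num),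
    hb_ev C (k + 10) (s := 1 / 20000) (by norm_num),
    Real.tendsto_log_atTop.eventually_ge_atTop 1000] with X h1 h2 hX e1 e2 hL ty ρ t U j U1 U2 ht
    hG hj
  set L := Real.log X with hLd
  have X0 : 0 < X := by linarith
  have L0 : 0 < L := by linarith
  have u0 : 0 ≤ Real.log U := Real.log_nonneg U1
  have w0 : 0 < L ^ (10 : ℝ) := Real.rpow_pos_of_pos L0 _
  rw [Real.rpow_neg L0.le, ← div_eq_mul_inv, le_div_iff₀ w0]
  by_cases hty : ty j = 1
  swap
  · exact (mul_le_mul_of_nonneg_right (h2 1 ty ρ t j hG.1 hty (by linarith)) w0.le).trans e1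
  set s := ∑ i ∈ ({j}ᶜ : Finset (Fin 6)), ρ i with hs
  have s1 : ρ j + s = L := by
    rw [← hG.1, ← Finset.sum_add_sum_compl {j}, Finset.sum_singleton]
  have s2 : -(L / 2) ≤ s := by
    have a1 := Finset.card_nsmul_le_sum ({j}ᶜ : Finset (Fin 6)) ρ _ fun i _ => hG.2 i
    rw [Finset.card_compl, Finset.card_singleton, Fintype.card_fin, nsmul_eq_mul] at a1
    have a2 : 10 * L ^ (2 / 3 : ℝ) ≤ L ^ (1 / 3 : ℝ) * L ^ (2 / 3 : ℝ) := by
      refine mul_le_mul_of_nonneg_right ?_ (by positivity)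
      rw [one_div, Real.le_rpow_inv_iff_of_pos (by norm_num) L0.le (by norm_num)]
      norm_num
      exact hL
    rw [← Real.rpow_add L0] at a2
    norm_num at a1 a2
    linarith
  have eX : ∀ x, X ^ x = Real.exp (L * x) := fun x => Real.rpow_def_of_pos X0 x
  have eU : √U = Real.exp (Real.log U / 2) := by
    rw [Real.sqrt_eq_rpow, Real.rpow_def_of_pos (by linarith)]; congr 1; ring
  have u1 : Real.log U ≤ L * (1 / 300) := by
    rw [Real.log_le_iff_le_exp (by linarith), ← eX]; exact U2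
  rw [eX, eU, ← Real.exp_add] at ht
  have key := h1 (fI X 1 ty ρ t {j}ᶜ).coeff.support (fI X 1 ty ρ t {j}ᶜ).coeff (Real.exp s)
    (Real.exp (ρ j)) t (by rw [eX]; exact Real.exp_le_exp.2 (by linarith))
    (by rw [← Real.exp_add, add_comm, s1, Real.exp_log X0])
    (by
      refine (mul_le_mul_of_nonneg_right ht (Real.exp_pos s).le).trans ?_
      rw [eX, ← Real.exp_add]; exact Real.exp_le_exp.2 (by linarith))
    (by
      refine (mul_le_mul_of_nonneg_right ht (by positivity)).trans ?_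
      rw [eX, ← Real.exp_mul, ← Real.exp_add]; exact Real.exp_le_exp.2 (by linarith))
    (by
      have a1 : (1 + |t|) ^ 2 ≤ (X ^ (1 / 5 : ℝ)) ^ 2 := by
        rw [eX, ← Real.exp_nat_mul]
        exact ht.trans (Real.exp_le_exp.2 (by push_cast; linarith))
      linarith [(abs_le_of_sq_le_sq' a1 (by positivity)).2])
    fun n hn => by
      have := sup_fI (by linarith) 1 ty ρ t {j}ᶜ n (Finsupp.mem_support_iff.1 hn)
      exact ⟨this.1.1, this.2⟩
  rw [← box_one X 1 ty ρ t hty] at key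
  have a1 : √(nw (fI X 1 ty ρ t {j}ᶜ).coeff.support (fI X 1 ty ρ t {j}ᶜ).coeff (Real.exp s)) ≤
      C * L ^ k * Real.exp (s / 2) := by
    have b1 : 1 ≤ C * L ^ k := one_le_mul_of_one_le_of_one_le hC (one_le_pow₀ (by linarith))
    refine Real.sqrt_le_iff.2 ⟨by positivity, (h X hX ty ρ t _).trans ?_⟩
    rw [mul_pow _ (Real.exp _), ← Real.exp_nat_mul, show ((2 : ℕ) : ℝ) * (s / 2) = s by
      push_cast; ring]
    exact mul_le_mul_of_nonneg_right (by nlinarith) (Real.exp_pos s).le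
  rw [Real.rpow_add L0, Real.rpow_natCast] at e2
  calc _ ≤ C * L ^ k * Real.exp (s / 2) * Real.exp s ^ (-(1 / 2) : ℝ) *
        X ^ (5 / 6 - 1 / 20000 : ℝ) * L ^ (10 : ℝ) := by
        refine mul_le_mul_of_nonneg_right (key.trans ?_) w0.le
        gcongr
    _ = C * (L ^ k * L ^ (10 : ℝ)) * X ^ (5 / 6 - 1 / 20000 : ℝ) := by
        rw [← Real.exp_mul, mul_assoc (C * L ^ k), ← Real.exp_add,
          show s / 2 + s * -(1 / 2) = 0 by ring, Real.exp_zero]
        ring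
    _ ≤ X ^ (1 / 20000 : ℝ) * X ^ (5 / 6 - 1 / 20000 : ℝ) := by gcongr
    _ = _ := by rw [← Real.rpow_add X0]; norm_num

/-- Let τ = log U / 2. If some ρ j > 2 L / 3 + τ: box_neg, or box_one with t1h (K = X exp (- ρ j) ≤
X ^ (1/3) U ^ (-1/2)), np, nv_one, pointwise in t. Otherwise sub_exists gives I with A = exp (∑ over I)
between X ^ (1/3) U ^ (-1/2) and √X, B = X / A; window_le, Cauchy-Schwarz for the probability measure
muT U, box_split, bilH, np, nv_one. All terms of bilH are ≤ X ^ (2/3) U ^ (-1/12). -/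
theorem high_box (hT : TP cs) : ∃ A0 : ℝ, 0 < A0 ∧ ∀ᶠ X : ℝ in atTop,
    ∀ (ty : Fin 6 → Fin 3) (ρ : Fin 6 → ℝ) (t0 U : ℝ), Real.log X ^ A0 ≤ U →
    U ≤ X ^ (1 / 300 : ℝ) → (1 + |t0| + U) ^ 2 ≤ X ^ (1 / 3 - 1 / 1000 : ℝ) * √U →
    Good (Real.log X) ρ →
      ∫⁻ t in Set.Icc t0 (t0 + U), ‖Box X 1 ty ρ t‖ₑ ≤
        ENNReal.ofReal (U * X ^ (5 / 6 : ℝ) * Real.log X ^ (-10 : ℝ)) := by
  obtain ⟨C, k, hC, h⟩ := hb_nw
  obtain ⟨D, hD, hb⟩ := bilH
  refine ⟨12 * (2 * k + 24), by positivity, ?_⟩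
  filter_upwards [hb_long hT, eventually_ge_atTop 3, Real.tendsto_log_atTop.eventually_ge_atTop
    (max 1 (25 * (D * 13 ^ 3 * 6 * C ^ 2)))] with X h1 hX hL ty ρ t0 U U1 U2 ht hG
  obtain ⟨L1, L2⟩ := max_le_iff.1 hL
  set L := Real.log X with hLd
  have X0 : 0 < X := by linarith
  have L0 : 0 < L := by linarith
  have U3 : 1 ≤ U := (Real.one_le_rpow L1 (by positivity)).trans U1
  have U0 : 0 < U := by linarith
  have w0 : 0 < X ^ (5 / 6 : ℝ) * L ^ (-10 : ℝ) := by positivity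
  by_cases hj : ∃ j, 2 * L / 3 + Real.log U / 2 < ρ j
  · obtain ⟨j, hj⟩ := hj
    calc _ ≤ ∫⁻ _ in Set.Icc t0 (t0 + U), ENNReal.ofReal (X ^ (5 / 6 : ℝ) * L ^ (-10 : ℝ)) := by
          refine setLIntegral_mono' measurableSet_Icc fun t ht' => ?_
          rw [← ofReal_norm]
          refine ENNReal.ofReal_le_ofReal (h1 ty ρ t U j U3 U2 (le_trans ?_ ht) hG hj)
          have : |t| ≤ |t0| + U := abs_le.2 ⟨by linarith [neg_abs_le t0, ht'.1],
            by linarith [le_abs_self t0, ht'.2]⟩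
          exact pow_le_pow_left₀ (by positivity) (by linarith) 2
      _ = _ := by
          rw [setLIntegral_const, Real.volume_Icc, ← ENNReal.ofReal_mul w0.le]
          congr 1; ring
  push Not at hj
  have u0 : 0 ≤ Real.log U := Real.log_nonneg U3
  obtain ⟨I, a1, a2⟩ := sub_exists L0.le (by linarith) ρ hG.1 hj
  have eX : ∀ x, X ^ x = Real.exp (L * x) := fun x => Real.rpow_def_of_pos X0 x
  have u1 : Real.log U ≤ L * (1 / 300) := by
    rw [Real.log_le_iff_le_exp U0, ← eX]; exact U2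
  have s1 : ∑ i ∈ Iᶜ, ρ i = L - ∑ i ∈ I, ρ i := by
    rw [← hG.1, ← Finset.sum_add_sum_compl I, add_sub_cancel_left]
  have n1 := h X hX ty ρ t0 I
  have n2 := h X hX ty ρ t0 Iᶜ
  rw [s1] at n2
  set a := ∑ i ∈ I, ρ i with ha
  have key := hb (fI X 1 ty ρ t0 I).coeff.support (fI X 1 ty ρ t0 Iᶜ).coeff.support
    (fI X 1 ty ρ t0 I).coeff (fI X 1 ty ρ t0 Iᶜ).coeff (Real.exp a) (Real.exp (L - a)) (X ^ 12) U
    (Real.exp_pos _) (Real.exp_pos _) (by positivity) U3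
    (fun n hn => by
      have := sup_fI (by linarith) 1 ty ρ t0 I n (Finsupp.mem_support_iff.1 hn)
      exact ⟨this.1.1, this.2⟩)
    fun n hn => (sup_fI (by linarith) 1 ty ρ t0 Iᶜ n (Finsupp.mem_support_iff.1 hn)).1.1
  have b1 := hb_num u0 u1 a1 a2
  rw [Real.exp_log U0] at b1
  have b2 : Real.log (3 + X ^ 12 + U) ≤ 13 * L := by
    have c1 : U ≤ X ^ 12 := U2.trans (by
      rw [← Real.rpow_natCast]
      exact Real.rpow_le_rpow_of_exponent_le (by linarith) (by norm_num))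
    have c2 : X ≤ X ^ 12 := le_self_pow₀ (by linarith) (by norm_num)
    rw [show 13 * L = Real.log (X ^ 13) by rw [Real.log_pow, hLd]; norm_num]
    refine Real.log_le_log (by positivity) ?_
    rw [pow_succ X 12]
    nlinarith
  have b3 : 0 ≤ Real.log (3 + X ^ 12 + U) := Real.log_nonneg (by linarith [pow_pos X0 12])
  have b4 : Real.exp (-(Real.log U / 12)) * L ^ (2 * k + 24) ≤ 1 := by
    have c1 := Real.log_le_log (by positivity) U1
    rw [Real.log_rpow L0] at c1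
    rw [← Real.exp_log (pow_pos L0 _), ← Real.exp_add, Real.log_pow, Real.exp_le_one_iff]
    push_cast
    linarith
  refine (window_le U0 t0 _).trans ?_
  simp only [box_split X 1 ty ρ t0 _ I]
  refine (mul_le_mul_right (hb_avg (continuous_Bil _ _ _ _) (hb_bd _ _ _ _)
    (show 0 < X ^ (5 / 6 : ℝ) * L ^ (-10 : ℝ) / 5 by positivity) _ (key.trans ?_)) _).trans ?_
  · have m1 := nw_nonneg (fI X 1 ty ρ t0 I).coeff.support (fI X 1 ty ρ t0 I).coeff (Real.exp a)
    have m2 := nw_nonneg (fI X 1 ty ρ t0 Iᶜ).coeff.support (fI X 1 ty ρ t0 Iᶜ).coeff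
      (Real.exp (L - a))
    have e1 : Real.exp (L * (2 / 3) - Real.log U / 12) * Real.exp a * Real.exp (L - a) =
        Real.exp (-(Real.log U / 12)) * (X ^ (5 / 6 : ℝ)) ^ 2 := by
      rw [eX, ← Real.exp_nat_mul, ← Real.exp_add, ← Real.exp_add, ← Real.exp_add]
      congr 1; push_cast; ring
    have e2 : L ^ (-10 : ℝ) = (L ^ 10)⁻¹ := by
      rw [Real.rpow_neg L0.le, ← Real.rpow_natCast]; norm_num
    calc _ ≤ D * (13 * L) ^ 3 * (6 * Real.exp (L * (2 / 3) - Real.log U / 12)) *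
          (C * L ^ k * Real.exp a) * (C * L ^ k * Real.exp (L - a)) := by gcongr
      _ = (X ^ (5 / 6 : ℝ) * (L ^ 10)⁻¹ / 5) ^ 2 * (25 * (D * 13 ^ 3 * 6 * C ^ 2) / L *
          (Real.exp (-(Real.log U / 12)) * L ^ (2 * k + 24))) := by
          generalize Real.exp (L * (2 / 3) - Real.log U / 12) = E1 at e1
          generalize Real.exp (-(Real.log U / 12)) = E2 at e1
          field_simp
          linear_combination (5 ^ 2 * L ^ (k * 2) * L ^ 24) * e1
      _ ≤ _ := by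
          rw [e2]
          exact mul_le_of_le_one_right (by positivity)
            (mul_le_one₀ ((div_le_one L0).2 L2) (by positivity) b4)
  · rw [← ENNReal.ofReal_mul (by positivity)]
    exact ENNReal.ofReal_le_ofReal (le_of_eq (by ring))

end Vale.Agent.P006
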