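import Vale.Agent.P006.Hecke
import Vale.Agent.P026.Ptw

/-! The inversion formula with constant terms. -/

namespace Vale.Agent.P006

open Vale.Agent.P026 Eis Complex MeasureTheory Filter Topology
open scoped Classical ComplexConjugate

theorem inv_first {k : Eis → Eis → ℂ} (hk : Adm k) (h0 : k 0 0 = 0) {D : ℝ} (hD : 0 < D) :
    Tendsto (fun t : ℝ => ((t ^ (4 / 3 : ℝ) * V9 : ℝ) : ℂ) *
      ∑' d : Eis, k 0 d * (Real.exp (-(t * D * N d)) : ℂ)) (𝓝[>] 0) (𝓝 0) := by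
  obtain ⟨C, hC, h⟩ := tsum_exp_le
  have hV := V9_pos
  have h1 : Tendsto (fun t : ℝ => V9 * C / D * t ^ (1 / 3 : ℝ)) (𝓝[>] 0) (𝓝 0) := by
    have := ((Real.continuousAt_rpow_const 0 (1 / 3) (Or.inr (by norm_num))).tendsto.mono_left
      (nhdsWithin_le_nhds (s := Set.Ioi 0))).const_mul (V9 * C / D)
    rwa [Real.zero_rpow (by norm_num), mul_zero] at this
  refine squeeze_zero_norm' ?_ h1
  filter_upwards [self_mem_nhdsWithin] with t ht
  have ht' : 0 < t := ht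
  have h2 : Summable fun c : Eis => if c = 0 then 0 else Real.exp (-(t * D * N c)) :=
    Summable.of_norm_bounded (summable_exp (mul_pos ht' hD)) fun c => by
      split_ifs
      · simp [Real.exp_nonneg]
      · simp
  have h3 : ‖∑' d : Eis, k 0 d * (Real.exp (-(t * D * N d)) : ℂ)‖ ≤ C / (t * D) := by
    refine (tsum_of_norm_bounded h2.hasSum fun d => ?_).trans (h _ (mul_pos ht' hD))
    split_ifs with hd
    · simp [hd, h0]
    · rw [norm_mul, Complex.norm_real, Real.norm_of_nonneg (Real.exp_nonneg _)]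
      exact mul_le_of_le_one_left (Real.exp_nonneg _) (hk.1 _ _)
  rw [norm_mul, Complex.norm_real, Real.norm_of_nonneg (by positivity)]
  refine (mul_le_mul_of_nonneg_left h3 (by positivity)).trans (le_of_eq ?_)
  rw [show (4 / 3 : ℝ) = 1 / 3 + 1 by norm_num, Real.rpow_add_one ht'.ne']
  field_simp

/-- Constant term at a cusp. Copy r2_const (r2_liminf, r2_limit, four_coef, r2_Rs_fk); the first term of
four_coef is O (t ^ (1/3)) by tsum_exp_le. -/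
theorem const_term {θ : HF → ℂ} (hθ : IsTheta θ) (A q : Eis) {l : ℂ}
    (hl : Tendsto (Rs (kapS A q) 0 ex) (𝓝[>] 0) (𝓝 l)) :
    ∀ᵐ p ∂(volume.restrict DE), ∫ z in F9, θ (act (sig A q) (pt z p.1 p.2)) =
      Real.pi * l * ((p.1 ^ (-(2 / 3) : ℝ) * p.2 ^ (-(1 / 3) : ℝ) : ℝ) : ℂ) := by
  have h2 := hθ.conv A q
  have hm : Measurable fun Q => θ (act (sig A q) Q) := hθ.meas.comp (continuous_act _).measurable
  have h0 : kapS A q 0 0 = 0 := by simp [kapS, row, kap0, gz_not_prim]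
  filter_upwards [r2_liminf hm h2, ae_restrict_mem measurableSet_DE] with p hp hp'
  have hD : 0 < p.1 := hp'.1
  have hE : 0 < p.2 := one_pos.trans_le hp'.2.1
  have ht : Tendsto (fun n : ℕ => 1 / ((n : ℝ) + 1)) atTop (𝓝[>] 0) :=
    tendsto_nhdsWithin_iff.2 ⟨tendsto_one_div_add_atTop_nhds_zero_nat,
      Eventually.of_forall fun n => by simp only [Set.mem_Ioi]; positivity⟩
  refine r2_limit (fun n => (integrableOn_Es (adm_kapS A q).1 (by positivity) hp').const_mul _)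
    (fun n => ((measurable_Es _ _).comp (r2_meas_pt _ _)).const_mul _)
    (hm.comp (r2_meas_pt _ _)) hp ?_
  have h4 := ((inv_first (adm_kapS A q) h0 hD).add (((hl.comp (as_scale (div_pos hE hD))).const_mul
    ((p.1 ^ (-(2 / 3) : ℝ) * p.2 ^ (-(1 / 3) : ℝ) : ℝ) : ℂ)).const_mul (Real.pi : ℂ))).comp ht
  rw [zero_add, mul_comm _ l, ← mul_assoc] at h4
  refine h4.congr fun n => ?_
  have hn : (0 : ℝ) < 1 / ((n : ℝ) + 1) := by positivity
  have h5 := four_coef (adm_kapS A q) hn hp' 0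
  have h6 : ∀ z, eR 0 z = 1 := fun z => by simp [eR]
  simp only [h6, map_one, mul_one, if_true] at h5
  rw [integral_const_mul, h5, r2_Rs_fk _ hD hE hn]
  rfl
/-- The constant term as a function of (D, E). -/
noncomputable def invC (a : ℂ) (p : ℝ × ℝ) : ℂ :=
  ((p.2 ^ (-(2 / 3) : ℝ) : ℝ) : ℂ) * (a * (((√p.2 / p.1) ^ (2 / 3 : ℝ) : ℝ) : ℂ))

theorem inv_expand {θ : HF → ℂ} {tau : Eis → Eis → Eis → ℂ} (h : TH θ tau) (A q : Eis) {l : ℂ}
    (hl : Tendsto (Rs (kapS A q) 0 ex) (𝓝[>] 0) (𝓝 l)) :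
    ∀ᵐ Q ∂nu, θ (act (sig A q) Q) =
      pwH (invC (Real.pi * l / V9)) (fun r => tau A q r / (ab r : ℂ)) Q := by
  refine ae_of_pt ?_
  filter_upwards [ae_pt (pw_expand h.isT h.isC A q), pw_ae_snd (const_term h.isT A q hl), pw_ae_DE]
    with x a1 a2 a3
  have hD : 0 < x.2.1 := a3.1
  have hE : 0 < x.2.2 := one_pos.trans_le a3.2.1
  have h6 : ∀ z, eR 0 z = 1 := fun z => by simp [eR]
  have k1 : x.2.1 ^ (-(2 / 3) : ℝ) * x.2.2 ^ (-(1 / 3) : ℝ) =
      x.2.2 ^ (-(2 / 3) : ℝ) * (√x.2.2 / x.2.1) ^ (2 / 3 : ℝ) := by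
    rw [Real.div_rpow (by positivity) hD.le, Real.sqrt_eq_rpow, ← Real.rpow_mul hE.le,
      Real.rpow_neg hD.le, show (-(1 / 3) : ℝ) = -(2 / 3) + 1 / 2 * (2 / 3) by norm_num,
      Real.rpow_add hE]
    ring
  rw [a1, pwH_pt _ _ _ hD.ne', pwH_pt _ _ _ hD.ne', pwC, invC]
  simp only [h6, map_one, mul_one]
  rw [a2, k1]
  push_cast
  ring

theorem inv_core {b1 b2 : Eis → ℂ} {C : ℝ} (hb1 : ∀ r, ‖b1 r‖ ≤ C) (hb2 : ∀ r, ‖b2 r‖ ≤ C)
    {a1 a2 k : ℂ} {g : SL} (hq : g.c ≠ 0)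
    (e4 : ∀ᵐ Q ∂nu, pwH (invC a1) b1 Q = k * pwH (invC a2) b2 (act g⁻¹ Q)) {v : ℝ} (hv : 0 < v) :
    a1 * ((v ^ (2 / 3 : ℝ) : ℝ) : ℂ) + pwT b1 (toC g.a / toC g.c) v =
      k * (a2 * (((1 / (N g.c * v)) ^ (2 / 3 : ℝ) : ℝ) : ℂ) +
        pwT b2 (toC (-g.d) / toC g.c) (1 / (N g.c * v))) := by
  have e5 := pw_ae_map (measurePreserving_add_left volume (toC g.a / toC g.c)) (ae_pt e4)
  have hN := N_pos hq
  have hS : ∀ y : ℂ × ℝ × ℝ, 0 < y.2.1 → 0 < y.2.2 → 0 < y.2.1 * normSq y.1 + y.2.2 / y.2.1 :=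
    fun y a1 a2 => by
      have := normSq_nonneg y.1
      positivity
  have cr : ∀ {f : ℂ × ℝ × ℝ → ℝ} {y : ℂ × ℝ × ℝ}, ContinuousAt f y → ∀ a : ℂ,
      ContinuousAt (fun y => a * ((f y ^ (2 / 3 : ℝ) : ℝ) : ℂ)) y := fun hf a =>
    (continuous_ofReal.continuousAt.comp (hf.rpow_const (Or.inr (by norm_num)))).const_mul a
  have key := pw_eq (f := fun y => a1 * (((√y.2.2 / y.2.1) ^ (2 / 3 : ℝ) : ℝ) : ℂ) +
      pwT b1 (toC g.a / toC g.c + y.1) (√y.2.2 / y.2.1))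
    (g := fun y => k * (a2 * (((√y.2.2 / (N g.c * (y.2.1 * normSq y.1 + y.2.2 / y.2.1))) ^
      (2 / 3 : ℝ) : ℝ) : ℂ) + pwT b2 (toC (-g.d) / toC g.c - pwW (toC g.c) y.1 y.2.1 y.2.2)
        (√y.2.2 / (N g.c * (y.2.1 * normSq y.1 + y.2.2 / y.2.1))))) ?_ (fun y c1 c2 => ?_)
    (fun y c1 c2 => ?_) 0 (D := 5 / 4 / v) (E := 25 / 16) (by positivity) (by norm_num)
    (by norm_num)
  · have hE : √(25 / 16) = (5 / 4 : ℝ) := by
      rw [Real.sqrt_eq_iff_mul_self_eq (by norm_num) (by norm_num)]; norm_num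
    have f1 : 5 / 4 / (5 / 4 / v) = v := by field_simp
    have f2 : 5 / 4 / (N g.c * (5 / 4 / v * normSq 0 + 25 / 16 / (5 / 4 / v))) =
        1 / (N g.c * v) := by
      rw [map_zero]; field_simp; ring
    have f3 : pwW (toC g.c) 0 (5 / 4 / v) (25 / 16) = 0 := by simp [pwW]
    simpa only [hE, f1, f2, f3, add_zero, sub_zero] using key
  · filter_upwards [e5, pw_ae_DE] with y c1 c3
    have d1 : 0 < y.2.1 := c3.1
    have d2 : 0 < y.2.2 := one_pos.trans_le c3.2.1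
    have d3 := mul_pos hN (hS y d1 d2)
    rw [pw_act g hq _ d1 d2, pwH_pt _ _ _ d1.ne', pwH_pt _ _ _ d3.ne', invC, invC] at c1
    have d4 : ((y.2.2 ^ (-(2 / 3) : ℝ) : ℝ) : ℂ) ≠ 0 :=
      ofReal_ne_zero.2 (Real.rpow_pos_of_pos d2 _).ne'
    refine mul_left_cancel₀ d4 ?_
    linear_combination c1
  · have d1 : ContinuousAt (fun y : ℂ × ℝ × ℝ => √y.2.2 / y.2.1) y :=
      ContinuousAt.div (by fun_prop) (by fun_prop) c1.ne'
    have d3 : ContinuousAt (fun y : ℂ × ℝ × ℝ => toC g.a / toC g.c + y.1) y := by fun_prop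
    exact (cr d1 a1).add (pw_cont_comp hb1 d3 d1 (div_pos (Real.sqrt_pos.2 c2) c1))
  · have d0 : ContinuousAt (fun y : ℂ × ℝ × ℝ => y.2.1 * normSq y.1 + y.2.2 / y.2.1) y :=
      ContinuousAt.add (by fun_prop) (ContinuousAt.div (by fun_prop) (by fun_prop) c1.ne')
    have d1 : ContinuousAt (fun y : ℂ × ℝ × ℝ =>
        √y.2.2 / (N g.c * (y.2.1 * normSq y.1 + y.2.2 / y.2.1))) y :=
      ContinuousAt.div (by fun_prop) (d0.const_mul _) (mul_pos hN (hS y c1 c2)).ne'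
    have d2 := div_pos (Real.sqrt_pos.2 c2) (mul_pos hN (hS y c1 c2))
    have d3 : ContinuousAt (fun y : ℂ × ℝ × ℝ => pwW (toC g.c) y.1 y.2.1 y.2.2) y :=
      ContinuousAt.div (by fun_prop) ((continuous_ofReal.continuousAt.comp d0).const_mul _)
        (mul_ne_zero (pow_ne_zero 2 (pw_toC_ne hq)) (ofReal_ne_zero.2 (hS y c1 c2).ne'))
    have d4 : ContinuousAt (fun y : ℂ × ℝ × ℝ =>
      toC (-g.d) / toC g.c - pwW (toC g.c) y.1 y.2.1 y.2.2) y := continuousAt_const.sub d3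
    exact ((cr d1 a2).add (pw_cont_comp hb2 d4 d1 d2)).const_mul k

theorem inv_neg (Q : HF) : act ⟨-1, 0, 0, -1, by ring⟩ Q = Q := by
  simp [act, actC, hq]

theorem inv_ess (A : Eis) : Ess (-A) ↔ Ess A := by
  rw [Ess, Ess, dvd_neg, show -A - 1 = -(A + 1) by ring, show -A + 1 = -(A - 1) by ring, dvd_neg,
    dvd_neg, or_comm (a := (3 : Eis) ∣ A + 1)]

/-- Let g = (A, b; q, d) with A d - b q = 1, S = sig 0 1 = (0, -1; 1, 0), σ = sig 1 (-A), and
γ = - S g σ⁻¹ = (q - d j, d; - A + b j, - b) with j = (-A) % 3. Then γ is in G3 and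
conj (kap0 γ.c γ.d) = conj (cub A (-b)) = cub A q since (-b) q = 1 - A d (cub_per). By pw_expand and
const_term both θ (act S Q) and θ (act σ Q) agree almost everywhere with explicit continuous functions
E ^ (-2/3) (const v ^ (2/3) + pwT b z v), v = √E / D; use aut, act_mul, measurePreserving_act, ae_pt, pw_eq
as in pw_odd, and evaluate at z = A / q (pw_act with x = 0, eR_div), E = 3 / 2. -/
theorem inv {θ : HF → ℂ} {tau : Eis → Eis → Eis → ℂ} (h : TH θ tau) {A q d : Eis} (hq : Prim q)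
    (h9 : (9 : Eis) ∣ d) (hd : q ∣ A * d - 1) {v : ℝ} (hv : 0 < v) :
    ((sg0 * v ^ (2 / 3 : ℝ) : ℝ) : ℂ) + Ph (fun r => tau 0 1 r * psi (9 * q) (r * A)) v =
      cub A q * ((if Ess A then ((sg0 * (1 / (N q * v)) ^ (2 / 3 : ℝ) : ℝ) : ℂ) else 0) +
        Ph (fun r => tau 1 (-A) r * psi (9 * q) (-(r * d))) (1 / (N q * v))) := by
  obtain ⟨b, hb⟩ := hd
  obtain ⟨e, he⟩ := h9
  obtain ⟨C, hC⟩ := h.isC.bound
  let g : SL := ⟨A, b, q, d, by linear_combination hb⟩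
  let n : SL := ⟨-1, 0, 0, -1, by ring⟩
  have hb1 : Prim (-b) := hq.of_mul ⟨-(3 * e * A), by linear_combination hb - A * he⟩
  have c1 : (n * sig 0 1 * g * (sig 1 (-A))⁻¹).a = q - d * (-A % 3) ∧
      (n * sig 0 1 * g * (sig 1 (-A))⁻¹).b = d ∧
      (n * sig 0 1 * g * (sig 1 (-A))⁻¹).c = -A + b * (-A % 3) ∧
      (n * sig 0 1 * g * (sig 1 (-A))⁻¹).d = -b := by
    simp only [sig, if_pos Prim.one, if_neg gz_not_prim, EuclideanDomain.zero_mod, SL.mul_a,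
      SL.mul_b, SL.mul_c, SL.mul_d, SL.inv_a, SL.inv_b, SL.inv_c, SL.inv_d, g, n]
    refine ⟨?_, ?_, ?_, ?_⟩ <;> ring
  have h3 : (3 : Eis) ∣ -A + b * (-A % 3) := by
    rw [show -A + b * (-A % 3) = (-A - -A % 3) - (-b - 1) * (-A % 3) by ring]
    exact dvd_sub (dvd_sub_mod 3 (-A)) (Dvd.dvd.mul_right hb1 _)
  have hg : n * sig 0 1 * g * (sig 1 (-A))⁻¹ ∈ G3 := by
    rw [mem_G3, c1.1, c1.2.1, c1.2.2.1, c1.2.2.2]
    exact ⟨hq.of_dvd_sub ⟨-(3 * e * (-A % 3)), by rw [he]; ring⟩, ⟨3 * e, by rw [he]; ring⟩, h3, hb1⟩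
  have hk : conj (kap0 (n * sig 0 1 * g * (sig 1 (-A))⁻¹).c (n * sig 0 1 * g * (sig 1 (-A))⁻¹).d) =
      cub A q := by
    rw [c1.2.2.1, c1.2.2.2, kap0, if_pos (And.intro h3 hb1),
      cub_congr (b := -A) ⟨-(-A % 3), by ring⟩, cub_neg_left _ hb1.not_lam_dvd]
    refine kb_conj (norm_cub ⟨d, q, by linear_combination hb⟩) ?_
    rw [← cub_mul_right _ hb1.ne_zero hq.ne_zero,
      cub_per (a' := 1) (hb1.mul hq) ⟨-(A * e), by linear_combination hb - A * he⟩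
        ⟨-d, by linear_combination hb⟩, cub_one_right]
  have e1 := inv_expand h 0 1 rs_inf.1
  have e2 := (measurePreserving_act g⁻¹).quasiMeasurePreserving.ae
    (inv_expand h 1 (-A) (rs_one (-A)).1)
  have e3 := (measurePreserving_act (sig 1 (-A) * g⁻¹)).quasiMeasurePreserving.ae (h.isT.aut _ hg)
  have key := inv_core (pw_b (hC 0 1)) (pw_b (hC 1 (-A))) (k := cub A q) (g := g) hq.ne_zero
    (by
      filter_upwards [e1, e2, e3] with Q a1 a2 a3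
      rw [hk, ← act_mul, mul_assoc, inv_mul_cancel_left, mul_inv_cancel_right, act_mul, inv_neg,
        act_mul] at a3
      rw [← a1, ← a2, a3]) hv
  have p1 : ∀ (t : Eis → ℂ) (x : Eis) (u : ℝ), pwT (fun r => t r / (ab r : ℂ)) (toC x / toC q) u =
      Ph (fun r => t r * psi (9 * q) (r * x)) u := fun t x u => tsum_congr fun r => by
    rw [eR_div hq.ne_zero]; ring
  simp only [g, p1, mul_neg, inv_ess] at key
  have s0 : (Real.pi : ℂ) * ((9 * Z0 : ℝ) : ℂ) / V9 = sg0 := by rw [sg0]; push_cast; ring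
  rw [s0] at key
  split_ifs at key ⊢
  · rw [s0] at key
    simpa only [ofReal_mul] using key
  · simpa only [ofReal_mul, mul_zero, zero_div, zero_mul] using key

end Vale.Agent.P006
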