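import Vale.Agent.P006.GaussP
import Vale.Agent.P006.WtQ
import Vale.Agent.P026.LemPA
import Vale.Agent.P026.Pois

/-! The self-dual kernel and the positivity Poisson step. Model: P026.LemPA, P026.LemPB (lpK, lpPhi,
lp_gauss_K, lpK_ne, lpK_zero, lp_exact) with chi j replaced by cub and P0 by PS. -/

namespace Vale.Agent.P006

open Vale.Agent.P026 Eis Complex MeasureTheory Filter Topology
open scoped Classical ComplexConjugate

/-- The self-dual local function. -/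
noncomputable def kPhi (g m : Eis) : ℂ :=
  ∑ D ∈ dv g, if D ^ 2 ∣ m then (N D : ℂ) * cop (g / D) m else 0

theorem kPhi_one (m : Eis) : kPhi 1 m = 1 := by
  simp [kPhi, dv_one, cop, isCoprime_one_right]

theorem kPhi_mul {p g : Eis} (hp : Prime p) (h1 : Prim p) (hg : PS g) (h : ¬ p ∣ g) (m : Eis) :
    kPhi (p * g) m = lpLoc p m * kPhi g m := by
  unfold kPhi
  rw [sum_dv_prime_mul hp h1 hg.ne_zero h, Finset.mul_sum]
  refine Finset.sum_congr rfl fun D hD => ?_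
  obtain ⟨a, E, rfl⟩ := (mem_dv hg.ne_zero).1 hD
  have hD0 := a.ne_zero
  have e1 : p * (D * E) / D = p * E := by
    rw [show p * (D * E) = D * (p * E) by ring, lp_mul_div hD0]
  have e2 : p * (D * E) / (p * D) = E := by
    rw [← mul_assoc, lp_mul_div (mul_ne_zero hp.ne_zero hD0)]
  have hc : IsCoprime (p ^ 2) (D ^ 2) :=
    (hp.coprime_iff_not_dvd.2 fun c => h (c.mul_right E)).pow
  have e3 : (p * D) ^ 2 ∣ m ↔ p ^ 2 ∣ m ∧ D ^ 2 ∣ m := by
    rw [mul_pow]
    exact ⟨fun c => ⟨(dvd_mul_right _ _).trans c, (dvd_mul_left _ _).trans c⟩,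
      fun c => hc.mul_dvd c.1 c.2⟩
  rw [e1, e2, lp_mul_div hD0, lp_cop_mul, lp_cop_prime hp, N_mul, lpLoc]
  simp only [e3]
  by_cases u : p ^ 2 ∣ m <;> by_cases v : D ^ 2 ∣ m <;> by_cases z : p ∣ m <;>
    simp [u, v, z] <;> ring

theorem kPhi_unit {g : Eis} (hg : PS g) :
    ∀ u, IsCoprime u g → ∀ m, kPhi g (u * m) = kPhi g m := by
  refine PS.induction (Pr := fun g => ∀ u, IsCoprime u g → ∀ m, kPhi g (u * m) = kPhi g m)
    (fun u _ m => by rw [kPhi_one, kPhi_one]) (fun p x hp h1 hx h ih u hu m => ?_) hg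
  rw [kPhi_mul hp h1 hx h, kPhi_mul hp h1 hx h, lpLoc_unit hu.of_mul_right_left,
    ih u hu.of_mul_right_right]

theorem per_kPhi {g : Eis} (hg : PS g) : Per (g ^ 2) (kPhi g) := by
  refine PS.induction (Pr := fun g => Per (g ^ 2) (kPhi g))
    (fun x y => by rw [kPhi_one, kPhi_one]) (fun p x hp h1 hx h ih => ?_) hg
  have : kPhi (p * x) = fun m => lpLoc p m * kPhi x m := funext (kPhi_mul hp h1 hx h)
  rw [this, mul_pow]
  exact ((lp_per_loc p).of_dvd (dvd_mul_right _ _)).mul (ih.of_dvd (dvd_mul_left _ _))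

theorem gauss_kPhi {g : Eis} (hg : PS g) (h : Eis) :
    gauss (kPhi g) (g ^ 2) h = (N g : ℂ) * kPhi g h := by
  refine PS.induction (Pr := fun g => gauss (kPhi g) (g ^ 2) h = (N g : ℂ) * kPhi g h)
    ?_ (fun p x hp h1 hx hpx ih => ?_) hg
  · have := sum_psi (c := 1) one_ne_zero h
    simp only [gauss, kPhi_one, one_pow, one_mul]
    simpa using this
  · have e : kPhi (p * x) = fun m => lpLoc p m * kPhi x m := funext (kPhi_mul hp h1 hx hpx)
    have hc : IsCoprime p x := hp.coprime_iff_not_dvd.2 hpx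
    rw [e, mul_pow, lp_gauss_crt (pow_ne_zero 2 hp.ne_zero) (pow_ne_zero 2 hx.ne_zero) hc.pow
      (lp_per_loc p) (per_kPhi hx)]
    simp only [lpLoc_unit hc.symm.pow_left, kPhi_unit hx _ hc.pow_left]
    rw [lp_gauss_loc hp, ih, N_mul]
    push_cast; ring

theorem conj_kPhi (g m : Eis) : conj (kPhi g m) = kPhi g m := by
  unfold kPhi
  rw [map_sum]
  refine Finset.sum_congr rfl fun D _ => ?_
  unfold cop
  split_ifs <;> simp

theorem KK_eq {g x y : Eis} (hg : PS g) (hx : PS x) (hy : PS y) (hxy : IsCoprime x (g * y))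
    (m : Eis) : KK (g * x) (g * y) m = cub m x * (conj (cub m y) * kPhi g m) := by
  have h0 : g * x ≠ 0 := mul_ne_zero hg.ne_zero hx.ne_zero
  unfold KK kPhi
  rw [Finset.mul_sum, Finset.mul_sum]
  symm
  refine Finset.sum_subset_zero_on_sdiff (fun D hD => ?_) (fun D hD => ?_) fun D hD => ?_
  · obtain ⟨a, b⟩ := (mem_dv hg.ne_zero).1 hD
    exact (mem_dv h0).2 ⟨a, b.mul_right x⟩
  · obtain ⟨h1, h2⟩ := Finset.mem_sdiff.1 hD
    obtain ⟨a, b⟩ := (mem_dv h0).1 h1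
    rw [if_neg]
    rintro ⟨c, -⟩
    exact h2 ((mem_dv hg.ne_zero).2 ⟨a,
      ((hxy.of_isCoprime_of_dvd_right c).symm).dvd_of_dvd_mul_right b⟩)
  · obtain ⟨a, E, rfl⟩ := (mem_dv hg.ne_zero).1 hD
    have hD0 := a.ne_zero
    have hE : E ≠ 0 := right_ne_zero_of_mul hg.ne_zero
    rw [mul_assoc D E x, mul_assoc D E y, lp_mul_div hD0, lp_mul_div hD0, lp_mul_div hD0,
      cub_mul_right m hE hx.ne_zero, cub_mul_right m hE hy.ne_zero, ← cub_mul_conj hE]
    by_cases v : D ^ 2 ∣ m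
    · rw [if_pos v, if_pos ⟨dvd_mul_right _ _, v⟩, map_mul]; ring
    · rw [if_neg v, if_neg fun c => v c.2]; simp

theorem ker_per_cub (c : Eis) : Per c fun m => cub m c :=
  Per.of_congr fun _ _ h => cub_congr h

theorem ker_per_conj {q : Eis} {F : Eis → ℂ} (hF : Per q F) : Per q fun m => conj (F m) :=
  fun x y => by simp only [hF x y]

theorem ker_one {a c : Eis} (hc : c ≠ 0) (h : IsCoprime a c) : cub a c * conj (cub a c) = 1 := by
  rw [cub_mul_conj hc, cop, if_pos h]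

theorem ker_zero {c : Eis} (hc : Prim c) : cub 0 c = if c = 1 then 1 else 0 := by
  split_ifs with h
  · rw [h, cub_one_right]
  · exact (cub_eq_zero hc.ne_zero).2 fun h' => h (hc.eq_one_of_isUnit (isCoprime_zero_left.1 h'))

theorem per_KK {c1 c2 : Eis} (h1 : PS c1) (h2 : PS c2) : Per (c1 * c2) (KK c1 c2) := by
  obtain ⟨g, x, y, hg, hx, hy, rfl, rfl, -, -, hxy⟩ := split_PS h1 h2
  rw [funext (KK_eq hg hx hy hxy)]
  exact ((ker_per_cub x).of_dvd ⟨g * g * y, by ring⟩).mul (Per.mul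
    ((ker_per_conj (ker_per_cub y)).of_dvd ⟨g * x * g, by ring⟩)
    ((per_kPhi hg).of_dvd ⟨x * y, by ring⟩))
/-- With c1 = g x, c2 = g y the kernel is cub m x * conj (cub m y) * Phi g m, and Phi g is self-dual
modulo g ^ 2. -/
theorem gauss_KK {c1 c2 : Eis} (h1 : PS c1) (h2 : PS c2) (h : Eis) :
    gauss (KK c1 c2) (c1 * c2) h =
      ((ab c1 * ab c2 : ℝ) : ℂ) * (g3 c1 * conj (g3 c2)) * conj (KK c1 c2 h) := by
  obtain ⟨g, x, y, hg, hx, hy, rfl, rfl, hgx, hgy, hxy⟩ := split_PS h1 h2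
  have hxy' : IsCoprime x y := hxy.of_mul_right_right
  have e0 : g * x * (g * y) = x * (y * g ^ 2) := by ring
  have g2 : g ^ 2 ≠ 0 := pow_ne_zero 2 hg.ne_zero
  have pyg : Per (y * g ^ 2) fun m => conj (cub m y) * kPhi g m :=
    ((ker_per_conj (ker_per_cub y)).of_dvd (dvd_mul_right _ _)).mul
      ((per_kPhi hg).of_dvd (dvd_mul_left _ _))
  rw [KK_eq hg hx hy hxy, funext (KK_eq hg hx hy hxy), e0, lp_gauss_crt hx.ne_zero
    (mul_ne_zero hy.ne_zero g2) (hxy'.mul_right hgx.symm.pow_right) (ker_per_cub x) pyg,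
    lp_gauss_crt (F := fun m => conj (cub (x * m) y)) (G := fun m => kPhi g (x * m)) hy.ne_zero g2
      hgy.symm.pow_right ((ker_per_conj (ker_per_cub y)).comp_mul x) ((per_kPhi hg).comp_mul x)]
  have lx := hx.1.not_lam_dvd
  have ly := hy.1.not_lam_dvd
  have gm : ∀ u : Eis, gauss (fun m => cub (u * m) x) x h =
      cub u x * gauss (fun m => cub m x) x h := fun u => by
    simp only [gauss, cub_mul_left u _ lx, Finset.mul_sum, mul_assoc]
  have gm' : ∀ u : Eis, gauss (fun m => conj (cub (u * m) y)) y h =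
      conj (cub u y) * gauss (fun m => conj (cub m y)) y h := fun u => by
    simp only [gauss, cub_mul_left u _ ly, map_mul, Finset.mul_sum, mul_assoc]
  simp only [← mul_assoc x, kPhi_unit hg _ (hgx.symm.mul_left hgy.symm)]
  rw [gm, gm', gauss_cub' hx, gauss_conj_cub hy, gauss_kPhi hg, g3_mul' hg hx hgx,
    g3_mul' hg hy hgy, cub_mul_left _ _ lx, cub_mul_left _ _ ly, cub_pow_left _ lx,
    cub_pow_left _ ly, cub_recip hx.1 hy.1, ab_mul, ab_mul]
  have nG : g3 g * conj (g3 g) = 1 := by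
    rw [mul_conj, normSq_eq_norm_sq, norm_g3' hg]; simp
  have r5 : cub y x * conj (cub y x) = 1 := ker_one hx.ne_zero hxy'.symm
  have r6 : (N g : ℂ) = ab g * ab g := by rw [← ab_sq]; push_cast; ring
  simp only [map_mul, map_pow, conj_kPhi, Complex.conj_conj]
  rw [r6]
  push_cast
  set Z := cub g x ^ 2 * conj (cub g y) ^ 2 * conj (cub h x) * cub h y * ab x * ab y *
    ab g * ab g * g3 x * conj (g3 y) * kPhi g h with hZ
  linear_combination Z * r5 - Z * nG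
theorem KK_zero {c1 c2 : Eis} (h1 : PS c1) (h2 : PS c2) :
    KK c1 c2 0 = if c1 = c2 then (N c1 : ℂ) else 0 := by
  unfold KK
  rw [Finset.sum_eq_single_of_mem c1 ((mem_dv h1.ne_zero).2 ⟨h1, dvd_rfl⟩)]
  · rw [EuclideanDomain.div_self h1.ne_zero, cub_one_right]
    by_cases e : c1 = c2
    · subst e
      simp [EuclideanDomain.div_self h1.ne_zero, cub_one_right]
    · rw [if_neg e]
      split_ifs with x
      · rw [ker_zero (prim_div h1.1 h2.1 x.1), if_neg]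
        · simp
        · intro y
          have := lp_div_mul h1.ne_zero x.1
          rw [y, mul_one] at this
          exact e this
      · rfl
  · intro D hD hne
    obtain ⟨a, b⟩ := (mem_dv h1.ne_zero).1 hD
    rw [ker_zero (prim_div a.1 h1.1 b), if_neg (c := c1 / D = 1)]
    · simp
    · intro y
      have := lp_div_mul a.ne_zero b
      rw [y, mul_one] at this
      exact hne this
theorem KK_neg {c1 c2 : Eis} (h1 : PS c1) (h2 : PS c2) (h : Eis) : KK c1 c2 (-h) = KK c1 c2 h := by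
  obtain ⟨g, x, y, hg, hx, hy, rfl, rfl, -, -, hxy⟩ := split_PS h1 h2
  rw [KK_eq hg hx hy hxy, KK_eq hg hx hy hxy, cub_neg_left _ hx.1.not_lam_dvd,
    cub_neg_left _ hy.1.not_lam_dvd, ← neg_one_mul, kPhi_unit hg _ isCoprime_one_left.neg_left]
theorem KK_three {c1 c2 : Eis} (h1 : PS c1) (h2 : PS c2) (m : Eis) :
    KK c1 c2 (3 * m) = cub 3 c1 * conj (cub 3 c2) * KK c1 c2 m := by
  obtain ⟨g, x, y, hg, hx, hy, rfl, rfl, -, -, hxy⟩ := split_PS h1 h2
  have r := ker_one hg.ne_zero hg.1.coprime_three.symm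
  rw [KK_eq hg hx hy hxy, KK_eq hg hx hy hxy, cub_mul_left _ _ hx.1.not_lam_dvd,
    cub_mul_left _ _ hy.1.not_lam_dvd, kPhi_unit hg _ hg.1.coprime_three.symm,
    cub_mul_right _ hg.ne_zero hx.ne_zero, cub_mul_right _ hg.ne_zero hy.ne_zero, map_mul, map_mul]
  linear_combination (-(cub 3 x * conj (cub 3 y) * cub m x * conj (cub m y) * kPhi g m)) * r
theorem norm_KK_le (c1 c2 m : Eis) : ‖KK c1 c2 m‖ ≤ 16 * N c1 ^ 2 := by
  refine (norm_sum_le _ _).trans ?_
  have h1 : ∀ D ∈ dv c1, ‖if D ∣ c2 ∧ D ^ 2 ∣ m then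
      (N D : ℂ) * (cub m (c1 / D) * conj (cub m (c2 / D))) else 0‖ ≤ N c1 := fun D hD => by
    have hb := (mem_ball.1 (Finset.mem_filter.1 hD).1).2
    split_ifs
    · rw [norm_mul, norm_mul, Complex.norm_conj, Complex.norm_real, Real.norm_of_nonneg (N_nonneg D)]
      exact (mul_le_of_le_one_right (N_nonneg D) (mul_le_one₀ (norm_cub_le _ _) (norm_nonneg _)
        (norm_cub_le _ _))).trans hb
    · simpa using N_nonneg c1
  refine (Finset.sum_le_card_nsmul _ _ _ h1).trans ?_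
  have h2 : ((dv c1).card : ℝ) ≤ 16 * N c1 :=
    le_trans (by exact_mod_cast Finset.card_filter_le _ _) (card_ball_le (N_nonneg c1))
  rw [nsmul_eq_mul]
  nlinarith [N_nonneg c1]
theorem gauss_conj_KK {c1 c2 : Eis} (h1 : PS c1) (h2 : PS c2) (h : Eis) :
    gauss (fun x => conj (KK c1 c2 x)) (c1 * c2) h =
      ((ab c1 * ab c2 : ℝ) : ℂ) * (conj (g3 c1) * g3 c2) * KK c1 c2 h := by
  rw [gauss_conj, gauss_KK h1 h2, KK_neg h1 h2]
  simp only [map_mul, Complex.conj_conj, Complex.conj_ofReal]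

/-- The Gauss sum met in the dispersion method (gauss_prim, gauss_conj, KK_three). -/
theorem gauss_prim_KK {c1 c2 : Eis} (h1 : PS c1) (h2 : PS c2) (h : Eis) :
    gauss (fun x => (if Prim x then 1 else 0) * conj (KK c1 c2 x)) (3 * (c1 * c2)) h =
      psi 3 h * (((ab c1 * ab c2 : ℝ) : ℂ) * (conj (G c1) * G c2) * KK c1 c2 h) := by
  rw [gauss_prim (h1.1.mul h2.1) (ker_per_conj (per_KK h1 h2))]
  have e : gauss (fun x => conj (KK c1 c2 (3 * x))) (c1 * c2) h =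
      conj (cub 3 c1) * cub 3 c2 * gauss (fun x => conj (KK c1 c2 x)) (c1 * c2) h := by
    simp only [gauss, KK_three h1 h2, map_mul, Complex.conj_conj, Finset.mul_sum, mul_assoc]
  rw [e, gauss_conj_KK h1 h2, G, G, if_pos h1, if_pos h2, map_mul]
  ring
theorem KK_ne {c1 m : Eis} (h1 : c1 ≠ 0) (hm : m ≠ 0) (c2 : Eis) :
    KK c1 c2 m = ∑ D ∈ sqd m, if D ∣ c1 ∧ D ∣ c2 then
      (N D : ℂ) * (cub m (c1 / D) * conj (cub m (c2 / D))) else 0 := by
  simp only [KK, ← Finset.sum_filter]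
  refine Finset.sum_congr ?_ fun _ _ => rfl
  ext D
  simp only [Finset.mem_filter, mem_dv h1, mem_sqd hm]
  tauto

theorem sum_mul_KK {S : Finset Eis} (hS : ∀ n ∈ S, PS n) (f : Eis → Eis → ℂ) {h : Eis}
    (hh : h ≠ 0) : ∑ c1 ∈ S, ∑ c2 ∈ S, f c1 c2 * KK c1 c2 h = ∑ D ∈ sqd h, (N D : ℂ) *
      ∑ c1 ∈ S.filter (fun n => D ∣ n), ∑ c2 ∈ S.filter (fun n => D ∣ n),
        f c1 c2 * (cub h (c1 / D) * conj (cub h (c2 / D))) := by
  have e : ∀ c1 ∈ S, ∑ c2 ∈ S, f c1 c2 * KK c1 c2 h = ∑ D ∈ sqd h, ∑ c2 ∈ S, f c1 c2 *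
      if D ∣ c1 ∧ D ∣ c2 then (N D : ℂ) * (cub h (c1 / D) * conj (cub h (c2 / D))) else 0 :=
    fun c1 h1 => by
      rw [Finset.sum_comm]
      exact Finset.sum_congr rfl fun c2 _ => by rw [KK_ne (hS c1 h1).ne_zero hh, Finset.mul_sum]
  rw [Finset.sum_congr rfl e, Finset.sum_comm]
  refine Finset.sum_congr rfl fun D _ => ?_
  simp only [Finset.sum_filter, Finset.mul_sum]
  refine Finset.sum_congr rfl fun c1 _ => ?_
  by_cases a : D ∣ c1
  · rw [if_pos a, Finset.mul_sum]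
    refine Finset.sum_congr rfl fun c2 _ => ?_
    by_cases b : D ∣ c2
    · rw [if_pos b, if_pos ⟨a, b⟩]; ring
    · rw [if_neg b, if_neg fun c => b c.2]; ring
  · simp [a]

theorem sum_KK {S : Finset Eis} (hS : ∀ n ∈ S, PS n) (γ : Eis → ℂ) {h : Eis} (hh : h ≠ 0) :
    ∑ c1 ∈ S, ∑ c2 ∈ S, γ c1 * conj (γ c2) * KK c1 c2 h = ((∑ D ∈ sqd h, qt S γ h D : ℝ) : ℂ) := by
  rw [sum_mul_KK hS (fun c1 c2 => γ c1 * conj (γ c2)) hh, Complex.ofReal_sum]
  refine Finset.sum_congr rfl fun D _ => ?_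
  rw [qt, Complex.ofReal_mul, ← normSq_eq_norm_sq, ← mul_conj, map_sum, Finset.sum_mul_sum]
  congr 1
  refine Finset.sum_congr rfl fun c1 _ => Finset.sum_congr rfl fun c2 _ => ?_
  rw [map_mul]; ring
theorem sum_KK_zero {S : Finset Eis} (hS : ∀ n ∈ S, PS n) (γ : Eis → ℂ) (f : Eis → Eis → ℂ) :
    ∑ c1 ∈ S, ∑ c2 ∈ S, γ c1 * conj (γ c2) * KK c1 c2 0 * f c1 c2 =
      ∑ c ∈ S, ((‖γ c‖ ^ 2 * N c : ℝ) : ℂ) * f c c := by
  refine Finset.sum_congr rfl fun c1 h1 => ?_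
  rw [Finset.sum_eq_single_of_mem c1 h1]
  · rw [KK_zero (hS c1 h1) (hS c1 h1), if_pos rfl, mul_conj, normSq_eq_norm_sq]
    push_cast; ring
  · intro c2 h2 hne
    rw [KK_zero (hS c1 h1) (hS c2 h2), if_neg hne.symm, mul_zero, zero_mul]
theorem bq_eq {S : Finset Eis} (hS : ∀ n ∈ S, PS n) (k : ℝ → ℂ) (e β : Eis → ℂ) {Hs : Finset Eis}
    (hH : (0 : Eis) ∉ Hs) : bq k e S β Hs (fun _ _ => True) =
      ∑ h ∈ Hs, e h * ∑ c1 ∈ S, ∑ c2 ∈ S, β c1 * conj (β c2) / ((ab c1 * ab c2 : ℝ) : ℂ) *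
        KK c1 c2 h * k (N h / (N c1 * N c2)) := by
  refine Finset.sum_congr rfl fun h hh => ?_
  have h0 : h ≠ 0 := fun e => hH (e ▸ hh)
  have := sum_mul_KK hS (fun c1 c2 => β c1 * conj (β c2) / ((ab c1 * ab c2 : ℝ) : ℂ) *
    k (N h / (N c1 * N c2))) h0
  simp only [if_true]
  congr 1
  simp only [mul_right_comm _ (k _)] at this
  exact this.symm
theorem bq_split (k : ℝ → ℂ) (e : Eis → ℂ) (S : Finset Eis) (β : Eis → ℂ) (Hs : Finset Eis)
    (P Q : Eis → Eis → Prop) : bq k e S β Hs P =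
      bq k e S β Hs (fun h D => P h D ∧ Q h D) + bq k e S β Hs (fun h D => P h D ∧ ¬ Q h D) := by
  unfold bq
  rw [← Finset.sum_add_distrib]
  refine Finset.sum_congr rfl fun h _ => ?_
  rw [← mul_add, ← Finset.sum_add_distrib]
  congr 1
  refine Finset.sum_congr rfl fun D _ => ?_
  by_cases a : P h D <;> by_cases b : Q h D <;> simp [a, b]
/-- One frequency of the dual sum. -/
noncomputable def kD (k : ℝ → ℂ) (S : Finset Eis) (β : Eis → ℂ) (h : Eis) : ℂ :=
  ∑ c1 ∈ S, ∑ c2 ∈ S, β c1 * conj (β c2) / ((ab c1 * ab c2 : ℝ) : ℂ) *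
    KK c1 c2 h * k (N h / (N c1 * N c2))

/-- Its majorant. -/
noncomputable def kM (k : ℝ → ℂ) (S : Finset Eis) (b : Eis → ℝ) (h : Eis) : ℝ :=
  ∑ c1 ∈ S, ∑ c2 ∈ S, b c1 * b c2 / (ab c1 * ab c2) * (16 * N c1 ^ 2) * ‖k (N h / (N c1 * N c2))‖

theorem norm_kD_le (k : ℝ → ℂ) (S : Finset Eis) (β : Eis → ℂ) (h : Eis) :
    ‖kD k S β h‖ ≤ kM k S (fun c => ‖β c‖) h := by
  refine (norm_sum_le _ _).trans (Finset.sum_le_sum fun c1 _ => (norm_sum_le _ _).trans
    (Finset.sum_le_sum fun c2 _ => ?_))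
  have := ab_nonneg c1
  have := ab_nonneg c2
  rw [norm_mul, norm_mul, norm_div, norm_mul, Complex.norm_conj, Complex.norm_real,
    Real.norm_of_nonneg (by positivity)]
  gcongr
  exact norm_KK_le _ _ _

theorem summable_kM {w k : ℝ → ℂ} (hP : PP w k) {S : Finset Eis} (hS : ∀ n ∈ S, PS n)
    (b : Eis → ℝ) : Summable (kM k S b) :=
  summable_sum fun c1 h1 => summable_sum fun c2 h2 => (hP.2.1 _
    (mul_pos (N_pos (hS c1 h1).ne_zero) (N_pos (hS c2 h2).ne_zero))).mul_left _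

theorem bq_ball {S : Finset Eis} (hS : ∀ n ∈ S, PS n) (k : ℝ → ℂ) (β : Eis → ℂ) (K : ℝ) :
    bq k (fun _ => 1) S β (ball K) (fun _ _ => True) = ∑ h ∈ ball K, kD k S β h := by
  rw [bq_eq hS k _ β (bas_zero K)]
  simp only [one_mul, kD]

theorem ker_main {w k : ℝ → ℂ} (hP : PP w k) {w0 : ℝ → ℝ}
    (hw : ∀ x, 0 ≤ x → w x = w0 x ∧ 0 ≤ w0 x) {S : Finset Eis} (hS : ∀ n ∈ S, PS n) (γ : Eis → ℂ)
    (Hs : Finset Eis) (hH : (0 : Eis) ∉ Hs) : ∃ L : ℝ,
    Tendsto (fun K : ℝ => ‖bq k (fun _ => 1) S (fun c => conj (γ c * g3 c)) (ball K)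
      (fun _ _ => True)‖) atTop (𝓝 L) ∧
    ∑ h ∈ Hs, w0 (N h) * ∑ D ∈ sqd h, qt S γ h D ≤ ‖k 0‖ * sq S γ + L := by
  set β : Eis → ℂ := fun c => conj (γ c * g3 c) with hβ
  set t : Eis → ℝ := fun m => if m = 0 then ∑ c ∈ S, ‖γ c‖ ^ 2 * N c else
    ∑ D ∈ sqd m, qt S γ m D with ht
  have t0 : ∀ m, 0 ≤ t m := fun m => by
    simp only [ht]
    split_ifs
    · exact Finset.sum_nonneg fun c _ => mul_nonneg (sq_nonneg _) (N_nonneg c)
    · exact Finset.sum_nonneg fun D _ => qt_nonneg _ _ _ _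
  have e1 : ∀ m, ∑ c1 ∈ S, ∑ c2 ∈ S, γ c1 * conj (γ c2) * KK c1 c2 m = (t m : ℂ) := fun m => by
    simp only [ht]
    split_ifs with x
    · have := sum_KK_zero hS γ fun _ _ => 1
      simp only [mul_one] at this
      rw [x, this, Complex.ofReal_sum]
    · exact sum_KK hS γ x
  have e2 : ∀ m, ∑ c1 ∈ S, ∑ c2 ∈ S, conj (γ c1) * γ c2 * (conj (KK c1 c2 m) * w (N m)) =
      ((w0 (N m) * t m : ℝ) : ℂ) := fun m => by
    have := congrArg conj (e1 m)
    simp only [map_sum, map_mul, Complex.conj_conj, Complex.conj_ofReal] at this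
    rw [Complex.ofReal_mul, ← this, ← (hw _ (N_nonneg m)).1, Finset.mul_sum]
    refine Finset.sum_congr rfl fun c1 _ => ?_
    rw [Finset.mul_sum]
    exact Finset.sum_congr rfl fun c2 _ => by ring
  have s1 : ∀ c1 c2, Summable fun m => conj (KK c1 c2 m) * w (N m) := fun c1 c2 =>
    Summable.of_norm_bounded (hP.1.mul_left (16 * N c1 ^ 2)) fun m => by
      rw [norm_mul, Complex.norm_conj]
      exact mul_le_mul_of_nonneg_right (norm_KK_le _ _ _) (norm_nonneg _)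
  have H1 : HasSum (fun m => ((w0 (N m) * t m : ℝ) : ℂ))
      (∑ c1 ∈ S, ∑ c2 ∈ S, conj (γ c1) * γ c2 * ∑' m, conj (KK c1 c2 m) * w (N m)) := by
    simp only [← e2]
    exact hasSum_sum fun c1 _ => hasSum_sum fun c2 _ => (s1 c1 c2).hasSum.mul_left _
  have H2 : HasSum (kD k S β)
      (∑ c1 ∈ S, ∑ c2 ∈ S, conj (γ c1) * γ c2 * ∑' m, conj (KK c1 c2 m) * w (N m)) := by
    refine hasSum_sum fun c1 h1 => hasSum_sum fun c2 h2 => ?_
    have p1 := hS c1 h1
    have p2 := hS c2 h2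
    have s2 : Summable fun h => β c1 * conj (β c2) / ((ab c1 * ab c2 : ℝ) : ℂ) *
        KK c1 c2 h * k (N h / (N c1 * N c2)) :=
      Summable.of_norm_bounded ((hP.2.1 _ (mul_pos (N_pos p1.ne_zero) (N_pos p2.ne_zero))).mul_left
        (‖β c1 * conj (β c2) / ((ab c1 * ab c2 : ℝ) : ℂ)‖ * (16 * N c1 ^ 2))) fun h => by
          rw [norm_mul, norm_mul]
          gcongr
          exact norm_KK_le _ _ _
    rw [hP.2.2 _ (mul_ne_zero p1.ne_zero p2.ne_zero) _ (ker_per_conj (per_KK p1 p2)),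
      ← tsum_mul_left, ← tsum_mul_left]
    refine s2.hasSum_iff.2 (tsum_congr fun h => ?_)
    have b1 : (ab c1 : ℂ) ≠ 0 := by exact_mod_cast (ab_pos p1.ne_zero).ne'
    have b2 : (ab c2 : ℂ) ≠ 0 := by exact_mod_cast (ab_pos p2.ne_zero).ne'
    have n : ((N c1 * N c2 : ℝ) : ℂ) = (ab c1 : ℂ) ^ 2 * (ab c2 : ℂ) ^ 2 := by
      rw [← ab_sq, ← ab_sq]; push_cast; ring
    rw [gauss_conj_KK p1 p2, N_mul, n]
    simp only [hβ, map_mul, Complex.conj_conj, Complex.ofReal_mul]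
    field_simp
  have sz : Summable fun m => w0 (N m) * t m := by exact_mod_cast H1.summable
  have hZ := sz.hasSum
  have hZ' : HasSum (kD k S β) ((∑' m, w0 (N m) * t m : ℝ) : ℂ) := by
    rw [← H1.unique (Complex.hasSum_ofReal.2 hZ)]
    exact H2
  have d0 : kD k S β 0 = (sq S γ : ℂ) * k 0 := by
    have := sum_KK_zero hS β fun c1 c2 => (((ab c1 * ab c2 : ℝ) : ℂ))⁻¹ * k 0
    rw [sq, Complex.ofReal_sum, Finset.sum_mul]
    refine Eq.trans ?_ (this.trans (Finset.sum_congr rfl fun c hc => ?_))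
    · refine Finset.sum_congr rfl fun c1 _ => Finset.sum_congr rfl fun c2 _ => ?_
      rw [N_zero, zero_div]; ring
    · have b1 : (N c : ℂ) ≠ 0 := by exact_mod_cast (N_pos (hS c hc).ne_zero).ne'
      simp only [hβ, Complex.norm_conj, norm_mul, norm_g3' (hS c hc), mul_one]
      rw [← pow_two, ab_sq]
      push_cast
      field_simp
  refine ⟨_, by simpa only [bq_ball hS] using (tendsto_sum_ball hZ').norm, ?_⟩
  have z0 : ∀ m, 0 ≤ w0 (N m) * t m := fun m => mul_nonneg (hw _ (N_nonneg m)).2 (t0 m)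
  calc _ = ∑ h ∈ Hs, w0 (N h) * t h := Finset.sum_congr rfl fun h hh => by
        simp only [ht, if_neg fun e : h = 0 => hH (e ▸ hh)]
    _ ≤ ∑' m, w0 (N m) * t m := sz.sum_le_tsum Hs fun m _ => z0 m
    _ ≤ ‖((∑' m, w0 (N m) * t m : ℝ) : ℂ)‖ := by
        rw [Complex.norm_real]; exact Real.le_norm_self _
    _ ≤ ‖kD k S β 0‖ + ‖((∑' m, w0 (N m) * t m : ℝ) : ℂ) - kD k S β 0‖ := norm_le_norm_add_norm_sub' _ _
    _ = _ := by
        rw [d0, norm_mul, Complex.norm_real, Real.norm_of_nonneg (sq_nonneg' S γ), mul_comm]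

/-- Positivity and Poisson summation. All terms w (N h) ∑ γ γ KK, the term h = 0 included, are
nonnegative. Apply the Poisson pair to the complex conjugate conj (KK c1 c2) (w is real). -/
theorem dual_le {w k : ℝ → ℂ} (hP : PP w k) {w0 : ℝ → ℝ} (hw : ∀ x, 0 ≤ x → w x = w0 x ∧ 0 ≤ w0 x)
    {S : Finset Eis} (hS : ∀ n ∈ S, PS n) (γ : Eis → ℂ) {B : ℝ}
    (hB : ∀ K, ‖bq k (fun _ => 1) S (fun c => conj (γ c * g3 c)) (ball K) (fun _ _ => True)‖ ≤ B)
    (Hs : Finset Eis) (hH : (0 : Eis) ∉ Hs) :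
    ∑ h ∈ Hs, w0 (N h) * ∑ D ∈ sqd h, qt S γ h D ≤ ‖k 0‖ * sq S γ + B := by
  obtain ⟨L, h1, h2⟩ := ker_main hP hw hS γ Hs hH
  exact h2.trans (add_le_add le_rfl (le_of_tendsto' h1 hB))

theorem continuous_bq (k : ℝ → ℂ) (e : Eis → ℂ) (S : Finset Eis) (β : Eis → ℂ) (Hs : Finset Eis)
    (P : Eis → Eis → Prop) : Continuous fun τ => bq k e S (tw β τ) Hs P := by
  unfold bq
  refine continuous_finsetSum _ fun h _ => continuous_const.mul (continuous_finsetSum _ fun D _ => ?_)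
  split_ifs
  · refine continuous_const.mul (continuous_finsetSum _ fun c1 _ => continuous_finsetSum _
      fun c2 _ => Continuous.mul (Continuous.mul (Continuous.div_const ?_ _) continuous_const)
        continuous_const)
    exact (continuous_const.mul (continuous_nit c1)).mul
      (Complex.continuous_conj.comp (continuous_const.mul (continuous_nit c2)))
  · exact continuous_const
theorem conj_tw_g3 (γ : Eis → ℂ) (τ : ℝ) :
    (fun c => conj (tw γ τ c * g3 c)) = tw (fun c => conj (γ c * g3 c)) (-τ) := by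
  funext c
  simp only [tw, map_mul, conj_nit]
  ring
/-- Averaged version: the truncated dual sums converge as K → ∞, bounded uniformly in τ, so dominated
convergence applies. -/
theorem dual_le_int {w k : ℝ → ℂ} (hP : PP w k) {w0 : ℝ → ℝ}
    (hw : ∀ x, 0 ≤ x → w x = w0 x ∧ 0 ≤ w0 x) (μ : Measure ℝ) [IsProbabilityMeasure μ]
    {S : Finset Eis} (hS : ∀ n ∈ S, PS n) (γ : Eis → ℂ) {B : ℝ}
    (hB : ∀ K, ∫ τ, ‖bq k (fun _ => 1) S (tw (fun c => conj (γ c * g3 c)) (-τ)) (ball K)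
      (fun _ _ => True)‖ ∂μ ≤ B)
    (Hs : Finset Eis) (hH : (0 : Eis) ∉ Hs) :
    ∫ τ, ∑ h ∈ Hs, w0 (N h) * ∑ D ∈ sqd h, qt S (tw γ τ) h D ∂μ ≤ ‖k 0‖ * sq S γ + B := by
  set β : Eis → ℂ := fun c => conj (γ c * g3 c) with hβ
  choose L h1 h2 using fun τ => ker_main hP hw hS (tw γ τ) Hs hH
  simp only [conj_tw_g3, sq_tw] at h1 h2
  have sm := summable_kM hP hS fun c => ‖β c‖
  have mes : ∀ K : ℝ, AEStronglyMeasurable (fun τ => ‖bq k (fun _ => 1) S (tw β (-τ)) (ball K)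
      (fun _ _ => True)‖) μ := fun K =>
    ((continuous_bq k _ S β _ _).comp continuous_neg).norm.aestronglyMeasurable
  have bd : ∀ K τ : ℝ, ‖bq k (fun _ => 1) S (tw β (-τ)) (ball K) (fun _ _ => True)‖ ≤
      ∑' h, kM k S (fun c => ‖β c‖) h := fun K τ => by
    rw [bq_ball hS]
    refine (norm_sum_le _ _).trans (le_trans (Finset.sum_le_sum fun h _ => ?_)
      (sm.sum_le_tsum (ball K) fun h _ => (norm_nonneg _).trans (norm_kD_le k S β h)))
    simpa only [norm_tw] using norm_kD_le k S (tw β (-τ)) h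
  have lim := tendsto_integral_filter_of_dominated_convergence (μ := μ) (l := atTop)
    (fun _ => ∑' h, kM k S (fun c => ‖β c‖) h) (Eventually.of_forall mes)
    (Eventually.of_forall fun K => ae_of_all _ fun τ => by rw [norm_norm]; exact bd K τ)
    (integrable_const _) (ae_of_all _ h1)
  have iL : Integrable L μ := Integrable.of_bound
    (aestronglyMeasurable_of_tendsto_ae atTop mes (ae_of_all _ h1)) _ (ae_of_all _ fun τ => by
      rw [Real.norm_of_nonneg (ge_of_tendsto' (h1 τ) fun _ => norm_nonneg _)]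
      exact le_of_tendsto' (h1 τ) fun K => bd K τ)
  calc _ ≤ ∫ τ, (‖k 0‖ * sq S γ + L τ) ∂μ := integral_mono_of_nonneg
        (ae_of_all _ fun τ => Finset.sum_nonneg fun h _ => mul_nonneg (hw _ (N_nonneg h)).2
          (Finset.sum_nonneg fun D _ => qt_nonneg _ _ _ _)) ((integrable_const _).add iL)
        (ae_of_all _ h2)
    _ = ‖k 0‖ * sq S γ + ∫ τ, L τ ∂μ := by
        rw [integral_add (integrable_const _) iL, integral_const, probReal_univ, one_smul]
    _ ≤ _ := add_le_add le_rfl (le_of_tendsto' lim hB)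

theorem pp_exp {M : ℝ} (hM : 0 < M) :
    PP (fun x => (Real.exp (-(Real.pi * x / M)) : ℂ))
      (fun y => ((2 * M / √3 : ℝ) : ℂ) * (Real.exp (-(4 * Real.pi / 3 * M * y)) : ℂ)) := by
  have hpi := Real.pi_pos
  refine ⟨?_, fun a ha => ?_, fun c hc F hF => ?_⟩
  · refine (summable_exp (div_pos hpi hM)).congr fun m => ?_
    rw [Complex.norm_real, Real.norm_of_nonneg (Real.exp_pos _).le]
    congr 2; ring
  · refine ((summable_exp (a := 4 * Real.pi / 3 * M / a) (by positivity)).mul_left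
      ‖((2 * M / √3 : ℝ) : ℂ)‖).congr fun m => ?_
    rw [norm_mul, Complex.norm_real (Real.exp _), Real.norm_of_nonneg (Real.exp_pos _).le]
    congr 3; ring
  · rw [poisson_per hc hF hM, ← tsum_mul_left, ← tsum_mul_left]
    refine tsum_congr fun h => ?_
    rw [mul_div_assoc (4 * Real.pi / 3 * M), ← div_div]
    push_cast
    ring
theorem ker_mix {φ : ℝ → ℂ} (hm : Measurable φ)
    (hi : IntegrableOn (fun M => ‖φ M‖ * (1 + M)) (Set.Ioi 0)) {e : Eis → ℝ → ℂ}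
    (he : ∀ m, Measurable (e m)) {C : ℝ}
    (hC : ∀ M, 0 < M → ∀ t : Finset Eis, ∑ m ∈ t, ‖e m M‖ ≤ C * (1 + M)) :
    Summable (fun m => ‖∫ M in Set.Ioi (0 : ℝ), φ M * e m M‖) ∧
      ∑' m, ∫ M in Set.Ioi (0 : ℝ), φ M * e m M = ∫ M in Set.Ioi (0 : ℝ), φ M * ∑' m, e m M := by
  have b : ∀ t : Finset Eis, ∀ᵐ M ∂(volume.restrict (Set.Ioi (0 : ℝ))),
      ∑ m ∈ t, ‖φ M * e m M‖ ≤ C * (‖φ M‖ * (1 + M)) := fun t =>
    (ae_restrict_mem measurableSet_Ioi).mono fun M hM => by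
      simp only [norm_mul, ← Finset.mul_sum]
      rw [mul_left_comm]
      exact mul_le_mul_of_nonneg_left (hC M hM t) (norm_nonneg _)
  have i1 : ∀ m, Integrable (fun M => φ M * e m M) (volume.restrict (Set.Ioi (0 : ℝ))) := fun m =>
    (hi.const_mul C).mono' (hm.mul (he m)).aestronglyMeasurable (by simpa using b {m})
  have s1 : Summable fun m => ∫ M in Set.Ioi (0 : ℝ), ‖φ M * e m M‖ :=
    summable_of_sum_le (fun m => integral_nonneg fun _ => norm_nonneg _) fun t => by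
      rw [← integral_finsetSum t fun m _ => (i1 m).norm]
      exact integral_mono_ae (integrable_finsetSum t fun m _ => (i1 m).norm) (hi.const_mul C) (b t)
  refine ⟨s1.of_nonneg_of_le (fun _ => norm_nonneg _) fun m => norm_integral_le_integral_norm _, ?_⟩
  rw [integral_tsum_of_summable_integral_norm i1 s1]
  simp only [tsum_mul_left]

theorem ker_exp : ∃ C : ℝ, 0 < C ∧ ∀ a : ℝ, 0 < a → ∀ t : Finset Eis,
    ∑ m ∈ t, Real.exp (-(a * N m)) ≤ 1 + C / a := by
  obtain ⟨C, hC, h⟩ := tsum_exp_le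
  refine ⟨C, hC, fun a ha t => ((summable_exp ha).sum_le_tsum t
    fun _ _ => (Real.exp_pos _).le).trans ?_⟩
  rw [(summable_exp ha).tsum_eq_add_tsum_ite 0]
  simp only [N_zero, mul_zero, neg_zero, Real.exp_zero]
  exact add_le_add le_rfl (h a ha)

theorem ker_b1 {A : Eis → ℂ} {b : ℝ} (hA : ∀ m, ‖A m‖ ≤ b) : ∃ C : ℝ, ∀ M : ℝ, 0 < M →
    ∀ t : Finset Eis, ∑ m ∈ t, ‖A m * (Real.exp (-(Real.pi * N m / M)) : ℂ)‖ ≤ C * (1 + M) := by
  obtain ⟨C, hC, h⟩ := ker_exp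
  have hpi := Real.pi_pos
  have b0 : 0 ≤ b := (norm_nonneg _).trans (hA 0)
  refine ⟨b * (1 + C / Real.pi), fun M hM t => ?_⟩
  calc _ ≤ ∑ m ∈ t, b * Real.exp (-(Real.pi / M * N m)) := Finset.sum_le_sum fun m _ => by
        rw [norm_mul, Complex.norm_real, Real.norm_of_nonneg (Real.exp_pos _).le, div_mul_eq_mul_div]
        exact mul_le_mul_of_nonneg_right (hA m) (Real.exp_pos _).le
    _ ≤ b * (1 + C / (Real.pi / M)) := by
        rw [← Finset.mul_sum]
        exact mul_le_mul_of_nonneg_left (h _ (div_pos hpi hM) t) b0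
    _ ≤ _ := by
        rw [mul_assoc, div_div_eq_mul_div, mul_div_right_comm]
        have : 0 < C / Real.pi := by positivity
        exact mul_le_mul_of_nonneg_left (by nlinarith) b0

theorem ker_b2 {A : Eis → ℂ} {b a : ℝ} (hA : ∀ m, ‖A m‖ ≤ b) (ha : 0 < a) : ∃ C : ℝ, ∀ M : ℝ,
    0 < M → ∀ t : Finset Eis, ∑ m ∈ t, ‖A m * (((2 * M / √3 : ℝ) : ℂ) *
      (Real.exp (-(4 * Real.pi / 3 * M * (N m / a))) : ℂ))‖ ≤ C * (1 + M) := by
  obtain ⟨C, hC, h⟩ := ker_exp
  have hpi := Real.pi_pos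
  have b0 : 0 ≤ b := (norm_nonneg _).trans (hA 0)
  refine ⟨b * (2 / √3 * (1 + C * a / (4 * Real.pi / 3))), fun M hM t => ?_⟩
  calc _ ≤ ∑ m ∈ t, b * (2 * M / √3 * Real.exp (-(4 * Real.pi / 3 * M / a * N m))) :=
        Finset.sum_le_sum fun m _ => by
          rw [norm_mul, norm_mul, Complex.norm_real, Complex.norm_real,
            Real.norm_of_nonneg (Real.exp_pos _).le, Real.norm_of_nonneg (by positivity),
            show 4 * Real.pi / 3 * M * (N m / a) = 4 * Real.pi / 3 * M / a * N m by ring]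
          exact mul_le_mul_of_nonneg_right (hA m) (by positivity)
    _ ≤ b * (2 * M / √3 * (1 + C / (4 * Real.pi / 3 * M / a))) := by
        rw [← Finset.mul_sum, ← Finset.mul_sum]
        gcongr
        exact h _ (by positivity) t
    _ = b * (2 / √3 * (M + C * a / (4 * Real.pi / 3))) := by field_simp
    _ ≤ _ := by
        rw [mul_assoc b, mul_assoc (2 / √3)]
        have : 0 < C * a / (4 * Real.pi / 3) := by positivity
        gcongr
        nlinarith

/-- Mixtures of Gaussians. -/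
theorem pp_mix {φ : ℝ → ℂ} (hm : Measurable φ)
    (hi : IntegrableOn (fun M => ‖φ M‖ * (1 + M)) (Set.Ioi 0)) :
    PP (fun x => ∫ M in Set.Ioi (0 : ℝ), φ M * (Real.exp (-(Real.pi * x / M)) : ℂ))
      (fun y => ∫ M in Set.Ioi (0 : ℝ), φ M *
        (((2 * M / √3 : ℝ) : ℂ) * (Real.exp (-(4 * Real.pi / 3 * M * y)) : ℂ))) := by
  have m1 : ∀ (z : ℂ) (x : ℝ), Measurable fun M : ℝ => z * (Real.exp (-(Real.pi * x / M)) : ℂ) :=
    fun z x => by fun_prop
  have m2 : ∀ (z : ℂ) (y : ℝ), Measurable fun M : ℝ => z * (((2 * M / √3 : ℝ) : ℂ) *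
      (Real.exp (-(4 * Real.pi / 3 * M * y)) : ℂ)) := fun z y => by fun_prop
  refine ⟨?_, fun a ha => ?_, fun c hc F hF => ?_⟩
  · obtain ⟨C, hC⟩ := ker_b1 (A := fun _ => 1) (b := 1) (by simp)
    simpa only [one_mul] using (ker_mix hm hi (fun m => m1 _ _) hC).1
  · obtain ⟨C, hC⟩ := ker_b2 (A := fun _ => 1) (b := 1) (by simp) ha
    simpa only [one_mul] using (ker_mix hm hi (fun m => m2 _ _) hC).1
  · obtain ⟨C, hC⟩ := ker_b1 (pois_bound hc hF)
    obtain ⟨C', hC'⟩ := ker_b2 (A := fun h => gauss F c h) (b := ∑ x ∈ res c, ‖F x‖) (fun h =>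
      (norm_sum_le _ _).trans (Finset.sum_le_sum fun x _ => by
        rw [norm_mul, norm_psi, mul_one])) (N_pos hc)
    have e1 := (ker_mix hm hi (fun m => m1 _ _) hC).2
    have e2 := (ker_mix hm hi (fun m => m2 _ _) hC').2
    simp only [mul_left_comm (φ _) (F _), mul_left_comm (φ _) (gauss F c _), integral_const_mul]
      at e1 e2
    rw [e1, e2, ← integral_const_mul]
    refine setIntegral_congr_fun measurableSet_Ioi fun M hM => ?_
    simp only [(pp_exp hM).2.2 c hc F hF]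
    ring

end Vale.Agent.P006
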