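import Vale.Agent.P006.GC
import Vale.Agent.P006.Wt

/-! Abel summation over the Eisenstein integers (first half of LC). -/

namespace Vale.Agent.P006

open Vale.Agent.P026 Eis Complex MeasureTheory Filter Topology
open scoped Classical ComplexConjugate

theorem lc_tail {g g' : ℝ → ℂ} (hg : ∀ x, 0 < x → HasDerivAt g (g' x) x)
    (hc : ContinuousOn g' (Set.Ioi 0))
    (hi : IntegrableOn (fun x => ‖g' x‖ * (x + x ^ 2)) (Set.Ioi 0))
    (h0 : Tendsto g atTop (𝓝 0)) {y : ℝ} (hy : 0 < y) :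
    IntegrableOn g' (Set.Ioi y) ∧ ∫ x in Set.Ioi y, g' x = -g y := by
  have hs : Set.Ioi y ⊆ Set.Ioi 0 := Set.Ioi_subset_Ioi hy.le
  have h1 : IntegrableOn g' (Set.Ioi y) := by
    refine Integrable.mono' ((hi.mono_set hs).const_mul y⁻¹)
      ((hc.mono hs).aestronglyMeasurable measurableSet_Ioi)
      ((ae_restrict_mem measurableSet_Ioi).mono fun x hx => ?_)
    rw [mul_left_comm]
    refine le_mul_of_one_le_right (norm_nonneg _) ?_
    rw [← div_eq_inv_mul, one_le_div hy]
    linarith [Set.mem_Ioi.1 hx, sq_nonneg x]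
  exact ⟨h1, by rw [integral_Ioi_of_hasDerivAt_of_tendsto' (fun x hx => hg x (hy.trans_le hx)) h1 h0,
    zero_sub]⟩

theorem lc_ind {E : Type} [NormedAddCommGroup E] [NormedSpace ℝ E] [CompleteSpace E] (c : E)
    {x : ℝ} (hx : 0 < x) :
    IntegrableOn ((Set.Iio x).indicator fun _ => c) (Set.Ioi 0) ∧
      ∫ y in Set.Ioi (0 : ℝ), (Set.Iio x).indicator (fun _ => c) y = x • c := by
  have e : Set.Iio x ∩ Set.Ioi 0 = Set.Ioo 0 x := by rw [Set.inter_comm, Set.Ioi_inter_Iio]
  constructor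
  · rw [IntegrableOn, integrable_indicator_iff measurableSet_Iio, IntegrableOn,
      Measure.restrict_restrict measurableSet_Iio, e]
    exact integrableOn_const (by simp)
  · rw [integral_indicator measurableSet_Iio, Measure.restrict_restrict measurableSet_Iio, e,
      setIntegral_const, Real.volume_real_Ioo_of_le hx.le, sub_zero]

theorem lc_x {g' : ℝ → ℂ} (hc : ContinuousOn g' (Set.Ioi 0))
    (hi : IntegrableOn (fun x => ‖g' x‖ * (x + x ^ 2)) (Set.Ioi 0)) :
    IntegrableOn (fun x : ℝ => x • g' x) (Set.Ioi 0) := by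
  refine Integrable.mono' hi ((continuousOn_id.smul hc).aestronglyMeasurable measurableSet_Ioi)
    ((ae_restrict_mem measurableSet_Ioi).mono fun x hx => ?_)
  rw [norm_smul, Real.norm_of_nonneg (le_of_lt hx), mul_comm]
  exact mul_le_mul_of_nonneg_left (by linarith [sq_nonneg x]) (norm_nonneg _)

theorem lc_int {g g' : ℝ → ℂ} (hg : ∀ x, 0 < x → HasDerivAt g (g' x) x)
    (hc : ContinuousOn g' (Set.Ioi 0))
    (hi : IntegrableOn (fun x => ‖g' x‖ * (x + x ^ 2)) (Set.Ioi 0))
    (h0 : Tendsto g atTop (𝓝 0)) :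
    IntegrableOn g (Set.Ioi 0) ∧
      ∫ x in Set.Ioi (0 : ℝ), g x = -∫ x in Set.Ioi (0 : ℝ), x • g' x := by
  have hm := hc.aestronglyMeasurable (μ := volume) measurableSet_Ioi
  obtain ⟨f, hf⟩ : ∃ f : ℝ → ℝ → ℂ, f = fun y x => if y < x then g' x else 0 := ⟨_, rfl⟩
  have e1 : ∀ x, (fun y => f y x) = (Set.Iio x).indicator fun _ => g' x := fun x => by
    funext y
    rw [hf, Set.indicator_apply]
    rfl
  have e2 : ∀ x, (fun y => ‖f y x‖) = (Set.Iio x).indicator fun _ => ‖g' x‖ := fun x => by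
    funext y
    rw [congrFun (e1 x) y, norm_indicator_eq_indicator_norm]
  have e3 : ∀ y, 0 < y → ∫ x in Set.Ioi (0 : ℝ), f y x = -g y := fun y hy => by
    have e : f y = (Set.Ioi y).indicator g' := by
      funext x
      rw [hf, Set.indicator_apply]
      rfl
    rw [e, integral_indicator measurableSet_Ioi, Measure.restrict_restrict measurableSet_Ioi,
      Set.inter_eq_left.2 (Set.Ioi_subset_Ioi hy.le), (lc_tail hg hc hi h0 hy).2]
  have h1 : AEStronglyMeasurable (Function.uncurry f)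
      ((volume.restrict (Set.Ioi 0)).prod (volume.restrict (Set.Ioi 0))) := by
    have e : Function.uncurry f = {p : ℝ × ℝ | p.1 < p.2}.indicator fun p => g' p.2 := by
      funext p
      rw [hf, Set.indicator_apply]
      rfl
    rw [e]
    exact hm.comp_snd.indicator (measurableSet_lt measurable_fst measurable_snd)
  have h2 : Integrable (Function.uncurry f)
      ((volume.restrict (Set.Ioi 0)).prod (volume.restrict (Set.Ioi 0))) := by
    refine (integrable_prod_iff' h1).2 ⟨(ae_restrict_mem measurableSet_Ioi).mono fun x hx => ?_,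
      (lc_x hc hi).norm.congr ((ae_restrict_mem measurableSet_Ioi).mono fun x hx => ?_)⟩
    · simp only [Function.uncurry_apply_pair]
      rw [e1]
      exact (lc_ind _ hx).1
    · simp only [Function.uncurry_apply_pair]
      rw [e2, (lc_ind _ hx).2, norm_smul, Real.norm_of_nonneg (le_of_lt hx), smul_eq_mul]
  have h3 := integral_integral_swap h2
  have e4 : ∀ x ∈ Set.Ioi (0 : ℝ), ∫ y in Set.Ioi (0 : ℝ), f y x = x • g' x := fun x hx => by
    rw [e1]
    exact (lc_ind _ hx).2
  rw [setIntegral_congr_fun measurableSet_Ioi (fun y hy => e3 y hy), integral_neg,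
    setIntegral_congr_fun measurableSet_Ioi e4] at h3
  refine ⟨h2.integral_prod_left.neg.congr ((ae_restrict_mem measurableSet_Ioi).mono fun y hy => ?_),
    by rw [← h3, neg_neg]⟩
  simp only [Function.uncurry_apply_pair, Pi.neg_apply]
  rw [e3 y hy, neg_neg]

/-- Abel summation. -/
theorem lc {F : Eis → ℂ} {g g' : ℝ → ℂ} {m : ℂ} {E : ℝ → ℝ} {M : ℝ}
    (hF : ∀ n, ‖F n‖ ≤ M * N n) (hg : ∀ x, 0 < x → HasDerivAt g (g' x) x)
    (hc : ContinuousOn g' (Set.Ioi 0))
    (hi : IntegrableOn (fun x => ‖g' x‖ * (x + x ^ 2)) (Set.Ioi 0))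
    (h0 : Tendsto g atTop (𝓝 0))
    (hE : ∀ x, 0 < x → ‖∑ n ∈ ball x, F n - m * x‖ ≤ E x)
    (hEi : IntegrableOn (fun x => ‖g' x‖ * E x) (Set.Ioi 0)) :
    Summable (fun n => F n * g (N n)) ∧ IntegrableOn g (Set.Ioi 0) ∧
      ‖∑' n, F n * g (N n) - m * ∫ x in Set.Ioi (0 : ℝ), g x‖ ≤
        ∫ x in Set.Ioi (0 : ℝ), ‖g' x‖ * E x := by
  have hM : 0 ≤ M := by simpa using (norm_nonneg _).trans (hF 1)
  have F0 : F 0 = 0 := by simpa [N_eq_zero.2 rfl] using hF 0
  obtain ⟨i1, i2⟩ := lc_int hg hc hi h0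
  obtain ⟨Φ, hΦ⟩ : ∃ Φ : Eis → ℝ → ℂ, Φ = fun n => if n = 0 then (fun x => -(m * x • g' x))
      else (Set.Ici (N n)).indicator (fun x => F n * g' x) := ⟨_, rfl⟩
  have p0 : Φ 0 = fun x => -(m * x • g' x) := by rw [hΦ]; exact if_pos rfl
  have p1 : ∀ n, n ≠ 0 → Φ n = (Set.Ici (N n)).indicator (fun x => F n * g' x) := fun n hn => by
    rw [hΦ]; exact if_neg hn
  have es : ∀ n : Eis, n ≠ 0 → Set.Ici (N n) ∩ Set.Ioi 0 = Set.Ici (N n) := fun n hn =>
    Set.inter_eq_left.2 fun x hx => (N_pos hn).trans_le hx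
  have h1 : ∀ n, Integrable (Φ n) (volume.restrict (Set.Ioi 0)) := fun n => by
    by_cases hn : n = 0
    · rw [hn, p0]
      exact ((lc_x hc hi).const_mul m).neg
    · rw [p1 n hn, integrable_indicator_iff measurableSet_Ici, IntegrableOn,
        Measure.restrict_restrict measurableSet_Ici, es n hn]
      exact ((integrableOn_Ici_iff_integrableOn_Ioi).2
        (lc_tail hg hc hi h0 (N_pos hn)).1).const_mul _
  have h2 : ∀ n, ∫ x in Set.Ioi (0 : ℝ), Φ n x =
      (if n = 0 then m * ∫ x in Set.Ioi (0 : ℝ), g x else 0) - F n * g (N n) := fun n => by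
    by_cases hn : n = 0
    · rw [hn, p0, if_pos rfl, F0, zero_mul, sub_zero, i2, integral_neg, integral_const_mul, mul_neg]
    · rw [p1 n hn, if_neg hn, integral_indicator measurableSet_Ici,
        Measure.restrict_restrict measurableSet_Ici, es n hn, integral_Ici_eq_integral_Ioi,
        integral_const_mul, (lc_tail hg hc hi h0 (N_pos hn)).2, mul_neg, zero_sub]
  have h3 : Summable fun n => ∫ x in Set.Ioi (0 : ℝ), ‖Φ n x‖ := by
    refine (summable_of_ball (C := ∫ x in Set.Ioi (0 : ℝ), 16 * M * (‖g' x‖ * (x + x ^ 2)))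
      (fun n => integral_nonneg fun x => norm_nonneg _) fun K => ?_).1
    rw [← integral_finsetSum _ fun n _ => (h1 n).norm]
    refine integral_mono_ae (integrable_finsetSum _ fun n _ => (h1 n).norm) (hi.const_mul _)
      ((ae_restrict_mem measurableSet_Ioi).mono fun x hx => ?_)
    have hx : 0 < x := hx
    have k : ∑ n ∈ ball K, ‖Φ n x‖ ≤ ∑ n ∈ ball K, if N n ≤ x then M * x * ‖g' x‖ else 0 := by
      refine Finset.sum_le_sum fun n hn => ?_
      rw [p1 n (mem_ball.1 hn).1, Set.indicator_apply]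
      by_cases j : N n ≤ x
      · rw [if_pos j, if_pos (Set.mem_Ici.2 j), norm_mul]
        exact mul_le_mul_of_nonneg_right ((hF n).trans (mul_le_mul_of_nonneg_left j hM))
          (norm_nonneg _)
      · rw [if_neg j, if_neg fun i => j (Set.mem_Ici.1 i), norm_zero]
    rw [← Finset.sum_filter, Finset.sum_const, nsmul_eq_mul] at k
    have k2 : (((ball K).filter fun n => N n ≤ x).card : ℝ) ≤ 16 * x :=
      (Nat.cast_le.2 (Finset.card_le_card fun n hn => mem_ball.2
        ⟨(mem_ball.1 (Finset.mem_filter.1 hn).1).1, (Finset.mem_filter.1 hn).2⟩)).trans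
        (card_ball_le hx.le)
    have k3 := mul_le_mul_of_nonneg_right k2 (show 0 ≤ M * x * ‖g' x‖ by positivity)
    have k4 : 0 ≤ M * x * ‖g' x‖ := by positivity
    dsimp only
    nlinarith
  have h4 := hasSum_integral_of_summable_integral_norm h1 h3
  have h5 := (hasSum_ite_eq (0 : Eis) (m * ∫ x in Set.Ioi (0 : ℝ), g x)).sub h4
  simp only [h2, sub_sub_cancel] at h5
  refine ⟨h5.summable, i1, ?_⟩
  rw [h5.tsum_eq, sub_sub_cancel_left, norm_neg]
  refine norm_integral_le_of_norm_le hEi ((ae_restrict_mem measurableSet_Ioi).mono fun x hx => ?_)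
  have e : ∑' n, Φ n x = g' x * (∑ n ∈ ball x, F n - m * x) := by
    rw [tsum_eq_sum (s := insert 0 (ball x)) fun n hn => ?_, Finset.sum_insert (bas_zero x), p0,
      Finset.sum_congr rfl (g := fun n => F n * g' x) fun n hn => ?_, ← Finset.sum_mul]
    · simp only [real_smul]
      ring
    · rw [p1 n (mem_ball.1 hn).1, Set.indicator_of_mem (Set.mem_Ici.2 (mem_ball.1 hn).2)]
    · rw [Finset.mem_insert, not_or] at hn
      rw [p1 n hn.1, Set.indicator_of_notMem fun i => hn.2 (mem_ball.2 ⟨hn.1, Set.mem_Ici.1 i⟩)]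
  rw [e, norm_mul]
  exact mul_le_mul_of_nonneg_left (hE x hx) (norm_nonneg _)

/-- The substitution x = Y exp u. -/
theorem lc_sub {E : Type} [NormedAddCommGroup E] [NormedSpace ℝ E] (G : ℝ → E) {Y : ℝ}
    (hY : 0 < Y) :
    (IntegrableOn G (Set.Ioi 0) ↔ Integrable fun u => (Y * Real.exp u) • G (Y * Real.exp u)) ∧
      ∫ x in Set.Ioi (0 : ℝ), G x = ∫ u, (Y * Real.exp u) • G (Y * Real.exp u) := by
  have e : (fun u => Y * Real.exp u) '' Set.univ = Set.Ioi 0 := by
    ext x
    refine ⟨fun ⟨u, _, h⟩ => h ▸ mul_pos hY (Real.exp_pos u), fun h => ⟨Real.log (x / Y), trivial, ?_⟩⟩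
    dsimp only
    rw [Real.exp_log (div_pos h hY), mul_div_cancel₀ _ hY.ne']
  have d : ∀ u ∈ Set.univ, HasDerivWithinAt (fun u => Y * Real.exp u) (Y * Real.exp u) Set.univ u :=
    fun u _ => ((Real.hasDerivAt_exp u).const_mul Y).hasDerivWithinAt
  have i : Set.InjOn (fun u => Y * Real.exp u) Set.univ := fun a _ b _ h =>
    Real.exp_injective (mul_left_cancel₀ hY.ne' h)
  have a : ∀ u, |Y * Real.exp u| = Y * Real.exp u := fun u => abs_of_pos (by positivity)
  have h1 := integrableOn_image_iff_integrableOn_abs_deriv_smul MeasurableSet.univ d i G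
  have h2 := integral_image_eq_integral_abs_deriv_smul MeasurableSet.univ d i G
  simp only [e, a, integrableOn_univ, Measure.restrict_univ] at h1 h2
  exact ⟨h1, h2⟩

theorem lc_gam {a Y : ℝ} (ha : 0 < a) (hY : 0 < Y) :
    IntegrableOn (fun x : ℝ => x ^ (a - 1) * Real.exp (-(x / Y))) (Set.Ioi 0) ∧
      ∫ x in Set.Ioi (0 : ℝ), x ^ (a - 1) * Real.exp (-(x / Y)) = Real.Gamma a * Y ^ a := by
  have h1 := integrableOn_rpow_mul_exp_neg_mul_rpow (s := a - 1) (by linarith) one_pos
    (inv_pos.2 hY)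
  have h2 := Real.integral_rpow_mul_exp_neg_mul_Ioi ha (inv_pos.2 hY)
  simp only [Real.rpow_one, neg_mul, ← div_eq_inv_mul] at h1
  simp only [← div_eq_inv_mul, one_div, inv_inv] at h2
  exact ⟨h1, by rw [h2, mul_comm]⟩

end Vale.Agent.P006
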