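import Vale.Agent.P006.NearA

/-! Frequencies close to cubes. -/

namespace Vale.Agent.P006

open Vale.Agent.P026 Eis Complex MeasureTheory Filter Topology
open scoped Classical ComplexConjugate

theorem nr_scale {θ M Q x : ℝ} (hθ : 0 ≤ θ) (hM : 0 < M) (hQ : 0 ≤ Q) (hx : 1 ≤ x) :
    θ * (M / x) + Q ^ 3 * √(M / x) ≤ x ^ (-(1 / 2) : ℝ) * (θ * M + Q ^ 3 * √M) := by
  have hp : 0 < x := by linarith
  have h1 : x⁻¹ ≤ x ^ (-(1 / 2) : ℝ) := by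
    rw [← Real.rpow_neg_one]
    exact Real.rpow_le_rpow_of_exponent_le hx (by norm_num)
  have h2 : √(M / x) = x ^ (-(1 / 2) : ℝ) * √M := by
    rw [Real.sqrt_div hM.le, Real.rpow_neg hp.le, ← Real.sqrt_eq_rpow, div_eq_inv_mul]
  rw [h2, div_eq_inv_mul]
  have := mul_le_mul_of_nonneg_right h1 (mul_nonneg hθ hM.le)
  linarith

/-- One value of D. -/
theorem near1 : ∃ C : ℝ, 0 < C ∧ ∀ (μ : Measure ℝ) [IsProbabilityMeasure μ] (θ C0 : ℝ), 0 ≤ θ →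
    0 ≤ C0 → OSP μ θ C0 → ∀ (S : Finset Eis) (a : Eis → ℂ) (H M Q : ℝ), 0 < H → 0 < M → 1 ≤ Q →
    S ⊆ PB M →
      ∫ τ, ∑ h ∈ (ball H).filter (Near Q), ‖∑ m ∈ S, tw a τ m * cub h m‖ ^ 2 ∂μ ≤
        C * C0 * H ^ (1 / 3 : ℝ) * (θ * M + Q ^ 3 * √M) * ∑ m ∈ S, ‖a m‖ ^ 2 / omw m := by
  obtain ⟨C1, hC1, h1⟩ := nr_point
  obtain ⟨C2, hC2, h2⟩ := nr_conv
  refine ⟨C1 * C2, by positivity, fun μ _ θ C0 hθ hC0 hO S a H M Q hH hM hQ hS => ?_⟩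
  have hS0 : (0 : Eis) ∉ S := fun k => (mem_PB.1 (hS k)).1.ne_zero rfl
  have i1 : ∀ e, Integrable (fun τ => ∑ q ∈ KQ Q,
      ‖∑ m ∈ nrF S e, tw (fun m => a (e * m)) τ m * cub q m‖ ^ 2) μ := fun e =>
    integrable_finsetSum _ fun q _ => integrable_tw μ _ _ fun m => cub q m
  refine (integral_mono (integrable_finsetSum _ fun h _ => integrable_tw μ S a fun m => cub h m)
    (integrable_finsetSum _ fun e _ => (i1 e).const_mul _)
    fun τ => h1 S a H Q τ hH fun m hm => (mem_PB.1 (hS hm)).1.1).trans ?_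
  rw [integral_finsetSum _ fun e _ => (i1 e).const_mul _]
  set W := ∑ m ∈ S, ‖a m‖ ^ 2 / omw m with hW
  have hW0 : 0 ≤ W := Finset.sum_nonneg fun m hm =>
    div_nonneg (sq_nonneg _) (zero_le_one.trans (one_le_omw (wt_ne hS0 hm)))
  have hE : 0 ≤ θ * M + Q ^ 3 * √M := by positivity
  have h3 : ∀ e ∈ PB (H ^ (1 / 3 : ℝ)), ∫ τ, C1 * H ^ (1 / 3 : ℝ) * (nrO e * N e ^ (-(3 / 4) : ℝ)) *
      ∑ q ∈ KQ Q, ‖∑ m ∈ nrF S e, tw (fun m => a (e * m)) τ m * cub q m‖ ^ 2 ∂μ ≤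
      C1 * C0 * H ^ (1 / 3 : ℝ) * (θ * M + Q ^ 3 * √M) * W *
        (nrO e * N e ^ (-(3 / 4) : ℝ) * (N e ^ (-(1 / 2) : ℝ) * omw e)) := by
    intro e he
    have he1 := (mem_PB.1 he).1
    have hp := N_pos he1.ne_zero
    have a0 := nr_nonneg e
    have a1 := hO Q (M / N e) hQ (by positivity) (nrF S e) (image_div_subset he1.1 hS)
      fun m => a (e * m)
    have a2 := nr_omw hS0 a he1.ne_zero
    have a3 := nr_scale hθ hM (zero_le_one.trans hQ) (one_le_N he1.ne_zero)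
    have a4 : 0 ≤ ∑ m ∈ nrF S e, ‖a (e * m)‖ ^ 2 / omw m := Finset.sum_nonneg fun m hm =>
      div_nonneg (sq_nonneg _) (zero_le_one.trans (one_le_omw
        (right_ne_zero_of_mul (wt_ne hS0 (nr_fib he1.ne_zero hm)))))
    have a5 := a1.trans (mul_le_mul (mul_le_mul_of_nonneg_left a3 hC0) a2 a4 (by positivity))
    rw [integral_const_mul]
    refine (mul_le_mul_of_nonneg_left a5 (by positivity)).trans (le_of_eq ?_)
    ring
  refine (Finset.sum_le_sum h3).trans ?_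
  rw [← Finset.mul_sum]
  refine (mul_le_mul_of_nonneg_left (h2 _ fun k => (mem_PB.1 k).1.ne_zero rfl)
    (by positivity)).trans (le_of_eq ?_)
  ring

theorem nr_qt {S : Finset Eis} (hS : ∀ m ∈ S, Prim m) (γ : Eis → ℂ) (τ : ℝ) (h : Eis) {D : Eis}
    (hD : Prim D) : qt S (tw γ τ) (h * D ^ 2) D =
      N D * ‖∑ m ∈ nrF S D, tw (fun m => γ (D * m) * cub (D ^ 2) m) τ m * cub h m‖ ^ 2 := by
  have h0 := hD.ne_zero
  have e : ∑ n ∈ S.filter (fun n => D ∣ n), tw γ τ n * cub (h * D ^ 2) (n / D) = nit τ D *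
      ∑ m ∈ nrF S D, tw (fun m => γ (D * m) * cub (D ^ 2) m) τ m * cub h m := by
    rw [sum_filter_dvd h0, Finset.mul_sum]
    refine Finset.sum_congr rfl fun m hm => ?_
    have hm1 : Prim m := hD.of_mul (hS _ (nr_fib h0 hm))
    rw [tw, tw, nit_mul τ h0 hm1.ne_zero, lp_mul_div h0, cub_mul_left h _ hm1.not_lam_dvd]
    ring
  rw [qt, e, norm_mul, norm_nit, one_mul]

theorem nr_near {S : Finset Eis} (hS : ∀ m ∈ S, Prim m) (γ : Eis → ℂ) (τ H Q0 D0 : ℝ) :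
    NEAR S (tw γ τ) H Q0 D0 = ∑ D ∈ (PB H).filter (fun D => N D ≤ D0), N D *
      ∑ h ∈ (ball (H / N D ^ 2)).filter (Near (Q0 * N D)),
        ‖∑ m ∈ nrF S D, tw (fun m => γ (D * m) * cub (D ^ 2) m) τ m * cub h m‖ ^ 2 := by
  rw [NEAR, sum_sqd_swap H fun h D => if Far Q0 D0 h D then 0 else qt S (tw γ τ) h D,
    Finset.sum_filter]
  refine Finset.sum_congr rfl fun D hD => ?_
  have h1 := (mem_PB.1 hD).1
  have e : ∀ h : Eis, h * D ^ 2 / D ^ 2 = h := fun h => by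
    rw [mul_comm, lp_mul_div (pow_ne_zero 2 h1.ne_zero)]
  split_ifs with k
  · rw [Finset.mul_sum, Finset.sum_filter]
    refine Finset.sum_congr rfl fun h _ => ?_
    by_cases j : Near (Q0 * N D) h
    · rw [if_pos j, if_neg (by rw [Far, e]; exact not_or.2 ⟨not_lt.2 k, not_not.2 j⟩), nr_qt hS γ τ h h1.1]
    · rw [if_neg j, if_pos (by rw [Far, e]; exact Or.inr j)]
  · exact Finset.sum_eq_zero fun h _ => if_pos (Or.inl (not_le.1 k))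

theorem nr_main {S T : Finset Eis} (hS : ∀ m ∈ S, PS m) (hT : ∀ D ∈ T, PS D) (γ : Eis → ℂ)
    {C : ℝ} (hC : ∀ n : Eis, PS n → ∑ D ∈ dv n, N D ^ (-(2 / 3) : ℝ) / omw (n / D) ≤ C) :
    ∑ D ∈ T, N D ^ (-(2 / 3) : ℝ) * ∑ m ∈ nrF S D, ‖γ (D * m)‖ ^ 2 / omw m ≤ C * sq S γ := by
  have e : ∀ D ∈ T, N D ^ (-(2 / 3) : ℝ) * ∑ m ∈ nrF S D, ‖γ (D * m)‖ ^ 2 / omw m =
      ∑ n ∈ S, if D ∣ n then ‖γ n‖ ^ 2 * (N D ^ (-(2 / 3) : ℝ) / omw (n / D)) else 0 := by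
    intro D hD
    have h0 := (hT D hD).ne_zero
    rw [← Finset.sum_filter, sum_filter_dvd h0, Finset.mul_sum]
    refine Finset.sum_congr rfl fun m _ => ?_
    rw [lp_mul_div h0]
    ring
  rw [Finset.sum_congr rfl e, Finset.sum_comm, sq, Finset.mul_sum]
  refine Finset.sum_le_sum fun n hn => ?_
  have hn0 := (hS n hn).ne_zero
  rw [← Finset.sum_filter, ← Finset.mul_sum, mul_comm C]
  refine mul_le_mul_of_nonneg_left (le_trans (Finset.sum_le_sum_of_subset_of_nonneg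
    (fun D hD => ?_) fun D hD _ => ?_) (hC n (hS n hn))) (sq_nonneg _)
  · exact (mem_dv hn0).2 ⟨hT D (Finset.mem_filter.1 hD).1, (Finset.mem_filter.1 hD).2⟩
  · obtain ⟨a, b⟩ := (mem_dv hn0).1 hD
    exact div_nonneg (Real.rpow_nonneg (N_nonneg D) _)
      (zero_le_one.trans (one_le_omw (prim_div a.1 (hS n hn).1 b).ne_zero))

theorem nr_err {S : Finset Eis} (hS : (0 : Eis) ∉ S) (γ : Eis → ℂ) {D : Eis} (hD : D ≠ 0) :
    ∑ m ∈ nrF S D, ‖γ (D * m)‖ ^ 2 / omw m ≤ sq S γ := by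
  refine le_trans ?_ (Finset.sum_le_sum_of_subset_of_nonneg
    (Finset.filter_subset (fun n => D ∣ n) S) fun m _ _ => sq_nonneg ‖γ m‖)
  rw [sum_filter_dvd hD]
  exact Finset.sum_le_sum fun m hm => div_le_self (sq_nonneg _)
    (one_le_omw (right_ne_zero_of_mul (wt_ne hS (nr_fib hD hm))))

theorem nr_num {H K Q0 D0 x θ : ℝ} (hH : 0 < H) (hK : 0 < K) (hQ : 1 ≤ Q0) (hx : 1 ≤ x)
    (hD : x ≤ D0) : x * ((H / x ^ 2) ^ (1 / 3 : ℝ) * (θ * (K / x) + (Q0 * x) ^ 3 * √(K / x))) ≤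
      H ^ (1 / 3 : ℝ) * (θ * K * x ^ (-(2 / 3) : ℝ) + Q0 ^ 4 * D0 ^ 3 * √K) := by
  have hp : 0 < x := by linarith
  have e1 : (H / x ^ 2) ^ (1 / 3 : ℝ) = H ^ (1 / 3 : ℝ) * x ^ (-(2 / 3) : ℝ) := by
    rw [Real.div_rpow hH.le (by positivity), ← Real.rpow_natCast, ← Real.rpow_mul hp.le,
      Real.rpow_neg hp.le, div_eq_mul_inv]
    norm_num
  have e2 : √(K / x) = x ^ (-(1 / 2) : ℝ) * √K := by
    rw [Real.sqrt_div hK.le, Real.rpow_neg hp.le, ← Real.sqrt_eq_rpow, div_eq_inv_mul]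
  have h1 : x * x ^ (-(2 / 3) : ℝ) * x ^ (-(1 / 2) : ℝ) ≤ 1 := by
    rw [mul_assoc, ← Real.rpow_add hp, mul_comm, ← Real.rpow_add_one hp.ne']
    exact Real.rpow_le_one_of_one_le_of_nonpos hx (by norm_num)
  have h2 : (Q0 * x) ^ 3 ≤ Q0 ^ 4 * D0 ^ 3 := by
    rw [mul_pow]
    exact mul_le_mul (pow_le_pow_right₀ hQ (by norm_num)) (pow_le_pow_left₀ hp.le hD 3)
      (by positivity) (by positivity)
  have h3 := mul_le_mul h1 h2 (by positivity) zero_le_one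
  have h4 := mul_le_mul_of_nonneg_left h3 (by positivity : 0 ≤ H ^ (1 / 3 : ℝ) * √K)
  have e3 : x * (K / x) = K := by field_simp
  rw [e1, e2]
  have e4 : x * (H ^ (1 / 3 : ℝ) * x ^ (-(2 / 3) : ℝ) * (θ * (K / x))) =
      H ^ (1 / 3 : ℝ) * (θ * K * x ^ (-(2 / 3) : ℝ)) := by
    linear_combination H ^ (1 / 3 : ℝ) * x ^ (-(2 / 3) : ℝ) * θ * e3
  linarith

/-- sum_sqd_swap, near1 for the fibre over D with coefficients γ (D m) cub (D ^ 2) m, omw_conv for the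
main term; in the error term use N D ≤ D0 and at most 16 D0 values of D. -/
theorem near : ∃ C : ℝ, 0 < C ∧ ∀ (μ : Measure ℝ) [IsProbabilityMeasure μ] (θ C0 : ℝ), 0 ≤ θ →
    0 ≤ C0 → OSP μ θ C0 → ∀ (S : Finset Eis) (γ : Eis → ℂ) (H K Q0 D0 : ℝ), 0 < H → 0 < K →
    1 ≤ Q0 → 1 ≤ D0 → S ⊆ PB K →
      ∫ τ, NEAR S (tw γ τ) H Q0 D0 ∂μ ≤
        C * C0 * H ^ (1 / 3 : ℝ) * (θ * K + (Q0 * D0) ^ 4 * √K) * sq S γ := by
  obtain ⟨C1, hC1, h1⟩ := near1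
  obtain ⟨C2, hC2, h2⟩ := omw_conv
  refine ⟨C1 * (C2 + 16), by positivity, fun μ _ θ C0 hθ hC0 hO S γ H K Q0 D0 hH hK hQ hD hS => ?_⟩
  have hS1 : ∀ m ∈ S, PS m := fun m hm => (mem_PB.1 (hS hm)).1
  have hS0 : (0 : Eis) ∉ S := fun k => (hS1 0 k).ne_zero rfl
  have hq := sq_nonneg' S γ
  simp only [nr_near fun m hm => (hS1 m hm).1]
  rw [integral_finsetSum _ fun D _ => (integrable_finsetSum _ fun h _ =>
    integrable_tw μ _ _ fun m => cub h m).const_mul _]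
  set T := (PB H).filter (fun D => N D ≤ D0) with hT
  have hT1 : ∀ D ∈ T, PS D := fun D hD => (mem_PB.1 (Finset.mem_filter.1 hD).1).1
  have h3 : ∀ D ∈ T, ∫ τ, N D * ∑ h ∈ (ball (H / N D ^ 2)).filter (Near (Q0 * N D)),
      ‖∑ m ∈ nrF S D, tw (fun m => γ (D * m) * cub (D ^ 2) m) τ m * cub h m‖ ^ 2 ∂μ ≤
      C1 * C0 * H ^ (1 / 3 : ℝ) * (θ * K *
        (N D ^ (-(2 / 3) : ℝ) * ∑ m ∈ nrF S D, ‖γ (D * m)‖ ^ 2 / omw m) +
          Q0 ^ 4 * D0 ^ 3 * √K * sq S γ) := by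
    intro D hD'
    have hD0 := (hT1 D hD').ne_zero
    have hp := N_pos hD0
    have hx := one_le_N hD0
    have a1 := h1 μ θ C0 hθ hC0 hO (nrF S D) (fun m => γ (D * m) * cub (D ^ 2) m) (H / N D ^ 2)
      (K / N D) (Q0 * N D) (by positivity) (by positivity) (one_le_mul_of_one_le_of_one_le hQ hx)
      (image_div_subset (hT1 D hD').1 hS)
    have o : ∀ m ∈ nrF S D, 0 ≤ omw m := fun m hm => zero_le_one.trans
      (one_le_omw (right_ne_zero_of_mul (wt_ne hS0 (nr_fib hD0 hm))))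
    have a2 : ∑ m ∈ nrF S D, ‖γ (D * m) * cub (D ^ 2) m‖ ^ 2 / omw m ≤
        ∑ m ∈ nrF S D, ‖γ (D * m)‖ ^ 2 / omw m := Finset.sum_le_sum fun m hm => by
      refine div_le_div_of_nonneg_right (pow_le_pow_left₀ (norm_nonneg _) ?_ 2) (o m hm)
      rw [norm_mul]
      exact mul_le_of_le_one_right (norm_nonneg _) (norm_cub_le _ _)
    have a3 := nr_num (θ := θ) hH hK hQ hx (Finset.mem_filter.1 hD').2
    have a4 := nr_err hS0 γ hD0
    have a5 : 0 ≤ ∑ m ∈ nrF S D, ‖γ (D * m)‖ ^ 2 / omw m :=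
      Finset.sum_nonneg fun m hm => div_nonneg (sq_nonneg _) (o m hm)
    generalize ∑ m ∈ nrF S D, ‖γ (D * m)‖ ^ 2 / omw m = U at a2 a4 a5 ⊢
    have a6 := mul_le_mul_of_nonneg_left (a1.trans (mul_le_mul_of_nonneg_left a2
      (by positivity))) hp.le
    have a7 := mul_le_mul_of_nonneg_left a3 (by positivity : 0 ≤ C1 * C0 * U)
    have a8 := mul_le_mul_of_nonneg_left a4
      (by positivity : 0 ≤ C1 * C0 * H ^ (1 / 3 : ℝ) * (Q0 ^ 4 * D0 ^ 3 * √K))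
    rw [integral_const_mul]
    linarith
  refine (Finset.sum_le_sum h3).trans ?_
  rw [← Finset.mul_sum, Finset.sum_add_distrib, ← Finset.mul_sum, Finset.sum_const, nsmul_eq_mul]
  have b1 := mul_le_mul_of_nonneg_left (nr_main hS1 hT1 γ h2) (mul_nonneg hθ hK.le)
  have b2 : (T.card : ℝ) ≤ 16 * D0 :=
    (Nat.cast_le.2 (Finset.card_le_card fun D hD' => mem_PB.2
      ⟨hT1 D hD', (Finset.mem_filter.1 hD').2⟩)).trans (card_PB_le (by linarith))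
  have b3 := mul_le_mul_of_nonneg_right b2 (by positivity : 0 ≤ Q0 ^ 4 * D0 ^ 3 * √K * sq S γ)
  have b4 : 0 ≤ 16 * (θ * K * sq S γ) := by positivity
  have b5 : 0 ≤ C2 * ((Q0 * D0) ^ 4 * √K * sq S γ) := by positivity
  have b6 : θ * K * ∑ D ∈ T, N D ^ (-(2 / 3) : ℝ) * ∑ m ∈ nrF S D, ‖γ (D * m)‖ ^ 2 / omw m +
      T.card * (Q0 ^ 4 * D0 ^ 3 * √K * sq S γ) ≤
      (C2 + 16) * (θ * K + (Q0 * D0) ^ 4 * √K) * sq S γ := by
    rw [mul_pow] at b5 ⊢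
    linarith
  refine (mul_le_mul_of_nonneg_left b6 (by positivity)).trans (le_of_eq ?_)
  ring

end Vale.Agent.P006
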