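import Vale.Agent.P006.OLS
import Vale.Agent.P006.WtQ

/-! Auxiliary identities for the hybrid duality and quadratic forms. -/

namespace Vale.Agent.P006

open Vale.Agent.P026 Eis Complex MeasureTheory Filter Topology
open scoped Classical ComplexConjugate

theorem osd_sq {κ : Type} (S : Finset κ) (c z : κ → ℂ) :
    ((‖∑ n ∈ S, c n * z n‖ ^ 2 : ℝ) : ℂ) =
      ∑ n ∈ S, ∑ m ∈ S, c n * conj (c m) * (z n * conj (z m)) := by
  rw [← Complex.normSq_eq_norm_sq, ← Complex.mul_conj, map_sum, Finset.sum_mul_sum]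
  refine Finset.sum_congr rfl fun n _ => Finset.sum_congr rfl fun m _ => ?_
  rw [map_mul]
  ring

theorem osd_gauss {b : ℝ} (hb : 0 < b) (m : ℝ) :
    Integrable (fun y : ℝ => Real.exp (-b * (y - m) ^ 2)) ∧
      ∫ y : ℝ, Real.exp (-b * (y - m) ^ 2) = √(Real.pi / b) :=
  ⟨(integrable_exp_neg_mul_sq hb).comp_sub_right m, by
    rw [integral_sub_right_eq_self (fun y : ℝ => Real.exp (-b * y ^ 2)) m, integral_gaussian]⟩

theorem osd_conv {T : ℝ} (hT : 0 < T) (x x' : ℝ) :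
    Integrable (fun y : ℝ => Real.exp (-(T ^ 2 * (x - y) ^ 2)) *
      Real.exp (-(T ^ 2 * (x' - y) ^ 2))) ∧
    √(2 / Real.pi) * T * ∫ y : ℝ, Real.exp (-(T ^ 2 * (x - y) ^ 2)) *
      Real.exp (-(T ^ 2 * (x' - y) ^ 2)) = Real.exp (-(T ^ 2 * (x - x') ^ 2 / 2)) := by
  obtain ⟨h1, h2⟩ := osd_gauss (b := 2 * T ^ 2) (by positivity) ((x + x') / 2)
  have e : (fun y : ℝ => Real.exp (-(T ^ 2 * (x - y) ^ 2)) * Real.exp (-(T ^ 2 * (x' - y) ^ 2))) =
      fun y => Real.exp (-(T ^ 2 * (x - x') ^ 2 / 2)) *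
        Real.exp (-(2 * T ^ 2) * (y - (x + x') / 2) ^ 2) := by
    funext y
    rw [← Real.exp_add, ← Real.exp_add]
    congr 1
    ring
  rw [e, integral_const_mul, h2]
  refine ⟨h1.const_mul _, ?_⟩
  have h3 : √(2 / Real.pi) * T * √(Real.pi / (2 * T ^ 2)) = 1 := by
    have := Real.pi_pos
    rw [mul_right_comm, ← Real.sqrt_mul (by positivity),
      show 2 / Real.pi * (Real.pi / (2 * T ^ 2)) = T⁻¹ ^ 2 by field_simp,
      Real.sqrt_sq (by positivity), inv_mul_cancel₀ hT.ne']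
  linear_combination Real.exp (-(T ^ 2 * (x - x') ^ 2 / 2)) * h3

/-- The Gaussian window. -/
noncomputable def osdG (T y : ℝ) (n : Eis) : ℝ := Real.exp (-(T ^ 2 * (Real.log (N n) - y) ^ 2))

theorem osd_eq {T : ℝ} (hT : 0 < T) (S : Finset Eis) (c : Eis → ℂ) :
    Integrable (fun y : ℝ => ‖∑ n ∈ S, c n * (osdG T y n : ℂ)‖ ^ 2) ∧
    ∫ τ, ‖∑ n ∈ S, c n * nit τ n‖ ^ 2 ∂muT T =
      √(2 / Real.pi) * T * ∫ y : ℝ, ‖∑ n ∈ S, c n * (osdG T y n : ℂ)‖ ^ 2 := by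
  have e1 : ∀ τ n m, nit τ n * conj (nit τ m) =
      cexp (I * ((τ * (Real.log (N n) - Real.log (N m)) : ℝ) : ℂ)) := fun τ n m => by
    rw [conj_nit, nit, nit, ← Complex.exp_add]
    congr 1
    push_cast
    ring
  have e2 : ∀ y n m, (osdG T y n : ℂ) * conj (osdG T y m : ℂ) =
      ((osdG T y n * osdG T y m : ℝ) : ℂ) := fun y n m => by rw [conj_ofReal, ofReal_mul]
  have i1 : ∀ n m, Integrable (fun τ : ℝ => c n * conj (c m) *
      cexp (I * ((τ * (Real.log (N n) - Real.log (N m)) : ℝ) : ℂ))) (muT T) := fun n m =>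
    (Integrable.of_bound (by fun_prop) 1 (Eventually.of_forall fun τ =>
      (Complex.norm_exp_I_mul_ofReal _).le)).const_mul _
  have i2 : ∀ n m, Integrable (fun y : ℝ => c n * conj (c m) *
      ((osdG T y n * osdG T y m : ℝ) : ℂ)) := fun n m =>
    (osd_conv hT _ _).1.ofReal.const_mul _
  have i3 : Integrable (fun y : ℝ => ((‖∑ n ∈ S, c n * (osdG T y n : ℂ)‖ ^ 2 : ℝ) : ℂ)) := by
    simp only [osd_sq, e2]
    exact integrable_finsetSum _ fun n _ => integrable_finsetSum _ fun m _ => i2 n m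
  refine ⟨by simpa only [RCLike.re_to_complex, ofReal_re] using i3.re, ?_⟩
  rw [← ofReal_inj, ofReal_mul, ← integral_complex_ofReal, ← integral_complex_ofReal]
  simp only [osd_sq, e1, e2]
  rw [integral_finsetSum _ fun n _ => integrable_finsetSum _ fun m _ => i1 n m,
    integral_finsetSum _ fun n _ => integrable_finsetSum _ fun m _ => i2 n m, Finset.mul_sum]
  refine Finset.sum_congr rfl fun n _ => ?_
  rw [integral_finsetSum _ fun m _ => i1 n m, integral_finsetSum _ fun m _ => i2 n m,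
    Finset.mul_sum]
  refine Finset.sum_congr rfl fun m _ => ?_
  rw [integral_const_mul, integral_const_mul, integral_nit_muT, integral_complex_ofReal,
    ← (osd_conv hT _ _).2, ofReal_mul, mul_left_comm]
  rfl

theorem osd_win {T M x : ℝ} (hT : 1 ≤ T) (hx : 0 < x) (hM : x ≤ M) (y : ℝ) :
    (1 + Real.exp y / M) * Real.exp (-(T ^ 2 * (Real.log x - y) ^ 2)) ≤
      2 * Real.exp (1 / 2) * Real.exp (-(T ^ 2 / 2) * (y - Real.log x) ^ 2) := by
  have h1 : Real.exp y / M ≤ Real.exp (y - Real.log x) := by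
    rw [Real.exp_sub, Real.exp_log hx]
    exact div_le_div_of_nonneg_left (Real.exp_pos y).le hx hM
  rw [show Real.log x - y = -(y - Real.log x) by ring, neg_sq]
  generalize y - Real.log x = u at h1 ⊢
  have h2 : u ^ 2 ≤ T ^ 2 * u ^ 2 := le_mul_of_one_le_left (sq_nonneg u) (one_le_pow₀ hT)
  have h3 : Real.exp u * Real.exp (-(T ^ 2 * u ^ 2)) ≤
      Real.exp (1 / 2) * Real.exp (-(T ^ 2 / 2) * u ^ 2) := by
    rw [← Real.exp_add, ← Real.exp_add]
    exact Real.exp_le_exp.2 (by nlinarith [sq_nonneg (u - 1)])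
  have h4 : Real.exp (-(T ^ 2 * u ^ 2)) ≤ Real.exp (1 / 2) * Real.exp (-(T ^ 2 / 2) * u ^ 2) := by
    rw [← Real.exp_add]
    exact Real.exp_le_exp.2 (by nlinarith [sq_nonneg u])
  have h5 := mul_le_mul_of_nonneg_right h1 (Real.exp_pos (-(T ^ 2 * u ^ 2))).le
  linarith

theorem osd_grow {θ A Y M : ℝ} (hθ : 0 ≤ θ) (hA : 0 ≤ A) (hY : 0 < Y) (hM : 0 < M) :
    θ * Y + A * √Y ≤ (θ * M + A * √M) * (1 + Y / M) := by
  have h1 : √Y ≤ √M * (1 + Y / M) := by
    have hs := Real.sqrt_pos.2 hM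
    have e1 := Real.mul_self_sqrt hM.le
    have e2 := Real.mul_self_sqrt hY.le
    have hy := Real.sqrt_nonneg Y
    generalize √M = s at *
    generalize √Y = t at *
    subst e1 e2
    rw [show s * (1 + t * t / (s * s)) = (s * s + t * t) / s by field_simp, le_div_iff₀ hs]
    nlinarith [sq_nonneg (s - t)]
  have h2 : θ * M * (1 + Y / M) = θ * M + θ * Y := by field_simp
  have h3 := mul_le_mul_of_nonneg_left h1 hA
  have h4 := mul_nonneg hθ hM.le
  rw [add_mul, h2, mul_assoc A]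
  linarith

/-- Diagonal and off-diagonal terms of a weighted quadratic form. -/
theorem osd_form {ι : Type} (J : Finset ι) (f : ι → Eis → ℂ) (v : Eis → ℝ) {D O : ℝ}
    (hv : ∀ m, 0 ≤ v m) (hf : ∀ q m, ‖f q m‖ ≤ 1) (hD : ∀ S : Finset Eis, ∑ m ∈ S, v m ≤ D)
    (hO : 0 ≤ O) (h : ∀ q ∈ J, ∀ q' ∈ J, q ≠ q' →
      ‖∑' m, (v m : ℂ) * (f q m * conj (f q' m))‖ ≤ O) (S : Finset Eis) (b : ι → ℂ) :
    ∑ m ∈ S, v m * ‖∑ q ∈ J, b q * f q m‖ ^ 2 ≤ (D + O * J.card) * ∑ q ∈ J, ‖b q‖ ^ 2 := by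
  have hs := summable_of_sum_le hv hD
  have hb : ∀ q q' m, ‖(v m : ℂ) * (f q m * conj (f q' m))‖ ≤ v m := fun q q' m => by
    rw [norm_mul, norm_mul, Complex.norm_conj, Complex.norm_real, Real.norm_of_nonneg (hv m)]
    exact mul_le_of_le_one_right (hv m) (mul_le_one₀ (hf _ _) (norm_nonneg _) (hf _ _))
  have h1 : HasSum (fun m => ((v m * ‖∑ q ∈ J, b q * f q m‖ ^ 2 : ℝ) : ℂ))
      (∑ q ∈ J, ∑ q' ∈ J, b q * conj (b q') * ∑' m, (v m : ℂ) * (f q m * conj (f q' m))) := by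
    simp only [ofReal_mul, osd_sq, Finset.mul_sum, mul_left_comm (v _ : ℂ) (_ * conj (b _))]
    exact hasSum_sum fun q _ => hasSum_sum fun q' _ =>
      (Summable.of_norm_bounded hs (hb q q')).hasSum.mul_left _
  have h2 := Complex.hasSum_re h1
  simp only [ofReal_re] at h2
  refine (sum_le_hasSum S (fun m _ => mul_nonneg (hv m) (sq_nonneg _)) h2).trans
    ((Complex.re_le_norm _).trans ((norm_sum_le _ _).trans ?_))
  have h3 : ∀ q ∈ J, ‖∑ q' ∈ J, b q * conj (b q') * ∑' m, (v m : ℂ) * (f q m * conj (f q' m))‖ ≤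
      ∑ q' ∈ J, ((if q = q' then D * ‖b q‖ ^ 2 else 0) +
        (O / 2 * ‖b q‖ ^ 2 + O / 2 * ‖b q'‖ ^ 2)) := fun q hq => by
    refine (norm_sum_le _ _).trans (Finset.sum_le_sum fun q' hq' => ?_)
    rw [norm_mul, norm_mul, Complex.norm_conj]
    split_ifs with e
    · subst e
      have := mul_le_mul_of_nonneg_left ((tsum_of_norm_bounded hs.hasSum (hb q q)).trans
        (Real.tsum_le_of_sum_le hv hD)) (mul_nonneg (norm_nonneg (b q)) (norm_nonneg (b q)))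
      nlinarith [mul_nonneg hO (sq_nonneg ‖b q‖)]
    · have := mul_le_mul_of_nonneg_left (h q hq q' hq' e)
        (mul_nonneg (norm_nonneg (b q)) (norm_nonneg (b q')))
      nlinarith [mul_nonneg hO (sq_nonneg (‖b q‖ - ‖b q'‖))]
  refine (Finset.sum_le_sum h3).trans_eq ?_
  simp only [Finset.sum_add_distrib, Finset.sum_const, nsmul_eq_mul, ← Finset.mul_sum]
  rw [Finset.sum_congr rfl fun q hq => (Finset.sum_ite_eq J q _).trans (if_pos hq),
    ← Finset.mul_sum]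
  ring

/-- Expansion of the weight omw. -/
theorem osd_omw : ∃ C : ℝ, 0 < C ∧ ∀ (J S : Finset Eis) (v : Eis → ℝ) (A B : ℝ) (b : Eis → ℂ),
    0 ≤ A → 0 ≤ B → (∀ m ∈ S, Prim m) →
    (∀ e, Prim e → ∀ S' : Finset Eis, (∀ m ∈ S', Prim m ∧ e * m ∈ S) → ∀ b' : Eis → ℂ,
      ∑ m ∈ S', v (e * m) * ‖∑ q ∈ J, b' q * cub q m‖ ^ 2 ≤
        (A / N e + B / √(N e)) * ∑ q ∈ J, ‖b' q‖ ^ 2) →
    ∑ m ∈ S, v m * omw m * ‖∑ q ∈ J, b q * cub q m‖ ^ 2 ≤ C * (A + B) * ∑ q ∈ J, ‖b q‖ ^ 2 := by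
  have hs := summable_N_rpow (s := 7 / 6) (by norm_num)
  have hnn : ∀ c : Eis, 0 ≤ N c ^ (-(7 / 6 : ℝ)) := fun c => Real.rpow_nonneg (N_nonneg _) _
  have hZ : 0 ≤ ∑' c : Eis, N c ^ (-(7 / 6 : ℝ)) := tsum_nonneg hnn
  refine ⟨∑' c : Eis, N c ^ (-(7 / 6 : ℝ)) + 1, by positivity,
    fun J S v A B b hA hB hS h => ?_⟩
  have hb : 0 ≤ ∑ q ∈ J, ‖b q‖ ^ 2 := Finset.sum_nonneg fun _ _ => sq_nonneg _
  have hK : S ⊆ ball (∑ m ∈ S, N m) := fun m hm => mem_ball.2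
    ⟨(hS m hm).ne_zero, Finset.single_le_sum (fun x _ => N_nonneg x) hm⟩
  simp only [omw, Finset.mul_sum, Finset.sum_mul]
  rw [sum_dv_swap hK, ← Finset.mul_sum]
  refine (Finset.sum_le_sum (g := fun e => (A + B) * (∑ q ∈ J, ‖b q‖ ^ 2) * N e ^ (-(7 / 6 : ℝ)))
    fun e he => ?_).trans ?_
  · have he1 := (mem_PB.1 he).1.1
    have h1 := one_le_N he1.ne_zero
    have h0 := N_pos he1.ne_zero
    have hS' : ∀ m ∈ (S.filter (fun n => e ∣ n)).image (fun n => n / e), Prim m ∧ e * m ∈ S := by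
      intro m hm
      obtain ⟨n, hn, rfl⟩ := Finset.mem_image.1 hm
      obtain ⟨h2, h3⟩ := Finset.mem_filter.1 hn
      exact ⟨prim_div he1 (hS n h2) h3, by rwa [EuclideanDomain.mul_div_cancel' he1.ne_zero h3]⟩
    have h2 := h e he1 _ hS' fun q => b q * cub q e
    have h3 : ∑ q ∈ J, ‖b q * cub q e‖ ^ 2 ≤ ∑ q ∈ J, ‖b q‖ ^ 2 := Finset.sum_le_sum fun q _ =>
      pow_le_pow_left₀ (norm_nonneg _) (by
        rw [norm_mul]; exact mul_le_of_le_one_right (norm_nonneg _) (norm_cub_le _ _)) 2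
    have h4 : A / N e + B / √(N e) ≤ (A + B) * N e ^ (-(1 / 2 : ℝ)) := by
      rw [Real.rpow_neg h0.le, ← Real.sqrt_eq_rpow, ← div_eq_mul_inv, add_div]
      have : √(N e) ≤ N e := Real.sqrt_le_iff.2 ⟨h0.le, by nlinarith⟩
      have := div_le_div_of_nonneg_left hA (Real.sqrt_pos.2 h0) this
      linarith
    rw [sum_filter_dvd he1.ne_zero, Finset.sum_congr rfl (g := fun m => N e ^ (-(2 / 3 : ℝ)) *
      (v (e * m) * ‖∑ q ∈ J, b q * cub q e * cub q m‖ ^ 2)) fun m hm => by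
        simp only [cub_mul_right _ he1.ne_zero (hS' m hm).1.ne_zero, mul_assoc]
        ring, ← Finset.mul_sum]
    refine (mul_le_mul_of_nonneg_left (h2.trans (mul_le_mul h4 h3
      (Finset.sum_nonneg fun _ _ => sq_nonneg _) (by positivity))) (by positivity)).trans_eq ?_
    rw [show -(7 / 6 : ℝ) = -(2 / 3) + -(1 / 2) by norm_num, Real.rpow_add h0]
    ring
  · rw [← Finset.mul_sum]
    have := mul_le_mul_of_nonneg_left (hs.sum_le_tsum (PB (∑ m ∈ S, N m)) fun c _ => hnn c)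
      (mul_nonneg (add_nonneg hA hB) hb)
    nlinarith [mul_nonneg (add_nonneg hA hB) hb]

end Vale.Agent.P006
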