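import Vale.Agent.P006.OLS
import Vale.Agent.P006.LC
import Vale.Agent.P006.Pri
import Vale.Agent.P006.WtQ
import Vale.Agent.P006.OSDA

/-! Weighted large sieve for small conductors, hybrid duality, mean value theorem. -/

namespace Vale.Agent.P006

open Vale.Agent.P026 Eis Complex MeasureTheory Filter Topology
open scoped Classical ComplexConjugate

/-- Hybrid duality. With x m = log (N m), the μ_T average of N m ^ (i τ) N m' ^ (- i τ) is
exp (- T ^ 2 (x m - x m') ^ 2 / 2) = √(2 / π) T ∫ g (x m - y) g (x m' - y) dy, g u = exp (- T ^ 2 u ^ 2).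
For each y use du with weight v m g (x m - y) and coefficient a m g (x m - y); finally
T ∫ (1 + exp y / M) g (x - y) dy ≤ C for exp x ≤ M, T ≥ 1. -/
theorem hd : ∃ C : ℝ, 0 < C ∧ ∀ (ι : Type) (J : Finset ι) (S : Finset Eis) (f : ι → Eis → ℂ)
    (v : Eis → ℝ) (T M Δ : ℝ), 1 ≤ T → 0 < M → 0 ≤ Δ → S ⊆ ball M → (∀ n ∈ S, 0 < v n) →
    (∀ Y : ℝ, 0 < Y → ∀ b : ι → ℂ, ∑ n ∈ S, lg (T ^ 2) (N n / Y) * v n *
      ‖∑ j ∈ J, b j * f j n‖ ^ 2 ≤ Δ * (1 + Y / M) * ∑ j ∈ J, ‖b j‖ ^ 2) →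
    ∀ a : Eis → ℂ, ∫ τ, ∑ j ∈ J, ‖∑ n ∈ S, tw a τ n * f j n‖ ^ 2 ∂muT T ≤
      C * Δ * ∑ n ∈ S, ‖a n‖ ^ 2 / v n := by
  refine ⟨4 * Real.exp (1 / 2), by positivity, fun ι J S f v T M Δ hT hM hΔ hS hv h a => ?_⟩
  have hT0 : 0 < T := by linarith
  have hpi := Real.pi_pos
  have h1 := fun j => osd_eq hT0 S fun n => a n * f j n
  have h2 := fun x => osd_gauss (b := T ^ 2 / 2) (by positivity) x
  have h3 : ∀ y : ℝ, ∑ j ∈ J, ‖∑ n ∈ S, a n * f j n * (osdG T y n : ℂ)‖ ^ 2 ≤
      ∑ n ∈ S, Δ * (‖a n‖ ^ 2 / v n) * (2 * Real.exp (1 / 2)) *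
        Real.exp (-(T ^ 2 / 2) * (y - Real.log (N n)) ^ 2) := fun y => by
    have hG : ∀ n, 0 < osdG T y n := fun n => Real.exp_pos _
    have h4 := du J S f (fun n => osdG T y n * v n) (fun n hn => mul_pos (hG n) (hv n hn))
      (Δ := Δ * (1 + Real.exp y / M)) (by positivity) (fun b => by
        refine le_of_eq_of_le (Finset.sum_congr rfl fun n hn => ?_) (h _ (Real.exp_pos y) b)
        rw [lg, Real.log_div (N_pos (mem_ball.1 (hS hn)).1).ne' (Real.exp_pos y).ne',
          Real.log_exp, osdG]) fun n => a n * (osdG T y n : ℂ)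
    simp only [mul_right_comm (a _) (f _ _)]
    refine h4.trans ?_
    rw [Finset.mul_sum]
    refine Finset.sum_le_sum fun n hn => ?_
    have h5 := osd_win hT (N_pos (mem_ball.1 (hS hn)).1) (mem_ball.1 (hS hn)).2 y
    have h6 := hv n hn
    have h7 := hG n
    rw [norm_mul, Complex.norm_real, Real.norm_of_nonneg h7.le, mul_assoc (Δ * _)]
    refine le_of_eq_of_le ?_ (mul_le_mul_of_nonneg_left h5 (by positivity))
    rw [← osdG]
    field_simp
  simp only [tw, mul_right_comm (a _) (nit _ _)]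
  rw [integral_finsetSum _ fun j _ => by
    simpa only [tw, mul_right_comm (a _) (nit _ _)] using integrable_tw (muT T) S a (f j),
    Finset.sum_congr rfl fun j _ => (h1 j).2, ← Finset.mul_sum,
    ← integral_finsetSum _ fun j _ => (h1 j).1]
  refine (mul_le_mul_of_nonneg_left (integral_mono (integrable_finsetSum _ fun j _ => (h1 j).1)
    (integrable_finsetSum _ fun n _ => (h2 _).1.const_mul _) h3) (by positivity)).trans_eq ?_
  rw [integral_finsetSum _ fun n _ => (h2 _).1.const_mul _]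
  simp only [integral_const_mul, (h2 _).2, ← Finset.sum_mul, ← Finset.mul_sum]
  have h4 : √(2 / Real.pi) * T * √(Real.pi / (T ^ 2 / 2)) = 2 := by
    rw [mul_right_comm, ← Real.sqrt_mul (by positivity),
      show 2 / Real.pi * (Real.pi / (T ^ 2 / 2)) = (2 * T⁻¹) ^ 2 by field_simp,
      Real.sqrt_sq (by positivity), mul_assoc, inv_mul_cancel₀ hT0.ne', mul_one]
  linear_combination (Δ * (∑ n ∈ S, ‖a n‖ ^ 2 / v n) * (2 * Real.exp (1 / 2))) * h4
/-- Mean value theorem (hd with one function, and ac). -/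
theorem mvt : ∃ C : ℝ, 0 < C ∧ ∀ (S : Finset Eis) (a : Eis → ℂ) (T M : ℝ), 1 ≤ T → 0 < M →
    S ⊆ ball M → ∫ τ, ‖∑ n ∈ S, tw a τ n‖ ^ 2 ∂muT T ≤ C * (M / T + √M) * sq S a := by
  obtain ⟨C, hC, h⟩ := hd
  obtain ⟨C', hC', h'⟩ := ac
  refine ⟨C * C', by positivity, fun S a T M hT hM hS => ?_⟩
  have hT0 : 0 < T := by linarith
  have h1 := h Unit Finset.univ S (fun _ _ => 1) (fun _ => 1) T M (C' * (M / T + √M)) hT hM
    (by positivity) hS (fun _ _ => one_pos) (fun Y hY b => by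
      have h2 := h' (T ^ 2) Y (by nlinarith) hY S fun k => bas_zero M (hS k)
      have h3 := osd_grow (θ := T⁻¹) (A := 1) (by positivity) zero_le_one hY hM
      rw [Real.sqrt_sq hT0.le] at h2
      simp only [mul_one, Finset.univ_unique, Finset.sum_singleton, ← Finset.sum_mul]
      refine mul_le_mul_of_nonneg_right (h2.trans ?_) (sq_nonneg _)
      rw [mul_assoc]
      refine mul_le_mul_of_nonneg_left ?_ hC'.le
      simpa only [one_mul, div_eq_inv_mul _ T] using h3) a
  simp only [mul_one, Finset.univ_unique, Finset.sum_singleton, div_one] at h1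
  exact h1.trans_eq (by rw [sq]; ring)

theorem osd_pv : ∃ C : ℝ, 0 < C ∧ ∀ (Q : ℝ), ∀ q ∈ KQ Q, ∀ q' ∈ KQ Q, q ≠ q' → ∀ R : ℝ, 0 < R →
    ‖∑ n ∈ ball R, (if Prim n then 1 else 0) * (cub q n * conj (cub q' n))‖ ≤
      C * Q ^ 2 * √R := by
  obtain ⟨C, hC, h⟩ := pv
  refine ⟨C, hC, fun Q q hq q' hq' hne R hR => ?_⟩
  obtain ⟨h1, h2⟩ := mem_KQ.1 hq
  obtain ⟨h3, h4⟩ := mem_KQ.1 hq'
  have h5 := h (q * q' ^ 2) (q * q') 2 (mul_ne_zero h1.ne_zero h3.ne_zero) ⟨q, by ring⟩
    (fun k => hne (ker_cube h1 h3 k)) R hR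
  rw [Finset.sum_congr rfl (g := fun n => (if Prim n then 1 else 0) * cub (q * q' ^ 2) n)
    fun n _ => by
      split_ifs with hn
      · rw [cub_mul_conj_eq q q' hn]
      · rw [zero_mul, zero_mul]]
  refine h5.trans ?_
  rw [N_mul, pow_two]
  have := N_nonneg q
  have := N_nonneg q'
  gcongr
  exact this.trans h4

theorem osd_num {A B C Q X x Z : ℝ} (hB : 0 ≤ B) (hC : 0 ≤ C) (hQ : 1 ≤ Q) (hX : 0 ≤ X)
    (hZ : Z ≤ 16 * Q) :
    A + B * √(X / x) + C * Q ^ 2 * √(X / x) * Z ≤ A + (B + 16 * C) * Q ^ 3 * √X / √x := by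
  rw [mul_div_assoc, ← Real.sqrt_div hX]
  have h1 := Real.sqrt_nonneg (X / x)
  have h2 := mul_le_mul_of_nonneg_left hZ (by positivity : 0 ≤ C * Q ^ 2 * √(X / x))
  have h3 := mul_le_mul_of_nonneg_left (one_le_pow₀ hQ (n := 3)) (mul_nonneg hB h1)
  linarith

/-- Dual form, sharp cutoff. Expand omw m = ∑ e ∣ m; for each e the diagonal gives 16 M / N e and
the off-diagonal terms C Q ^ 2 √(M / N e) each (pv with h = q q' ^ 2, c = q q', ker_cube). -/
theorem osd1 : ∃ C : ℝ, 0 < C ∧ ∀ (Q M : ℝ) (b : Eis → ℂ), 1 ≤ Q → 0 < M →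
    ∑ m ∈ (ball M).filter Prim, omw m * ‖∑ q ∈ KQ Q, b q * cub q m‖ ^ 2 ≤
      C * (M + Q ^ 3 * √M) * ∑ q ∈ KQ Q, ‖b q‖ ^ 2 := by
  obtain ⟨C, hC, h⟩ := osd_omw
  obtain ⟨C', hC', h'⟩ := osd_pv
  refine ⟨C * (16 + 16 * C'), by positivity, fun Q M b hQ hM => ?_⟩
  have hQ0 : 0 < Q := by linarith
  have h1 := h (KQ Q) ((ball M).filter Prim) (fun _ => 1) (16 * M) ((0 + 16 * C') * Q ^ 3 * √M) b
    (by positivity) (by positivity) (fun m hm => (Finset.mem_filter.1 hm).2)
    fun e he S hS b' => by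
      have h0 := N_pos he.ne_zero
      have hR : 0 < M / N e := div_pos hM h0
      have h2 := osd_form (KQ Q) cub (fun m => if m ∈ (ball (M / N e)).filter Prim then 1 else 0)
        (D := 16 * M / N e) (O := C' * Q ^ 2 * √(M / N e))
        (fun m => by split_ifs <;> norm_num) norm_cub_le (fun S => by
          rw [Finset.sum_ite_mem, Finset.sum_const, nsmul_eq_mul, mul_one, mul_div_assoc]
          refine le_trans ?_ (card_ball_le hR.le)
          exact_mod_cast Finset.card_le_card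
            (Finset.inter_subset_right.trans (Finset.filter_subset _ _))) (by positivity)
        (fun q hq q' hq' hne => by
          refine le_of_eq_of_le (congrArg _ ?_) (h' Q q hq q' hq' hne _ hR)
          rw [tsum_eq_sum (s := ball (M / N e)) fun m hm => by
            rw [if_neg fun k => hm (Finset.mem_filter.1 k).1, ofReal_zero, zero_mul]]
          refine Finset.sum_congr rfl fun m hm => ?_
          simp only [Finset.mem_filter, hm, true_and]
          split_ifs <;> simp) S b'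
      refine le_of_eq_of_le (Finset.sum_congr rfl fun m hm => ?_) (h2.trans
        (mul_le_mul_of_nonneg_right ?_ (Finset.sum_nonneg fun _ _ => sq_nonneg _)))
      · obtain ⟨h3, h4⟩ := hS m hm
        have h5 := (mem_ball.1 (Finset.mem_filter.1 h4).1).2
        rw [if_pos (Finset.mem_filter.2 ⟨mem_ball.2 ⟨h3.ne_zero, ?_⟩, h3⟩)]
        rwa [le_div_iff₀ h0, mul_comm, ← N_mul]
      · simpa only [zero_mul, add_zero] using osd_num (A := 16 * M / N e) (x := N e) le_rfl hC'.le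
          hQ hM.le (card_KQ_le hQ0.le)
  simp only [one_mul] at h1
  refine h1.trans (mul_le_mul_of_nonneg_right ?_ (Finset.sum_nonneg fun _ _ => sq_nonneg _))
  rw [mul_assoc C]
  refine mul_le_mul_of_nonneg_left ?_ hC.le
  have : 0 ≤ Q ^ 3 * √M := by positivity
  nlinarith [mul_pos hC' hM]
/-- Dual form, annulus. Same proof with ac on the diagonal and lcg (s = 0, θ = 1/2) with pv. -/
theorem osd2 : ∃ C : ℝ, 0 < C ∧ ∀ (Q Y T : ℝ) (S : Finset Eis) (b : Eis → ℂ), 1 ≤ Q → 0 < Y →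
    1 ≤ T → (∀ m ∈ S, Prim m) →
    ∑ m ∈ S, lg (T ^ 2) (N m / Y) * omw m * ‖∑ q ∈ KQ Q, b q * cub q m‖ ^ 2 ≤
      C * (Y / T + Q ^ 3 * √Y) * ∑ q ∈ KQ Q, ‖b q‖ ^ 2 := by
  obtain ⟨C, hC, h⟩ := osd_omw
  obtain ⟨C1, hC1, h'⟩ := osd_pv
  obtain ⟨C2, hC2, hac⟩ := ac
  obtain ⟨C3, hC3, hl⟩ := lcg
  refine ⟨C * (C2 + 16 * (C3 * C1)), by positivity, fun Q Y T S b hQ hY hT hS => ?_⟩
  have hQ0 : 0 < Q := by linarith
  have hT0 : 0 < T := by linarith
  have hc : 1 / 12 ≤ T ^ 2 := by nlinarith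
  have h1 := h (KQ Q) S (fun m => lg (T ^ 2) (N m / Y)) (C2 * (Y / T))
    ((C2 + 16 * (C3 * C1)) * Q ^ 3 * √Y) b (by positivity) (by positivity) hS
    fun e he S hS b' => by
      have h0 := N_pos he.ne_zero
      have hR : 0 < Y / N e := div_pos hY h0
      have h2 := osd_form (KQ Q) cub
        (fun m => if Prim m then lg (T ^ 2) (N m / (Y / N e)) else 0)
        (D := C2 * (Y / T) / N e + C2 * √(Y / N e)) (O := C3 * C1 * Q ^ 2 * √(Y / N e))
        (fun m => by split_ifs; exacts [(lg_pos _ _).le, le_rfl]) norm_cub_le (fun S => by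
          rw [← Finset.sum_filter]
          refine (hac _ _ hc hR _ fun k => (Finset.mem_filter.1 k).2.ne_zero rfl).trans_eq ?_
          rw [Real.sqrt_sq hT0.le]
          ring) (by positivity)
        (fun q hq q' hq' hne => by
          have h3 := hl (fun n => (if Prim n then 1 else 0) * (cub q n * conj (cub q' n))) 0 0 1
            (C1 * Q ^ 2) (1 / 2) (T ^ 2) (Y / N e) (fun n => by
              split_ifs with hn
              · rw [one_mul, one_mul, norm_mul, Complex.norm_conj]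
                exact (mul_le_one₀ (norm_cub_le _ _) (norm_nonneg _) (norm_cub_le _ _)).trans
                  (one_le_N hn.ne_zero)
              · rw [zero_mul, norm_zero, one_mul]
                exact N_nonneg n) (by positivity) (by norm_num) (by norm_num) hc (by simp) hR
            fun x hx => by
              rw [zero_mul, sub_zero, ← Real.sqrt_eq_rpow]
              exact h' Q q hq q' hq' hne x hx
          rw [zero_mul, sub_zero, zero_im, zero_re, abs_zero, add_zero, add_zero, mul_one,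
            ← Real.sqrt_eq_rpow, ← mul_assoc] at h3
          refine le_of_eq_of_le (congrArg _ (tsum_congr fun m => ?_)) h3
          rw [gg, cpow_zero, one_mul]
          split_ifs
          · rw [one_mul, mul_comm]
          · rw [ofReal_zero, zero_mul, zero_mul]) S b'
      refine le_of_eq_of_le (Finset.sum_congr rfl fun m hm => ?_) (h2.trans
        (mul_le_mul_of_nonneg_right ?_ (Finset.sum_nonneg fun _ _ => sq_nonneg _)))
      · rw [if_pos (hS m hm).1, N_mul, div_div_eq_mul_div, mul_comm (N m)]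
      · exact osd_num hC2.le (by positivity) hQ hY.le (card_KQ_le hQ0.le)
  refine h1.trans (mul_le_mul_of_nonneg_right ?_ (Finset.sum_nonneg fun _ _ => sq_nonneg _))
  rw [mul_assoc C]
  refine mul_le_mul_of_nonneg_left ?_ hC.le
  have : 0 ≤ C3 * C1 * (Y / T) := by positivity
  nlinarith
theorem osp1 : ∃ C : ℝ, 0 < C ∧ OSP (Measure.dirac 0) 1 C := by
  obtain ⟨C, hC, h⟩ := osd1
  refine ⟨C, hC, fun Q M hQ hM S hS a => ?_⟩
  have hQ0 : 0 < Q := by linarith
  rw [integral_dirac, tw_zero, one_mul]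
  refine du (KQ Q) S cub omw
    (fun n hn => one_pos.trans_le (one_le_omw (mem_PB.1 (hS hn)).1.ne_zero)) (by positivity)
    (fun b => le_trans (Finset.sum_le_sum_of_subset_of_nonneg (fun n hn => ?_) fun n hn _ => ?_)
      (h Q M b hQ hM)) a
  · exact Finset.mem_filter.2 ⟨PB_subset M (hS hn), (mem_PB.1 (hS hn)).1.1⟩
  · exact mul_nonneg (zero_le_one.trans (one_le_omw (Finset.mem_filter.1 hn).2.ne_zero))
      (sq_nonneg _)
theorem osp2 : ∃ C : ℝ, 0 < C ∧ ∀ T : ℝ, 1 ≤ T → OSP (muT T) T⁻¹ C := by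
  obtain ⟨C, hC, h⟩ := hd
  obtain ⟨C', hC', h'⟩ := osd2
  refine ⟨C * C', by positivity, fun T hT Q M hQ hM S hS a => ?_⟩
  have hQ0 : 0 < Q := by linarith
  have hT0 : 0 < T := by linarith
  rw [mul_assoc C]
  refine h Eis (KQ Q) S cub omw T M _ hT hM (by positivity) (hS.trans (PB_subset M))
    (fun n hn => one_pos.trans_le (one_le_omw (mem_PB.1 (hS hn)).1.ne_zero)) (fun Y hY b => ?_) a
  refine (h' Q Y T S b hQ hY hT fun n hn => (mem_PB.1 (hS hn)).1.1).trans
    (mul_le_mul_of_nonneg_right ?_ (Finset.sum_nonneg fun _ _ => sq_nonneg _))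
  rw [mul_assoc C', div_eq_inv_mul Y T]
  exact mul_le_mul_of_nonneg_left (osd_grow (by positivity) (by positivity) hY hM) hC'.le

end Vale.Agent.P006
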