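import Vale.Agent.P006.PA
import Vale.Agent.P006.OSD
import Vale.Agent.P006.Near
import Vale.Agent.P006.Far

/-! The cubic large sieve with a loss of log ^ (5/4). -/

namespace Vale.Agent.P006

open Vale.Agent.P026 Eis Complex MeasureTheory Filter Topology
open scoped Classical ComplexConjugate

theorem ls_PB_empty {K : ℝ} (hK : K < 1) : PB K = ∅ :=
  Finset.subset_empty.1 (ball_eq_empty hK ▸ PB_subset K)

theorem ls_eta_sum {S : Finset Eis} (γ : Eis → ℂ) (g : Eis → ℝ) {η : ℝ} (h : ∀ n ∈ S, g n ≤ η) :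
    ∑ n ∈ S, ‖γ n‖ ^ 2 * g n ≤ η * sq S γ := by
  unfold sq
  rw [Finset.mul_sum]
  refine Finset.sum_le_sum fun n hn => ?_
  rw [mul_comm η]
  exact mul_le_mul_of_nonneg_left (h n hn) (by positivity)

theorem qc_of_ls : ∃ C : ℝ, 0 < C ∧ ∀ (f r N0 η : ℝ), 0 ≤ f → 0 ≤ r → LSf f r N0 → 1 ≤ η →
    (∀ n ∈ PB N0, eta n ≤ η) → ∀ (S : Finset Eis) (γ : Eis → ℂ) (H K : ℝ), 0 < H → 0 < K →
    K ≤ N0 → S ⊆ PB K → QC S γ H ≤
      C * η * (f * (H + (H * K) ^ (2 / 3 : ℝ) + r ^ (2 / 3 : ℝ) * H ^ (4 / 3 : ℝ)) +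
        Real.log (2 + H) * ((H * K) ^ (2 / 3 : ℝ) + H ^ (1 / 3 : ℝ) * K)) * sq S γ := by
  obtain ⟨C1, hC1, h1⟩ := near
  obtain ⟨C2, hC2, h2⟩ := osp1
  obtain ⟨C3, hC3, h3⟩ := far
  obtain ⟨C4, hC4, h4⟩ := card_dv_le (e := 1 / 150) (by norm_num)
  refine ⟨4 * (C1 * C2) + C3 * (1 + C4), by positivity,
    fun f r N0 η hf hr hL hη he S γ H K hH hK hN hS => ?_⟩
  have l1 := far_log hH
  have hq := sq_nonneg' S γ
  set L := Real.log (2 + H) with hLd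
  set B := f * (H + (H * K) ^ (2 / 3 : ℝ) + r ^ (2 / 3 : ℝ) * H ^ (4 / 3 : ℝ)) +
    L * ((H * K) ^ (2 / 3 : ℝ) + H ^ (1 / 3 : ℝ) * K) with hB
  have l0 : 0 ≤ L := by linarith
  have b0 : 0 ≤ B := by positivity
  rcases lt_or_ge K 1 with hK1 | hK1
  · have : S = ∅ := Finset.subset_empty.1 (ls_PB_empty hK1 ▸ hS)
    subst this
    simp [QC, qt, sq]
  have b1 : L * (H ^ (1 / 3 : ℝ) * K) ≤ B := by
    have : 0 ≤ f * (H + (H * K) ^ (2 / 3 : ℝ) + r ^ (2 / 3 : ℝ) * H ^ (4 / 3 : ℝ)) := by positivity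
    have : 0 ≤ L * (H * K) ^ (2 / 3 : ℝ) := by positivity
    rw [hB]
    nlinarith
  have d1 : 1 ≤ K ^ (1 / 100 : ℝ) := Real.one_le_rpow hK1 (by norm_num)
  have a1 := h1 (Measure.dirac 0) 1 C2 (by norm_num) hC2.le h2 S γ H K 1 _ hH hK le_rfl d1 hS
  rw [integral_dirac, tw_zero] at a1
  have a2 := h3 f r N0 hf hr hL S γ H K 1 _ hH hK hN le_rfl d1 hS
  rw [Real.one_rpow, mul_one, ← hLd, ← hB] at a2
  rw [QC_eq S γ H 1 (K ^ (1 / 100 : ℝ))]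
  have c1 : (1 * K ^ (1 / 100 : ℝ)) ^ 4 * √K ≤ K := by
    rw [one_mul, Real.sqrt_eq_rpow, ← Real.rpow_natCast, ← Real.rpow_mul hK.le, ← Real.rpow_add hK]
    have := Real.rpow_le_rpow_of_exponent_le hK1
      (show 1 / 100 * ((4 : ℕ) : ℝ) + 1 / 2 ≤ 1 by norm_num)
    rwa [Real.rpow_one] at this
  have c2 : NEAR S γ H 1 (K ^ (1 / 100 : ℝ)) ≤ 4 * (C1 * C2) * η * B * sq S γ := by
    refine a1.trans (mul_le_mul_of_nonneg_right ?_ hq)
    have e1 : H ^ (1 / 3 : ℝ) * (1 * K + (1 * K ^ (1 / 100 : ℝ)) ^ 4 * √K) ≤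
        2 * (H ^ (1 / 3 : ℝ) * K) := by
      have := mul_le_mul_of_nonneg_left c1 (show 0 ≤ H ^ (1 / 3 : ℝ) by positivity)
      nlinarith
    have e2 : H ^ (1 / 3 : ℝ) * K ≤ 2 * B := by
      have := mul_le_mul_of_nonneg_right l1 (show 0 ≤ H ^ (1 / 3 : ℝ) * K by positivity)
      nlinarith
    have e3 : B ≤ η * B := le_mul_of_one_le_left b0 hη
    have := mul_le_mul_of_nonneg_left (e1.trans (show _ ≤ 4 * (η * B) by linarith))
      (mul_pos hC1 hC2).le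
    nlinarith
  have c3 : FAR S γ H 1 (K ^ (1 / 100 : ℝ)) ≤ C3 * (1 + C4) * η * B * sq S γ := by
    refine a2.trans ?_
    have e1 := ls_eta_sum γ eta (S := S) (fun n hn => he n (PB_mono hN (hS hn)))
    have e2 := ls_eta_sum γ (fun n => ((dv n).card : ℝ)) (S := S) (η := C4 * K ^ (1 / 150 : ℝ))
      (fun n hn => (h4 n (mem_PB.1 (hS hn)).1.ne_zero).trans (mul_le_mul_of_nonneg_left
        (Real.rpow_le_rpow (N_nonneg n) (mem_PB.1 (hS hn)).2 (by norm_num)) hC4.le))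
    have e3 : (K ^ (1 / 100 : ℝ)) ^ (-(2 / 3) : ℝ) * K ^ (1 / 150 : ℝ) = 1 := by
      rw [← Real.rpow_mul hK.le, ← Real.rpow_add hK]
      norm_num
    have e4 := mul_le_mul_of_nonneg_left e2
      (show 0 ≤ L * H ^ (1 / 3 : ℝ) * K * (K ^ (1 / 100 : ℝ)) ^ (-(2 / 3) : ℝ) by positivity)
    have e5 : L * H ^ (1 / 3 : ℝ) * K * (K ^ (1 / 100 : ℝ)) ^ (-(2 / 3) : ℝ) *
        (C4 * K ^ (1 / 150 : ℝ) * sq S γ) = C4 * (L * (H ^ (1 / 3 : ℝ) * K)) * sq S γ := by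
      calc _ = C4 * (L * (H ^ (1 / 3 : ℝ) * K)) * sq S γ *
          ((K ^ (1 / 100 : ℝ)) ^ (-(2 / 3) : ℝ) * K ^ (1 / 150 : ℝ)) := by ring
        _ = _ := by rw [e3, mul_one]
    have e6 : C4 * (L * (H ^ (1 / 3 : ℝ) * K)) * sq S γ ≤ C4 * (η * B) * sq S γ :=
      mul_le_mul_of_nonneg_right (mul_le_mul_of_nonneg_left
        (b1.trans (le_mul_of_one_le_left b0 hη)) hC4.le) hq
    have e7 := mul_le_mul_of_nonneg_left e1 b0
    have e8 := mul_le_mul_of_nonneg_left (add_le_add e7 (e4.trans (e5.le.trans e6))) hC3.le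
    linarith
  linarith

theorem ls_between {x a : ℝ} (hx : 0 < x) (h1 : 1 / 3 ≤ a) (h2 : a ≤ 3 / 2) :
    x ^ a ≤ x ^ (1 / 3 : ℝ) + x ^ (3 / 2 : ℝ) := by
  have p1 : 0 ≤ x ^ (1 / 3 : ℝ) := by positivity
  have p2 : 0 ≤ x ^ (3 / 2 : ℝ) := by positivity
  rcases le_total x 1 with h | h
  · have := Real.rpow_le_rpow_of_exponent_ge hx h h1
    linarith
  · have := Real.rpow_le_rpow_of_exponent_le h h2
    linarith

theorem ls_log {x H K : ℝ} (hx : 0 < x) (hH : 0 < H) (hK : H ≤ K) :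
    Real.log (2 + x * H) ≤ Real.log (2 + K) * (1 + 4 * x ^ (1 / 2 : ℝ)) := by
  have l1 := far_log (hH.trans_le hK)
  have s0 := Real.sqrt_nonneg x
  have s1 : √x * √x = x := Real.mul_self_sqrt hx.le
  have h1 : 2 + x * H ≤ (2 + K) * (1 + √x) ^ 2 := by
    have : x * H ≤ x * K := mul_le_mul_of_nonneg_left hK hx.le
    have : 0 ≤ K := by linarith
    nlinarith [mul_nonneg this s0]
  have h2 := Real.log_le_log (by positivity) h1
  rw [Real.log_mul (by linarith) (by positivity), Real.log_pow] at h2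
  have h3 := Real.log_le_sub_one_of_pos (show 0 < 1 + √x by positivity)
  rw [← Real.sqrt_eq_rpow]
  push_cast at h2
  nlinarith

theorem ls_hyp {C f r η x H K K0 : ℝ} (hC : 0 < C) (hf : 0 ≤ f) (hr : 0 ≤ r) (hη : 0 ≤ η)
    (hx : 0 < x) (hH : 0 < H) (hK : 0 < K) (hK0 : H ≤ K0) :
    C * η * (f * (x * H + (x * H * K) ^ (2 / 3 : ℝ) + r ^ (2 / 3 : ℝ) * (x * H) ^ (4 / 3 : ℝ)) +
      Real.log (2 + x * H) * ((x * H * K) ^ (2 / 3 : ℝ) + (x * H) ^ (1 / 3 : ℝ) * K)) ≤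
    C * η * (f * (H + (H * K) ^ (2 / 3 : ℝ) + r ^ (2 / 3 : ℝ) * H ^ (4 / 3 : ℝ)) +
      5 * Real.log (2 + K0) * ((H * K) ^ (2 / 3 : ℝ) + H ^ (1 / 3 : ℝ) * K)) *
      (x ^ (1 / 3 : ℝ) + x ^ (3 / 2 : ℝ)) := by
  rw [mul_assoc (C * η)]
  refine mul_le_mul_of_nonneg_left ?_ (by positivity)
  have l1 := far_log (hH.trans_le hK0)
  set L := Real.log (2 + K0)
  set y := x ^ (1 / 3 : ℝ) + x ^ (3 / 2 : ℝ)
  have y1 : x ≤ y := by
    have := ls_between hx (a := 1) (by norm_num) (by norm_num)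
    rwa [Real.rpow_one] at this
  have y2 : x ^ (2 / 3 : ℝ) ≤ y := ls_between hx (by norm_num) (by norm_num)
  have y3 : x ^ (4 / 3 : ℝ) ≤ y := ls_between hx (by norm_num) (by norm_num)
  have y4 : x ^ (1 / 3 : ℝ) ≤ y := ls_between hx (by norm_num) (by norm_num)
  have y5 : x ^ (1 / 2 : ℝ) * x ^ (2 / 3 : ℝ) ≤ y := by
    rw [← Real.rpow_add hx]; exact ls_between hx (by norm_num) (by norm_num)
  have y6 : x ^ (1 / 2 : ℝ) * x ^ (1 / 3 : ℝ) ≤ y := by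
    rw [← Real.rpow_add hx]; exact ls_between hx (by norm_num) (by norm_num)
  rw [mul_assoc x H K, Real.mul_rpow hx.le (by positivity), Real.mul_rpow hx.le hH.le,
    Real.mul_rpow hx.le hH.le]
  set u := (H * K) ^ (2 / 3 : ℝ)
  set v := r ^ (2 / 3 : ℝ) * H ^ (4 / 3 : ℝ) with hv
  set w := H ^ (1 / 3 : ℝ) * K with hw
  have u0 : 0 ≤ u := by positivity
  have v0 : 0 ≤ v := by positivity
  have w0 : 0 ≤ w := by positivity
  have a1 : x * H + x ^ (2 / 3 : ℝ) * u + r ^ (2 / 3 : ℝ) * (x ^ (4 / 3 : ℝ) * H ^ (4 / 3 : ℝ)) ≤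
      (H + u + v) * y := by
    have := mul_le_mul_of_nonneg_left y1 hH.le
    have := mul_le_mul_of_nonneg_left y2 u0
    have := mul_le_mul_of_nonneg_left y3 v0
    have e : r ^ (2 / 3 : ℝ) * (x ^ (4 / 3 : ℝ) * H ^ (4 / 3 : ℝ)) = v * x ^ (4 / 3 : ℝ) := by
      rw [hv]; ring
    rw [e]
    nlinarith
  have a2 : (1 + 4 * x ^ (1 / 2 : ℝ)) * (x ^ (2 / 3 : ℝ) * u + x ^ (1 / 3 : ℝ) * H ^ (1 / 3 : ℝ) * K) ≤
      5 * (u + w) * y := by
    have := mul_le_mul_of_nonneg_left y2 u0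
    have := mul_le_mul_of_nonneg_left y5 u0
    have := mul_le_mul_of_nonneg_left y4 w0
    have := mul_le_mul_of_nonneg_left y6 w0
    rw [mul_assoc (x ^ (1 / 3 : ℝ)), ← hw]
    nlinarith
  have a3 := mul_le_mul_of_nonneg_right (ls_log hx hH hK0)
    (show 0 ≤ x ^ (2 / 3 : ℝ) * u + x ^ (1 / 3 : ℝ) * H ^ (1 / 3 : ℝ) * K by positivity)
  have a4 := mul_le_mul_of_nonneg_left a2 (show 0 ≤ L by linarith)
  have a5 := mul_le_mul_of_nonneg_left a1 hf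
  nlinarith

theorem ls_exp {M K : ℝ} (hM : 0 < M) (hK : 0 < K) :
    M / K * (K ^ 2 / M) = K ∧ M / K * (K ^ 2 / M * K) ^ (2 / 3 : ℝ) = M ^ (1 / 3 : ℝ) * K ∧
    M / K * (K ^ 2 / M) ^ (4 / 3 : ℝ) = K ^ (5 / 3 : ℝ) * M ^ (-(1 / 3) : ℝ) ∧
    M / K * ((K ^ 2 / M) ^ (1 / 3 : ℝ) * K) = (M * K) ^ (2 / 3 : ℝ) := by
  obtain ⟨m, rfl⟩ : ∃ m, M = Real.exp m := ⟨_, (Real.exp_log hM).symm⟩
  obtain ⟨k, rfl⟩ : ∃ k, K = Real.exp k := ⟨_, (Real.exp_log hK).symm⟩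
  simp only [← Real.exp_nat_mul, ← Real.exp_sub, ← Real.exp_add, ← Real.exp_mul]
  refine ⟨?_, ?_, ?_, ?_⟩ <;> congr 1 <;> push_cast <;> ring

theorem ls_scale {K' K a : ℝ} (h0 : 0 < K') (h : K' ≤ K) (ha : 2 / 3 ≤ a) :
    K' ^ a ≤ K ^ a * (K' / K) ^ (2 / 3 : ℝ) := by
  have hK : 0 < K := h0.trans_le h
  have e : K' ^ a = K ^ a * (K' / K) ^ a := by
    rw [← Real.mul_rpow hK.le (by positivity)]
    congr 1
    field_simp
  rw [e]
  exact mul_le_mul_of_nonneg_left (Real.rpow_le_rpow_of_exponent_ge (by positivity)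
    ((div_le_one hK).2 h) ha) (by positivity)

theorem ls_third {M K : ℝ} (hK : 0 < K) (h : K ≤ M) : M ^ (1 / 3 : ℝ) * K ≤ (M * K) ^ (2 / 3 : ℝ) := by
  have hM : 0 < M := hK.trans_le h
  obtain ⟨m, rfl⟩ : ∃ m, M = Real.exp m := ⟨_, (Real.exp_log hM).symm⟩
  obtain ⟨k, rfl⟩ : ∃ k, K = Real.exp k := ⟨_, (Real.exp_log hK).symm⟩
  simp only [← Real.exp_add, ← Real.exp_mul, Real.exp_le_exp] at h ⊢
  linarith

theorem ls_step : ∃ C : ℝ, 0 < C ∧ ∀ (f r N0 η : ℝ), 0 ≤ f → 1 ≤ r → LSf f r N0 → 1 ≤ η →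
    (∀ n ∈ PB N0, eta n ≤ η) → ∀ (M K : ℝ), 1 ≤ K → K ≤ N0 → r * K ≤ M → ∀ a : Eis → ℂ,
      QL M (PB K) a ≤ C * η * (Real.log (2 + N0) * (M + (M * K) ^ (2 / 3 : ℝ)) +
        f * (K + M ^ (1 / 3 : ℝ) * K + r ^ (2 / 3 : ℝ) * K ^ (5 / 3 : ℝ) * M ^ (-(1 / 3) : ℝ))) *
        sq (PB K) a := by
  obtain ⟨C1, hC1, h1⟩ := qc_of_ls
  obtain ⟨C2, hC2, h2⟩ := pa
  obtain ⟨C3, hC3, h3⟩ := dy (θ := 2 / 3) (by norm_num)
  refine ⟨C3 * (C2 + 10 * (C2 * C1)), by positivity,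
    fun f r N0 η hf hr hL hη he M K hK hN hM a => ?_⟩
  have hK0 : 0 < K := by linarith
  have hKM : K ≤ M := (le_mul_of_one_le_left hK0.le hr).trans hM
  have hM0 : 0 < M := by linarith
  have l1 := far_log hK0
  have l2 : Real.log (2 + K) ≤ Real.log (2 + N0) := Real.log_le_log (by linarith) (by linarith)
  set L := Real.log (2 + K) with hLd
  set U := f * (K + M ^ (1 / 3 : ℝ) * K + r ^ (2 / 3 : ℝ) * K ^ (5 / 3 : ℝ) * M ^ (-(1 / 3) : ℝ))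
    with hU
  have hr0 : 0 ≤ r := by linarith
  have l0 : 0 ≤ L := by linarith
  have u0 : 0 ≤ U := by positivity
  have hη0 : 0 ≤ η := by linarith
  refine (QL_le_QC _ _ _).trans ((h3 _ (subQ_QC a M) (PB K) a K (C2 * M)
    (C2 * (C1 * η * (U + 10 * L * (M * K) ^ (2 / 3 : ℝ)))) hK0 (by positivity) (by positivity)
    subset_rfl ?_).trans ?_)
  · intro K' hK' hKK S' _ hS'
    have hH : 0 < K' ^ 2 / M := by positivity
    have hH2 : K' ^ 2 / M ≤ K := by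
      rw [div_le_iff₀ hM0]
      nlinarith
    have a1 := h2 (Measure.dirac 0) (by simp) S' K' M
      (C1 * η * (f * (K' ^ 2 / M + (K' ^ 2 / M * K') ^ (2 / 3 : ℝ) +
        r ^ (2 / 3 : ℝ) * (K' ^ 2 / M) ^ (4 / 3 : ℝ)) +
      5 * L * ((K' ^ 2 / M * K') ^ (2 / 3 : ℝ) + (K' ^ 2 / M) ^ (1 / 3 : ℝ) * K')))
      hK' hM0 (by positivity) hS' (fun γ x hx => by
        rw [QA_dirac]
        exact (h1 f r N0 η hf hr0 hL hη he S' γ _ K' (by positivity) hK' (hKK.trans hN)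
          (hS'.trans (PD_subset _))).trans (mul_le_mul_of_nonneg_right
            (ls_hyp hC1 hf hr0 hη0 hx hH hK' hH2) (sq_nonneg' _ _))) a
    rw [QA_dirac] at a1
    refine a1.trans (mul_le_mul_of_nonneg_right ?_ (sq_nonneg' _ _))
    obtain ⟨e1, e2, e3, e4⟩ := ls_exp hM0 hK'
    set t := (K' / K) ^ (2 / 3 : ℝ) with ht
    have s1 : K' ≤ K * t := by simpa using ls_scale hK' hKK (a := 1) (by norm_num)
    have s2 : K' ^ (5 / 3 : ℝ) ≤ K ^ (5 / 3 : ℝ) * t := ls_scale hK' hKK (by norm_num)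
    have s3 : (M * K') ^ (2 / 3 : ℝ) ≤ (M * K) ^ (2 / 3 : ℝ) * t := by
      rw [Real.mul_rpow hM0.le hK'.le, Real.mul_rpow hM0.le hK0.le, mul_assoc]
      exact mul_le_mul_of_nonneg_left (ls_scale hK' hKK le_rfl) (by positivity)
    have s4 := ls_third hK' (hKK.trans hKM)
    have b1 : f * (K' + M ^ (1 / 3 : ℝ) * K' +
        r ^ (2 / 3 : ℝ) * (K' ^ (5 / 3 : ℝ) * M ^ (-(1 / 3) : ℝ))) ≤ U * t := by
      have c1 := mul_le_mul_of_nonneg_left s1 (show 0 ≤ M ^ (1 / 3 : ℝ) by positivity)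
      have c2 := mul_le_mul_of_nonneg_left s2
        (show 0 ≤ r ^ (2 / 3 : ℝ) * M ^ (-(1 / 3) : ℝ) by positivity)
      rw [hU, mul_assoc f]
      refine mul_le_mul_of_nonneg_left ?_ hf
      nlinarith
    have b2 : 5 * L * (M ^ (1 / 3 : ℝ) * K' + (M * K') ^ (2 / 3 : ℝ)) ≤
        10 * L * (M * K) ^ (2 / 3 : ℝ) * t := by
      have := mul_le_mul_of_nonneg_left (add_le_add (s4.trans s3) s3) (show 0 ≤ 5 * L by positivity)
      linarith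
    have b3 := mul_le_mul_of_nonneg_left (add_le_add b1 b2) (show 0 ≤ C2 * (C1 * η) by positivity)
    calc _ = C2 * M + C2 * (C1 * η) * (f * (M / K' * (K' ^ 2 / M) +
          M / K' * (K' ^ 2 / M * K') ^ (2 / 3 : ℝ) +
          r ^ (2 / 3 : ℝ) * (M / K' * (K' ^ 2 / M) ^ (4 / 3 : ℝ))) +
          5 * L * (M / K' * (K' ^ 2 / M * K') ^ (2 / 3 : ℝ) +
          M / K' * ((K' ^ 2 / M) ^ (1 / 3 : ℝ) * K'))) := by ring
      _ ≤ _ := by
        rw [e1, e2, e3, e4]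
        linarith
  · refine mul_le_mul_of_nonneg_right ?_ (sq_nonneg' _ _)
    rw [mul_assoc C3, mul_assoc C3]
    refine mul_le_mul_of_nonneg_left ?_ hC3.le
    set L0 := Real.log (2 + N0)
    set V := (M * K) ^ (2 / 3 : ℝ)
    have v0 : 0 ≤ V := by positivity
    have c1 : M * L ≤ η * (L0 * (M + V) + U) := by
      have : M * L ≤ L0 * (M + V) + U := by
        have := mul_le_mul_of_nonneg_left l2 hM0.le
        have : 0 ≤ L0 * V := mul_nonneg (by linarith) v0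
        nlinarith
      exact this.trans (le_mul_of_one_le_left (le_trans (by positivity) this) hη)
    have c2 : U + 10 * L * V ≤ 10 * (L0 * (M + V) + U) := by
      have := mul_le_mul_of_nonneg_left l2 v0
      have : 0 ≤ L0 * M := mul_nonneg (by linarith) hM0.le
      nlinarith
    have c3 := mul_le_mul_of_nonneg_left c1 hC2.le
    have c4 := mul_le_mul_of_nonneg_left c2 (show 0 ≤ C2 * C1 * η by positivity)
    nlinarith

theorem ls_alg {M K r : ℝ} (hK : 1 ≤ K) (hr : 1 ≤ r) (h : r * K ≤ M) :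
    K + M ^ (1 / 3 : ℝ) * K + r ^ (2 / 3 : ℝ) * K ^ (5 / 3 : ℝ) * M ^ (-(1 / 3) : ℝ) ≤
      3 * (r ^ (-(1 / 3) : ℝ) * (M * K) ^ (2 / 3 : ℝ)) := by
  have hK0 : 0 < K := by linarith
  have hr0 : 0 < r := by linarith
  have hM : 0 < M := lt_of_lt_of_le (by positivity) h
  obtain ⟨m, rfl⟩ : ∃ m, M = Real.exp m := ⟨_, (Real.exp_log hM).symm⟩
  obtain ⟨k, rfl⟩ : ∃ k, K = Real.exp k := ⟨_, (Real.exp_log hK0).symm⟩
  obtain ⟨s, rfl⟩ : ∃ s, r = Real.exp s := ⟨_, (Real.exp_log hr0).symm⟩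
  simp only [← Real.exp_add, ← Real.exp_mul, Real.exp_le_exp, Real.one_le_exp_iff] at hK hr h ⊢
  have h1 : Real.exp k ≤ Real.exp (s * -(1 / 3) + (m + k) * (2 / 3)) :=
    Real.exp_le_exp.2 (by linarith)
  have h2 : Real.exp (m * (1 / 3) + k) ≤ Real.exp (s * -(1 / 3) + (m + k) * (2 / 3)) :=
    Real.exp_le_exp.2 (by linarith)
  have h3 : Real.exp (s * (2 / 3) + k * (5 / 3) + m * -(1 / 3)) ≤
      Real.exp (s * -(1 / 3) + (m + k) * (2 / 3)) := Real.exp_le_exp.2 (by linarith)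
  linarith

theorem ls_alg2 {K r : ℝ} (hK : 1 ≤ K) (hr : 1 ≤ r) :
    r * K ≤ r ^ (1 / 3 : ℝ) * (r ^ (2 / 3 : ℝ) * K ^ (4 / 3 : ℝ)) ∧
    (r * K * K) ^ (2 / 3 : ℝ) = r ^ (2 / 3 : ℝ) * K ^ (4 / 3 : ℝ) := by
  have hK0 : 0 < K := by linarith
  have hr0 : 0 < r := by linarith
  obtain ⟨k, rfl⟩ : ∃ k, K = Real.exp k := ⟨_, (Real.exp_log hK0).symm⟩
  obtain ⟨s, rfl⟩ : ∃ s, r = Real.exp s := ⟨_, (Real.exp_log hr0).symm⟩
  simp only [← Real.exp_add, ← Real.exp_mul, Real.exp_le_exp, Real.one_le_exp_iff] at hK hr ⊢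
  refine ⟨by linarith, ?_⟩
  congr 1
  ring

theorem ls_QL_zero {M K : ℝ} (h : min M K < 1) (a : Eis → ℂ) : QL M (PB K) a = 0 := by
  unfold QL
  rcases min_lt_iff.1 h with h | h
  · simp [ls_PB_empty h]
  · simp [ls_PB_empty h]

theorem ls_iter : ∃ C : ℝ, 1 ≤ C ∧ ∀ (f N0 η : ℝ), 0 ≤ f → 0 ≤ N0 → 1 ≤ η →
    (∀ n ∈ PB N0, eta n ≤ η) → LSf f ((8 * C * η) ^ 3) N0 →
    ∀ (M K : ℝ), 0 < M → 0 < K → min M K ≤ N0 → ∀ a : Eis → ℂ, QL M (PB K) a ≤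
      (C * η * Real.log (2 + N0) * (1 + 8 * C * η) + f / 2) * (M + K + (M * K) ^ (2 / 3 : ℝ) +
        ((8 * C * η) ^ 3) ^ (2 / 3 : ℝ) * (min M K) ^ (4 / 3 : ℝ)) * sq (PB K) a := by
  obtain ⟨C1, hC1, h1⟩ := ls_step
  refine ⟨max C1 1, le_max_right _ _, fun f N0 η hf hN0 hη he hL => ?_⟩
  set C := max C1 1 with hC
  have c1 : 1 ≤ C := le_max_right _ _
  have c2 : C1 ≤ C := le_max_left _ _
  set ρ := 8 * C * η with hρ
  have ρ1 : 1 ≤ ρ := by nlinarith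
  have r1 : 1 ≤ ρ ^ 3 := one_le_pow₀ ρ1
  have r3 : (ρ ^ 3) ^ (1 / 3 : ℝ) = ρ := by
    rw [← Real.rpow_natCast, ← Real.rpow_mul (by linarith)]
    norm_num
  have r4 : (ρ ^ 3) ^ (-(1 / 3) : ℝ) = ρ⁻¹ := by rw [Real.rpow_neg (by linarith), r3]
  have l0 : 0 ≤ Real.log (2 + N0) := Real.log_nonneg (by linarith)
  set L := Real.log (2 + N0)
  set Δ := C * η * L * (1 + ρ) + f / 2 with hΔ
  have hη0 : 0 < η := by linarith
  have hC0 : 0 < C := by linarith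
  have d0 : 0 ≤ Δ := by positivity
  have main : ∀ M K : ℝ, 0 < M → 0 < K → K ≤ M → K ≤ N0 → ∀ a : Eis → ℂ, QL M (PB K) a ≤
      Δ * (M + K + (M * K) ^ (2 / 3 : ℝ) + (ρ ^ 3) ^ (2 / 3 : ℝ) * K ^ (4 / 3 : ℝ)) *
        sq (PB K) a := by
    intro M K hM hK hKM hKN a
    have hq := sq_nonneg' (PB K) a
    rcases lt_or_ge K 1 with hK1 | hK1
    · rw [ls_QL_zero (lt_of_le_of_lt (min_le_right _ _) hK1)]
      positivity
    set M' := max M (ρ ^ 3 * K) with hM'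
    have m1 : M ≤ M' := le_max_left _ _
    have m2 : ρ ^ 3 * K ≤ M' := le_max_right _ _
    refine (QL_mono m1 _ _).trans ((h1 f _ N0 η hf r1 hL hη he M' K hK1 hKN m2 a).trans
      (mul_le_mul_of_nonneg_right ?_ hq))
    obtain ⟨e1, e2⟩ := ls_alg2 hK1 r1
    have e3 := ls_alg hK1 r1 m2
    rw [r3] at e1
    rw [r4] at e3
    set V := (ρ ^ 3) ^ (2 / 3 : ℝ) * K ^ (4 / 3 : ℝ)
    have v0 : 0 ≤ V := by positivity
    set Ψ := M + K + (M * K) ^ (2 / 3 : ℝ) + V with hΨ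
    have w0 : 0 ≤ (M * K) ^ (2 / 3 : ℝ) := by positivity
    have p1 : (M' * K) ^ (2 / 3 : ℝ) ≤ Ψ := by
      rcases max_choice M (ρ ^ 3 * K) with h | h
      · rw [hM', h]; linarith
      · rw [hM', h, e2]; linarith
    have p2 : M' ≤ ρ * Ψ := by
      rcases max_choice M (ρ ^ 3 * K) with h | h
      · rw [hM', h]
        exact le_trans (by linarith) (le_mul_of_one_le_left (by positivity) ρ1)
      · rw [hM', h]
        exact e1.trans (mul_le_mul_of_nonneg_left (by linarith) (by linarith))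
    have p0 : 0 ≤ Ψ := by positivity
    have p3 : L * (M' + (M' * K) ^ (2 / 3 : ℝ)) ≤ L * ((1 + ρ) * Ψ) :=
      mul_le_mul_of_nonneg_left (by linarith) l0
    have p4 := mul_le_mul_of_nonneg_left (e3.trans (show _ ≤ 3 * (ρ⁻¹ * Ψ) from
      mul_le_mul_of_nonneg_left (mul_le_mul_of_nonneg_left p1 (by positivity)) (by norm_num))) hf
    refine (mul_le_mul (mul_le_mul_of_nonneg_right c2 hη0.le) (add_le_add p3 p4) ?_
      (by positivity)).trans ?_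
    · have : 0 < M' := by linarith
      positivity
    have p5 : C * η * (f * (3 * (ρ⁻¹ * Ψ))) = 3 / 8 * (f * Ψ) := by
      rw [hρ]; field_simp
    have p6 : 0 ≤ f * Ψ := by positivity
    rw [mul_add, p5, hΔ]
    nlinarith
  intro M K hM hK hMK a
  rcases le_total K M with h | h
  · rw [min_eq_right h] at hMK ⊢
    exact main M K hM hK h hMK a
  · rw [min_eq_left h] at hMK ⊢
    refine QL_symm (by positivity) (fun b => ?_) a
    rw [add_comm M K, mul_comm M K]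
    exact main K M hK hM h hMK b

theorem ls_eta : ∃ C : ℝ, 1 ≤ C ∧ ∀ N0 : ℝ, 0 ≤ N0 → 1 ≤ C * Real.log (3 + N0) ^ (1 / 16 : ℝ) ∧
    ∀ n ∈ PB N0, eta n ≤ C * Real.log (3 + N0) ^ (1 / 16 : ℝ) := by
  obtain ⟨C, hC, h⟩ := eta_le (e := 1 / 16) (by norm_num)
  refine ⟨C + 1, by linarith, fun N0 hN => ?_⟩
  have l1 : 1 ≤ Real.log (3 + N0) := by
    rw [Real.le_log_iff_exp_le (by linarith)]
    have := Real.exp_one_lt_d9
    linarith
  have l2 := Real.one_le_rpow l1 (show (0 : ℝ) ≤ 1 / 16 by norm_num)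
  refine ⟨by nlinarith, fun n hn => ?_⟩
  obtain ⟨h1, h2⟩ := mem_PB.1 hn
  have n0 := N_nonneg n
  refine (h n h1.ne_zero).trans (mul_le_mul (by linarith) (Real.rpow_le_rpow
    (Real.log_nonneg (by linarith)) (Real.log_le_log (by linarith) (by linarith)) (by norm_num))
    (Real.rpow_nonneg (Real.log_nonneg (by linarith)) _) (by linarith))

theorem ls_one_le_log {x : ℝ} (hx : 0 ≤ x) : 1 ≤ Real.log (3 + x) := by
  rw [Real.le_log_iff_exp_le (by linarith)]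
  have := Real.exp_one_lt_d9
  linarith

theorem ls0 : ∃ C : ℝ, 0 < C ∧ ∀ (M K : ℝ) (a : Eis → ℂ), 0 < M → 0 < K →
    QL M (PB K) a ≤ C * ell (min M K) * (M + K + (M * K) ^ (2 / 3 : ℝ)) * sq (PB K) a := by
  obtain ⟨C, hC, h1⟩ := ls_iter
  obtain ⟨E, hE, h2⟩ := ls_eta
  refine ⟨3 * (9 * 65) * C ^ 4 * E ^ 4, by positivity, fun M K a hM hK => ?_⟩
  set N0 := min M K with hN0
  have n0 : 0 < N0 := lt_min hM hK
  obtain ⟨e1, e2⟩ := h2 N0 n0.le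
  set η := E * Real.log (3 + N0) ^ (1 / 16 : ℝ) with hη
  set ρ := 8 * C * η with hρ
  set A := C * η * Real.log (2 + N0) * (1 + ρ) with hA
  have l1 := far_log n0
  have hη0 : 0 < η := by linarith
  have hC0 : 0 < C := by linarith
  have a0 : 0 < A := by
    have : 0 < Real.log (2 + N0) := by linarith
    positivity
  have step : ∀ f, 0 ≤ f → LSf f (ρ ^ 3) N0 → LSf (A + f / 2) (ρ ^ 3) N0 := by
    intro f hf hL M' K' hM' hK' hN b
    refine (h1 f N0 η hf n0.le e1 e2 hL M' K' hM' hK' ((min_le_right _ _).trans hN) b).trans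
      (mul_le_mul_of_nonneg_right (mul_le_mul_of_nonneg_left ?_ (by positivity)) (sq_nonneg' _ _))
    have := mul_le_mul_of_nonneg_left (Real.rpow_le_rpow (lt_min hM' hK').le (min_le_left M' K')
      (show (0 : ℝ) ≤ 4 / 3 by norm_num)) (show 0 ≤ (ρ ^ 3) ^ (2 / 3 : ℝ) by positivity)
    linarith
  have iter : ∀ j : ℕ, LSf (2 * A + 256 * N0 * (1 / 2) ^ j) (ρ ^ 3) N0 := by
    intro j
    induction j with
    | zero =>
      intro M' K' hM' hK' hN b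
      refine (QL_triv hM' hK' b).trans (mul_le_mul_of_nonneg_right ?_ (sq_nonneg' _ _))
      have p1 : 0 ≤ (M' * K') ^ (2 / 3 : ℝ) := by positivity
      have p2 : 0 ≤ (ρ ^ 3) ^ (2 / 3 : ℝ) * M' ^ (4 / 3 : ℝ) := by positivity
      have p3 : 256 * K' ≤ 2 * A + 256 * N0 * (1 / 2) ^ 0 := by simp; linarith
      have := mul_le_mul p3 (show M' ≤ M' + K' + (M' * K') ^ (2 / 3 : ℝ) +
        (ρ ^ 3) ^ (2 / 3 : ℝ) * M' ^ (4 / 3 : ℝ) by linarith) hM'.le (by positivity)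
      linarith
    | succ j ih =>
      have := step _ (by positivity) ih
      rwa [show A + (2 * A + 256 * N0 * (1 / 2) ^ j) / 2 = 2 * A + 256 * N0 * (1 / 2) ^ (j + 1) by
        ring] at this
  obtain ⟨j, hj⟩ := exists_pow_lt_of_lt_one (show 0 < A / (256 * N0) by positivity)
    (show (1 / 2 : ℝ) < 1 by norm_num)
  rw [lt_div_iff₀ (by positivity)] at hj
  refine (h1 _ N0 η (by positivity) n0.le e1 e2 (iter j) M K hM hK le_rfl a).trans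
    (mul_le_mul_of_nonneg_right ?_ (sq_nonneg' _ _))
  rw [← hρ, ← hA, ← hN0]
  have p1 : N0 ^ (4 / 3 : ℝ) ≤ (M * K) ^ (2 / 3 : ℝ) := by
    have : N0 ^ (4 / 3 : ℝ) = (N0 * N0) ^ (2 / 3 : ℝ) := by
      rw [Real.mul_rpow n0.le n0.le, ← Real.rpow_add n0]
      norm_num
    rw [this]
    exact Real.rpow_le_rpow (by positivity)
      (mul_le_mul (min_le_left _ _) (min_le_right _ _) n0.le hM.le) (by norm_num)
  have p2 : (ρ ^ 3) ^ (2 / 3 : ℝ) = ρ ^ 2 := by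
    rw [← Real.rpow_natCast, ← Real.rpow_mul (by positivity), ← Real.rpow_natCast]
    norm_num
  rw [p2]
  set Ψ := M + K + (M * K) ^ (2 / 3 : ℝ) with hΨ
  have p3 : Ψ + ρ ^ 2 * N0 ^ (4 / 3 : ℝ) ≤ (1 + ρ ^ 2) * Ψ := by
    have := mul_le_mul_of_nonneg_left (p1.trans (show _ ≤ Ψ by linarith)) (sq_nonneg ρ)
    linarith
  have p0 : 0 ≤ Ψ := by positivity
  refine (mul_le_mul (show _ ≤ 3 * A by linarith) p3 (by positivity) (by positivity)).trans ?_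
  rw [← mul_assoc]
  refine mul_le_mul_of_nonneg_right ?_ p0
  have q0 : 1 ≤ C * η := one_le_mul_of_one_le_of_one_le hC e1
  have q1 : 1 + ρ ≤ 9 * (C * η) := by rw [hρ]; linarith
  have q2 : 1 + ρ ^ 2 ≤ 65 * (C * η) ^ 2 := by rw [hρ]; nlinarith
  have q3 : Real.log (2 + N0) ≤ Real.log (3 + N0) := Real.log_le_log (by linarith) (by linarith)
  have q4 := ls_one_le_log n0.le
  have q5 : (Real.log (3 + N0) ^ (1 / 16 : ℝ)) ^ 4 * Real.log (3 + N0) = ell N0 := by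
    unfold ell
    rw [← Real.rpow_natCast, ← Real.rpow_mul (by linarith), ← Real.rpow_add_one (by linarith)]
    norm_num
  calc 3 * A * (1 + ρ ^ 2) = 3 * (C * η * (Real.log (2 + N0) * ((1 + ρ) * (1 + ρ ^ 2)))) := by
        rw [hA]; ring
    _ ≤ 3 * (C * η * (Real.log (3 + N0) * (9 * (C * η) * (65 * (C * η) ^ 2)))) := by
        gcongr
    _ = _ := by rw [← q5, hη]; ring

theorem ls_ell_mono {x y : ℝ} (hx : 0 ≤ x) (h : x ≤ y) : ell x ≤ ell y :=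
  Real.rpow_le_rpow (Real.log_nonneg (by linarith)) (Real.log_le_log (by linarith) (by linarith))
    (by norm_num)

theorem ls_ell_nonneg {x : ℝ} (hx : 0 ≤ x) : 0 ≤ ell x :=
  Real.rpow_nonneg (Real.log_nonneg (by linarith)) _

theorem lsf0 : ∃ C : ℝ, 0 < C ∧ ∀ N0 : ℝ, 0 < N0 → LSf (C * ell N0) 0 N0 := by
  obtain ⟨C, hC, h⟩ := ls0
  refine ⟨C, hC, fun N0 _ M K hM hK hN a => (h M K a hM hK).trans ?_⟩
  rw [Real.zero_rpow (by norm_num), zero_mul, add_zero]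
  refine mul_le_mul_of_nonneg_right (mul_le_mul_of_nonneg_right (mul_le_mul_of_nonneg_left
    (ls_ell_mono (lt_min hM hK).le ((min_le_right _ _).trans hN)) hC.le) (by positivity))
    (sq_nonneg' _ _)

theorem ls_logs {K Z H : ℝ} (hK : 0 < K) (hZ : K ≤ Z) (hH : 0 < H) :
    Real.log (3 + K) ^ (1 / 16 : ℝ) * ell K ≤ Real.log (3 + Z + H) ^ 2 ∧
    Real.log (3 + K) ^ (1 / 16 : ℝ) * Real.log (2 + H) ≤ Real.log (3 + Z + H) ^ 2 ∧
    Real.log (2 + H) ≤ Real.log (3 + Z + H) ^ 2 := by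
  have q1 := ls_one_le_log hK.le
  have q2 : Real.log (3 + K) ≤ Real.log (3 + Z + H) := Real.log_le_log (by linarith) (by linarith)
  have q3 : Real.log (2 + H) ≤ Real.log (3 + Z + H) := Real.log_le_log (by linarith) (by linarith)
  have q4 : 0 ≤ Real.log (2 + H) := Real.log_nonneg (by linarith)
  have q5 : Real.log (3 + K) ^ (1 / 16 : ℝ) ≤ Real.log (3 + K) := by
    have := Real.rpow_le_rpow_of_exponent_le q1 (show (1 / 16 : ℝ) ≤ 1 by norm_num)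
    rwa [Real.rpow_one] at this
  refine ⟨?_, ?_, by nlinarith⟩
  · unfold ell
    rw [← Real.rpow_add (by linarith)]
    have := Real.rpow_le_rpow_of_exponent_le q1 (show (1 / 16 + 5 / 4 : ℝ) ≤ (2 : ℕ) by norm_num)
    rw [Real.rpow_natCast] at this
    exact this.trans (pow_le_pow_left₀ (by linarith) q2 2)
  · rw [_root_.sq]
    exact mul_le_mul (q5.trans q2) q3 q4 (by linarith)

theorem ls_min {S : Finset Eis} {K Z : ℝ} (h1 : S ⊆ PB K) (h2 : S ⊆ PB Z) : S ⊆ PB (min K Z) :=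
  fun _ hn => mem_PB.2 ⟨(mem_PB.1 (h1 hn)).1, le_min (mem_PB.1 (h1 hn)).2 (mem_PB.1 (h2 hn)).2⟩

theorem lsh : ∃ C : ℝ, 0 < C ∧ ∀ (S : Finset Eis) (γ : Eis → ℂ) (H K Z : ℝ), 0 < H → 0 < K →
    0 < Z → S ⊆ PB K → S ⊆ PB Z → QC S γ H ≤ C * Real.log (3 + Z + H) ^ 2 *
      (H + H ^ (1 / 3 : ℝ) * K + (H * K) ^ (2 / 3 : ℝ)) * sq S γ := by
  obtain ⟨C1, hC1, h1⟩ := qc_of_ls
  obtain ⟨C2, hC2, h2⟩ := lsf0
  obtain ⟨E, hE, h3⟩ := ls_eta
  refine ⟨C1 * E * (C2 + 1), by positivity, fun S γ H K Z hH hK hZ s1 s2 => ?_⟩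
  set K' := min K Z
  have k0 : 0 < K' := lt_min hK hZ
  have k1 : K' ≤ K := min_le_left _ _
  obtain ⟨e1, e2⟩ := h3 K' k0.le
  have l0 := ls_ell_nonneg k0.le
  refine (h1 _ 0 K' _ (by positivity) le_rfl (h2 K' k0) e1 e2 S γ H K' hH k0 le_rfl
    (ls_min s1 s2)).trans (mul_le_mul_of_nonneg_right ?_ (sq_nonneg' _ _))
  rw [Real.zero_rpow (by norm_num), zero_mul, add_zero]
  obtain ⟨q1, q2, -⟩ := ls_logs k0 (min_le_right K Z) hH
  set Ψ := H + H ^ (1 / 3 : ℝ) * K + (H * K) ^ (2 / 3 : ℝ) with hΨ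
  have p1 : (H * K') ^ (2 / 3 : ℝ) ≤ (H * K) ^ (2 / 3 : ℝ) := by gcongr
  have p2 : H ^ (1 / 3 : ℝ) * K' ≤ H ^ (1 / 3 : ℝ) * K := by gcongr
  have p3 : 0 ≤ H ^ (1 / 3 : ℝ) * K := by positivity
  have p4 := mul_le_mul q1 (show H + (H * K') ^ (2 / 3 : ℝ) ≤ Ψ by linarith) (by positivity)
    (by positivity)
  have p5 := mul_le_mul q2 (show (H * K') ^ (2 / 3 : ℝ) + H ^ (1 / 3 : ℝ) * K' ≤ Ψ by linarith)
    (by positivity) (by positivity)
  have p6 := mul_le_mul_of_nonneg_left p4 (show 0 ≤ C1 * E * C2 by positivity)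
  have p7 := mul_le_mul_of_nonneg_left p5 (show 0 ≤ C1 * E by positivity)
  nlinarith

theorem farh : ∃ C : ℝ, 0 < C ∧ ∀ (S : Finset Eis) (γ : Eis → ℂ) (H K Z Q0 D0 U : ℝ), 0 < H →
    0 < K → 0 < Z → 1 ≤ Q0 → 1 ≤ D0 → 0 ≤ U → S ⊆ PB K → S ⊆ PB Z → (∀ n ∈ S, ((dv n).card : ℝ) ≤ U) →
    FAR S γ H Q0 D0 ≤ C * Real.log (3 + Z + H) ^ 2 * (H + (H * K) ^ (2 / 3 : ℝ) +
      H ^ (1 / 3 : ℝ) * K * (Q0 ^ (-(1 / 3) : ℝ) + U * D0 ^ (-(2 / 3) : ℝ))) * sq S γ := by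
  obtain ⟨C1, hC1, h1⟩ := far
  obtain ⟨C2, hC2, h2⟩ := lsf0
  obtain ⟨E, hE, h3⟩ := ls_eta
  refine ⟨C1 * (E * (C2 + 1) + 1), by positivity,
    fun S γ H K Z Q0 D0 U hH hK hZ hQ hD hU s1 s2 hS => ?_⟩
  set K' := min K Z
  have k0 : 0 < K' := lt_min hK hZ
  have k1 : K' ≤ K := min_le_left _ _
  obtain ⟨e1, e2⟩ := h3 K' k0.le
  have l0 := ls_ell_nonneg k0.le
  have l1 := far_log hH
  have l2 : 0 ≤ Real.log (2 + H) := by linarith
  have hq := sq_nonneg' S γ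
  refine (h1 _ 0 K' (by positivity) le_rfl (h2 K' k0) S γ H K' Q0 D0 hH k0 le_rfl hQ hD
    (ls_min s1 s2)).trans ?_
  rw [Real.zero_rpow (by norm_num), zero_mul, add_zero]
  obtain ⟨q1, q2, q3⟩ := ls_logs k0 (min_le_right K Z) hH
  have hQ0 : 0 < Q0 := by linarith
  have hD0 : 0 < D0 := by linarith
  set Ψ := H + (H * K) ^ (2 / 3 : ℝ) +
    H ^ (1 / 3 : ℝ) * K * (Q0 ^ (-(1 / 3) : ℝ) + U * D0 ^ (-(2 / 3) : ℝ)) with hΨ
  have p1 : (H * K') ^ (2 / 3 : ℝ) ≤ (H * K) ^ (2 / 3 : ℝ) := by gcongr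
  have p2 : H ^ (1 / 3 : ℝ) * K' * Q0 ^ (-(1 / 3) : ℝ) ≤ H ^ (1 / 3 : ℝ) * K * Q0 ^ (-(1 / 3) : ℝ) := by
    gcongr
  have p2' : H ^ (1 / 3 : ℝ) * K' * (U * D0 ^ (-(2 / 3) : ℝ)) ≤
      H ^ (1 / 3 : ℝ) * K * (U * D0 ^ (-(2 / 3) : ℝ)) := by gcongr
  have p3 : 0 ≤ H ^ (1 / 3 : ℝ) * K * Q0 ^ (-(1 / 3) : ℝ) := by positivity
  have p3' : 0 ≤ H ^ (1 / 3 : ℝ) * K * (U * D0 ^ (-(2 / 3) : ℝ)) := by positivity
  have p3'' : 0 ≤ (H * K) ^ (2 / 3 : ℝ) := by positivity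
  have p4 := mul_le_mul q1 (show H + (H * K') ^ (2 / 3 : ℝ) ≤ Ψ by rw [hΨ]; linarith) (by positivity)
    (by positivity)
  have p5 := mul_le_mul q2 (show (H * K') ^ (2 / 3 : ℝ) +
    H ^ (1 / 3 : ℝ) * K' * Q0 ^ (-(1 / 3) : ℝ) ≤ Ψ by rw [hΨ]; linarith) (by positivity) (by positivity)
  have p6 := mul_le_mul q3 (show H ^ (1 / 3 : ℝ) * K' * (U * D0 ^ (-(2 / 3) : ℝ)) ≤ Ψ by
    rw [hΨ]; linarith) (by positivity) (by positivity)
  have a1 := ls_eta_sum γ eta (S := S) (fun n hn => e2 n (ls_min s1 s2 hn))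
  have a2 := ls_eta_sum γ (fun n => ((dv n).card : ℝ)) hS
  refine (mul_le_mul_of_nonneg_left (add_le_add (mul_le_mul_of_nonneg_left a1 (by positivity))
    (mul_le_mul_of_nonneg_left a2 (by positivity))) hC1.le).trans ?_
  have p7 := mul_le_mul_of_nonneg_left p4 (show 0 ≤ E * C2 by positivity)
  have p8 := mul_le_mul_of_nonneg_left p5 (show 0 ≤ E by positivity)
  have p9 := mul_le_mul_of_nonneg_left (mul_le_mul_of_nonneg_right
    (add_le_add (add_le_add p7 p8) p6) hq) hC1.le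
  linarith

end Vale.Agent.P006
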