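import Vale.Agent.P006.Twist
import Vale.Agent.P006.Mod

/-! The coefficient tau 0 1 3 up to sign. -/

namespace Vale.Agent.P006

open Vale.Agent.P026 Eis Complex MeasureTheory Filter Topology
open scoped Classical ComplexConjugate

theorem link_congr {f g : Eis → ℂ} {a : ℂ} (h : HasSum f a) (e : ∀ x, g x = f x) : HasSum g a :=
  funext e ▸ h

theorem link_int {a : ℝ} (h1 : -1 < a) (h2 : a < 1) :
    IntegrableOn (fun s : ℝ => s ^ a * ((1 + s) ^ 2)⁻¹) (Set.Ioi 0) := by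
  have hm : Measurable fun s : ℝ => s ^ a * ((1 + s) ^ 2)⁻¹ := by fun_prop
  rw [← Set.Ioc_union_Ioi_eq_Ioi zero_le_one]
  refine IntegrableOn.union (Integrable.mono' (intervalIntegral.intervalIntegrable_rpow' h1
    (a := 0) (b := 1)).1 hm.aestronglyMeasurable ?_) (Integrable.mono'
    (integrableOn_Ioi_rpow_of_lt (a := a - 2) (by linarith) one_pos) hm.aestronglyMeasurable ?_)
  · refine ae_restrict_of_forall_mem measurableSet_Ioc fun s hs => ?_
    have := hs.1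
    rw [Real.norm_of_nonneg (by positivity)]
    exact mul_le_of_le_one_right (by positivity)
      (inv_le_one_of_one_le₀ (one_le_pow₀ (by linarith)))
  · refine ae_restrict_of_forall_mem measurableSet_Ioi fun s (hs : 1 < s) => ?_
    have : 0 < s := by linarith
    rw [Real.norm_of_nonneg (by positivity), Real.rpow_sub this, Real.rpow_two, div_eq_mul_inv]
    gcongr
    linarith

theorem link_bdd {γ : Eis → ℂ} (h0 : γ 0 = 0) (hγ : ∀ c, ‖γ c‖ ≤ 81) {f : ℝ → ℂ} {C : ℝ}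
    (hC : 0 ≤ C) (hf : ∀ y, 0 < y → ‖f y‖ ≤ C * ((1 + y) ^ 2)⁻¹) {R : ℂ}
    (hR : Tendsto (r1S γ f) (𝓝[>] 0) (𝓝 R)) : ∃ B : ℝ, ∀ t, 0 < t → ‖r1S γ f t‖ ≤ B := by
  have h2 : ∀ᶠ t in 𝓝[>] (0 : ℝ), ‖r1S γ f t‖ < ‖R‖ + 1 :=
    hR.norm.eventually (gt_mem_nhds (lt_add_one _))
  obtain ⟨δ, hδ, h3⟩ := (nhdsGT_basis (0 : ℝ)).eventually_iff.1 h2
  have hs := summable_N_rpow (s := 2) (by norm_num)
  have hZ : 0 ≤ ∑' c : Eis, N c ^ (-2 : ℝ) := tsum_nonneg fun c => Real.rpow_nonneg (N_nonneg c) _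
  refine ⟨max (‖R‖ + 1) (δ ^ (1 / 3 - 2 : ℝ) * (81 * C * ∑' c : Eis, N c ^ (-2 : ℝ))),
    fun t ht => ?_⟩
  by_cases h4 : t < δ
  · exact (h3 ⟨ht, h4⟩).le.trans (le_max_left _ _)
  refine le_trans ?_ ((mul_le_mul_of_nonneg_right (Real.rpow_le_rpow_of_nonpos hδ (not_lt.1 h4)
    (by norm_num)) (by positivity)).trans (le_max_right _ _))
  have h1 := tsum_of_norm_bounded (f := fun c => γ c * f (t * N c))
    (hs.hasSum.mul_left (81 * C / t ^ 2)) fun c => by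
      by_cases hc : c = 0
      · rw [hc, h0, zero_mul, norm_zero]
        have := Real.rpow_nonneg (N_nonneg 0) (-2 : ℝ)
        positivity
      have hN := N_pos hc
      rw [norm_mul, Real.rpow_neg hN.le, Real.rpow_two]
      calc _ ≤ 81 * (C * ((t * N c) ^ 2)⁻¹) := by
            gcongr
            · exact hγ c
            · refine (hf _ (by positivity)).trans ?_
              gcongr
              linarith
        _ = _ := by field_simp
  rw [r1S, norm_mul, norm_real, Real.norm_of_nonneg (by positivity), Real.rpow_sub ht,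
    Real.rpow_two]
  exact (mul_le_mul_of_nonneg_left h1 (by positivity)).trans (le_of_eq (by ring))

theorem link_conv_eq {γ : Eis → ℂ} (h0 : γ 0 = 0) (hγ : ∀ c, ‖γ c‖ ≤ 81) {f g : ℝ → ℂ}
    (hf : Measurable f) (hg : Measurable g) {C : ℝ} (hC : 0 ≤ C)
    (hf' : ∀ y, 0 < y → ‖f y‖ ≤ C * ((1 + y) ^ 2)⁻¹) (hg' : ∀ y, 0 < y → ‖g y‖ ≤ C * ((1 + y) ^ 2)⁻¹)
    {t : ℝ} (ht : 0 < t) :
    ∫ s in Set.Ioi (0 : ℝ), ((s ^ (-(2 / 3) : ℝ) : ℝ) : ℂ) * g s * r1S γ f (t / s) =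
      ((t ^ (1 / 3 : ℝ) : ℝ) : ℂ) * ∑' c : Eis,
        γ c * ∫ s in Set.Ioi (0 : ℝ), ((s⁻¹ : ℝ) : ℂ) * g s * f (t * N c / s) := by
  simp only [← integral_const_mul]
  rw [r1_swap (h := fun s => s ^ (1 / 2 : ℝ) * ((1 + s) ^ 2)⁻¹)
    (v := fun c => 81 * C * C * t ^ (-(3 / 2) : ℝ) * N c ^ (-(3 / 2) : ℝ))
    (fun c => by fun_prop) (link_int (by norm_num) (by norm_num))
    ((summable_N_rpow (s := 3 / 2) (by norm_num)).mul_left _), ← integral_const_mul]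
  · refine setIntegral_congr_fun measurableSet_Ioi fun s hs => ?_
    have hs' : (0 : ℝ) < s := hs
    have e : s ^ (-(2 / 3) : ℝ) * (t / s) ^ (1 / 3 : ℝ) = t ^ (1 / 3 : ℝ) * s⁻¹ := by
      rw [Real.div_rpow ht.le hs'.le, ← Real.rpow_neg_one, mul_div_left_comm, ← Real.rpow_sub hs']
      norm_num
    have e' : ((s ^ (-(2 / 3) : ℝ) : ℝ) : ℂ) * (((t / s) ^ (1 / 3 : ℝ) : ℝ) : ℂ) =
        ((t ^ (1 / 3 : ℝ) : ℝ) : ℂ) * ((s⁻¹ : ℝ) : ℂ) := by exact_mod_cast e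
    simp only [r1S, div_mul_eq_mul_div, mul_left_comm (γ _), tsum_mul_left]
    linear_combination (g s * ∑' c, γ c * f (t * N c / s)) * e'
  · intro c
    filter_upwards [ae_restrict_mem measurableSet_Ioi] with s hs
    have hs' : (0 : ℝ) < s := hs
    by_cases hc : c = 0
    · rw [hc, h0, zero_mul, norm_zero]
      have := Real.rpow_nonneg (N_nonneg 0) (-(3 / 2) : ℝ)
      positivity
    have hN := N_pos hc
    have hx : 0 < t * N c / s := by positivity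
    have h1 : ((1 + t * N c / s) ^ 2)⁻¹ ≤ (t * N c / s) ^ (-(3 / 2) : ℝ) := by
      rw [Real.rpow_neg hx.le, ← Real.rpow_two]
      refine inv_anti₀ (by positivity) ((Real.rpow_le_rpow hx.le (by linarith) (by norm_num)).trans
        (Real.rpow_le_rpow_of_exponent_le (by linarith) (by norm_num)))
    have e : s ^ (1 / 2 : ℝ) = s⁻¹ / s ^ (-(3 / 2) : ℝ) := by
      rw [← Real.rpow_neg_one, ← Real.rpow_sub hs']
      norm_num
    rw [norm_mul, norm_mul, norm_mul, norm_real, Real.norm_of_nonneg (by positivity)]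
    calc ‖γ c‖ * (s⁻¹ * ‖g s‖ * ‖f (t * N c / s)‖)
        ≤ 81 * (s⁻¹ * (C * ((1 + s) ^ 2)⁻¹) * (C * (t * N c / s) ^ (-(3 / 2) : ℝ))) := by
          gcongr
          · exact hγ c
          · exact hg' s hs'
          · exact (hf' _ hx).trans (mul_le_mul_of_nonneg_left h1 hC)
      _ = _ := by
          rw [Real.div_rpow (by positivity) hs'.le, Real.mul_rpow ht.le hN.le, e]
          ring

theorem link_conv_lim {γ : Eis → ℂ} (h0 : γ 0 = 0) (hγ : ∀ c, ‖γ c‖ ≤ 81) {f g : ℝ → ℂ}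
    (hf : Measurable f) (hg : Measurable g) {C : ℝ} (hC : 0 ≤ C)
    (hf' : ∀ y, 0 < y → ‖f y‖ ≤ C * ((1 + y) ^ 2)⁻¹) (hg' : ∀ y, 0 < y → ‖g y‖ ≤ C * ((1 + y) ^ 2)⁻¹)
    {R : ℂ} (hR : Tendsto (r1S γ f) (𝓝[>] 0) (𝓝 R)) :
    Tendsto (fun t => ∫ s in Set.Ioi (0 : ℝ),
      ((s ^ (-(2 / 3) : ℝ) : ℝ) : ℂ) * g s * r1S γ f (t / s)) (𝓝[>] 0) (𝓝 (r1M g * R)) := by
  obtain ⟨B, hB⟩ := link_bdd h0 hγ hC hf' hR
  rw [r1M, ← integral_mul_const]
  refine tendsto_integral_filter_of_dominated_convergence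
    (fun s => s ^ (-(2 / 3) : ℝ) * ((1 + s) ^ 2)⁻¹ * (C * B)) (Eventually.of_forall fun t => ?_)
    ?_ ((link_int (by norm_num) (by norm_num)).mul_const _) ?_
  · have := r1_meas_S (γ := γ) hf
    exact Measurable.aestronglyMeasurable (by fun_prop)
  · filter_upwards [self_mem_nhdsWithin] with t ht
    filter_upwards [ae_restrict_mem measurableSet_Ioi] with s hs
    have hs' : (0 : ℝ) < s := hs
    have ht' : (0 : ℝ) < t := ht
    rw [norm_mul, norm_mul, norm_real, Real.norm_of_nonneg (by positivity)]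
    calc s ^ (-(2 / 3) : ℝ) * ‖g s‖ * ‖r1S γ f (t / s)‖
        ≤ s ^ (-(2 / 3) : ℝ) * (C * ((1 + s) ^ 2)⁻¹) * B := by
          gcongr
          · exact hg' s hs'
          · exact hB _ (by positivity)
      _ = _ := by ring
  · filter_upwards [ae_restrict_mem measurableSet_Ioi] with s hs
    have hs' : (0 : ℝ) < s := hs
    refine Tendsto.const_mul _ (hR.comp ?_)
    refine tendsto_nhdsWithin_of_tendsto_nhds_of_eventually_within _ ?_ ?_
    · have : Tendsto (fun t : ℝ => t / s) (𝓝 0) (𝓝 (0 / s)) := tendsto_id.div_const s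
      rw [zero_div] at this
      exact this.mono_left nhdsWithin_le_nhds
    · filter_upwards [self_mem_nhdsWithin] with t ht
      exact div_pos ht hs'

/-- r1_conv of P026.Res1A for test functions with ‖f y‖ ≤ C (1 + y) ^ (-2) (copy r1_crude, r1_bdd,
r1_conv_eq, r1_conv_lim with this decay). -/
theorem conv_poly {γ : Eis → ℂ} (h0 : γ 0 = 0) (hγ : ∀ c, ‖γ c‖ ≤ 81) {f g : ℝ → ℂ}
    (hf : Measurable f) (hg : Measurable g) {C : ℝ}
    (hf' : ∀ y, 0 < y → ‖f y‖ ≤ C * ((1 + y) ^ 2)⁻¹) (hg' : ∀ y, 0 < y → ‖g y‖ ≤ C * ((1 + y) ^ 2)⁻¹)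
    {R R' : ℂ} (hR : Tendsto (r1S γ f) (𝓝[>] 0) (𝓝 R)) (hR' : Tendsto (r1S γ g) (𝓝[>] 0) (𝓝 R')) :
    r1M g * R = r1M f * R' := by
  have hC : 0 ≤ C := nonneg_of_mul_nonneg_left ((norm_nonneg _).trans (hf' 1 one_pos))
    (by norm_num)
  refine tendsto_nhds_unique (link_conv_lim h0 hγ hf hg hC hf' hg' hR)
    ((link_conv_lim h0 hγ hg hf hC hg' hf' hR').congr' ?_)
  filter_upwards [self_mem_nhdsWithin] with t ht
  rw [link_conv_eq h0 hγ hf hg hC hf' hg' ht, link_conv_eq h0 hγ hg hf hC hg' hf' ht]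
  congr 1
  refine tsum_congr fun c => ?_
  by_cases hc : c = 0
  · simp [hc, h0]
  · rw [r1_symm f g (mul_pos ht (N_pos hc))]

theorem link_Ph {a : Eis → ℂ} (n : ℕ) {s : ℝ} (hn : 2 * s = n + 1)
    (hs : Summable fun r => ‖a r‖ * N r ^ (-s)) :
    ∃ C : ℝ, 0 ≤ C ∧ ∀ v : ℝ, 0 < v → ‖Ph a v‖ ≤ C / v ^ n := by
  obtain ⟨C, hC, h⟩ := kap_le n
  have h0 : ∀ r, 0 ≤ ‖a r‖ * N r ^ (-s) := fun r =>
    mul_nonneg (norm_nonneg _) (Real.rpow_nonneg (N_nonneg r) _)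
  refine ⟨C * ∑' r, ‖a r‖ * N r ^ (-s), mul_nonneg hC.le (tsum_nonneg h0), fun v hv => ?_⟩
  rw [mul_div_right_comm]
  refine tsum_of_norm_bounded (hs.hasSum.mul_left (C / v ^ n)) fun r => ?_
  by_cases hr : r = 0
  · have : ab r = 0 := by simp [hr, ab, N, nrm]
    rw [this, ofReal_zero, div_zero, zero_mul, norm_zero]
    exact mul_nonneg (by positivity) (h0 r)
  have h1 := ab_pos hr
  have e : N r ^ (-s) = (ab r ^ (n + 1))⁻¹ := by
    rw [← ab_sq, ← Real.rpow_natCast, ← Real.rpow_mul h1.le, ← Real.rpow_natCast,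
      ← Real.rpow_neg h1.le]
    congr 1
    push_cast
    linarith
  rw [norm_mul, norm_div, Complex.norm_of_nonneg h1.le,
    Complex.norm_of_nonneg (kap_nonneg (by positivity)), e]
  refine (mul_le_mul_of_nonneg_left (h _ (by positivity)) (by positivity)).trans (le_of_eq ?_)
  field_simp
  ring

theorem link_G_ab (e : Eis) : ‖conj (G e)‖ ≤ 1 * ab e := by
  by_cases h : PS e
  · rw [Complex.norm_conj, norm_G h, one_mul]
    exact one_le_ab h.ne_zero
  · simp [G_of_not h, ab_nonneg]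

theorem link_th {u : ℝ} (hu : 0 < u) : HasSum (fun m : Eis => if Prim m then
    Ph (fun e => conj (G e)) (u * ab m ^ 3) / (N m : ℂ) else 0) (Ph th u) := by
  have h1 := (hasSum_cube_iff (F := fun n => th n / (ab n : ℂ) * (kap (ab n * u) : ℂ))
    fun n hn => th_ne_zero fun h => hn (by simp [h])).2
    (summable_Ph (C := 1) (fun r => by simpa using norm_th_le_ab r) hu).hasSum
  refine ((Equiv.prodComm Eis Eis).hasSum_iff.2 h1).prod_fiberwise fun m => ?_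
  by_cases hm : Prim m
  swap
  · simp [hm]
  have h2 := ab_pos hm.ne_zero
  rw [if_pos hm]
  refine link_congr ((summable_Ph link_G_ab (v := u * ab m ^ 3)
    (by positivity)).hasSum.div_const (N m : ℂ)) fun e => ?_
  by_cases he : PS e
  · have h3 : (ab e : ℂ) ≠ 0 := ofReal_ne_zero.2 (ab_pos he.ne_zero).ne'
    have h4 : (ab m : ℂ) ≠ 0 := ofReal_ne_zero.2 h2.ne'
    simp only [Function.comp, Equiv.prodComm_apply, Prod.swap, he, hm, and_self, if_true,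
      th_eq he hm, ab_mul, ab_pow, ← ab_sq m, mul_right_comm (ab e), mul_assoc (ab e)]
    push_cast
    field_simp
  · simp [he, G_of_not he]

theorem link_inv {v : ℝ} (hv : 0 < v) : HasSum
    (fun d : Eis => mu d / (N d : ℂ) * Ph th (v * ab d ^ 3)) (Ph (fun e => conj (G e)) v) := by
  obtain ⟨C, hC, h⟩ := link_Ph (a := fun e => conj (G e)) 3 (s := 2) (by norm_num)
    (Summable.of_nonneg_of_le (fun r => mul_nonneg (norm_nonneg _) (Real.rpow_nonneg (N_nonneg r) _))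
      (fun r => mul_le_of_le_one_left (Real.rpow_nonneg (N_nonneg r) _)
        (by rw [Complex.norm_conj]; exact norm_G_le r)) (summable_N_rpow (by norm_num)))
  have h1 := hasSum_moebius (g := fun n => if Prim n then
    Ph (fun e => conj (G e)) (v * ab n ^ 3) / (N n : ℂ) else 0) (C := C / v ^ 3)
    (fun n hn => if_neg hn) fun n => by
      split_ifs with hn
      · have h2 := one_le_ab hn.ne_zero
        have h3 := N_pos hn.ne_zero
        rw [norm_div, Complex.norm_of_nonneg h3.le, Real.rpow_neg h3.le, Real.rpow_two]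
        calc _ ≤ C / (v * ab n ^ 3) ^ 3 / N n := by gcongr; exact h _ (by positivity)
          _ = C / v ^ 3 / (ab n ^ 9 * N n) := by field_simp
          _ ≤ C / v ^ 3 / (ab n ^ 2 * N n) := by gcongr; norm_num
          _ = _ := by rw [ab_sq]; ring
      · rw [norm_zero]
        exact mul_nonneg (by positivity) (Real.rpow_nonneg (N_nonneg n) _)
  have a1 : ab 1 = 1 := by norm_num [ab, N, nrm]
  simp only [Prim.one, if_true, a1, one_pow, mul_one, show N 1 = 1 by norm_num [N, nrm],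
    ofReal_one, div_one] at h1
  refine h1.prod_fiberwise fun d => ?_
  by_cases hd : PS d
  swap
  · simp [not_not.1 (mt mu_ne_zero.1 hd)]
  have h2 := ab_pos hd.ne_zero
  refine link_congr ((link_th (u := v * ab d ^ 3) (by positivity)).mul_left
    (mu d / (N d : ℂ))) fun m => ?_
  dsimp only
  by_cases hm : Prim m
  · rw [if_pos hm, if_pos (hd.1.mul hm), N_mul, ab_mul, mul_pow, mul_assoc v]
    push_cast
    ring
  · rw [if_neg hm, if_neg fun h => hm (hd.1.of_mul h), mul_zero, mul_zero]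

theorem link_V {c : ℂ} (h : TP c) :
    Tendsto (fun v : ℝ => ((v ^ (2 / 3 : ℝ) : ℝ) : ℂ) * Ph th v) (𝓝[>] 0)
      (𝓝 (c * ((c0 ^ (-(1 / 3) : ℝ) * Real.Gamma (2 / 3) : ℝ) : ℂ))) ∧
    ∃ B : ℝ, ∀ v : ℝ, 0 < v → ‖((v ^ (2 / 3 : ℝ) : ℝ) : ℂ) * Ph th v‖ ≤ B := by
  obtain ⟨y, -, -, h3, h4⟩ := h
  obtain ⟨_, -, h5⟩ := h3 (1 / 2) (by norm_num)
  obtain ⟨C, hC, h6⟩ := link_Ph (a := y 1) 2 (by norm_num) (h5 1 PS.one).1
  obtain ⟨D, hD, h7⟩ := link_Ph (a := th) 4 (s := 5 / 2) (by norm_num)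
    (Summable.of_nonneg_of_le (fun r => mul_nonneg (norm_nonneg _) (Real.rpow_nonneg (N_nonneg r) _))
      (fun r => (mul_le_mul_of_nonneg_right (norm_th_le r) (Real.rpow_nonneg (N_nonneg r) _)).trans
        (le_of_eq (by rw [← Real.rpow_add' (N_nonneg r) (by norm_num)]; norm_num)))
      (summable_N_rpow (s := 7 / 3) (by norm_num)))
  set m := c * ((c0 ^ (-(1 / 3) : ℝ) * Real.Gamma (2 / 3) : ℝ) : ℂ) with hm
  have h8 : ∀ v : ℝ, 0 < v → v ≤ 1 → ‖((v ^ (2 / 3 : ℝ) : ℝ) : ℂ) * Ph th v - m‖ ≤ C * v ^ 2 := by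
    intro v hv hv1
    have h9 := h4 1 PS.one v hv
    simp only [cub_one_right, mul_one, mainC, phi_one, G_one, show N 1 = 1 by norm_num [N, nrm],
      Real.one_rpow, ← hm] at h9
    have e : ((v ^ (2 / 3 : ℝ) : ℝ) : ℂ) * ((v ^ (-(2 / 3) : ℝ) : ℝ) : ℂ) = 1 := by
      rw [← ofReal_mul, ← Real.rpow_add hv]
      norm_num
    have e2 : ((v ^ (2 / 3 : ℝ) : ℝ) : ℂ) * Ph th v - m
        = ((v ^ (2 / 3 : ℝ) : ℝ) : ℂ) * Ph (y 1) (1 / (1 / 3 * v)) := by
      rw [h9]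
      linear_combination m * e
    rw [e2, norm_mul, Complex.norm_of_nonneg (by positivity)]
    calc _ ≤ 1 * (C / (1 / (1 / 3 * v)) ^ 2) := by
          gcongr
          · exact Real.rpow_le_one hv.le hv1 (by norm_num)
          · exact h6 _ (by positivity)
      _ = C * v ^ 2 / 9 := by field_simp; norm_num
      _ ≤ _ := div_le_self (by positivity) (by norm_num)
  refine ⟨tendsto_iff_norm_sub_tendsto_zero.2 (squeeze_zero' (Eventually.of_forall fun _ =>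
    norm_nonneg _) (g := fun v => C * v ^ 2) ?_ ?_), ‖m‖ + C + D, fun v hv => ?_⟩
  · filter_upwards [Ioc_mem_nhdsGT one_pos] with v hv using h8 v hv.1 hv.2
  · have : Tendsto (fun v : ℝ => C * v ^ 2) (𝓝 0) (𝓝 (C * 0 ^ 2)) :=
      (by fun_prop : Continuous fun v : ℝ => C * v ^ 2).tendsto 0
    simpa using this.mono_left nhdsWithin_le_nhds
  · rcases le_total v 1 with h1 | h1
    · have := mul_le_of_le_one_right hC (pow_le_one₀ hv.le h1 (n := 2))
      linarith [h8 v hv h1, norm_sub_norm_le (((v ^ (2 / 3 : ℝ) : ℝ) : ℂ) * Ph th v) m]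
    · rw [norm_mul, Complex.norm_of_nonneg (by positivity)]
      calc _ ≤ v ^ 4 * (D / v ^ 4) := by
            gcongr
            · rw [← Real.rpow_natCast]
              exact Real.rpow_le_rpow_of_exponent_le h1 (by norm_num)
            · exact h7 v hv
        _ = D := by field_simp
        _ ≤ _ := le_add_of_nonneg_left (by positivity)

/-- From TP c with b = 1: v ^ (2/3) Ph th v is bounded on v > 0 and tends to c c0 ^ (-1/3) Gamma (2/3).
Moebius inversion: ∑ conj (G e) / ab e kap (ab e v) = ∑ mu d / N d * Ph th (v ab d ^ 3); as_tann and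
hasSum_mu_sq. -/
theorem lim_G {c : ℂ} (h : TP c) : Tendsto (fun v : ℝ => ((v ^ (2 / 3 : ℝ) : ℝ) : ℂ) *
    Ph (fun e => conj (G e)) v) (𝓝[>] 0)
    (𝓝 (c * ((c0 ^ (-(1 / 3) : ℝ) * Real.Gamma (2 / 3) / zP : ℝ) : ℂ))) := by
  obtain ⟨h1, h2⟩ := link_V h
  have h3 := (as_tann (b := fun d => ab d ^ 3) hasSum_mu_sq.summable.norm (fun d hd => by
    have := ab_pos (mu_ne_zero.1 (left_ne_zero_of_mul hd)).ne_zero
    positivity) h1 h2).1
  rw [hasSum_mu_sq.tsum_eq] at h3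
  convert h3.congr' ?_ using 2
  · push_cast
    ring
  filter_upwards [self_mem_nhdsWithin] with v (hv : 0 < v)
  rw [← (link_inv hv).tsum_eq, ← tsum_mul_left]
  refine tsum_congr fun d => ?_
  by_cases hd : PS d
  · have h4 := ab_pos hd.ne_zero
    have h5 : (N d : ℂ) ≠ 0 := ofReal_ne_zero.2 (N_pos hd.ne_zero).ne'
    rw [Real.mul_rpow hv.le (by positivity), ← Real.rpow_natCast, ← Real.rpow_mul h4.le,
      show ((3 : ℕ) : ℝ) * (2 / 3) = 2 by norm_num, Real.rpow_two, ab_sq, Real.rpow_natCast]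
    push_cast
    field_simp
  · simp [not_not.1 (mt mu_ne_zero.1 hd)]

theorem link_real (v : ℝ) : Ph G v = Ph (fun e => conj (G e)) v ∧
    conj (Ph G v) = Ph (fun e => conj (G e)) v := by
  constructor
  · rw [Ph, Ph, ← (⟨cj, cj, cj_cj, cj_cj⟩ : Eis ≃ Eis).tsum_eq]
    simp only [Equiv.coe_fn_mk, G_cj, gp_ab_cj]
  · simp only [Ph, Complex.conj_tsum, map_mul, map_div₀, Complex.conj_ofReal]

theorem link_rho : 0 < c0 ^ (-(1 / 3) : ℝ) * Real.Gamma (2 / 3) := by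
  have := c0_pos
  positivity

/-- The substitution e ↦ cj e (G_cj) shows that the series in lim_G is real. -/
theorem tp_real {c : ℂ} (h : TP c) : conj c = c := by
  have h1 := lim_G h
  have h2 := (Complex.continuous_conj.tendsto _).comp h1
  have h3 := tendsto_nhds_unique (h2.congr fun v => ?_) h1
  · rw [map_mul, Complex.conj_ofReal] at h3
    exact mul_right_cancel₀ (ofReal_ne_zero.2 (div_pos link_rho (by linarith [one_le_zP])).ne') h3
  · simp only [Function.comp, map_mul, Complex.conj_ofReal]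
    rw [← (link_real v).1, (link_real v).2, (link_real v).1]

theorem link_dec {f : ℝ → ℂ} {A B C : ℝ} (h0 : ∀ y, 0 < y → ‖f y‖ ≤ A / y ^ 0)
    (h2 : ∀ y, 0 < y → ‖f y‖ ≤ B / y ^ 2) (hC : 2 * A + 2 * B ≤ C) (y : ℝ) (hy : 0 < y) :
    ‖f y‖ ≤ C * ((1 + y) ^ 2)⁻¹ := by
  have h3 := h0 y hy
  have h4 := h2 y hy
  rw [pow_zero, div_one] at h3
  rw [le_div_iff₀ (by positivity)] at h4
  rw [← div_eq_mul_inv, le_div_iff₀ (by positivity)]
  nlinarith [mul_nonneg (norm_nonneg (f y)) (sq_nonneg (1 - y))]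

theorem link_M : r1M (fun y => (kap √y : ℂ)) =
    ((c0 ^ (-(4 / 3) : ℝ) * Real.Gamma (2 / 3) : ℝ) : ℂ) := by
  have h := (mellin_kap (u := 1 / 3) (by norm_num)).2
  have e : ((c0 ^ (-(4 / 3) : ℝ) * Real.Gamma (2 / 3) : ℝ) : ℂ) = 2 * ((c0 : ℂ) ^ (-(2 * (1 / 3))
      - 2 / 3 : ℂ) / 2 * Gamma (1 / 3 + 1 / 3) * Gamma (1 / 3 + 2 / 3)) := by
    rw [ofReal_mul, ofReal_cpow c0_pos.le, ← Complex.Gamma_ofReal]
    norm_num
    ring
  rw [e, ← h, mellin, ← integral_const_mul, r1M, ← integral_comp_rpow_Ioi _ two_ne_zero]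
  refine setIntegral_congr_fun measurableSet_Ioi fun x (hx : 0 < x) => ?_
  have e1 : (x : ℂ) ^ (2 * (1 / 3) - 1 : ℂ) = ((x ^ (2 - 1 : ℝ) * (x ^ (2 : ℝ)) ^ (-(2 / 3) : ℝ) : ℝ) : ℂ) := by
    rw [← Real.rpow_mul hx.le, ← Real.rpow_add hx, ofReal_cpow hx.le]
    norm_num
  simp only [e1, Real.rpow_two, Real.sqrt_sq hx.le, real_smul, smul_eq_mul, abs_two]
  push_cast
  ring

/-- conv_poly for γ c = gK (kapS 0 1) 3 c / N c = 9 G c / ab c, f = phi0 (TH.lim, r1T_phi),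
g y = kap √y (t = v ^ 2), r1M g = 2 melG (1/3) = c0 ^ (-4/3) Gamma (2/3). This gives
tau 0 1 3 Gamma (4/3) = 3 ^ (1/3) sg0 conj c, and with the defining relation of c and cs_sq, c ^ 2 = cs ^ 2. -/
theorem link {θ : HF → ℂ} {tau : Eis → Eis → Eis → ℂ} (h : TH θ tau) : ∃ c : ℝ, c ^ 2 = cs ^ 2 ∧
    TP c ∧ tau 0 1 3 = ((3 ^ (1 / 3 : ℝ) * sg0 * c / Real.Gamma (4 / 3) : ℝ) : ℂ) := by
  have ht := tau_three_ne h
  have hρ := link_rho
  have hc := c0_pos
  have hz : 0 < zP := by linarith [one_le_zP]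
  have hp := Real.pi_pos
  set ρ := c0 ^ (-(1 / 3) : ℝ) * Real.Gamma (2 / 3) with hρd
  have hρ' : (ρ : ℂ) ≠ 0 := ofReal_ne_zero.2 hρ.ne'
  obtain ⟨c', e1⟩ : ∃ c' : ℂ, c' * tau 0 1 3 * ρ = ((3 ^ (2 / 3 : ℝ) * sg0 : ℝ) : ℂ) :=
    ⟨((3 ^ (2 / 3 : ℝ) * sg0 : ℝ) : ℂ) / (tau 0 1 3 * ρ), by field_simp⟩
  have hT := tp_of h e1
  obtain ⟨c, rfl⟩ := Complex.conj_eq_iff_real.1 (tp_real hT)
  have hγ : ∀ e, gK (kapS 0 1) 3 e / (N e : ℂ) = 9 * (G e / (ab e : ℂ)) := fun e => by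
    rw [gK_inf_three, ← ab_sq]
    by_cases h0 : (ab e : ℂ) = 0
    · simp [h0]
    · push_cast
      field_simp
  have hs : Tendsto (fun t : ℝ => √t) (𝓝[>] 0) (𝓝[>] 0) :=
    tendsto_nhdsWithin_of_tendsto_nhds_of_eventually_within _
      (by simpa using (Real.continuous_sqrt.tendsto 0).mono_left nhdsWithin_le_nhds)
      (eventually_nhdsWithin_of_forall fun t ht => Real.sqrt_pos.2 ht)
  have h1 : Tendsto (r1S (fun e => gK (kapS 0 1) 3 e / (N e : ℂ)) fun y => (kap √y : ℂ)) (𝓝[>] 0)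
      (𝓝 (9 * ((c : ℂ) * ((ρ / zP : ℝ) : ℂ)))) := by
    refine (((lim_G hT).comp hs).const_mul 9).congr' (eventually_nhdsWithin_of_forall
      fun t (ht : 0 < t) => ?_)
    have e : √t ^ (2 / 3 : ℝ) = t ^ (1 / 3 : ℝ) := by
      rw [Real.sqrt_eq_rpow, ← Real.rpow_mul ht.le]
      norm_num
    rw [Function.comp, ← (link_real _).1]
    simp only [e, r1S, hγ, Ph, mul_assoc, tsum_mul_left, Real.sqrt_mul ht.le, ab, mul_comm √t]
    ring
  obtain ⟨A, hA, hA'⟩ := norm_phi0_le 0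
  obtain ⟨B, hB, hB'⟩ := norm_phi0_le 2
  obtain ⟨A', hA2, hA3⟩ := kap_le 0
  obtain ⟨B', hB2, hB3⟩ := kap_le 4
  have h2 := conv_poly (γ := fun e => gK (kapS 0 1) 3 e / (N e : ℂ)) (by simp [N, nrm])
    (r1_gam (adm_kapS 0 1) 3) (r1T_phi (a := 1) one_pos one_le_two subset_rfl).meas
    (g := fun y => (kap √y : ℂ)) (continuous_ofReal.comp (continuous_kap.comp
      Real.continuous_sqrt)).measurable (C := 2 * A + 2 * B + (2 * A' + 2 * B'))
    (link_dec hA' hB' (by linarith)) (link_dec (A := A') (B := B') (fun y hy => by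
      rw [Complex.norm_of_nonneg (kap_nonneg (Real.sqrt_nonneg _))]
      simpa using hA3 _ (Real.sqrt_pos.2 hy)) (fun y hy => by
      rw [Complex.norm_of_nonneg (kap_nonneg (Real.sqrt_nonneg _)), ← Real.sq_sqrt hy.le,
        Real.sqrt_sq (Real.sqrt_nonneg _), ← pow_mul]
      exact hB3 _ (Real.sqrt_pos.2 hy)) (by linarith)) (h.lim 0 1 3 (by decide)) h1
  obtain ⟨M, hM, hM'⟩ := M0_pos
  have hV : 0 < V9 := by unfold V9; positivity
  have a3 : ab 3 = 3 := by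
    rw [ab, Real.sqrt_eq_iff_mul_self_eq (N_nonneg _)] <;> norm_num [N, nrm]
  have hG : 0 < Real.Gamma (4 / 3) := by positivity
  have e3 : c0 ^ (-(1 / 3) : ℝ) = c0 * c0 ^ (-(4 / 3) : ℝ) := by
    rw [← Real.rpow_one_add' hc.le (by norm_num)]
    norm_num
  have e4 : (3 : ℝ) ^ (-(1 / 3) : ℝ) = (3 ^ (1 / 3 : ℝ))⁻¹ := Real.rpow_neg (by norm_num) _
  have e2 : tau 0 1 3 = ((3 ^ (1 / 3 : ℝ) * sg0 * c / Real.Gamma (4 / 3) : ℝ) : ℂ) := by
    rw [link_M, show r1M (r1phi 1 (r1B 1 2)) = M0 from rfl, hM', a3] at h2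
    have h3 : ((c0 ^ (-(4 / 3) : ℝ) * Real.Gamma (2 / 3) * (V9 * 3 ^ (-(1 / 3) : ℝ) / Real.pi) * M
        : ℝ) : ℂ) ≠ 0 := ofReal_ne_zero.2 (by positivity)
    refine mul_left_cancel₀ h3 ?_
    have h4 : c0 ^ (-(4 / 3) : ℝ) * Real.Gamma (2 / 3) * (V9 * 3 ^ (-(1 / 3) : ℝ) / Real.pi) * M
        * (3 ^ (1 / 3 : ℝ) * sg0 * c / Real.Gamma (4 / 3)) = M * (9 * (c * (ρ / zP))) := by
      rw [hρd, e3, e4, sg0, Z0]
      field_simp
    rw [← ofReal_mul, h4]
    push_cast at h2 ⊢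
    linear_combination h2
  refine ⟨c, ?_, hT, e2⟩
  rw [e2, ← ofReal_mul, ← ofReal_mul, ofReal_inj] at e1
  have e5 := cs_sq
  have e6 : (3 : ℝ) ^ (2 / 3 : ℝ) = 3 ^ (1 / 3 : ℝ) * 3 ^ (1 / 3 : ℝ) := by
    rw [← Real.rpow_add (by norm_num)]
    norm_num
  have e7 : (3 : ℝ) ^ (-(4 / 3) : ℝ) = (3 * 3 ^ (1 / 3 : ℝ))⁻¹ := by
    rw [← Real.rpow_one_add' (by norm_num) (by norm_num), ← Real.rpow_neg (by norm_num)]
    norm_num
  rw [Real.mul_rpow (by norm_num) hc.le, e7] at e5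
  rw [e6, hρd, e3] at e1
  have hs0 := sg0_pos
  have h3 : (0 : ℝ) < 3 ^ (1 / 3 : ℝ) := by positivity
  field_simp at e1 e5
  refine mul_right_cancel₀ (b := c0 * c0 ^ (-(4 / 3) : ℝ) * Real.Gamma (2 / 3)) (by positivity) ?_
  linarith

end Vale.Agent.P006
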