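import Vale.Agent.P006.Box

/-! Auxiliary estimates for the boxes at low height. -/

namespace Vale.Agent.P006

open Vale.Agent.P026 Eis Complex MeasureTheory Filter Topology
open scoped Classical ComplexConjugate

theorem lb_ev (M : ℝ) : ∀ᶠ X : ℝ in atTop, 2 ≤ X ∧ 1 ≤ Real.log X ∧
    M ≤ Real.log (Real.log X) ∧ M * Real.log (Real.log X) ≤ Real.log X := by
  have h1 : ∀ᶠ L : ℝ in atTop, M * Real.log L ≤ L := by
    have := Real.isLittleO_log_id_atTop.bound (c := (|M| + 1)⁻¹) (by positivity)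
    filter_upwards [this, eventually_ge_atTop 1] with L h hL
    have h0 := Real.log_nonneg hL
    rw [Real.norm_of_nonneg h0, id, Real.norm_of_nonneg (by linarith), inv_mul_eq_div,
      le_div_iff₀ (by positivity)] at h
    nlinarith [le_abs_self M]
  filter_upwards [eventually_ge_atTop 2, Real.tendsto_log_atTop.eventually_ge_atTop 1,
    (Real.tendsto_log_atTop.comp Real.tendsto_log_atTop).eventually_ge_atTop M,
    Real.tendsto_log_atTop.eventually h1] with X a b c d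
  exact ⟨a, b, c, d⟩

theorem lb_evC (C : ℝ) {ε : ℝ} (hε : 0 < ε) :
    ∀ᶠ X : ℝ in atTop, C ≤ Real.exp (ε * Real.log (Real.log X)) := by
  filter_upwards [lb_ev (C / ε)] with X h
  have h1 := h.2.2.1
  rw [div_le_iff₀ hε] at h1
  linarith [Real.add_one_le_exp (ε * Real.log (Real.log X))]

theorem lb_lz {X : ℝ} (h0 : 0 < Real.log X) (h : 0 < Real.log (Real.log X)) :
    Real.exp (39 / 40 * Real.log (Real.log X)) ≤ Real.log (zz X) := by
  rw [log_zz, le_div_iff₀ h]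
  have e := Real.exp_log h0
  generalize Real.log (Real.log X) = l at *
  have h1 := Real.add_one_le_exp (l / 80)
  have h2 : Real.exp l = Real.exp (39 / 40 * l) * (Real.exp (l / 80) * Real.exp (l / 80)) := by
    rw [← Real.exp_add, ← Real.exp_add]
    ring_nf
  have h3 : l ≤ 20 * (Real.exp (l / 80) * Real.exp (l / 80)) := by
    nlinarith [sq_nonneg (l / 80 - 1), mul_self_le_mul_self (by linarith) h1]
  rw [← e, h2]
  nlinarith [Real.exp_pos (39 / 40 * l)]

theorem lb_lz1 {X : ℝ} (h0 : 0 < Real.log X) (h : 0 < Real.log (Real.log X)) :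
    1 ≤ Real.log (zz X) := (Real.one_le_exp (by linarith)).trans (lb_lz h0 h)

theorem lb_kap {X s : ℝ} (h0 : 0 < Real.log X) (h : 0 < Real.log (Real.log X))
    (hs : s ≤ Real.log X) :
    s * (5 * Real.log 2 / Real.log (zz X)) ≤ 7 / 40 * Real.log (Real.log X) := by
  have h1 := lb_lz1 h0 h
  have h2 := Real.log_two_gt_d9
  have h3 := Real.log_two_lt_d9
  refine (mul_le_mul_of_nonneg_right hs (by positivity)).trans ?_
  rw [log_zz]
  have e : Real.log X * (5 * Real.log 2 / (20 * Real.log X / Real.log (Real.log X))) =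
      Real.log 2 / 4 * Real.log (Real.log X) := by
    field_simp
    ring
  rw [e]
  exact mul_le_mul_of_nonneg_right (by linarith) h.le

/-- The gain of one variable. -/
noncomputable def lbE (X r : ℝ) : ℝ :=
  Real.exp (10 * min r 0) * if Real.log X / 7 ≤ r then (Real.log (zz X))⁻¹ else 1

theorem lb_prod : ∃ C : ℝ, 0 < C ∧ ∀ᶠ X : ℝ in atTop, ∀ (ty : Fin 6 → Fin 3) (ρ : Fin 6 → ℝ)
    (I : Finset (Fin 6)), ∑ i ∈ I, ρ i ≤ Real.log X → ∏ i ∈ I, nv X (zz X) (ty i) (ρ i) ≤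
      C * Real.exp (∑ i ∈ I, ρ i + 7 / 40 * Real.log (Real.log X)) * ∏ i ∈ I, lbE X (ρ i) := by
  obtain ⟨C, hC, h⟩ := nv_rough
  refine ⟨(C + 1) ^ 6, by positivity, ?_⟩
  filter_upwards [h, lb_ev 1] with X h ⟨_, h1, h2, _⟩ ty ρ I hI
  have hz := lb_lz1 (X := X) (by linarith) (by linarith)
  have hE : ∀ r, 0 ≤ lbE X r := fun r => by
    unfold lbE
    split_ifs <;> positivity
  have k : ∀ i ∈ I, nv X (zz X) (ty i) (ρ i) ≤
      (C + 1) * Real.exp (ρ i * (1 + 5 * Real.log 2 / Real.log (zz X))) * lbE X (ρ i) := by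
    intro i _
    refine (h (ty i) (ρ i)).trans ?_
    have e : (if ρ i ≤ 0 then Real.exp (10 * ρ i) else
        if Real.log X / 7 ≤ ρ i then (Real.log (zz X))⁻¹ else 1) = lbE X (ρ i) := by
      unfold lbE
      by_cases h0 : ρ i ≤ 0
      · rw [if_pos h0, min_eq_left h0, if_neg (by linarith), mul_one]
      · rw [if_neg h0, min_eq_right (by linarith), mul_zero, Real.exp_zero, one_mul]
    rw [e]
    have := hE (ρ i)
    gcongr
    linarith
  refine (Finset.prod_le_prod (fun i _ => nv_nonneg _ _ _ _) k).trans ?_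
  rw [Finset.prod_mul_distrib, Finset.prod_mul_distrib, Finset.prod_const, ← Real.exp_sum,
    ← Finset.sum_mul]
  have h3 := lb_kap (X := X) (by linarith) (by linarith) hI
  have h4 : I.card ≤ 6 := (Finset.card_le_univ I).trans (by simp)
  have h5 : 0 ≤ ∏ i ∈ I, lbE X (ρ i) := Finset.prod_nonneg fun i _ => hE _
  gcongr
  · linarith
  · linarith

theorem lb_E_le {X : ℝ} (hz : 1 ≤ Real.log (zz X)) (r : ℝ) : 0 ≤ lbE X r ∧ lbE X r ≤ 1 := by
  unfold lbE
  have h1 : Real.exp (10 * min r 0) ≤ 1 := Real.exp_le_one_iff.2 (by linarith [min_le_right r 0])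
  have h2 : (Real.log (zz X))⁻¹ ≤ 1 := inv_le_one_of_one_le₀ hz
  split_ifs
  · exact ⟨by positivity, mul_le_one₀ h1 (by positivity) h2⟩
  · exact ⟨by positivity, by linarith⟩

theorem lb_E_prod {X : ℝ} (hz : 1 ≤ Real.log (zz X)) (ρ : Fin 6 → ℝ) (j : Fin 6) :
    ∏ i, lbE X (ρ i) ≤ Real.exp (10 * min (ρ j) 0) /
      Real.log (zz X) ^ (Finset.univ.filter (fun i => Real.log X / 7 ≤ ρ i)).card := by
  unfold lbE
  rw [Finset.prod_mul_distrib, ← Finset.prod_filter, Finset.prod_const, inv_pow, ← div_eq_mul_inv,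
    ← Real.exp_sum]
  gcongr
  rw [← Finset.add_sum_erase _ _ (Finset.mem_univ j)]
  have : ∑ i ∈ Finset.univ.erase j, 10 * min (ρ i) 0 ≤ 0 :=
    Finset.sum_nonpos fun i _ => by linarith [min_le_right (ρ i) 0]
  linarith

/-- One weighted norm. -/
theorem lb_nw : ∀ᶠ X : ℝ in atTop, ∀ (ty : Fin 6 → Fin 3) (ρ : Fin 6 → ℝ)
    (t : ℝ) (I : Finset (Fin 6)), ∑ i ∈ I, ρ i ≤ Real.log X →
      √(nw (fI X (zz X) ty ρ t I).coeff.support (fI X (zz X) ty ρ t I).coeff
          (Real.exp (∑ i ∈ I, ρ i))) ≤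
        Real.exp ((∑ i ∈ I, ρ i) / 2 + Real.log (Real.log X) / 2) := by
  obtain ⟨C, hC, h⟩ := lb_prod
  filter_upwards [h, lb_ev 1, lb_evC (2 * C) (ε := 1 / 2) (by norm_num)]
    with X h ⟨_, h1, h2, _⟩ h3 ty ρ t I hI
  have hz := lb_lz1 (X := X) (by linarith) (by linarith)
  have h4 : ∏ i ∈ I, lbE X (ρ i) ≤ 1 :=
    Finset.prod_le_one (fun i _ => (lb_E_le hz _).1) fun i _ => (lb_E_le hz _).2
  refine Real.sqrt_le_iff.2 ⟨(Real.exp_pos _).le, (np X _ ty ρ t I).trans ?_⟩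
  calc 2 * ∏ i ∈ I, nv X (zz X) (ty i) (ρ i)
      ≤ 2 * (C * Real.exp (∑ i ∈ I, ρ i + 7 / 40 * Real.log (Real.log X)) * 1) := by
        refine mul_le_mul_of_nonneg_left ((h ty ρ I hI).trans ?_) (by norm_num)
        gcongr
    _ = 2 * C * Real.exp (∑ i ∈ I, ρ i + 7 / 40 * Real.log (Real.log X)) := by ring
    _ ≤ Real.exp (1 / 2 * Real.log (Real.log X)) *
          Real.exp (∑ i ∈ I, ρ i + 7 / 40 * Real.log (Real.log X)) := by gcongr
    _ ≤ _ := by
        rw [← Real.exp_add, ← Real.exp_nat_mul]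
        exact Real.exp_le_exp.2 (by push_cast; linarith)

theorem lb_ell {X : ℝ} (hX : 2 ≤ X) :
    ell (X ^ 12) ≤ 13 ^ (5 / 4 : ℝ) * Real.log X ^ (5 / 4 : ℝ) := by
  have h0 := Real.log_nonneg (show 1 ≤ X by linarith)
  have h1 : (2 : ℝ) ^ 12 ≤ X ^ 12 := pow_le_pow_left₀ (by norm_num) hX 12
  have h2 : 3 + X ^ 12 ≤ X ^ 13 := by nlinarith
  have h3 : Real.log (3 + X ^ 12) ≤ 13 * Real.log X := by
    have := Real.log_le_log (by positivity) h2
    rwa [Real.log_pow, Nat.cast_ofNat] at this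
  rw [← Real.mul_rpow (by norm_num) h0]
  exact Real.rpow_le_rpow (Real.log_nonneg (by nlinarith)) h3 (by norm_num)

theorem lb_split (X z : ℝ) (ty : Fin 6 → Fin 3) (ρ : Fin 6 → ℝ) (t : ℝ) (I : Finset (Fin 6)) :
    Box X z ty ρ t = Bil (fI X z ty ρ t I).coeff.support (fI X z ty ρ t Iᶜ).coeff.support
      (fI X z ty ρ t I).coeff (fI X z ty ρ t Iᶜ).coeff := by
  have := box_split X z ty ρ t 0 I
  rwa [add_zero, tw_zero, tw_zero] at this

theorem lb_sup {X : ℝ} (hX : 1 ≤ X) (z : ℝ) (ty : Fin 6 → Fin 3) (ρ : Fin 6 → ℝ) (t : ℝ)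
    (I : Finset (Fin 6)) : ∀ n ∈ (fI X z ty ρ t I).coeff.support, Ro z n ∧ N n ≤ X ^ 12 :=
  fun n hn => sup_fI hX z ty ρ t I n (Finsupp.mem_support_iff.1 hn)

end Vale.Agent.P006
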