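import Vale.Agent.P006.US
import Vale.Agent.P006.Pri
import Vale.Agent.P026.L2
import Vale.Agent.P026.Res2
import Vale.Agent.P026.Ptw
import Vale.Agent.P026.Boot
import Vale.Agent.P026.Fin1

/-! Moebius sums twisted by a cubic symbol. -/

namespace Vale.Agent.P006

open Vale.Agent.P026 Eis Complex MeasureTheory Filter Topology
open scoped Classical ComplexConjugate

theorem swa_hh : HH 72 (1 / 384) := by
  obtain ⟨θ, hθ⟩ := exists_isTheta
  obtain ⟨tau, h⟩ := exists_isCoef hθ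
  obtain ⟨T⟩ := theta_of_coef hθ h
  exact boot T (by decide) dvd_rfl (by norm_num)

theorem swa_zero {c : Eis} (h : ¬ P0 c) : mu0 c = 0 := not_not.1 (mt mu0_ne_zero.1 h)

theorem swa_decomp {k : Eis} (hk : k ≠ 0) (q : Eis) {Y : ℝ} (hY : 0 < Y) (t : ℝ) :
    ∑' c, mu0 c * cub q c * W Y t c =
      ∑ d ∈ divs k, mu0 d * cub q d * nit t d *
        ∑' c, mu0 c * cub q c * cop k c * W (Y / N d) t c := by
  have hs : ∀ d, Summable fun c =>
      (if d ∣ c ∧ IsCoprime (c / d) k then mu0 c else 0) * cub q c * W Y t c := fun d =>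
    f1_summable (fun c => by
      rw [norm_mul]
      refine mul_le_one₀ ?_ (norm_nonneg _) (norm_cub_le q c)
      split_ifs
      · exact norm_mu0_le c
      · simp) hY t
  rw [tsum_congr fun c => by rw [f1_split hk c, Finset.sum_mul, Finset.sum_mul],
    Summable.tsum_finsetSum fun d _ => hs d]
  refine Finset.sum_congr rfl fun d hd => ?_
  obtain ⟨a1, a2⟩ := (mem_divs hk).1 hd
  rw [← (mul_right_injective₀ a1.ne_zero).tsum_eq fun c hc => ?_, ← tsum_mul_left]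
  · refine tsum_congr fun c => ?_
    rw [mul_div_cancel_left₀ _ a1.ne_zero]
    by_cases h : IsCoprime c k
    · rcases eq_or_ne c 0 with rfl | h0
      · have : mu0 0 = 0 := swa_zero fun h => h.ne_zero rfl
        simp [this]
      · rw [if_pos ⟨Dvd.intro _ rfl, h⟩, mu0_mul a1, W_mul _ _ h0 a1.ne_zero, cop, cop, if_pos h,
          if_pos (h.of_isCoprime_of_dvd_right a2), cub_mul_right q a1.ne_zero h0]
        ring
    · simp [cop, h]
  · have : d ∣ c := by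
      by_contra h
      simp [h] at hc
    obtain ⟨e, rfl⟩ := this
    exact ⟨e, rfl⟩

theorem swa_chi (q k : Eis) {c : Eis} (hc : P1 c) :
    chi 2 (q ^ 2 * k ^ 6) c = cub q c * cop k c := by
  rw [chi_mul_left 2 _ _ hc, chi_sixth 2 k hc, chi, cub_pow_left _ hc.1.not_lam_dvd,
    quad_pow_left _ hc.2, ← pow_mul, cub_pow_four]
  by_cases h : IsCoprime q c
  · rw [quad_sq h, mul_one]
  · rw [(cub_eq_zero hc.ne_zero).2 h, zero_mul]

theorem swa_moment {q : Eis} (hq : q ≠ 0) (Y t : ℝ) {Z : ℝ} :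
    ∑ k ∈ (ball Z).filter P1, ‖∑' c, mu0 c * cub q c * cop k c * W Y t c‖ ^ 2 ≤
      AA (fun _ => 1) 1 Y (N q ^ 2 * Z ^ 6) t := by
  refine le_trans ?_ (le_QQ _ _ _)
  have e : ∀ k ∈ (ball Z).filter P1, ‖∑' c, mu0 c * cub q c * cop k c * W Y t c‖ ^ 2 =
      ‖∑' c, mu0 c * 1 * cop 1 c * W Y t c * chi 2 (q ^ 2 * k ^ 6) c‖ ^ 2 := fun k _ => by
    congr 2
    refine tsum_congr fun c => ?_
    by_cases hc : P0 c
    · rw [swa_chi q k hc.1, cop.eq_def 1, if_pos isCoprime_one_right]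
      ring
    · rw [swa_zero hc]
      simp
  rw [Finset.sum_congr rfl e, ← Finset.sum_image (g := fun k : Eis => q ^ 2 * k ^ 6)
    (f := fun h => ‖∑' c, mu0 c * 1 * cop 1 c * W Y t c * chi 2 h c‖ ^ 2) fun a ha b hb h =>
      f1_sixth (Finset.mem_filter.1 ha).2 (Finset.mem_filter.1 hb).2
        (mul_left_cancel₀ (pow_ne_zero 2 hq) h)]
  refine Finset.sum_le_sum_of_subset_of_nonneg (fun h hh => ?_) fun _ _ _ => sq_nonneg _
  obtain ⟨k, hk, rfl⟩ := Finset.mem_image.1 hh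
  obtain ⟨h1, h2⟩ := mem_ball.1 (Finset.mem_filter.1 hk).1
  refine mem_ball.2 ⟨mul_ne_zero (pow_ne_zero _ hq) (pow_ne_zero _ h1), ?_⟩
  rw [N_mul, N_pow, N_pow]
  exact mul_le_mul_of_nonneg_left (pow_le_pow_left₀ (N_nonneg _) h2 6) (sq_nonneg _)

theorem swa_mu0 : ∃ (C δ : ℝ) (A : ℕ), 0 < C ∧ 0 < δ ∧ ∀ q : Eis, q ≠ 0 → ∀ Y t : ℝ, 1 ≤ Y →
    ‖∑' c, mu0 c * cub q c * W Y t c‖ ≤ C * N q * (1 + |t|) ^ A * Y ^ (1 - δ) := by
  obtain ⟨C, A, hC⟩ := swa_hh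
  obtain ⟨C1, c1, h1⟩ := card_divs_le (e := 1 / 76) (by norm_num)
  obtain ⟨c2, c2p, h2⟩ := card_P1_ge
  have hs := summable_N_rpow (s := 1 + 1 / 384) (by norm_num)
  obtain ⟨T, hT⟩ : ∃ T, T = ∑' c : Eis, N c ^ (-(1 + 1 / 384 : ℝ)) := ⟨_, rfl⟩
  have T0 : 0 ≤ T := hT ▸ tsum_nonneg fun c => Real.rpow_nonneg (N_nonneg c) _
  refine ⟨√(C1 * (2 * |C| * T) / c2) + 1, 1 / 384, A, by positivity, by norm_num,
    fun q hq Y t hY => ?_⟩
  have Y0 : 0 < Y := by linarith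
  have q1 := one_le_N hq
  obtain ⟨Z, hZ⟩ : ∃ Z, Z = Y ^ (19 / 96 : ℝ) := ⟨_, rfl⟩
  have Z1 : 1 ≤ Z := hZ ▸ Real.one_le_rpow hY (by norm_num)
  have Z6 : Z ^ 6 = Y ^ (19 / 16 : ℝ) := by
    rw [hZ, ← Real.rpow_natCast, ← Real.rpow_mul Y0.le]; norm_num
  obtain ⟨U, hU⟩ : ∃ U, U = (1 + |t|) ^ A := ⟨_, rfl⟩
  have U1 : 1 ≤ U := hU ▸ one_le_pow₀ (by linarith [abs_nonneg t])
  obtain ⟨S, hS⟩ : ∃ S : Eis → Eis → ℝ, ∀ d k,
      S d k = ‖∑' c, mu0 c * cub q c * cop k c * W (Y / N d) t c‖ := ⟨_, fun _ _ => rfl⟩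
  have a1 : ∀ k ∈ (ball Z).filter P1, ‖∑' c, mu0 c * cub q c * W Y t c‖ ^ 2 ≤
      C1 * Z ^ (1 / 76 : ℝ) * ∑ d ∈ ball Z, S d k ^ 2 := by
    intro k hk
    obtain ⟨k0, kZ⟩ := mem_ball.1 (Finset.mem_filter.1 hk).1
    have b1 : ‖∑' c, mu0 c * cub q c * W Y t c‖ ≤ ∑ d ∈ divs k, S d k := by
      rw [swa_decomp k0 q Y0 t]
      refine (norm_sum_le _ _).trans (Finset.sum_le_sum fun d _ => ?_)
      rw [norm_mul, norm_mul, norm_mul, norm_nit, mul_one, hS]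
      exact mul_le_of_le_one_left (norm_nonneg _)
        (mul_le_one₀ (norm_mu0_le d) (norm_nonneg _) (norm_cub_le q d))
    refine (pow_le_pow_left₀ (norm_nonneg _) b1 2).trans (sq_sum_le_card_mul_sum_sq.trans
      (mul_le_mul ((h1 k k0).trans ?_) ?_ (by positivity) (by positivity)))
    · exact mul_le_mul_of_nonneg_left (Real.rpow_le_rpow (N_nonneg k) kZ (by norm_num)) c1.le
    · exact Finset.sum_le_sum_of_subset_of_nonneg
        ((Finset.filter_subset _ _).trans (ball_mono kZ)) fun _ _ _ => sq_nonneg _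
  have a2 : ∀ d ∈ ball Z, ∑ k ∈ (ball Z).filter P1, S d k ^ 2 ≤
      2 * |C| * (N q * U) ^ 2 * (Y ^ (19 / 16 : ℝ) * Y ^ (1 + 1 / 384 : ℝ)) *
        N d ^ (-(1 + 1 / 384 : ℝ)) := by
    intro d hd
    have d1 := one_le_N (mem_ball.1 hd).1
    have d0 : 0 < Y / N d := by positivity
    simp only [hS]
    refine (swa_moment hq _ t).trans ((hC _ (fun _ _ => rfl) (fun c => norm_one.le) _ _ t d0
      (by positivity)).trans ?_)
    have b0 : 1 ≤ N q ^ 2 := one_le_pow₀ q1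
    have b1 : (Y / N d) ^ (19 / 16 : ℝ) ≤ N q ^ 2 * Y ^ (19 / 16 : ℝ) :=
      (Real.rpow_le_rpow d0.le (div_le_self Y0.le d1) (by norm_num)).trans
        (le_mul_of_one_le_left (by positivity) b0)
    have b2 : U ≤ U ^ 2 := by nlinarith
    rw [← hU, Z6, Real.div_rpow Y0.le (N_nonneg d) (1 + 1 / 384),
      Real.rpow_neg (N_nonneg d), div_eq_mul_inv (Y ^ _)]
    calc _ ≤ |C| * U ^ 2 * (N q ^ 2 * Y ^ (19 / 16 : ℝ) + N q ^ 2 * Y ^ (19 / 16 : ℝ)) *
          (Y ^ (1 + 1 / 384 : ℝ) * (N d ^ (1 + 1 / 384 : ℝ))⁻¹) := by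
          gcongr
          exact le_abs_self C
      _ = _ := by ring
  have a3 := Finset.sum_le_sum a1
  rw [Finset.sum_const, nsmul_eq_mul, ← Finset.mul_sum, Finset.sum_comm] at a3
  have a4 := Finset.sum_le_sum a2
  rw [← Finset.mul_sum] at a4
  have a5 : ∑ d ∈ ball Z, N d ^ (-(1 + 1 / 384 : ℝ)) ≤ T :=
    hT ▸ hs.sum_le_tsum _ fun c _ => Real.rpow_nonneg (N_nonneg c) _
  have a6 : Z ^ (1 / 76 : ℝ) * (Y ^ (19 / 16 : ℝ) * Y ^ (1 + 1 / 384 : ℝ)) =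
      Z * (Y ^ (1 - 1 / 384 : ℝ)) ^ 2 := by
    rw [hZ, ← Real.rpow_mul Y0.le, ← Real.rpow_natCast, ← Real.rpow_mul Y0.le,
      ← Real.rpow_add Y0, ← Real.rpow_add Y0, ← Real.rpow_add Y0]
    norm_num
  have a7 : c2 * Z * ‖∑' c, mu0 c * cub q c * W Y t c‖ ^ 2 ≤
      C1 * (2 * |C| * T) * (N q * U) ^ 2 * (Z * (Y ^ (1 - 1 / 384 : ℝ)) ^ 2) := by
    refine (mul_le_mul_of_nonneg_right (h2 Z Z1) (sq_nonneg _)).trans (a3.trans ?_)
    rw [← a6]
    calc _ ≤ C1 * Z ^ (1 / 76 : ℝ) *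
          (2 * |C| * (N q * U) ^ 2 * (Y ^ (19 / 16 : ℝ) * Y ^ (1 + 1 / 384 : ℝ)) * T) := by
          refine mul_le_mul_of_nonneg_left (a4.trans ?_) (by positivity)
          exact mul_le_mul_of_nonneg_left a5 (by positivity)
      _ = _ := by ring
  have a8 : ‖∑' c, mu0 c * cub q c * W Y t c‖ ≤
      √(C1 * (2 * |C| * T) / c2) * (N q * U * Y ^ (1 - 1 / 384 : ℝ)) := by
    refine (abs_le_of_sq_le_sq' ?_ (by positivity)).2
    rw [mul_pow, Real.sq_sqrt (by positivity), div_mul_eq_mul_div, le_div_iff₀ c2p]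
    refine le_of_mul_le_mul_left ?_ (show 0 < Z by linarith)
    calc _ = c2 * Z * ‖∑' c, mu0 c * cub q c * W Y t c‖ ^ 2 := by ring
      _ ≤ _ := a7
      _ = _ := by ring
  rw [← hU]
  refine a8.trans ?_
  have : 0 ≤ N q * U * Y ^ (1 - 1 / 384 : ℝ) := by positivity
  nlinarith

theorem swa_prime_two : Prime (-2 : Eis) := by
  have := (inert_prime Nat.prime_two (by norm_num)).1
  simpa using this

theorem swa_N_two : N (-2) = 4 := by
  have := N_intCast (-2)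
  norm_num at this
  exact this

theorem swa_split (q : Eis) (x : ℝ) :
    ∑ c ∈ ball x, mu c * cub q c = ∑ c ∈ ball x, mu0 c * cub q c -
      cub q (-2) * ∑ c ∈ ball (x / 4), mu0 c * cub q c := by
  have h2 : (-2 : Eis) ≠ 0 := swa_prime_two.ne_zero
  have e1 : ∀ c, mu c * cub q c =
      mu0 c * cub q c + if (-2 : Eis) ∣ c then mu c * cub q c else 0 := by
    intro c
    rw [mu0_eq]
    by_cases h : (2 : Eis) ∣ c
    · rw [if_pos h, if_pos (neg_dvd.2 h), zero_mul, zero_add]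
    · rw [if_neg h, if_neg (fun k => h (neg_dvd.1 k)), add_zero]
  rw [Finset.sum_congr rfl fun c _ => e1 c, Finset.sum_add_distrib, ← Finset.sum_filter,
    sum_ball_dvd h2, swa_N_two, Finset.mul_sum, sub_eq_add_neg, ← Finset.sum_neg_distrib]
  congr 1
  refine Finset.sum_congr rfl fun c hc => ?_
  rw [mu_mul (PS.of_prime swa_prime_two prim_neg_two), mu_prime swa_prime_two prim_neg_two,
    cub_mul_right q h2 (mem_ball.1 hc).1, mu0_eq, cop]
  by_cases h : (2 : Eis) ∣ c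
  · rw [if_pos h, if_neg fun k => (swa_prime_two.coprime_iff_not_dvd.1 k.symm) (neg_dvd.2 h)]
    ring
  · rw [if_neg h, if_pos (swa_prime_two.coprime_iff_not_dvd.2 fun k => h (neg_dvd.1 k)).symm]
    ring

theorem swa_mu : ∃ C η : ℝ, 0 < C ∧ 0 < η ∧ ∀ q : Eis, q ≠ 0 → ∀ x : ℝ, 0 < x →
    ‖∑ c ∈ ball x, mu c * cub q c‖ ≤ C * N q * x ^ (1 - η) := by
  obtain ⟨C, δ, A, hC, hδ, h⟩ := swa_mu0
  obtain ⟨C', η, hC', hη, h'⟩ := us_pow hδ A
  refine ⟨C' * (C + 1) * (1 + ((4 : ℝ) ^ (1 - η))⁻¹), η, by positivity, hη, fun q hq x hx => ?_⟩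
  have q1 := one_le_N hq
  have k := h' (fun c => mu0 c * cub q c) ((C + 1) * N q) (by nlinarith)
    (by rw [swa_zero fun h => h.ne_zero rfl, zero_mul])
    (fun c => by
      rw [norm_mul]
      exact mul_le_one₀ (norm_mu0_le c) (norm_nonneg _) (norm_cub_le q c))
    fun Y t hY => (h q hq Y t hY).trans (by
      have : 0 ≤ Y := by linarith
      gcongr
      linarith)
  rw [swa_split]
  refine (norm_sub_le _ _).trans ?_
  rw [norm_mul]
  have k1 := k x hx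
  have k2 := k (x / 4) (by positivity)
  rw [Real.div_rpow hx.le (by norm_num)] at k2
  have k3 := mul_le_of_le_one_left (norm_nonneg (∑ c ∈ ball (x / 4), mu0 c * cub q c))
    (norm_cub_le q (-2))
  calc _ ≤ C' * ((C + 1) * N q) * x ^ (1 - η) +
        C' * ((C + 1) * N q) * (x ^ (1 - η) / 4 ^ (1 - η)) := add_le_add k1 (k3.trans k2)
    _ = _ := by ring

end Vale.Agent.P006
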