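import Vale.Agent.P006.US
import Vale.Agent.P006.Rank
import Vale.Agent.P006.SWA
import Vale.Agent.P026.L2
import Vale.Agent.P026.Res2
import Vale.Agent.P026.Ptw
import Vale.Agent.P026.Boot
import Vale.Agent.P026.Fin1

/-! Siegel-Walfisz type estimates for cubic characters from the P026 bootstrap. -/

namespace Vale.Agent.P006

open Vale.Agent.P026 Eis Complex MeasureTheory Filter Topology
open scoped Classical ComplexConjugate

theorem hh72 : HH 72 (1 / 384) := swa_hh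
theorem swmu0 : ∃ (C δ : ℝ) (A : ℕ), 0 < C ∧ 0 < δ ∧ ∀ q : Eis, q ≠ 0 → ∀ Y t : ℝ, 1 ≤ Y →
    ‖∑' c, mu0 c * cub q c * W Y t c‖ ≤ C * N q * (1 + |t|) ^ A * Y ^ (1 - δ) := swa_mu0
theorem swmu : ∃ C η : ℝ, 0 < C ∧ 0 < η ∧ ∀ q : Eis, q ≠ 0 → ∀ x : ℝ, 0 < x →
    ‖∑ c ∈ ball x, mu c * cub q c‖ ≤ C * N q * x ^ (1 - η) := swa_mu

theorem swx_small (K a : ℝ) {κ : ℝ} (hκ : 0 < κ) :
    ∀ᶠ X : ℝ in atTop, K * Real.log X ^ a ≤ X ^ κ := by
  filter_upwards [((isLittleO_log_rpow_rpow_atTop a hκ).const_mul_left K).eventuallyLE,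
    eventually_ge_atTop 0] with X h h0
  rw [Real.norm_of_nonneg (Real.rpow_nonneg h0 κ)] at h
  exact (le_abs_self _).trans h

theorem swx_log (K : ℝ) : ∀ᶠ X : ℝ in atTop, K ≤ Real.log X :=
  Real.tendsto_log_atTop.eventually_ge_atTop K

theorem swx_triv {f : Eis → ℂ} (hf : Bd1 f) {y : ℝ} (hy : 0 ≤ y) :
    ‖∑ m ∈ ball y, f m‖ ≤ 16 * y := by
  refine (norm_sum_le _ _).trans ((Finset.sum_le_card_nsmul _ _ 1 fun m _ => hf m).trans ?_)
  rw [nsmul_eq_mul, mul_one]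
  exact card_ball_le hy

theorem swx_conv (g f : Eis → ℂ) (hg : ∀ s, g s ≠ 0 → Prim s) (q : Eis) (x : ℝ) :
    ∑ n ∈ ball x, (∑ s ∈ dp n, g s * f (n / s)) * cub q n =
      ∑ s ∈ ball x, g s * cub q s * ∑ m ∈ ball (x / N s), f m * cub q m := by
  have e1 : ∀ n ∈ ball x, (∑ s ∈ dp n, g s * f (n / s)) * cub q n =
      ∑ s ∈ ball x, if s ∣ n then g s * f (n / s) * cub q n else 0 := by
    intro n hn
    obtain ⟨n0, nx⟩ := mem_ball.1 hn
    rw [Finset.sum_mul, ← Finset.sum_filter]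
    refine Finset.sum_subset (fun s hs => ?_) fun s hs hs' => ?_
    · obtain ⟨a, b⟩ := (mem_dp n0).1 hs
      exact Finset.mem_filter.2 ⟨mem_ball.2 ⟨a.ne_zero, (N_le_of_dvd n0 b).trans nx⟩, b⟩
    · have : g s = 0 := by
        by_contra h
        exact hs' ((mem_dp n0).2 ⟨hg s h, (Finset.mem_filter.1 hs).2⟩)
      rw [this, zero_mul, zero_mul]
  rw [Finset.sum_congr rfl e1, Finset.sum_comm]
  refine Finset.sum_congr rfl fun s hs => ?_
  have s0 := (mem_ball.1 hs).1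
  rw [← Finset.sum_filter, sum_ball_dvd s0, Finset.mul_sum]
  refine Finset.sum_congr rfl fun m hm => ?_
  rw [mul_div_cancel_left₀ _ s0, cub_mul_right q s0 (mem_ball.1 hm).1]
  ring

theorem swx_core (A C : ℝ) {C0 η : ℝ} (hC0 : 0 < C0) (hη : 0 < η) : ∀ᶠ X : ℝ in atTop,
    ∀ (c f : Eis → ℂ) (B x : ℝ), 0 ≤ B → B ≤ Real.log X ^ A → X ^ (1 / 100 : ℝ) ≤ x → Bd1 c →
      (∀ s, c s ≠ 0 → Smo (zz X) s) → Bd1 f →
      (∀ y, 0 < y → ‖∑ m ∈ ball y, f m‖ ≤ C0 * B * y ^ (1 - η)) →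
      ‖∑ s ∈ ball x, c s * ∑ m ∈ ball (x / N s), f m‖ ≤ x * Real.log X ^ (-C) := by
  obtain ⟨C1, hC1, h1⟩ := sum_inv_le_log
  filter_upwards [rank (κ := 1 / 200) (by norm_num) (C + 1), swx_log 32, eventually_ge_atTop 3,
    swx_small (4 * C0 * C1) (A + 1 + C) (κ := 1 / 200 * η) (by positivity)]
    with X hr hl h3 hs c f B x B0 hB hx hc hsm hf hT
  have X0 : 0 < X := by linarith
  have X1 : 1 ≤ X := by linarith
  obtain ⟨L, hL⟩ : ∃ L, L = Real.log X := ⟨_, rfl⟩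
  rw [← hL] at hr hl hs hB ⊢
  have L0 : 0 < L := by linarith
  obtain ⟨D, hD⟩ : ∃ D, D = X ^ (1 / 200 : ℝ) := ⟨_, rfl⟩
  have D1 : 1 ≤ D := hD ▸ Real.one_le_rpow X1 (by norm_num)
  have D0 : 0 < D := by linarith
  have DX : D ≤ X := by
    rw [hD]
    exact (Real.rpow_le_rpow_of_exponent_le X1 (by norm_num)).trans_eq (Real.rpow_one X)
  have Dx : D * D ≤ x := by
    rw [hD, ← Real.rpow_add X0]
    norm_num
    exact hx
  have x0 : 0 < x := lt_of_lt_of_le (by positivity) Dx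
  rw [Real.rpow_mul X0.le, ← hD] at hs
  rw [← hD] at hr
  have Dη : 0 < D ^ η := by positivity
  have key : ∀ s ∈ ball x, ‖c s * ∑ m ∈ ball (x / N s), f m‖ ≤
      C0 * B * x / D ^ η * (if N s ≤ D then (N s)⁻¹ else 0) +
        16 * x * (if Smo (zz X) s ∧ D < N s then (N s)⁻¹ else 0) := by
    intro s hs
    have s0 := N_pos (mem_ball.1 hs).1
    have y0 : 0 < x / N s := by positivity
    rw [norm_mul]
    by_cases h : N s ≤ D
    · rw [if_pos h, if_neg fun k => absurd h (not_le.2 k.2), mul_zero, add_zero]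
      refine (mul_le_of_le_one_left (norm_nonneg _) (hc s)).trans ((hT _ y0).trans ?_)
      have a1 : D ≤ x / N s := by
        rw [le_div_iff₀ s0]
        exact (mul_le_mul_of_nonneg_left h D0.le).trans Dx
      rw [Real.rpow_sub y0, Real.rpow_one]
      calc _ ≤ C0 * B * (x / N s / D ^ η) := by
            gcongr
        _ = _ := by ring
    · rw [if_neg h, mul_zero, zero_add]
      by_cases h0 : c s = 0
      · rw [h0, norm_zero, zero_mul]
        split_ifs <;> positivity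
      · rw [if_pos ⟨hsm s h0, not_le.1 h⟩]
        exact (mul_le_of_le_one_left (norm_nonneg _) (hc s)).trans
          ((swx_triv hf y0.le).trans_eq (by ring))
  refine (norm_sum_le _ _).trans ((Finset.sum_le_sum key).trans ?_)
  rw [Finset.sum_add_distrib, ← Finset.mul_sum, ← Finset.mul_sum, ← Finset.sum_filter,
    ← Finset.sum_filter]
  have b1 : ∑ s ∈ (ball x).filter (fun s => N s ≤ D), (N s)⁻¹ ≤ C1 * (2 * L) := by
    refine (Finset.sum_le_sum_of_subset_of_nonneg (fun s hs => ?_)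
      fun s _ _ => inv_nonneg.2 (N_nonneg s)).trans ((h1 D D0).trans ?_)
    · exact mem_ball.2 ⟨(mem_ball.1 (Finset.mem_filter.1 hs).1).1, (Finset.mem_filter.1 hs).2⟩
    · refine mul_le_mul_of_nonneg_left ?_ hC1.le
      rw [hL, show 2 * Real.log X = Real.log (X ^ 2) by rw [Real.log_pow]; norm_num]
      exact Real.log_le_log (by positivity) (by nlinarith)
  have b2 := hr ((ball x).filter (fun s => Smo (zz X) s ∧ D < N s))
    fun d hd => (Finset.mem_filter.1 hd).2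
  have e1 : L ^ (-(C + 1)) = L ^ (-C) / L := by
    rw [neg_add, ← sub_eq_add_neg, Real.rpow_sub_one L0.ne']
  have e2 : L ^ (A + 1 + C) = L ^ A * L / L ^ (-C) := by
    rw [Real.rpow_add L0, Real.rpow_add_one L0.ne', Real.rpow_neg L0.le, div_inv_eq_mul]
  have P0 : 0 < L ^ (-C) := by positivity
  rw [e1] at b2
  rw [e2, ← mul_div_assoc, div_le_iff₀ P0] at hs
  have b3 : C0 * B * x / D ^ η * (C1 * (2 * L)) ≤ x * L ^ (-C) / 2 := by
    rw [div_mul_eq_mul_div, div_le_iff₀ Dη]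
    calc _ ≤ C0 * L ^ A * x * (C1 * (2 * L)) := by gcongr
      _ = x / 2 * (4 * C0 * C1 * (L ^ A * L)) := by ring
      _ ≤ x / 2 * (D ^ η * L ^ (-C)) := by gcongr
      _ = _ := by ring
  have b4 : 16 * x * (L ^ (-C) / L) ≤ x * L ^ (-C) / 2 := by
    calc _ ≤ 16 * x * (L ^ (-C) / 32) := by gcongr
      _ = _ := by ring
  calc _ ≤ C0 * B * x / D ^ η * (C1 * (2 * L)) + 16 * x * (L ^ (-C) / L) := by gcongr
    _ ≤ _ := by linarith

theorem swx_bd {g : Eis → ℂ} (hg : Bd1 g) (q : Eis) : Bd1 fun n => g n * cub q n := fun n => by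
  rw [norm_mul]
  exact mul_le_one₀ (hg n) (norm_nonneg _) (norm_cub_le q n)

theorem swx_ite (P : Eis → Prop) {g : Eis → ℂ} (hg : Bd1 g) :
    Bd1 fun n => if P n then g n else 0 := fun n => by
  dsimp only
  split_ifs
  · exact hg n
  · simp

theorem swm (A C : ℝ) : ∀ᶠ X : ℝ in atTop, ∀ q : Eis, q ≠ 0 → N q ≤ Real.log X ^ A →
    ∀ x : ℝ, X ^ (1 / 100 : ℝ) ≤ x →
      ‖∑ n ∈ ball x, (if Ro (zz X) n then mu n else 0) * cub q n‖ ≤ x * Real.log X ^ (-C) := by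
  obtain ⟨C0, η, hC0, hη, h⟩ := swmu
  filter_upwards [swx_core A C hC0 hη] with X hX q hq hN x hx
  have e : ∀ n ∈ ball x, (if Ro (zz X) n then mu n else 0) * cub q n =
      (∑ s ∈ dp n, (if Smo (zz X) s then 1 else 0) * mu (n / s)) * cub q n := by
    intro n hn
    congr 1
    by_cases hp : Prim n
    · rw [ro_mu _ hp]
      exact Finset.sum_congr rfl fun s _ => by split_ifs <;> simp
    · rw [if_neg fun k => hp k.1]
      refine (Finset.sum_eq_zero fun s hs => ?_).symm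
      obtain ⟨a, m, rfl⟩ := (mem_dp (mem_ball.1 hn).1).1 hs
      rw [mul_div_cancel_left₀ _ a.ne_zero, not_not.1 (mt mu_ne_zero.1 fun k => hp (a.mul k.1)),
        mul_zero]
  rw [Finset.sum_congr rfl e, swx_conv _ mu fun s hs => by
    by_contra k
    exact hs (if_neg fun j => k j.1)]
  refine hX _ _ (N q) x (N_nonneg q) hN hx (swx_bd (swx_ite _ fun _ => norm_one.le) q)
    (fun s hs => ?_) (swx_bd norm_mu_le q) (h q hq)
  by_contra k
  exact hs (by rw [if_neg k, zero_mul])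

theorem swu (A C : ℝ) : ∀ᶠ X : ℝ in atTop, ∀ q : Eis, q ≠ 0 → ¬ Cube q → N q ≤ Real.log X ^ A →
    ∀ x : ℝ, X ^ (1 / 100 : ℝ) ≤ x →
      ‖∑ n ∈ ball x, (if Ro (zz X) n then 1 else 0) * cub q n‖ ≤ x * Real.log X ^ (-C) := by
  obtain ⟨C0, hC0, h⟩ := pv
  filter_upwards [swx_core A C hC0 (η := 1 / 2) (by norm_num)] with X hX q hq hc hN x hx
  have e : ∀ n ∈ ball x, (if Ro (zz X) n then 1 else 0) * cub q n =
      (∑ s ∈ dp n, (if Smo (zz X) s then mu s else 0) * (if Prim (n / s) then 1 else 0)) *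
        cub q n := by
    intro n hn
    have n0 := (mem_ball.1 hn).1
    congr 1
    by_cases hp : Prim n
    · rw [ro_ind _ hp]
      refine (Finset.sum_subset (dv_subset_dp n) fun s hs hs' => ?_).trans
        (Finset.sum_congr rfl fun s hs => ?_)
      · rw [not_not.1 (mt mu_ne_zero.1 fun k => hs' ((mem_dv n0).2 ⟨k, ((mem_dp n0).1 hs).2⟩)),
          ite_self]
      · obtain ⟨a, b⟩ := (mem_dp n0).1 hs
        rw [if_pos (prim_div a hp b), mul_one]
    · rw [if_neg fun k => hp k.1]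
      refine (Finset.sum_eq_zero fun s hs => ?_).symm
      obtain ⟨a, m, rfl⟩ := (mem_dp n0).1 hs
      rw [mul_div_cancel_left₀ _ a.ne_zero, if_neg (c := Prim m) fun k => hp (a.mul k), mul_zero]
  rw [Finset.sum_congr rfl e, swx_conv _ (fun n => if Prim n then 1 else 0) fun s hs => by
    by_contra k
    exact hs (if_neg fun j => k j.1)]
  refine hX _ _ (N q) x (N_nonneg q) hN hx (swx_bd (swx_ite _ norm_mu_le) q)
    (fun s hs => ?_) (swx_bd (swx_ite _ fun _ => norm_one.le) q) fun y hy => ?_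
  · by_contra k
    exact hs (by rw [if_neg k, zero_mul])
  · refine (h q q 1 hq (by rw [pow_one]) hc y hy).trans_eq ?_
    rw [Real.sqrt_eq_rpow]
    norm_num

theorem swx_gty (X z : ℝ) (ty : Fin 3) : Bd1 (gty X z ty) := fun n => by
  unfold gty
  split_ifs <;> first | exact norm_mu_le n | simp

theorem swx_min (g : Eis → ℂ) (x K : ℝ) :
    ∑ n ∈ ball x, (if N n ≤ K then g n else 0) = ∑ n ∈ ball (min x K), g n := by
  rw [← Finset.sum_filter]
  refine Finset.sum_congr ?_ fun _ _ => rfl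
  ext n
  simp only [Finset.mem_filter, mem_ball, le_min_iff, and_assoc]

theorem swx_part (A C : ℝ) : ∀ᶠ X : ℝ in atTop, ∀ (q : Eis) (ty : Fin 3), q ≠ 0 → ¬ Cube q →
    N q ≤ Real.log X ^ A → ∀ x : ℝ, 0 < x →
      ‖∑ n ∈ ball x, (if N n ≤ X ^ 2 then gty X (zz X) ty n * cub q n else 0)‖ ≤
        Real.log X ^ (-C) * x + 16 * X ^ (1 / 200 : ℝ) * √x := by
  filter_upwards [swm A C, swu A C, eventually_gt_atTop 1] with X h1 h2 X1 q ty hq hc hN x hx
  have X0 : 0 < X := by linarith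
  have L0 := Real.log_pos X1
  have P0 : 0 < Real.log X ^ (-C) := by positivity
  have D1 : 1 ≤ X ^ (1 / 200 : ℝ) := Real.one_le_rpow X1.le (by norm_num)
  have s0 := Real.sqrt_nonneg x
  rcases le_total x (X ^ (1 / 100 : ℝ)) with h | h
  · refine (swx_triv (swx_ite _ (swx_bd (swx_gty X _ ty) q)) hx.le).trans ?_
    have a1 : √x ≤ X ^ (1 / 200 : ℝ) := by
      refine Real.sqrt_le_iff.2 ⟨by positivity, h.trans_eq ?_⟩
      rw [← Real.rpow_natCast, ← Real.rpow_mul X0.le]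
      norm_num
    have a2 := Real.mul_self_sqrt hx.le
    have a3 := mul_le_mul_of_nonneg_right a1 s0
    have a4 := mul_pos P0 hx
    linarith
  have a1 : X ^ (1 / 100 : ℝ) ≤ min x (X ^ 2) := le_min h (by
    rw [← Real.rpow_natCast]
    exact Real.rpow_le_rpow_of_exponent_le X1.le (by norm_num))
  have a2 : 0 ≤ 16 * X ^ (1 / 200 : ℝ) * √x := by positivity
  rw [swx_min]
  by_cases t0 : ty = 0
  · have a3 : 1 ≤ √x := Real.one_le_sqrt.2 ((Real.one_le_rpow X1.le (by norm_num)).trans h)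
    have a4 : ‖∑ n ∈ ball (min x (X ^ 2)), gty X (zz X) ty n * cub q n‖ ≤ 1 := by
      simp only [gty, if_pos t0, ite_mul, zero_mul, one_mul, Finset.sum_ite_eq']
      split_ifs
      · exact norm_cub_le q 1
      · simp
    have a5 := mul_pos P0 hx
    nlinarith
  by_cases t1 : ty = 1
  · simp only [gty, if_neg t0, if_pos t1]
    refine (h2 q hq hc hN _ a1).trans ?_
    have := mul_le_mul_of_nonneg_right (min_le_left x (X ^ 2)) P0.le
    linarith
  · have e : ∀ n, gty X (zz X) ty n * cub q n = if N n ≤ X ^ (7 / 20 : ℝ) then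
        (if Ro (zz X) n then mu n else 0) * cub q n else 0 := by
      intro n
      simp only [gty, if_neg t0, if_neg t1]
      by_cases b1 : N n ≤ X ^ (7 / 20 : ℝ) <;> by_cases b2 : Ro (zz X) n <;> simp [b1, b2]
    simp only [e]
    rw [swx_min]
    refine (h1 q hq hN _ (le_min a1 (Real.rpow_le_rpow_of_exponent_le X1.le
      (by norm_num)))).trans ?_
    have := mul_le_mul_of_nonneg_right
      ((min_le_left _ (X ^ (7 / 20 : ℝ))).trans (min_le_left x (X ^ 2))) P0.le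
    linarith

theorem sw_one (A C : ℝ) : ∀ᶠ X : ℝ in atTop, ∀ (q : Eis) (ty : Fin 3) (ρ t : ℝ), q ≠ 0 →
    ¬ Cube q → N q ≤ Real.log X ^ A → Real.log X / 20 ≤ ρ →
      ‖∑ n ∈ ball (X ^ 2), gty X (zz X) ty n * W2 (Real.exp ρ) t n *
          (((N n / Real.exp ρ) ^ (-(1 / 4) : ℝ) : ℝ) : ℂ) * cub q n‖ ≤
        Real.exp ρ * Real.log X ^ (-C) * (1 + |t|) := by
  obtain ⟨C1, hC1, h1⟩ := abelg
  filter_upwards [swx_part A (C + 1), swx_log (2 * C1), eventually_gt_atTop 1,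
    swx_small (32 * C1) C (κ := 1 / 50) (by norm_num)] with X hX hl X1 hs q ty ρ t hq hc hN hρ
  have X0 : 0 < X := by linarith
  have L0 := Real.log_pos X1
  obtain ⟨Y, hY⟩ : ∃ Y, Y = Real.exp ρ := ⟨_, rfl⟩
  have Y0 : 0 < Y := hY ▸ Real.exp_pos ρ
  have XY : X ^ (1 / 40 : ℝ) ≤ √Y := by
    refine Real.le_sqrt_of_sq_le ?_
    rw [← Real.rpow_natCast, ← Real.rpow_mul X0.le, hY, Real.rpow_def_of_pos X0]
    refine Real.exp_le_exp.2 (le_trans (le_of_eq ?_) hρ)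
    push_cast
    ring
  rw [← hY]
  obtain ⟨F, hF⟩ : ∃ F : Eis → ℂ, F = fun n =>
      if n ∈ ball (X ^ 2) then gty X (zz X) ty n * cub q n else 0 := ⟨_, rfl⟩
  have k := h1 F ((-(1 / 4) : ℝ) + t * I) 1 (Real.log X ^ (-(C + 1)))
    (16 * X ^ (1 / 200 : ℝ)) (1 / 2) Y
    (fun n => by
      rw [hF]
      dsimp only
      split_ifs with h
      · rw [one_mul]
        exact (swx_bd (swx_gty X _ ty) q n).trans (one_le_N (mem_ball.1 h).1)
      · rw [norm_zero, one_mul]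
        exact N_nonneg n)
    (by positivity) (by positivity) (by norm_num) (by simp; norm_num) Y0
    fun x hx => le_trans (le_of_eq (by
      congr 1
      refine Finset.sum_congr rfl fun n hn => ?_
      simp only [hF, mem_ball, ne_eq, (mem_ball.1 hn).1, not_false_eq_true, true_and]))
      (hX q ty hq hc hN x hx)
  have e1 : ∑ n ∈ ball (X ^ 2), gty X (zz X) ty n * W2 Y t n *
      (((N n / Y) ^ (-(1 / 4) : ℝ) : ℝ) : ℂ) * cub q n =
      ((Y ^ (-(1 / 4) : ℝ) : ℝ) : ℂ)⁻¹ *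
        ∑' n, F n * gg ((-(1 / 4) : ℝ) + t * I) (1 / 2) Y (N n) := by
    rw [tsum_eq_sum (s := ball (X ^ 2)) fun n hn => by simp only [hF, if_neg hn, zero_mul],
      Finset.mul_sum]
    refine Finset.sum_congr rfl fun n hn => ?_
    rw [gg_eq _ _ _ _ (mem_ball.1 hn).1, Real.div_rpow (N_nonneg n) Y0.le, W2]
    simp only [hF, if_pos hn]
    push_cast
    ring
  have r1 : ((-(1 / 4) : ℝ) + t * I : ℂ).re = -(1 / 4) := by simp
  have r2 : ((-(1 / 4) : ℝ) + t * I : ℂ).im = t := by simp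
  rw [r1, r2] at k
  have Yp : 0 < Y ^ (-(1 / 4) : ℝ) := by positivity
  rw [e1, norm_mul, norm_inv, Complex.norm_real, Real.norm_of_nonneg Yp.le, inv_mul_le_iff₀ Yp]
  refine k.trans ?_
  obtain ⟨L, hL⟩ : ∃ L, L = Real.log X := ⟨_, rfl⟩
  rw [← hL] at hl hs L0 ⊢
  have P0 : 0 < L ^ (-C) := by positivity
  have e2 : L ^ (-(C + 1)) = L ^ (-C) / L := by
    rw [neg_add, ← sub_eq_add_neg, Real.rpow_sub_one L0.ne']
  have b1 : C1 * L ^ (-(C + 1)) ≤ L ^ (-C) / 2 := by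
    rw [e2, ← mul_div_assoc, div_le_div_iff₀ L0 two_pos]
    nlinarith
  have b2 : C1 * (16 * X ^ (1 / 200 : ℝ)) ≤ L ^ (-C) / 2 * √Y := by
    have c1 : L ^ C * L ^ (-C) = 1 := by rw [← Real.rpow_add L0, add_neg_cancel, Real.rpow_zero]
    have c2 : X ^ (1 / 50 : ℝ) * X ^ (1 / 200 : ℝ) = X ^ (1 / 40 : ℝ) := by
      rw [← Real.rpow_add X0]
      norm_num
    calc _ = 32 * C1 * L ^ C * X ^ (1 / 200 : ℝ) * (L ^ (-C) / 2) := by
          linear_combination (-16 * C1 * X ^ (1 / 200 : ℝ)) * c1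
      _ ≤ X ^ (1 / 50 : ℝ) * X ^ (1 / 200 : ℝ) * (L ^ (-C) / 2) := by gcongr
      _ ≤ √Y * (L ^ (-C) / 2) := by rw [c2]; gcongr
      _ = _ := mul_comm _ _
  have b3 : C1 * (L ^ (-(C + 1)) * Y + 16 * X ^ (1 / 200 : ℝ) * √Y) ≤ Y * L ^ (-C) := by
    have c1 := mul_le_mul_of_nonneg_right b1 Y0.le
    have c2 := mul_le_mul_of_nonneg_right b2 (Real.sqrt_nonneg Y)
    rw [mul_assoc (L ^ (-C) / 2), Real.mul_self_sqrt Y0.le] at c2
    linarith
  calc _ = Y ^ (-(1 / 4) : ℝ) *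
        (C1 * (L ^ (-(C + 1)) * Y + 16 * X ^ (1 / 200 : ℝ) * √Y) * (1 + |t|)) := by ring
    _ ≤ _ := by gcongr

end Vale.Agent.P006
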