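import Vale.Agent.P006.Box
import Vale.Agent.P006.SW

/-! The Siegel-Walfisz hypothesis for products of variables. -/

namespace Vale.Agent.P006

open Vale.Agent.P026 Eis Complex MeasureTheory Filter Topology
open scoped Classical ComplexConjugate

theorem swb_ns : ∃ C : ℝ, 0 < C ∧ ∀ (S : Finset Eis) (B z : ℝ), 0 < B → 0 < z →
    (∀ b ∈ S, Ro z b ∧ ¬ PS b) →
      ∑ b ∈ S, (N b / B) ^ (-(1 / 2) : ℝ) / vp (N b / B) ≤ C * B / z := by
  obtain ⟨C2, hC2, h2⟩ := sum_rpow_div_vp (a := -(1 / 2)) (by norm_num) (by norm_num)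
  obtain ⟨C3, hC3, h3⟩ := cnt_tail (s := 2) (by norm_num)
  refine ⟨C2 * C3, by positivity, fun S B z hB hz hS => ?_⟩
  have ex : ∀ b, ∃ p, b ∈ S → p ≠ 0 ∧ z < N p ∧ p ^ 2 ∣ b := fun b => by
    by_cases hb : b ∈ S
    · have hs : ¬ Squarefree b := fun k => (hS b hb).2 ⟨(hS b hb).1.1, k⟩
      rw [squarefree_iff_no_irreducibles (hS b hb).1.1.ne_zero] at hs
      push Not at hs
      obtain ⟨q, hq, hqc⟩ := hs
      exact ⟨q, fun _ => ⟨hq.ne_zero, (hS b hb).1.2 q hq.prime ((dvd_mul_right q q).trans hqc),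
        by rwa [pow_two]⟩⟩
    · exact ⟨0, fun h => absurd h hb⟩
  choose g hg using ex
  have f0 : ∀ b, 0 ≤ (N b / B) ^ (-(1 / 2) : ℝ) / vp (N b / B) := fun b =>
    div_nonneg (Real.rpow_nonneg (div_nonneg (N_nonneg b) hB.le) _) (vp_nonneg _)
  rw [← Finset.sum_fiberwise_of_maps_to (g := g) (t := S.image g)
    fun b hb => Finset.mem_image_of_mem g hb]
  calc _ ≤ ∑ p ∈ S.image g, C2 * B * if z < N p then N p ^ (-2 : ℝ) else 0 := by
        refine Finset.sum_le_sum fun p hp => ?_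
        obtain ⟨b, hb, rfl⟩ := Finset.mem_image.1 hp
        obtain ⟨p0, pz, -⟩ := hg b hb
        have p2 : g b ^ 2 ≠ 0 := pow_ne_zero 2 p0
        have hN := N_pos p0
        have hK : 0 < B / N (g b) ^ 2 := by positivity
        rw [if_pos pz]
        calc _ ≤ ∑ n ∈ S.filter (fun n => g b ^ 2 ∣ n), (N n / B) ^ (-(1 / 2) : ℝ) / vp (N n / B) :=
              Finset.sum_le_sum_of_subset_of_nonneg (fun n hn => by
                obtain ⟨a1, a2⟩ := Finset.mem_filter.1 hn
                exact Finset.mem_filter.2 ⟨a1, a2 ▸ (hg n a1).2.2⟩) fun n _ _ => f0 n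
          _ = (B / N (g b) ^ 2) ^ (1 / 2 : ℝ) * ∑ m ∈ (S.filter (fun n => g b ^ 2 ∣ n)).image
                (fun n => n / g b ^ 2), N m ^ (-(1 / 2) : ℝ) / vp (N m / (B / N (g b) ^ 2)) := by
              rw [sum_filter_dvd p2, Finset.mul_sum]
              refine Finset.sum_congr rfl fun m _ => ?_
              rw [show N (g b ^ 2 * m) / B = N m / (B / N (g b) ^ 2) by
                rw [N_mul, N_pow]; field_simp, Real.div_rpow (N_nonneg m) hK.le,
                Real.rpow_neg hK.le]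
              field_simp
          _ ≤ (B / N (g b) ^ 2) ^ (1 / 2 : ℝ) * (C2 * (B / N (g b) ^ 2) ^ (-(1 / 2) + 1 : ℝ)) := by
              refine mul_le_mul_of_nonneg_left (h2 _ hK _ fun h0 => ?_) (by positivity)
              obtain ⟨n, hn, e⟩ := Finset.mem_image.1 h0
              obtain ⟨a1, a2⟩ := Finset.mem_filter.1 hn
              refine (hS n a1).1.1.ne_zero ?_
              rw [← lp_div_mul p2 a2, e, mul_zero]
          _ = _ := by
              rw [mul_left_comm, ← Real.rpow_add hK, Real.rpow_neg hN.le, Real.rpow_two]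
              norm_num
              ring
    _ ≤ C2 * B * (C3 * z ^ (1 - 2 : ℝ)) := by
        rw [← Finset.mul_sum]
        exact mul_le_mul_of_nonneg_left (h3 z hz _) (by positivity)
    _ = _ := by
        rw [show (1 - 2 : ℝ) = -1 by norm_num, Real.rpow_neg_one]
        ring

/-- One factor. -/
noncomputable def swbT (X : ℝ) (q : Eis) (ty : Fin 3) (ρ t : ℝ) : ℂ :=
  ∑ n ∈ ball (X ^ 2), gty X (zz X) ty n * W2 (Real.exp ρ) t n *
    (((N n / Real.exp ρ) ^ (-(1 / 4) : ℝ) : ℝ) : ℂ) * cub q n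

theorem swb_pow (n : Eis) (s : ℝ) : (N n / Real.exp s) ^ (-(1 / 4) : ℝ) =
    Real.exp (s / 4) * N n ^ (-(1 / 4) : ℝ) := by
  rw [Real.div_rpow (N_nonneg n) (Real.exp_pos s).le, ← Real.exp_mul, div_eq_mul_inv,
    ← Real.exp_neg, mul_comm]
  congr 2; ring

theorem swb_full {X : ℝ} (q : Eis) (ty : Fin 6 → Fin 3) (ρ : Fin 6 → ℝ) (t τ : ℝ)
    (I : Finset (Fin 6)) :
    ∑ b ∈ (fI X (zz X) ty ρ t I).coeff.support, tw (sc (fI X (zz X) ty ρ t I).coeff
      (Real.exp (∑ i ∈ I, ρ i)) (-(1 / 4))) τ b * cub q b =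
      ∏ i ∈ I, swbT X q (ty i) (ρ i) (t + τ) := by
  set F : Eis → ℂ := fun n => ((N n ^ (-(1 / 4) : ℝ) : ℝ) : ℂ) * nit τ n * cub q n with hF
  have h := pr_prod_mul I (fun i => fb X (zz X) (ty i) (ρ i) t) F
    (by simp [hF, nit, cub_one_right]) (fun m n hm hn => by
      simp only [hF, N_mul, Real.mul_rpow (N_nonneg m) (N_nonneg n), nit_mul τ hm.ne_zero hn.ne_zero,
        cub_mul_right q hm.ne_zero hn.ne_zero]
      push_cast; ring) fun i _ n hn => by
      rw [fb, coeff_trc] at hn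
      split_ifs at hn
      · exact (gty_ro (left_ne_zero_of_mul hn)).1
      · exact absurd rfl hn
  have e : ∀ i, swbT X q (ty i) (ρ i) (t + τ) =
      (Real.exp (ρ i / 4) : ℂ) * pr (fb X (zz X) (ty i) (ρ i) t) F := fun i => by
    rw [fb, pr_trc, swbT, Finset.mul_sum]
    refine Finset.sum_congr rfl fun n _ => ?_
    simp only [hF, swb_pow, W2, nit_add]
    push_cast; ring
  simp only [e, Finset.prod_mul_distrib]
  rw [← h, pr_eq, ← Complex.ofReal_prod, ← Real.exp_sum, ← Finset.sum_div, Finset.mul_sum]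
  refine Finset.sum_congr rfl fun n _ => ?_
  simp only [hF, tw, sc, swb_pow, fI]
  push_cast; ring

theorem swb_T : ∃ C : ℝ, 1 ≤ C ∧ ∀ (X : ℝ) (q : Eis) (ty : Fin 3) (ρ t : ℝ),
    ‖swbT X q ty ρ t‖ ≤ C * Real.exp ρ := by
  obtain ⟨C, hC, h⟩ := sum_lg_le (c := 1 / 2) (k := -(1 / 4)) (by norm_num) (by norm_num)
  refine ⟨C + 1, by linarith, fun X q ty ρ t => (norm_sum_le _ _).trans ?_⟩
  calc _ ≤ ∑ n ∈ ball (X ^ 2), Real.exp (ρ / 4) *
        (N n ^ (-(1 / 4) : ℝ) * lg (1 / 2) (N n / Real.exp ρ)) := Finset.sum_le_sum fun n _ => by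
        have a1 := Real.rpow_nonneg (N_nonneg n) (-(1 / 4))
        have a2 := lg_pos (1 / 2) (N n / Real.exp ρ)
        rw [norm_mul, norm_mul, norm_mul, norm_W2, swb_pow, Complex.norm_real,
          Real.norm_of_nonneg (by positivity)]
        calc _ ≤ 1 * lg (1 / 2) (N n / Real.exp ρ) * (Real.exp (ρ / 4) * N n ^ (-(1 / 4) : ℝ)) * 1 := by
              gcongr
              · exact norm_gty_le _ _ _ _
              · exact norm_cub_le _ _
          _ = _ := by ring
    _ ≤ Real.exp (ρ / 4) * (C * Real.exp ρ ^ (-(1 / 4) + 1 : ℝ)) := by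
        rw [← Finset.mul_sum]
        exact mul_le_mul_of_nonneg_left (h _ (Real.exp_pos ρ) _ (bas_zero _)) (Real.exp_pos _).le
    _ = C * Real.exp ρ := by
        rw [← Real.exp_mul, mul_left_comm, ← Real.exp_add]
        congr 2; ring
    _ ≤ _ := by nlinarith [Real.exp_pos ρ]

theorem swb_prod {C : ℝ} (hC : 1 ≤ C) (I : Finset (Fin 6)) (f : Fin 6 → ℝ) :
    ∏ i ∈ I, C * Real.exp (f i) ≤ C ^ 6 * Real.exp (∑ i ∈ I, f i) := by
  rw [Finset.prod_mul_distrib, Finset.prod_const, Real.exp_sum]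
  exact mul_le_mul_of_nonneg_right (pow_le_pow_right₀ hC (by simpa using I.card_le_univ))
    (Finset.prod_nonneg fun i _ => (Real.exp_pos _).le)

theorem swb_nw : ∃ C : ℝ, 0 < C ∧ ∀ᶠ X : ℝ in atTop, ∀ (ty : Fin 6 → Fin 3) (ρ : Fin 6 → ℝ) (t : ℝ)
    (I : Finset (Fin 6)), 0 ≤ ∑ i ∈ I, ρ i → ∑ i ∈ I, ρ i ≤ Real.log X →
      nw (fI X (zz X) ty ρ t I).coeff.support (fI X (zz X) ty ρ t I).coeff
        (Real.exp (∑ i ∈ I, ρ i)) ≤ C * Real.exp (∑ i ∈ I, ρ i) * Real.log X := by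
  obtain ⟨C, hC, h⟩ := nv_rough
  refine ⟨2 * (C + 1) ^ 6, by positivity, ?_⟩
  filter_upwards [h, le_zz 1, Real.tendsto_log_atTop.eventually_ge_atTop 3] with X h hz hL
    ty ρ t I h0 h1
  rw [Real.rpow_one] at hz
  have l1 : 1 ≤ Real.log (zz X) := by
    rw [Real.le_log_iff_exp_le (by linarith)]
    linarith [Real.exp_one_lt_d9]
  have l2 : 0 < Real.log (Real.log X) := Real.log_pos (by linarith)
  refine (np _ _ _ _ _ _).trans ?_
  have a1 : ∏ i ∈ I, nv X (zz X) (ty i) (ρ i) ≤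
      ∏ i ∈ I, (C + 1) * Real.exp (ρ i * (1 + 5 * Real.log 2 / Real.log (zz X))) :=
    Finset.prod_le_prod (fun i _ => nv_nonneg _ _ _ _) fun i _ => (h (ty i) (ρ i)).trans (by
      refine (mul_le_of_le_one_right (by positivity) ?_).trans
        (mul_le_mul_of_nonneg_right (by linarith) (Real.exp_pos _).le)
      split_ifs with k1 k2
      · exact Real.exp_le_one_iff.2 (by linarith)
      · exact inv_le_one_of_one_le₀ l1
      · exact le_rfl)
  have a2 := swb_prod (show 1 ≤ C + 1 by linarith) I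
    fun i => ρ i * (1 + 5 * Real.log 2 / Real.log (zz X))
  rw [← Finset.sum_mul, mul_add, mul_one, Real.exp_add] at a2
  have a3 : Real.exp ((∑ i ∈ I, ρ i) * (5 * Real.log 2 / Real.log (zz X))) ≤ Real.log X := by
    rw [← Real.le_log_iff_exp_le (by linarith), log_zz]
    have b1 : Real.log 2 ≤ 1 := by linarith [Real.log_two_lt_d9]
    have b2 : 0 < Real.log 2 := Real.log_pos (by norm_num)
    calc _ ≤ Real.log X * (5 * 1 / (20 * Real.log X / Real.log (Real.log X))) := by gcongr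
      _ = Real.log (Real.log X) / 4 := by field_simp; norm_num
      _ ≤ _ := by linarith
  have a4 := mul_le_mul_of_nonneg_left a3
    (show 0 ≤ (C + 1) ^ 6 * Real.exp (∑ i ∈ I, ρ i) by positivity)
  nlinarith

/-- Without the squarefree restriction the sum is, by pr_prod_mul, the product over i in I of the sums in
sw_one (twist t + τ). One ρ i is ≥ log X / 20: use sw_one there and sum_lg_le (k = -1/4) for the others.
Elements divisible by p ^ 2 with N p > z: Cauchy-Schwarz with the weight vp, sum_rpow_div_vp at scale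
B / N p ^ 2, tail_N_rpow, and np with nv_rough. -/
theorem swb (A C : ℝ) : ∀ᶠ X : ℝ in atTop, ∀ (ty : Fin 6 → Fin 3) (ρ : Fin 6 → ℝ) (t : ℝ)
    (I : Finset (Fin 6)), |t| ≤ Real.log X ^ A → Real.log X / 3 ≤ ∑ i ∈ I, ρ i →
    ∑ i ∈ I, ρ i ≤ Real.log X →
      SW ((fI X (zz X) ty ρ t I).coeff.support.filter PS) (fI X (zz X) ty ρ t I).coeff
        (Real.exp (∑ i ∈ I, ρ i)) (Real.log X ^ A)
        (Real.exp (∑ i ∈ I, ρ i) * Real.log X ^ (-C)) := by
  obtain ⟨C1, hC1, h1⟩ := swb_T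
  obtain ⟨C2, hC2, h2⟩ := swb_ns
  obtain ⟨C3, hC3, h3⟩ := swb_nw
  filter_upwards [h3, sw_one A (C + |A| + 1), le_zz (2 * C + 3), eventually_ge_atTop 1,
    Real.tendsto_log_atTop.eventually_ge_atTop (max 1 (max (4 * C1 ^ 6) (4 * (C3 * C2))))]
    with X h3 h4 hz hX hL ty ρ t I ht hI hI' q hq hc hQ τ
  simp only [max_le_iff] at hL
  obtain ⟨L1, L2, L3⟩ := hL
  set L := Real.log X with hLd
  set s := ∑ i ∈ I, ρ i with hs
  set β := (fI X (zz X) ty ρ t I).coeff with hβ
  have L0 : 0 < L := by linarith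
  have hB := Real.exp_pos s
  have w0 : 0 < L ^ (-C) := Real.rpow_pos_of_pos L0 _
  have t0 := abs_nonneg τ
  obtain ⟨j, hj, hρ⟩ : ∃ j ∈ I, L / 20 ≤ ρ j := by
    by_contra k
    push Not at k
    have a1 := Finset.sum_le_card_nsmul I ρ (L / 20) fun i hi => (k i hi).le
    have a2 : (I.card : ℝ) ≤ 6 := by exact_mod_cast (by simpa using I.card_le_univ : I.card ≤ 6)
    rw [nsmul_eq_mul] at a1
    nlinarith
  have full : ‖∑ b ∈ β.support, tw (sc β (Real.exp s) (-(1 / 4))) τ b * cub q b‖ ≤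
      Real.exp s * L ^ (-C) * (1 + |τ|) / 2 := by
    rw [swb_full, norm_prod, ← Finset.mul_prod_erase I _ hj]
    have a1 := h4 q (ty j) (ρ j) (t + τ) hq hc hQ hρ
    have a2 := (Finset.prod_le_prod (fun i _ => norm_nonneg _) fun i _ =>
      h1 X q (ty i) (ρ i) (t + τ)).trans (swb_prod hC1 (I.erase j) ρ)
    have a3 : 1 + |t + τ| ≤ 2 * L ^ |A| * (1 + |τ|) := by
      have b1 : L ^ A ≤ L ^ |A| := Real.rpow_le_rpow_of_exponent_le L1 (le_abs_self A)
      have b2 : 1 ≤ L ^ |A| := Real.one_le_rpow L1 (abs_nonneg A)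
      nlinarith [abs_add_le t τ]
    have a4 : L ^ (-(C + |A| + 1)) * L ^ |A| * L = L ^ (-C) := by
      rw [← Real.rpow_add L0, ← Real.rpow_add_one L0.ne']
      congr 1; ring
    have a5 : Real.exp (ρ j) * Real.exp (∑ i ∈ I.erase j, ρ i) = Real.exp s := by
      rw [← Real.exp_add, Finset.add_sum_erase I ρ hj]
    have a6 : 0 < L ^ (-(C + |A| + 1)) := Real.rpow_pos_of_pos L0 _
    have a7 : 0 < L ^ |A| := Real.rpow_pos_of_pos L0 _
    calc _ ≤ Real.exp (ρ j) * L ^ (-(C + |A| + 1)) * (2 * L ^ |A| * (1 + |τ|)) *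
          (C1 ^ 6 * Real.exp (∑ i ∈ I.erase j, ρ i)) :=
          mul_le_mul (a1.trans (by gcongr)) a2 (Finset.prod_nonneg fun _ _ => norm_nonneg _)
            (by positivity)
      _ = Real.exp s * (L ^ (-(C + |A| + 1)) * L ^ |A| * (4 * C1 ^ 6)) * (1 + |τ|) / 2 := by
          rw [← a5]; ring
      _ ≤ _ := by rw [← a4]; gcongr
  have z0 : 0 < zz X := Real.exp_pos _
  have ns : ‖∑ b ∈ β.support.filter (fun b => ¬ PS b),
      tw (sc β (Real.exp s) (-(1 / 4))) τ b * cub q b‖ ≤ Real.exp s * L ^ (-C) / 2 := by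
    have ro : ∀ b ∈ β.support.filter (fun b => ¬ PS b), Ro (zz X) b ∧ ¬ PS b := fun b hb =>
      ⟨(sup_fI hX _ ty ρ t I b (Finsupp.mem_support_iff.1 (Finset.mem_filter.1 hb).1)).1,
        (Finset.mem_filter.1 hb).2⟩
    have a1 := Finset.sum_sq_le_sum_mul_sum_of_sq_le_mul (β.support.filter fun b => ¬ PS b)
      (r := fun b => ‖tw (sc β (Real.exp s) (-(1 / 4))) τ b * cub q b‖)
      (f := fun b => ‖β b‖ ^ 2 * vp (N b / Real.exp s))
      (g := fun b => (N b / Real.exp s) ^ (-(1 / 2) : ℝ) / vp (N b / Real.exp s))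
      (fun b _ => mul_nonneg (sq_nonneg _) (vp_nonneg _))
      (fun b _ => div_nonneg (Real.rpow_nonneg (div_nonneg (N_nonneg b) hB.le) _) (vp_nonneg _))
      fun b hb => by
        have b1 : 0 < N b / Real.exp s := div_pos (N_pos (ro b hb).1.1.ne_zero) hB
        have b2 := two_le_vp b1
        have b3 : ‖tw (sc β (Real.exp s) (-(1 / 4))) τ b * cub q b‖ ≤
            ‖β b‖ * (N b / Real.exp s) ^ (-(1 / 4) : ℝ) := by
          rw [norm_mul, norm_tw, sc, norm_mul, Complex.norm_real,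
            Real.norm_of_nonneg (by positivity)]
          exact mul_le_of_le_one_right (by positivity) (norm_cub_le _ _)
        refine (pow_le_pow_left₀ (norm_nonneg _) b3 2).trans (le_of_eq ?_)
        rw [mul_pow, ← Real.rpow_natCast ((N b / Real.exp s) ^ _), ← Real.rpow_mul b1.le]
        norm_num
        field_simp
    have a2 := (nw_mono (Finset.filter_subset (fun b => ¬ PS b) β.support) (a := β) (b := β)
      (fun _ _ => le_rfl) (Real.exp s)).trans (h3 ty ρ t I (by linarith) hI')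
    have a3 := h2 _ _ _ hB z0 ro
    have a4 : L ^ (2 * C + 3) * (L ^ (-C)) ^ 2 = L ^ 3 := by
      rw [← Real.rpow_natCast (L ^ (-C)), ← Real.rpow_mul L0.le, ← Real.rpow_add L0,
        ← Real.rpow_natCast]
      congr 1; push_cast; ring
    refine (norm_sum_le _ _).trans (abs_le_of_sq_le_sq' (a1.trans ((mul_le_mul a2 a3
      (Finset.sum_nonneg fun b _ => div_nonneg
        (Real.rpow_nonneg (div_nonneg (N_nonneg b) hB.le) _) (vp_nonneg _))
      (by positivity)).trans ?_)) (by positivity)).2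
    rw [← mul_div_assoc, div_le_iff₀ z0]
    calc _ = Real.exp s ^ 2 / 4 * (4 * (C3 * C2) * 1 * L) := by ring
      _ ≤ Real.exp s ^ 2 / 4 * (L * L * L) := by gcongr
      _ = (Real.exp s * L ^ (-C) / 2) ^ 2 * L ^ (2 * C + 3) := by
          linear_combination (-(Real.exp s ^ 2 / 4)) * a4
      _ ≤ _ := by gcongr
  rw [← Finset.sum_filter_add_sum_filter_not β.support PS] at full
  have key := norm_add_le _ _ |>.trans' (le_of_eq (congrArg norm (add_neg_cancel_right
    (∑ b ∈ β.support.filter PS, tw (sc β (Real.exp s) (-(1 / 4))) τ b * cub q b)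
    (∑ b ∈ β.support.filter (fun b => ¬ PS b),
      tw (sc β (Real.exp s) (-(1 / 4))) τ b * cub q b)).symm))
  rw [norm_neg] at key
  nlinarith [mul_pos hB w0]

end Vale.Agent.P006
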