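import Vale.Agent.P006.Disp
import Vale.Agent.P006.SWB
import Vale.Agent.P006.T1T
import Vale.Agent.P006.Comb
import Vale.Agent.P006.LowBoxA

/-! Boxes at low height. Throughout L = log X, z = zz X, and by np and nv_rough the product of the two
weighted norms is ≤ C X L ^ (7/40) exp (10 ∑ of the negative ρ i) (log z) ^ (- number of i with ρ i ≥ L / 7),
because X ^ (5 log 2 / log z) = L ^ (log 2 / 4). -/

namespace Vale.Agent.P006

open Vale.Agent.P026 Eis Complex MeasureTheory Filter Topology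
open scoped Classical ComplexConjugate

theorem nw_prod : ∃ C : ℝ, 0 < C ∧ ∀ᶠ X : ℝ in atTop, ∀ (ty : Fin 6 → Fin 3) (ρ : Fin 6 → ℝ)
    (t : ℝ) (I : Finset (Fin 6)) (j : Fin 6), ∑ i, ρ i = Real.log X →
      nw (fI X (zz X) ty ρ t I).coeff.support (fI X (zz X) ty ρ t I).coeff
          (Real.exp (∑ i ∈ I, ρ i)) *
        nw (fI X (zz X) ty ρ t Iᶜ).coeff.support (fI X (zz X) ty ρ t Iᶜ).coeff
          (Real.exp (∑ i ∈ Iᶜ, ρ i)) ≤
        C * X * Real.log X ^ (7 / 40 : ℝ) * Real.exp (10 * min (ρ j) 0) /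
          Real.log (zz X) ^ (Finset.univ.filter (fun i => Real.log X / 7 ≤ ρ i)).card := by
  obtain ⟨C, hC, h⟩ := lb_prod
  refine ⟨4 * C, by positivity, ?_⟩
  filter_upwards [h, lb_ev 1] with X h ⟨h0, h1, h2, _⟩ ty ρ t I j hs
  have hz := lb_lz1 (X := X) (by linarith) (by linarith)
  have k := h ty ρ Finset.univ hs.le
  rw [hs, Real.exp_add, Real.exp_log (by linarith), mul_comm (7 / 40 : ℝ),
    ← Real.rpow_def_of_pos (by linarith), ← Finset.prod_mul_prod_compl I] at k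
  have k1 := np X (zz X) ty ρ t I
  have k2 := np X (zz X) ty ρ t Iᶜ
  have k3 := lb_E_prod hz ρ j
  have p1 : 0 ≤ ∏ i ∈ I, nv X (zz X) (ty i) (ρ i) :=
    Finset.prod_nonneg fun i _ => nv_nonneg _ _ _ _
  calc _ ≤ (2 * ∏ i ∈ I, nv X (zz X) (ty i) (ρ i)) * (2 * ∏ i ∈ Iᶜ, nv X (zz X) (ty i) (ρ i)) :=
        mul_le_mul k1 k2 (nw_nonneg _ _ _) (by positivity)
    _ = 4 * ((∏ i ∈ I, nv X (zz X) (ty i) (ρ i)) * ∏ i ∈ Iᶜ, nv X (zz X) (ty i) (ρ i)) := by ring
    _ ≤ 4 * (C * (X * Real.log X ^ (7 / 40 : ℝ)) * (Real.exp (10 * min (ρ j) 0) /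
          Real.log (zz X) ^ (Finset.univ.filter (fun i => Real.log X / 7 ≤ ρ i)).card)) := by
        refine mul_le_mul_of_nonneg_left (k.trans ?_) (by norm_num)
        gcongr
    _ = _ := by ring
/-- Large sieve: sub_exists with τ = 0, box_split, bilw with Z = X ^ 12. -/
theorem box_ls : ∃ C : ℝ, 0 < C ∧ ∀ᶠ X : ℝ in atTop, ∀ (ty : Fin 6 → Fin 3) (ρ : Fin 6 → ℝ)
    (t : ℝ) (j : Fin 6), ∑ i, ρ i = Real.log X → (∀ i, ρ i ≤ 2 * Real.log X / 3) →
      ‖Box X (zz X) ty ρ t‖ ^ 2 ≤ C * X ^ (5 / 3 : ℝ) * Real.log X ^ (57 / 40 : ℝ) *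
        Real.exp (10 * min (ρ j) 0) /
          Real.log (zz X) ^ (Finset.univ.filter (fun i => Real.log X / 7 ≤ ρ i)).card := by
  obtain ⟨C, hC, h⟩ := nw_prod
  obtain ⟨D, hD, hb⟩ := bilw
  refine ⟨D * 13 ^ (5 / 4 : ℝ) * 3 * C, by positivity, ?_⟩
  filter_upwards [h, lb_ev 1] with X h ⟨h0, h1, h2, _⟩ ty ρ t j hs hρ
  have hX : 0 < X := by linarith
  have hX1 : 1 ≤ X := by linarith
  have hz := lb_lz1 (X := X) (by linarith) (by linarith)
  obtain ⟨I, i1, i2⟩ := sub_exists (L := Real.log X) (τ := 0) (by linarith) le_rfl ρ hs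
    (fun i => by linarith [hρ i])
  have hc := Finset.sum_add_sum_compl I ρ
  have k := hb _ _ (fI X (zz X) ty ρ t I).coeff (fI X (zz X) ty ρ t Iᶜ).coeff _ _ (X ^ 12)
    (Real.exp_pos (∑ i ∈ I, ρ i)) (Real.exp_pos (∑ i ∈ Iᶜ, ρ i)) (by positivity)
    (fun a ha => ⟨(lb_sup hX1 (zz X) ty ρ t I a ha).1.1, (lb_sup hX1 (zz X) ty ρ t I a ha).2⟩)
    (fun b hb => (lb_sup hX1 (zz X) ty ρ t Iᶜ b hb).1.1)
  rw [← lb_split, ← Real.exp_add, hc, hs, Real.exp_log hX, mul_assoc] at k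
  have a1 : Real.exp (∑ i ∈ I, ρ i) ≤ X ^ (2 / 3 : ℝ) := by
    rw [Real.rpow_def_of_pos hX]
    exact Real.exp_le_exp.2 (by linarith)
  have a2 : Real.exp (∑ i ∈ Iᶜ, ρ i) ≤ X ^ (2 / 3 : ℝ) := by
    rw [Real.rpow_def_of_pos hX]
    exact Real.exp_le_exp.2 (by linarith)
  have a3 := lb_ell h0
  have e1 : X ^ (5 / 3 : ℝ) = X ^ (2 / 3 : ℝ) * X := by
    rw [← Real.rpow_add_one hX.ne']
    norm_num
  have e2 : Real.log X ^ (57 / 40 : ℝ) = Real.log X ^ (5 / 4 : ℝ) * Real.log X ^ (7 / 40 : ℝ) := by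
    rw [← Real.rpow_add (by linarith)]
    norm_num
  calc _ ≤ _ := k
    _ ≤ D * (13 ^ (5 / 4 : ℝ) * Real.log X ^ (5 / 4 : ℝ)) * (3 * X ^ (2 / 3 : ℝ)) *
        (C * X * Real.log X ^ (7 / 40 : ℝ) * Real.exp (10 * min (ρ j) 0) /
          Real.log (zz X) ^ (Finset.univ.filter (fun i => Real.log X / 7 ≤ ρ i)).card) := by
        refine mul_le_mul (mul_le_mul (by gcongr) (by linarith) (by positivity) (by positivity))
          (h ty ρ t I j hs) (mul_nonneg (nw_nonneg _ _ _) (nw_nonneg _ _ _)) (by positivity)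
    _ = _ := by
        rw [e1, e2]
        ring
/-- Type I: box_neg or box_one with t1l, np, nv_rough. -/
theorem box_t1 (hT : TP cs) (A : ℝ) : ∀ᶠ X : ℝ in atTop, ∀ (ty : Fin 6 → Fin 3) (ρ : Fin 6 → ℝ)
    (t : ℝ) (j : Fin 6), |t| ≤ Real.log X ^ A → Good (Real.log X) ρ → 23 / 50 * Real.log X ≤ ρ j →
      ‖Box X (zz X) ty ρ t‖ ≤ X ^ (5 / 6 : ℝ) * Real.log X ^ (-10 : ℝ) := by
  filter_upwards [lb_nw, t1l hT A 11, box_neg, lb_ev 12,
    (tendsto_rpow_atTop (show (0 : ℝ) < 1 / 3 by norm_num)).comp Real.tendsto_log_atTop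
      |>.eventually_ge_atTop 10] with X h1 h2 h3 ⟨h0, h4, h5, h6⟩ h7 ty ρ t j ht hg hj
  have hX : 0 < X := by linarith
  have hL : 0 < Real.log X := by linarith
  by_cases hty : ty j = 1
  swap
  · refine (h3 _ ty ρ t j hg.1 hty (by linarith)).trans ?_
    rw [Real.rpow_def_of_pos hX, Real.rpow_def_of_pos hL, ← Real.exp_add]
    exact Real.one_le_exp (by linarith)
  have hc := Finset.sum_add_sum_compl {j} ρ
  rw [Finset.sum_singleton, hg.1] at hc
  have a1 : -(Real.log X / 2) ≤ ∑ i ∈ ({j}ᶜ : Finset (Fin 6)), ρ i := by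
    have b1 := Finset.card_nsmul_le_sum ({j}ᶜ : Finset (Fin 6)) ρ _ fun i _ => hg.2 i
    rw [Finset.card_compl, Finset.card_singleton, Fintype.card_fin, nsmul_eq_mul] at b1
    have b2 : Real.log X ^ (1 / 3 : ℝ) * Real.log X ^ (2 / 3 : ℝ) = Real.log X := by
      rw [← Real.rpow_add hL]
      norm_num
    have b3 : 10 * Real.log X ^ (2 / 3 : ℝ) ≤ Real.log X ^ (1 / 3 : ℝ) * Real.log X ^ (2 / 3 : ℝ) :=
      mul_le_mul_of_nonneg_right h7 (by positivity)
    norm_num at b1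
    linarith
  have k := h2 _ (fI X (zz X) ty ρ t {j}ᶜ).coeff (Real.exp (∑ i ∈ ({j}ᶜ : Finset (Fin 6)), ρ i))
    (Real.exp (ρ j)) t
    (by rw [Real.rpow_def_of_pos hX]; exact Real.exp_le_exp.2 (by linarith))
    (by rw [Real.rpow_def_of_pos hX]; exact Real.exp_le_exp.2 (by linarith))
    (by rw [← Real.exp_add, add_comm, hc, Real.exp_log hX]) ht (lb_sup (by linarith) _ ty ρ t {j}ᶜ)
  rw [← box_one _ _ _ _ _ hty] at k
  refine k.trans ?_
  refine (mul_le_mul_of_nonneg_right (mul_le_mul_of_nonneg_right (mul_le_mul_of_nonneg_right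
    (h1 ty ρ t {j}ᶜ (by linarith)) (by positivity)) (by positivity)) (by positivity)).trans ?_
  simp only [← Real.exp_mul, Real.rpow_def_of_pos hX, Real.rpow_def_of_pos hL, ← Real.exp_add]
  exact Real.exp_le_exp.2 (by linarith)
theorem lb_disp {X b u v w m C D C2 : ℝ} (hX : 0 < X) (h1 : 1 ≤ Real.log X) (hC : 0 < C)
    (hD : 0 < D) (hw : 1 ≤ w) (hm : m ≤ 0) (u0 : 0 ≤ u)
    (n3 : u ≤ Real.exp ((Real.log X - b) / 2 + Real.log (Real.log X) / 2))
    (n5 : v * u ≤ √(C * X * Real.log X ^ (7 / 40 : ℝ) * Real.exp (10 * m) / w))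
    (c1 : 2 * (D * √C) ≤ Real.exp (1 / 4 * Real.log (Real.log X)))
    (c2 : 2 * D ≤ Real.exp (1 * Real.log (Real.log X))) :
    D * u * (v * X ^ (1 / 3 : ℝ) * ((X ^ (1 / 3 : ℝ) / Real.exp b) ^ (1 / 4 : ℝ) +
        Real.log X ^ (-11 : ℝ)) + X ^ (1 / 3 : ℝ) * Real.exp b ^ (-(1 / 2) : ℝ) *
        (Real.exp b * Real.log X ^ (-(C2 + 12))) * Real.log X ^ C2) ≤
      X ^ (5 / 6 : ℝ) * (Real.log X ^ (-(21 / 2) : ℝ) +
        D * √C * Real.log X ^ (7 / 80 : ℝ) * Real.exp ((Real.log X / 3 - b) / 4) / √w) := by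
  have hL : 0 < Real.log X := by linarith
  have hl := Real.log_nonneg h1
  have w1 : 1 ≤ √w := Real.one_le_sqrt.2 hw
  have n6 : v * u ≤ √C * Real.exp (Real.log X / 2 + 7 / 80 * Real.log (Real.log X)) / √w := by
    refine n5.trans ?_
    rw [Real.sqrt_div (by positivity), mul_assoc, mul_assoc, Real.sqrt_mul hC.le]
    gcongr
    refine Real.sqrt_le_iff.2 ⟨(Real.exp_pos _).le, ?_⟩
    rw [← Real.exp_nat_mul, Real.rpow_def_of_pos hL, ← Real.exp_add]
    nth_rewrite 1 [← Real.exp_log hX]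
    rw [← Real.exp_add]
    exact Real.exp_le_exp.2 (by push_cast; linarith)
  simp only [Real.rpow_def_of_pos hX, Real.rpow_def_of_pos hL, ← Real.exp_sub, ← Real.exp_mul]
  generalize Real.log (Real.log X) = l at *
  generalize Real.log X = L at *
  have t1 : D * (v * u) * (Real.exp (L * (1 / 3)) * Real.exp ((L * (1 / 3) - b) * (1 / 4))) ≤
      Real.exp (L * (5 / 6)) *
        (D * √C * Real.exp (l * (7 / 80)) * Real.exp ((L / 3 - b) / 4) / √w) := by
    refine (mul_le_mul_of_nonneg_right (mul_le_mul_of_nonneg_left n6 hD.le)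
      (by positivity)).trans (le_of_eq ?_)
    have e : Real.exp (L / 2 + 7 / 80 * l) *
        (Real.exp (L * (1 / 3)) * Real.exp ((L * (1 / 3) - b) * (1 / 4))) =
        Real.exp (L * (5 / 6)) * (Real.exp (l * (7 / 80)) * Real.exp ((L / 3 - b) / 4)) := by
      simp only [← Real.exp_add]
      ring_nf
    linear_combination (D * √C / √w) * e
  have t2 : 2 * (D * (v * u) * (Real.exp (L * (1 / 3)) * Real.exp (l * -11))) ≤
      Real.exp (L * (5 / 6)) * Real.exp (l * -(21 / 2)) := by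
    have a : v * u ≤ √C * Real.exp (L / 2 + 7 / 80 * l) :=
      n6.trans (div_le_self (by positivity) w1)
    calc _ ≤ 2 * (D * (√C * Real.exp (L / 2 + 7 / 80 * l)) *
          (Real.exp (L * (1 / 3)) * Real.exp (l * -11))) := by gcongr
      _ = 2 * (D * √C) * (Real.exp (L / 2 + 7 / 80 * l) *
          (Real.exp (L * (1 / 3)) * Real.exp (l * -11))) := by ring
      _ ≤ Real.exp (1 / 4 * l) * (Real.exp (L / 2 + 7 / 80 * l) *
          (Real.exp (L * (1 / 3)) * Real.exp (l * -11))) := by gcongr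
      _ ≤ _ := by
          simp only [← Real.exp_add]
          exact Real.exp_le_exp.2 (by linarith)
  have t3 : 2 * (D * u * (Real.exp (L * (1 / 3)) * Real.exp (b * -(1 / 2)) *
      (Real.exp b * Real.exp (l * -(C2 + 12))) * Real.exp (l * C2))) ≤
      Real.exp (L * (5 / 6)) * Real.exp (l * -(21 / 2)) := by
    calc _ = 2 * D * u * (Real.exp (L * (1 / 3)) * Real.exp (b * -(1 / 2)) *
          (Real.exp b * Real.exp (l * -(C2 + 12))) * Real.exp (l * C2)) := by ring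
      _ ≤ Real.exp (1 * l) * Real.exp ((L - b) / 2 + l / 2) *
          (Real.exp (L * (1 / 3)) * Real.exp (b * -(1 / 2)) *
          (Real.exp b * Real.exp (l * -(C2 + 12))) * Real.exp (l * C2)) := by gcongr
      _ ≤ _ := by
          simp only [← Real.exp_add]
          exact Real.exp_le_exp.2 (by linarith)
  linarith

/-- Dispersion: box_split, Bil_comm, Bil_filter, disp with C1 = 11, swb, nw_prod. -/
theorem box_disp (hT : TP cs) (A : ℝ) : ∃ C C2 : ℝ, 0 < C ∧ 0 < C2 ∧ ∀ᶠ X : ℝ in atTop,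
    ∀ (ty : Fin 6 → Fin 3) (ρ : Fin 6 → ℝ) (t : ℝ) (I : Finset (Fin 6)), |t| ≤ Real.log X ^ A →
    ∑ i, ρ i = Real.log X → Real.log X / 3 ≤ ∑ i ∈ I, ρ i →
    ∑ i ∈ I, ρ i ≤ Real.log X / 2 - C2 * Real.log (Real.log X) →
      ‖Box X (zz X) ty ρ t‖ ≤ X ^ (5 / 6 : ℝ) * (Real.log X ^ (-(21 / 2) : ℝ) +
        C * Real.log X ^ (7 / 80 : ℝ) * Real.exp ((Real.log X / 3 - ∑ i ∈ I, ρ i) / 4) /
          √(Real.log (zz X) ^ (Finset.univ.filter (fun i => Real.log X / 7 ≤ ρ i)).card)) := by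
  obtain ⟨C, hC, h⟩ := nw_prod
  obtain ⟨D, hD, hd⟩ := disp hT
  obtain ⟨C2, hC2, hd⟩ := hd 11
  refine ⟨D * √C, C2, by positivity, hC2, ?_⟩
  filter_upwards [h, hd, swb (max A C2) (C2 + 12), lb_nw, lb_ev 1,
    lb_evC (2 * (D * √C)) (ε := 1 / 4) (by norm_num), lb_evC (2 * D) one_pos]
    with X h hd hsw hn ⟨h0, h1, h2, _⟩ c1 c2 ty ρ t I ht hs i1 i2
  have hX : 0 < X := by linarith
  have hL : 0 < Real.log X := by linarith
  have hz := lb_lz1 (X := X) hL (by linarith)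
  have hc := Finset.sum_add_sum_compl I ρ
  have i3 : 0 ≤ C2 * Real.log (Real.log X) := by positivity
  have s1 := hsw ty ρ t I (ht.trans (Real.rpow_le_rpow_of_exponent_le h1 (le_max_left _ _))) i1
    (by linarith)
  have k := hd ((fI X (zz X) ty ρ t Iᶜ).coeff.support.filter PS)
    ((fI X (zz X) ty ρ t I).coeff.support.filter PS) (fI X (zz X) ty ρ t Iᶜ).coeff
    (fI X (zz X) ty ρ t I).coeff (Real.exp (∑ i ∈ Iᶜ, ρ i)) (Real.exp (∑ i ∈ I, ρ i))
    (Real.exp (∑ i ∈ I, ρ i) * Real.log X ^ (-(C2 + 12))) (Real.exp_pos _)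
    (by rw [← Real.exp_add, add_comm, hc, hs, Real.exp_log hX])
    (by rw [Real.rpow_def_of_pos hX]; exact Real.exp_le_exp.2 (by linarith))
    (by rw [Real.rpow_def_of_pos hX, Real.rpow_def_of_pos hL, ← Real.exp_add]
        exact Real.exp_le_exp.2 (by linarith))
    (by positivity) (fun a ha => (Finset.mem_filter.1 ha).2.1)
    (fun b hb => ⟨(Finset.mem_filter.1 hb).2,
      lb_sup (by linarith) _ ty ρ t I b (Finset.mem_filter.1 hb).1⟩)
    (fun q q0 q1 q2 => s1 q q0 q1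
      (q2.trans (Real.rpow_le_rpow_of_exponent_le h1 (le_max_right _ _))))
  rw [← Bil_filter (fun a ha => (lb_sup (by linarith) _ ty ρ t Iᶜ a ha).1.1)
    (fun a ha => (lb_sup (by linarith) _ ty ρ t I a ha).1.1), Bil_comm, ← lb_split] at k
  have n1 := Real.sqrt_le_sqrt (nw_mono (Finset.filter_subset PS
    (fI X (zz X) ty ρ t Iᶜ).coeff.support) (fun n _ => le_refl ‖(fI X (zz X) ty ρ t Iᶜ).coeff n‖)
    (Real.exp (∑ i ∈ Iᶜ, ρ i)))
  have n2 := Real.sqrt_le_sqrt (nw_mono (Finset.filter_subset PS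
    (fI X (zz X) ty ρ t I).coeff.support) (fun n _ => le_refl ‖(fI X (zz X) ty ρ t I).coeff n‖)
    (Real.exp (∑ i ∈ I, ρ i)))
  have n3 := n1.trans (hn ty ρ t Iᶜ (by linarith))
  have n4 := Real.sqrt_le_sqrt (h ty ρ t I 0 hs)
  rw [Real.sqrt_mul (nw_nonneg _ _ _)] at n4
  have hw : 1 ≤ Real.log (zz X) ^ (Finset.univ.filter (fun i => Real.log X / 7 ≤ ρ i)).card :=
    one_le_pow₀ hz
  generalize Real.log (zz X) ^ (Finset.univ.filter (fun i => Real.log X / 7 ≤ ρ i)).card = w at *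
  have n5 := (mul_le_mul n2 n1 (Real.sqrt_nonneg _) (Real.sqrt_nonneg _)).trans n4
  have hb : ∑ i ∈ Iᶜ, ρ i = Real.log X - ∑ i ∈ I, ρ i := by linarith
  rw [hb] at n3 n5 k
  have u0 := Real.sqrt_nonneg (nw ((fI X (zz X) ty ρ t Iᶜ).coeff.support.filter PS)
    (fI X (zz X) ty ρ t Iᶜ).coeff (Real.exp (Real.log X - ∑ i ∈ I, ρ i)))
  exact k.trans (lb_disp hX h1 hC hD hw (min_le_right _ _) u0 n3 n5 c1 c2)
theorem lb_ls {X C x m w W a : ℝ} (hX : 0 < X) (hL : 0 < Real.log X)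
    (c1 : C ≤ Real.exp (1 / 20 * Real.log (Real.log X))) (hw : Real.exp w ≤ W)
    (h : x ^ 2 ≤ C * X ^ (5 / 3 : ℝ) * Real.log X ^ (57 / 40 : ℝ) * Real.exp (10 * m) / W)
    (ha : 59 / 40 * Real.log (Real.log X) + 10 * m - w ≤ 2 * a * Real.log (Real.log X)) :
    x ≤ X ^ (5 / 6 : ℝ) * Real.log X ^ a := by
  refine le_of_sq_le_sq (h.trans ?_) (by positivity)
  simp only [Real.rpow_def_of_pos hX, Real.rpow_def_of_pos hL]
  calc _ ≤ Real.exp (1 / 20 * Real.log (Real.log X)) * Real.exp (Real.log X * (5 / 3)) *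
        Real.exp (Real.log (Real.log X) * (57 / 40)) * Real.exp (10 * m) / Real.exp w := by gcongr
    _ ≤ _ := by
        simp only [← Real.exp_add, ← Real.exp_sub, ← Real.exp_nat_mul]
        exact Real.exp_le_exp.2 (by push_cast; linarith)
theorem lb_dp {X D b w W a : ℝ} (hL : 0 < Real.log X)
    (c2 : 2 * D ≤ Real.exp (1 / 10 * Real.log (Real.log X))) (hw : Real.exp w ≤ W)
    (ha : 3 / 16 * Real.log (Real.log X) + (Real.log X / 3 - b) / 4 - w / 2 ≤
      a * Real.log (Real.log X)) :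
    2 * (D * Real.log X ^ (7 / 80 : ℝ) * Real.exp ((Real.log X / 3 - b) / 4) / √W) ≤
      Real.log X ^ a := by
  have h1 : Real.exp (w / 2) ≤ √W := Real.le_sqrt_of_sq_le (by
    rw [← Real.exp_nat_mul]
    exact le_trans (le_of_eq (by push_cast; ring_nf)) hw)
  simp only [Real.rpow_def_of_pos hL]
  calc _ = 2 * D * (Real.exp (Real.log (Real.log X) * (7 / 80)) *
        Real.exp ((Real.log X / 3 - b) / 4)) / √W := by ring
    _ ≤ Real.exp (1 / 10 * Real.log (Real.log X)) * (Real.exp (Real.log (Real.log X) * (7 / 80)) *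
        Real.exp ((Real.log X / 3 - b) / 4)) / Real.exp (w / 2) := by gcongr
    _ ≤ _ := by
        simp only [← Real.exp_add, ← Real.exp_sub]
        exact Real.exp_le_exp.2 (by linarith)
theorem lb_half {X : ℝ} (hL : 0 < Real.log X) (h : 2 ≤ Real.log (Real.log X)) :
    2 * Real.log X ^ (-(21 / 2) : ℝ) ≤ Real.log X ^ (-10 : ℝ) := by
  simp only [Real.rpow_def_of_pos hL]
  have h1 : 2 ≤ Real.exp (Real.log (Real.log X) / 2) := by
    linarith [Real.add_one_le_exp (Real.log (Real.log X) / 2)]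
  refine (mul_le_mul_of_nonneg_right h1 (Real.exp_pos _).le).trans ?_
  rw [← Real.exp_add]
  exact Real.exp_le_exp.2 (by linarith)

/-- Take l = D log log X with D = max C2 50 and C3 = 10 D. Cases: some ρ j ≥ 23/50 L (box_t1); some
ρ j < - l (box_ls); some subset sum in [L/3 + l, L/2 - l] (box_disp); otherwise comb, and box_ls (four big
variables, exponent 57/80 - 2) or box_disp (three big variables, exponent 7/80 - 3/2). -/
theorem low_box (hT : TP cs) (A : ℝ) : ∃ C3 : ℝ, 0 < C3 ∧ ∀ᶠ X : ℝ in atTop,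
    ∀ (ty : Fin 6 → Fin 3) (ρ : Fin 6 → ℝ) (t : ℝ), |t| ≤ Real.log X ^ A → Good (Real.log X) ρ →
      ‖Box X (zz X) ty ρ t‖ ≤ X ^ (5 / 6 : ℝ) * (Real.log X ^ (-10 : ℝ) +
        if Exc (Real.log X) (C3 * Real.log (Real.log X)) ρ then Real.log X ^ (-(6 / 5) : ℝ) else 0) := by
  obtain ⟨C, hC, h1⟩ := box_ls
  obtain ⟨D, C2, hD, hC2, h2⟩ := box_disp hT A
  have m1 := le_max_left C2 50
  have m2 := le_max_right C2 50
  generalize max C2 50 = m at m1 m2
  refine ⟨10 * m, by linarith, ?_⟩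
  filter_upwards [h1, h2, box_t1 hT A, lb_ev 2, lb_ev (1000 * m),
    lb_evC C (ε := 1 / 20) (by norm_num), lb_evC (2 * D) (ε := 1 / 10) (by norm_num)]
    with X h1 h2 h3 ⟨h0, h4, h5, _⟩ ⟨_, _, _, h6⟩ c1 c2 ty ρ t ht hg
  have hX : 0 < X := by linarith
  have hL : 0 < Real.log X := by linarith
  have hz := lb_lz (X := X) hL (by linarith)
  have hz1 := lb_lz1 (X := X) hL (by linarith)
  have hw : 1 ≤ Real.log (zz X) ^ (Finset.univ.filter (fun i => Real.log X / 7 ≤ ρ i)).card :=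
    one_le_pow₀ hz1
  have hwk : ∀ k : ℕ, k ≤ (Finset.univ.filter (fun i => Real.log X / 7 ≤ ρ i)).card →
      Real.exp (k * (39 / 40 * Real.log (Real.log X))) ≤
        Real.log (zz X) ^ (Finset.univ.filter (fun i => Real.log X / 7 ≤ ρ i)).card := by
    intro k hk
    rw [Real.exp_nat_mul]
    exact (pow_le_pow_left₀ (Real.exp_pos _).le hz k).trans (pow_le_pow_right₀ hz1 hk)
  have p1 : 0 < X ^ (5 / 6 : ℝ) := by positivity
  have p2 : 0 < Real.log X ^ (-10 : ℝ) := by positivity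
  have p3 : 0 < Real.log X ^ (-(6 / 5) : ℝ) := by positivity
  have l1 : 50 * Real.log (Real.log X) ≤ m * Real.log (Real.log X) := by gcongr
  have l2 : C2 * Real.log (Real.log X) ≤ m * Real.log (Real.log X) := by gcongr
  have easy : ‖Box X (zz X) ty ρ t‖ ≤ X ^ (5 / 6 : ℝ) * Real.log X ^ (-10 : ℝ) →
      ‖Box X (zz X) ty ρ t‖ ≤ X ^ (5 / 6 : ℝ) * (Real.log X ^ (-10 : ℝ) +
        if Exc (Real.log X) (10 * m * Real.log (Real.log X)) ρ then Real.log X ^ (-(6 / 5) : ℝ)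
        else 0) := fun h => by
    refine h.trans (mul_le_mul_of_nonneg_left (le_add_of_nonneg_right ?_) p1.le)
    split_ifs
    exacts [p3.le, le_rfl]
  by_cases a1 : ∃ j, 23 / 50 * Real.log X ≤ ρ j
  · obtain ⟨j, hj⟩ := a1
    exact easy (h3 ty ρ t j ht hg hj)
  push Not at a1
  have b1 := fun j => h1 ty ρ t j hg.1 fun i => by linarith [a1 i]
  by_cases a2 : ∃ j, ρ j < -(m * Real.log (Real.log X))
  · obtain ⟨j, hj⟩ := a2
    refine easy (lb_ls hX hL c1 (w := 0) (by simpa using hw) (b1 j) ?_)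
    linarith [min_le_left (ρ j) 0]
  push Not at a2
  by_cases a3 : ∃ I : Finset (Fin 6), Real.log X / 3 + m * Real.log (Real.log X) ≤ ∑ i ∈ I, ρ i ∧
      ∑ i ∈ I, ρ i ≤ Real.log X / 2 - m * Real.log (Real.log X)
  · obtain ⟨I, i1, i2⟩ := a3
    refine easy ((h2 ty ρ t I ht hg.1 (by linarith) (by linarith)).trans
      (mul_le_mul_of_nonneg_left ?_ p1.le))
    have q1 := lb_dp (b := ∑ i ∈ I, ρ i) (a := -10) hL c2 (w := 0) (by simpa using hw) (by linarith)
    have q2 := lb_half hL h5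
    linarith
  obtain ⟨e, hc⟩ := comb (l := m * Real.log (Real.log X)) (by linarith) (by linarith) ρ hg.1 a2
    (fun i => (a1 i).le) fun I hI => a3 ⟨I, hI⟩
  rw [if_pos (by rwa [mul_assoc])]
  rcases hc with hc | ⟨hc, I, i1, i2⟩
  · refine (lb_ls hX hL c1 (hwk 4 hc) (b1 0) (a := -(6 / 5)) ?_).trans
      (mul_le_mul_of_nonneg_left (by linarith) p1.le)
    push_cast
    linarith [min_le_right (ρ 0) 0]
  · refine (h2 ty ρ t I ht hg.1 i1 (by linarith)).trans (mul_le_mul_of_nonneg_left ?_ p1.le)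
    have q1 := lb_dp (b := ∑ i ∈ I, ρ i) (a := -(6 / 5)) hL c2 (hwk 3 hc) (by push_cast; linarith)
    have q2 := lb_half hL h5
    linarith

end Vale.Agent.P006
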