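import Vale.Agent.P006.Wt
import Vale.Agent.P026.MelC

/-! From the Voronoi identity with a polar term to smooth sums. Model: P026.MelB, P026.MelC. -/

namespace Vale.Agent.P006

open Vale.Agent.P026 Eis Complex MeasureTheory Filter Topology
open scoped Classical ComplexConjugate

/-- Extension of mellin_kap (use kp_mellin_kk at s = 2 u + 2/3). -/
theorem mellin_kap' {u : ℂ} (hu : -(1 / 3) < u.re) :
    HasMellin (fun y : ℝ => (kap y : ℂ)) (2 * u) (melG u) := by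
  have hs : 0 < (2 * u + 2 / 3).re := by
    simp; linarith
  obtain ⟨h1, h2⟩ := kp_mellin_kk hs
  have hE : Set.EqOn (fun t : ℝ => (t : ℂ) ^ (2 * u - 1) • (kap t : ℂ))
      (fun t : ℝ => (t : ℂ) ^ (2 * u - 1) • ((t : ℂ) ^ (2 / 3 : ℂ) • (kk (c0 * t) : ℂ)))
      (Set.Ioi 0) := by
    intro t ht
    have ht' : 0 < t := ht
    beta_reduce
    unfold kap
    rw [ofReal_mul, ofReal_cpow ht'.le, smul_eq_mul (_ ^ (2 / 3 : ℂ))]
    norm_num
  constructor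
  · have a1 := (MellinConvergent.comp_mul_left (f := fun y : ℝ => (kk y : ℂ)) c0_pos).2 h1
    have a2 := (MellinConvergent.cpow_smul (f := fun y : ℝ => (kk (c0 * y) : ℂ))).2 a1
    exact IntegrableOn.congr_fun a2 hE.symm measurableSet_Ioi
  · have a1 := mellin_comp_mul_left (fun y : ℝ => (kk y : ℂ)) (2 * u + 2 / 3) c0_pos
    have a2 := mellin_cpow_smul (fun y : ℝ => (kk (c0 * y) : ℂ)) (2 * u) (2 / 3)
    have a3 : mellin (fun y : ℝ => (kap y : ℂ)) (2 * u) =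
        mellin (fun t : ℝ => (t : ℂ) ^ (2 / 3 : ℂ) • (kk (c0 * t) : ℂ)) (2 * u) :=
      setIntegral_congr_fun measurableSet_Ioi hE
    rw [a3, a2, a1, h2, smul_eq_mul, show (2 * u + 2 / 3) / 2 = u + 1 / 3 by ring,
      show u + 1 / 3 + 1 / 3 = u + 2 / 3 by ring,
      show -(2 * u + 2 / 3) = -(2 * u) - 2 / 3 by ring, melG]
    ring
theorem kap_le_rpow {a : ℝ} (ha : -(2 / 3) ≤ a) : ∃ C : ℝ, 0 < C ∧ ∀ y : ℝ, 0 < y →
    kap y ≤ C * y ^ (-a) := by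
  obtain ⟨C0, hC0, h0⟩ := kp_decay 0
  obtain ⟨n, hn⟩ := exists_nat_ge a
  obtain ⟨C1, hC1, h1⟩ := kap_le n
  refine ⟨C0 + C1, by positivity, fun y hy => ?_⟩
  have h2 := Real.rpow_pos_of_pos hy (-a)
  rcases le_total y 1 with h | h
  · have a1 : y ^ (2 / 3 : ℝ) ≤ y ^ (-a) :=
      Real.rpow_le_rpow_of_exponent_ge hy h (by linarith)
    have a2 := h0 (c0 * y) (mul_pos c0_pos hy)
    simp only [mul_zero, pow_zero, div_one] at a2
    have a3 := mul_le_mul a1 a2 (kk_pos _).le h2.le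
    unfold kap
    nlinarith
  · have a1 : y ^ (-(n : ℝ)) ≤ y ^ (-a) := Real.rpow_le_rpow_of_exponent_le h (by linarith)
    have a2 := h1 y hy
    rw [div_eq_mul_inv, ← Real.rpow_natCast, ← Real.rpow_neg hy.le] at a2
    nlinarith

theorem v3_div {a : Eis → ℂ} {C : ℝ} (ha : ∀ r, ‖a r‖ ≤ C * ab r) (r : Eis) :
    ‖a r / (ab r : ℂ)‖ ≤ C ∧ ‖a r / (ab r : ℂ)‖ ≤ C * ab r := by
  have hC : 0 ≤ C := by simpa [ab] using (norm_nonneg _).trans (ha 1)
  by_cases hr : r = 0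
  · simp [hr, ab, hC]
  have h1 := ab_pos hr
  have h2 : ‖a r / (ab r : ℂ)‖ ≤ C := by
    rw [norm_div, norm_real, Real.norm_of_nonneg h1.le, div_le_iff₀ h1]
    exact ha r
  exact ⟨h2, h2.trans (le_mul_of_one_le_right hC (Real.one_le_sqrt.2 (one_le_N hr)))⟩

theorem summable_Ph {a : Eis → ℂ} {C : ℝ} (ha : ∀ r, ‖a r‖ ≤ C * ab r) {v : ℝ} (hv : 0 < v) :
    Summable fun r => a r / (ab r : ℂ) * (kap (ab r * v) : ℂ) := by
  refine Summable.of_norm_bounded ((summable_kap 0 hv).mul_left C) fun r => ?_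
  have h := kap_nonneg (mul_nonneg (ab_nonneg r) hv.le)
  rw [norm_mul, norm_real, Real.norm_of_nonneg h, pow_zero, one_mul]
  exact mul_le_mul_of_nonneg_right (v3_div ha r).1 h

theorem v3_Ph_le {a : Eis → ℂ} {C : ℝ} (ha : ∀ r, ‖a r‖ ≤ C * ab r) :
    ∃ D : ℝ, ∀ u : ℝ, 0 < u → ‖Ph a u‖ ≤ D * u ^ (-4 : ℝ) := by
  obtain ⟨D, hD, h⟩ := kap_le_rpow (a := 4) (by norm_num)
  have hC : 0 ≤ C := (norm_nonneg _).trans (v3_div ha 0).1
  refine ⟨C * D * ∑' r : Eis, N r ^ (-2 : ℝ), fun u hu => ?_⟩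
  refine (tsum_of_norm_bounded ((summable_N_rpow one_lt_two).hasSum.mul_left
    (C * D * u ^ (-4 : ℝ))) fun r => ?_).trans_eq (by ring)
  by_cases hr : r = 0
  · simp [hr, ab]
  have h1 := ab_pos hr
  have h2 := h _ (mul_pos h1 hu)
  have e : ab r ^ (-4 : ℝ) = N r ^ (-2 : ℝ) := by
    rw [← ab_sq, ← Real.rpow_natCast, ← Real.rpow_mul h1.le]
    norm_num
  rw [Real.mul_rpow h1.le hu.le, e] at h2
  rw [norm_mul, norm_real, Real.norm_of_nonneg (kap_pos (mul_pos h1 hu)).le]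
  exact (mul_le_mul (v3_div ha r).1 h2 (kap_pos (mul_pos h1 hu)).le hC).trans_eq (by ring)

theorem v3_hasA {y : ℝ} (hy : 0 < y) {u : ℂ} (hu : -(1 / 3) < u.re) :
    HasMellin (fun v : ℝ => (kap (y * v) : ℂ)) (2 * u) ((y : ℂ) ^ (-(2 * u)) * melG u) := by
  have h := mellin_kap' hu
  refine ⟨(MellinConvergent.comp_mul_left (f := fun v : ℝ => (kap v : ℂ)) hy).2 h.1, ?_⟩
  rw [mellin_comp_mul_left (fun v : ℝ => (kap v : ℂ)) _ hy, h.2]
  rfl

theorem v3_hasB {y : ℝ} (hy : 0 < y) {u : ℂ} (hu : u.re < 1 / 3) :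
    HasMellin (fun v : ℝ => (kap (y * v⁻¹) : ℂ)) (2 * u) ((y : ℂ) ^ (2 * u) * melG (-u)) := by
  have h := v3_hasA hy (u := -u) (by rw [neg_re]; linarith)
  constructor
  · have := (MellinConvergent.comp_rpow (f := fun v : ℝ => (kap (y * v) : ℂ))
      (s := 2 * u) (a := -1) (by norm_num)).2 (by
        rw [show 2 * u / ((-1 : ℝ) : ℂ) = 2 * -u by push_cast; ring]
        exact h.1)
    simpa only [Real.rpow_neg_one] using this
  · rw [mellin_comp_inv (fun v : ℝ => (kap (y * v) : ℂ)), show -(2 * u) = 2 * -u by ring, h.2,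
      show -(2 * -u) = 2 * u by ring]

theorem v3_meas (Y t : ℝ) : Measurable (melK2 Y t) := by
  have h1 := (melg_diff Y t).continuous.measurable
  have h2 : Measurable (Function.uncurry fun v τ : ℝ =>
      melg Y t ((2 : ℝ) + τ * I) * (v : ℂ) ^ (2 * (((2 : ℝ) : ℂ) + τ * I))) := by
    refine Measurable.mul (h1.comp (by fun_prop)) (Measurable.pow (by fun_prop) (by fun_prop))
  exact h2.stronglyMeasurable.integral_prod_right.measurable

theorem v3_K_le (Y t : ℝ) {σ : ℝ} (hσ : σ ≤ 2) :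
    ∃ C : ℝ, 0 ≤ C ∧ ∀ v : ℝ, 0 < v → ‖melK2 Y t v‖ ≤ C * v ^ (2 * σ) := by
  refine ⟨∫ τ : ℝ, ‖melg Y t (σ + τ * I)‖, integral_nonneg fun _ => norm_nonneg _, fun v hv => ?_⟩
  rw [melK2, ← melK_shift Y t hσ hv, melK, ← integral_mul_const]
  refine (norm_integral_le_integral_norm _).trans_eq (integral_congr_ae (.of_forall fun τ => ?_))
  simp only [norm_mul, norm_cpow_eq_rpow_re_of_pos hv]
  simp

theorem v3_int (Y t : ℝ) {h : ℝ → ℂ} (hm : Measurable h) {β D : ℝ} (hβ : -4 < β)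
    (hb : ∀ v, 0 < v → ‖h v‖ ≤ D * v ^ β) :
    IntegrableOn (fun v : ℝ => melK2 Y t v * ((v : ℂ)⁻¹ * h v)) (Set.Ioi 0) := by
  have h0 : Measurable fun v : ℝ => melK2 Y t v * ((v : ℂ)⁻¹ * h v) :=
    (v3_meas Y t).mul ((measurable_ofReal.inv).mul hm)
  have key : ∀ σ : ℝ, σ ≤ 2 → ∃ C : ℝ, ∀ v : ℝ, 0 < v →
      ‖melK2 Y t v * ((v : ℂ)⁻¹ * h v)‖ ≤ C * v ^ (2 * σ + (-1 + β)) := by
    intro σ hσ
    obtain ⟨C, hC, h1⟩ := v3_K_le Y t hσ
    refine ⟨C * D, fun v hv => ?_⟩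
    rw [norm_mul, norm_mul, norm_inv, norm_real, Real.norm_of_nonneg hv.le, Real.rpow_add hv,
      Real.rpow_add hv, Real.rpow_neg_one]
    exact (mul_le_mul (h1 v hv) (mul_le_mul_of_nonneg_left (hb v hv) (inv_pos.2 hv).le)
      (by positivity) (by positivity)).trans_eq (by ring)
  obtain ⟨C1, h1⟩ := key 2 le_rfl
  obtain ⟨C2, h2⟩ := key (-(β + 1) / 2) (by linarith)
  rw [← Set.Ioc_union_Ioi_eq_Ioi zero_le_one]
  refine IntegrableOn.union ?_ ?_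
  · rw [integrableOn_Ioc_iff_integrableOn_Ioo]
    refine Integrable.mono' (((intervalIntegral.integrableOn_Ioo_rpow_iff
      (s := 2 * 2 + (-1 + β)) one_pos).2 (by linarith)).const_mul C1) h0.aestronglyMeasurable ?_
    filter_upwards [ae_restrict_mem measurableSet_Ioo] with v hv using h1 v hv.1
  · refine Integrable.mono' ((integrableOn_Ioi_rpow_of_lt (a := 2 * (-(β + 1) / 2) + (-1 + β))
      (by linarith) one_pos).const_mul C2) h0.aestronglyMeasurable ?_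
    filter_upwards [ae_restrict_mem measurableSet_Ioi] with v hv using h2 v (one_pos.trans hv)

/-- The weight as a function of a real variable. -/
noncomputable def v3w (Y t x : ℝ) : ℂ :=
  (w (x / Y) : ℂ) * cexp (I * ((t * Real.log x : ℝ) : ℂ))

theorem v3_weight {Y : ℝ} (hY : 0 < Y) (t : ℝ) {y : ℝ} (hy : 0 < y) :
    ∫ v in Set.Ioi (0 : ℝ), melK2 Y t v * ((v : ℂ)⁻¹ * (kap (y * v) : ℂ)) =
      v3w Y t (y ^ (2 : ℝ)) := by
  have h := (melK_fub (melg_int Y t 2) 2 (melB_hasA hy (u := (2 : ℝ)) (by simp)).1).2.2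
  rw [show (∫ v in Set.Ioi (0 : ℝ), melK2 Y t v * ((v : ℂ)⁻¹ * (kap (y * v) : ℂ))) = _ from h]
  have hl : Real.log (y ^ (2 : ℝ)) = 2 * Real.log y := Real.log_rpow hy 2
  have hπ : ((√Real.pi : ℝ) : ℂ) ≠ 0 := ofReal_ne_zero.2 (Real.sqrt_pos.2 Real.pi_pos).ne'
  have e : ∀ τ : ℝ, melg Y t ((2 : ℝ) + τ * I) *
      mellin (fun v : ℝ => (kap (y * v) : ℂ)) (2 * ((2 : ℝ) + τ * I)) =
      cexp (((2 : ℝ) + τ * I + t * I) ^ 2 / 4 -
        ((2 : ℝ) + τ * I + t * I) * Real.log (y ^ (2 : ℝ) / Y)) *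
        (cexp (I * ((t * Real.log (y ^ (2 : ℝ)) : ℝ) : ℂ)) / (2 * (√Real.pi : ℝ))) := fun τ => by
    have hu : 0 < (((2 : ℝ) : ℂ) + τ * I).re := by simp
    rw [(melB_hasA hy hu).2, melg, melE, cpow_def_of_ne_zero (ofReal_ne_zero.2 hy.ne'),
      ← ofReal_log hy.le, Real.log_div (Real.rpow_pos_of_pos hy 2).ne' hY.ne', hl, mul_assoc,
      mul_left_comm (melG _)⁻¹, inv_mul_cancel₀ (melG_ne hu), mul_one, div_mul_eq_mul_div,
      ← mul_div_assoc, ← exp_add, ← exp_add]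
    congr 2
    push_cast
    ring
  simp only [e]
  rw [integral_mul_const, melA_gauss, v3w, w]
  field_simp

theorem v3_polar {Y : ℝ} (hY : 0 < Y) (t : ℝ) :
    (∫ v in Set.Ioi (0 : ℝ), melK2 Y t v * ((v : ℂ)⁻¹ * ((v ^ (-(2 / 3) : ℝ) : ℝ) : ℂ))) *
      melG (1 / 3) = 1 / 2 * mellin (v3w Y t) (1 / 3) := by
  have hA : ∀ v : ℝ, 0 < v → HasMellin (fun y : ℝ => (kap (v * y) : ℂ)) (2 * (1 / 3))
      (((v ^ (-(2 / 3) : ℝ) : ℝ) : ℂ) * melG (1 / 3)) := fun v hv => by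
    have := v3_hasA hv (u := 1 / 3) (by norm_num)
    rwa [show -(2 * (1 / 3) : ℂ) = ((-(2 / 3) : ℝ) : ℂ) by push_cast; ring, melC_cpow hv] at this
  obtain ⟨F, hF⟩ : ∃ F : ℝ → ℝ → ℂ, F = fun v y : ℝ => melK2 Y t v * ((v : ℂ)⁻¹ *
      ((y : ℂ) ^ (2 * (1 / 3) - 1 : ℂ) • (kap (v * y) : ℂ))) := ⟨_, rfl⟩
  have hI : Integrable (Function.uncurry F)
      ((volume.restrict (Set.Ioi (0 : ℝ))).prod (volume.restrict (Set.Ioi (0 : ℝ)))) := by
    have h1 := v3_meas Y t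
    have h2 := continuous_kap.measurable
    have hm : Measurable (Function.uncurry F) := by
      rw [hF]
      exact (h1.comp measurable_fst).mul ((measurable_ofReal.comp measurable_fst).inv.mul
        (((measurable_ofReal.comp measurable_snd).pow_const _).mul
          (measurable_ofReal.comp (h2.comp (measurable_fst.mul measurable_snd)))))
    rw [integrable_prod_iff hm.aestronglyMeasurable]
    constructor
    · filter_upwards [ae_restrict_mem measurableSet_Ioi] with v hv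
      rw [hF]
      exact (((hA v hv).1).const_mul (v : ℂ)⁻¹).const_mul (melK2 Y t v)
    · have h3 := (v3_int Y t (h := fun v => ((v ^ (-(2 / 3) : ℝ) : ℝ) : ℂ) * melG (1 / 3))
        (by fun_prop) (β := -(2 / 3)) (D := ‖melG (1 / 3)‖) (by norm_num) fun v hv => by
          rw [norm_mul, norm_real, Real.norm_of_nonneg (by positivity), mul_comm]).norm
      refine h3.congr ?_
      filter_upwards [ae_restrict_mem measurableSet_Ioi] with v hv
      simp only [hF, Function.uncurry_apply_pair, norm_mul _ (_ * _), norm_mul _ (_ • _)]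
      rw [integral_const_mul, integral_const_mul, melB_norm_int, ← (hA v hv).2, mellin]
      intro y hy
      refine ⟨y ^ (-(1 / 3) : ℝ) * kap (v * y),
        mul_nonneg (Real.rpow_nonneg (le_of_lt hy) _) (kap_pos (mul_pos hv hy)).le, ?_⟩
      rw [ofReal_mul, ← melC_cpow hy, smul_eq_mul]
      norm_num
  have h1 := integral_integral_swap hI
  have h2 := mellin_comp_rpow (v3w Y t) (2 * (1 / 3)) 2
  rw [show (2 * (1 / 3) : ℂ) / ((2 : ℝ) : ℂ) = 1 / 3 by push_cast; ring, real_smul, abs_two,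
    show ((2⁻¹ : ℝ) : ℂ) = 1 / 2 by push_cast; ring] at h2
  rw [← h2, ← integral_mul_const, mellin]
  refine Eq.trans (setIntegral_congr_fun measurableSet_Ioi fun v hv => ?_)
    (h1.trans (setIntegral_congr_fun measurableSet_Ioi fun y hy => ?_))
  · simp only [hF]
    rw [integral_const_mul, integral_const_mul, ← mellin, (hA v hv).2]
    ring
  · simp only [hF]
    rw [← v3_weight hY t hy, smul_eq_mul, ← integral_const_mul]
    refine integral_congr_ae (.of_forall fun v => ?_)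
    simp only [smul_eq_mul, mul_comm v y]
    ring

theorem v3_shift {Y x : ℝ} (hY : 0 < Y) (hx : 0 < x) :
    Real.exp (1 / 16) * √Y * w (x / (Y * Real.exp (1 / 4))) = √x * w (x / Y) := by
  have h := rpow_mul_w (1 / 2) (div_pos hx hY)
  rw [← Real.sqrt_eq_rpow, Real.sqrt_div hx.le, div_div, show ((1 / 2) ^ 2 / 4 : ℝ) = 1 / 16 by
    norm_num, show (1 / 2 / 2 : ℝ) = 1 / 4 by norm_num] at h
  have h1 := Real.sqrt_pos.2 hY
  rw [mul_right_comm, ← h]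
  field_simp

theorem v3_MI {Y : ℝ} (hY : 0 < Y) (t : ℝ) :
    ((Real.exp (1 / 16) * √Y : ℝ) : ℂ) * mellin (v3w (Y * Real.exp (1 / 4)) t) (1 / 3) =
      MI Y t := by
  rw [mellin, MI, ← integral_const_mul]
  refine setIntegral_congr_fun measurableSet_Ioi fun x hx => ?_
  have hx0 : 0 < x := hx
  have e : (x : ℂ) ^ (-(1 / 6) + t * I) = (x : ℂ) ^ (1 / 3 - 1 : ℂ) * (√x : ℝ) *
      cexp (I * ((t * Real.log x : ℝ) : ℂ)) := by
    rw [Real.sqrt_eq_rpow, ← melC_cpow hx0]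
    simp only [cpow_def_of_ne_zero (ofReal_ne_zero.2 hx0.ne'), ← ofReal_log hx0.le, ← exp_add]
    congr 1
    push_cast
    ring
  have h := congrArg ofReal (v3_shift hY hx0)
  simp only [gg, v3w, lg_one, smul_eq_mul, e]
  rw [ofReal_mul _ (w _), ofReal_mul _ (w _)] at h
  linear_combination (x : ℂ) ^ (1 / 3 - 1 : ℂ) * cexp (I * ((t * Real.log x : ℝ) : ℂ)) * h

theorem v3_melG : 2 * ((c0 ^ (4 / 3 : ℝ) / Real.Gamma (2 / 3) : ℝ) : ℂ) * melG (1 / 3) = 1 := by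
  have h1 : (0 : ℝ) < Real.Gamma (2 / 3) := Real.Gamma_pos_of_pos (by norm_num)
  have h2 := Real.rpow_pos_of_pos c0_pos (4 / 3)
  rw [melG, show -(2 * (1 / 3) : ℂ) - 2 / 3 = ((-(4 / 3) : ℝ) : ℂ) by push_cast; ring,
    melC_cpow c0_pos, show (1 / 3 + 1 / 3 : ℂ) = ((2 / 3 : ℝ) : ℂ) by push_cast; ring,
    show (1 / 3 + 2 / 3 : ℂ) = 1 by ring, Gamma_one, Gamma_ofReal, Real.rpow_neg c0_pos.le]
  have h3 := ofReal_ne_zero.2 h1.ne'
  have h4 := ofReal_ne_zero.2 h2.ne'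
  push_cast
  field_simp

/-- The dual kernel. -/
noncomputable def v3H (Y t y : ℝ) : ℂ :=
  ∫ v in Set.Ioi (0 : ℝ), melK2 Y t v * ((v : ℂ)⁻¹ * (kap (y * v⁻¹) : ℂ))

theorem v3H_eq (Y t : ℝ) {σ y : ℝ} (hσ : σ < 1 / 3) (hy : 0 < y) : v3H Y t y =
    ∫ τ : ℝ, melg Y t (σ + τ * I) * melG (-(σ + τ * I)) * (y : ℂ) ^ (2 * (σ + τ * I)) := by
  have h := (melK_fub (melg_int Y t σ) σ (v3_hasB hy (u := σ) (by simpa using hσ)).1).2.2
  have e : v3H Y t y = ∫ v in Set.Ioi (0 : ℝ), melK (fun τ => melg Y t (σ + τ * I)) σ v *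
      ((v : ℂ)⁻¹ * (kap (y * v⁻¹) : ℂ)) :=
    setIntegral_congr_fun measurableSet_Ioi fun v hv => by
      simp only [melK2, melK_shift Y t (show σ ≤ 2 by linarith) hv]
  rw [e, h]
  refine integral_congr_ae (Eventually.of_forall fun τ => ?_)
  simp only [(v3_hasB hy (u := σ + τ * I) (by simpa using hσ)).2]
  ring

theorem v3P_bound (m : ℕ) : ∃ C : ℝ, 0 < C ∧ ∀ Y t τ : ℝ, 0 < Y →
    ‖melg Y t ((-m : ℝ) + τ * I) * melG (-((-m : ℝ) + τ * I))‖ ≤
      C * Y⁻¹ ^ m * (Real.exp (-(τ + t) ^ 2 / 4) * (1 + |τ|) ^ (4 * m)) := by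
  have hc0 := c0_pos
  have hπ : 0 < √Real.pi := Real.sqrt_pos.2 Real.pi_pos
  refine ⟨Real.exp ((-m : ℝ) ^ 2 / 4) / (2 * √Real.pi) * c0 ^ (-(4 * m) : ℝ) *
    (2 + m) ^ (4 * m), by positivity, fun Y t τ hY => ?_⟩
  have hr : ∀ c : ℝ, 0 < c → c ≤ 2 → ‖Gamma (c - τ * I + m) * (Gamma (c + τ * I - m))⁻¹‖ ≤
      ((2 + m) * (1 + |τ|)) ^ (2 * m) := by
    intro c h1 h2
    have := melA_ratio (c + τ * I) (by simpa using h1) m
    rw [map_add, map_mul, conj_ofReal, conj_ofReal, conj_I, mul_neg, ← sub_eq_add_neg] at this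
    refine this.trans (pow_le_pow_left₀ (by positivity) ?_ _)
    have h3 : ‖(c : ℂ) + τ * I‖ ≤ c + |τ| := (norm_add_le _ _).trans (by simp [abs_of_pos h1])
    have hm : (0 : ℝ) ≤ m := Nat.cast_nonneg m
    nlinarith [abs_nonneg τ]
  have h1 := hr (1 / 3) (by norm_num) (by norm_num)
  have h2 := hr (2 / 3) (by norm_num) (by norm_num)
  have h0 : (c0 : ℂ) ≠ 0 := ofReal_ne_zero.2 c0_pos.ne'
  have e : melg Y t ((-m : ℝ) + τ * I) * melG (-((-m : ℝ) + τ * I)) =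
      melE Y t ((-m : ℝ) + τ * I) * (c0 : ℂ) ^ (((-(4 * m) : ℝ) : ℂ) + (4 * τ : ℝ) * I) *
      ((Gamma ((1 / 3 : ℝ) - τ * I + m) * (Gamma ((1 / 3 : ℝ) + τ * I - m))⁻¹) *
      (Gamma ((2 / 3 : ℝ) - τ * I + m) * (Gamma ((2 / 3 : ℝ) + τ * I - m))⁻¹)) := by
    have a1 : (((-(4 * m) : ℝ) : ℂ) + (4 * τ : ℝ) * I) =
        (2 * ((-m : ℝ) + τ * I) + 2 / 3) + (-(2 * -((-m : ℝ) + τ * I)) - 2 / 3) := by
      push_cast
      ring
    have a2 : ((1 / 3 : ℝ) : ℂ) - τ * I + m = -((-m : ℝ) + τ * I) + 1 / 3 := by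
      push_cast
      ring
    have a3 : ((2 / 3 : ℝ) : ℂ) - τ * I + m = -((-m : ℝ) + τ * I) + 2 / 3 := by
      push_cast
      ring
    have a4 : ((1 / 3 : ℝ) : ℂ) + τ * I - m = (-m : ℝ) + τ * I + 1 / 3 := by
      push_cast
      ring
    have a5 : ((2 / 3 : ℝ) : ℂ) + τ * I - m = (-m : ℝ) + τ * I + 2 / 3 := by
      push_cast
      ring
    rw [a1, cpow_add _ _ h0, a2, a3, a4, a5, melg, melG_inv, melG]
    ring
  have e2 : Real.exp ((-m : ℝ) ^ 2 / 4 + (-m) * Real.log Y) =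
      Real.exp ((-m : ℝ) ^ 2 / 4) * Y⁻¹ ^ m := by
    rw [Real.exp_add, mul_comm _ (Real.log Y), ← Real.rpow_def_of_pos hY, Real.rpow_neg hY.le,
      Real.rpow_natCast, inv_pow]
  have e3 : (((-(4 * m) : ℝ) : ℂ) + (4 * τ : ℝ) * I).re = -(4 * m) := by simp
  rw [e, norm_mul, norm_mul, norm_mul, norm_melE, norm_cpow_eq_rpow_re_of_pos hc0, e2, e3]
  calc _ ≤ Real.exp ((-m : ℝ) ^ 2 / 4) * Y⁻¹ ^ m / (2 * √Real.pi) *
        Real.exp (-(τ + t) ^ 2 / 4) * c0 ^ (-(4 * m) : ℝ) *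
        (((2 + m) * (1 + |τ|)) ^ (2 * m) * ((2 + m) * (1 + |τ|)) ^ (2 * m)) := by gcongr
    _ = _ := by
      rw [← pow_add, show 2 * m + 2 * m = 4 * m by ring, mul_pow]
      ring

theorem v3H_bound (m : ℕ) : ∃ C : ℝ, 0 < C ∧ ∀ Y t y : ℝ, 0 < Y → 0 < y →
    ‖v3H Y t y‖ ≤ C * ((1 + |t|) ^ 4 * Y⁻¹ * y⁻¹ ^ 2) ^ m := by
  obtain ⟨C, hC, hb⟩ := v3P_bound m
  have hJ : 0 ≤ ∫ x, melJ (4 * m) x := integral_nonneg (melJ_nonneg _)
  refine ⟨C * ((∫ x, melJ (4 * m) x) + 1), by positivity, fun Y t y hY hy => ?_⟩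
  have hm : (0 : ℝ) ≤ m := Nat.cast_nonneg m
  rw [v3H_eq Y t (σ := -m) (by linarith) hy, mul_pow, mul_pow, ← pow_mul, ← pow_mul]
  have hi := ((melJ_int (4 * m)).comp_add_right t).const_mul
    (C * (1 + |t|) ^ (4 * m) * Y⁻¹ ^ m * y⁻¹ ^ (2 * m))
  refine (norm_integral_le_of_norm_le hi (Eventually.of_forall fun τ => ?_)).trans ?_
  · have e : (2 * (((-m : ℝ) : ℂ) + τ * I)).re = -((2 * m : ℕ) : ℝ) := by simp
    rw [norm_mul, norm_cpow_eq_rpow_re_of_pos hy, e, Real.rpow_neg hy.le, Real.rpow_natCast,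
      ← inv_pow]
    calc _ ≤ C * Y⁻¹ ^ m * ((1 + |t|) ^ (4 * m) * melJ (4 * m) (τ + t)) * y⁻¹ ^ (2 * m) := by
          gcongr
          exact (hb Y t τ hY).trans (mul_le_mul_of_nonneg_left (melJ_le _ τ t) (by positivity))
      _ = _ := by ring
  · rw [integral_const_mul, integral_add_right_eq_self]
    calc _ ≤ C * (1 + |t|) ^ (4 * m) * Y⁻¹ ^ m * y⁻¹ ^ (2 * m) *
          ((∫ x, melJ (4 * m) x) + 1) := by
          gcongr
          linarith
      _ = _ := by ring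

theorem v3H_interp : ∃ C : ℝ, 0 < C ∧ ∀ Y t y θ : ℝ, 0 < Y → 0 < y → 0 ≤ θ → θ ≤ 1 →
    ‖v3H Y t y‖ ≤ C * ((1 + |t|) ^ 4 * Y⁻¹ * y⁻¹ ^ 2) ^ θ := by
  obtain ⟨C0, hC0, h0⟩ := v3H_bound 0
  obtain ⟨C1, hC1, h1⟩ := v3H_bound 1
  refine ⟨C0 + C1, by positivity, fun Y t y θ hY hy a0 a1 => ?_⟩
  have h2 := h0 Y t y hY hy
  have h3 := h1 Y t y hY hy
  have hx : 0 < (1 + |t|) ^ 4 * Y⁻¹ * y⁻¹ ^ 2 := by positivity
  generalize (1 + |t|) ^ 4 * Y⁻¹ * y⁻¹ ^ 2 = x at h2 h3 hx ⊢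
  rw [pow_zero, mul_one] at h2
  rw [pow_one] at h3
  have h4 := Real.rpow_pos_of_pos hx θ
  rcases le_total x 1 with h | h
  · have := Real.self_le_rpow_of_le_one hx.le h a1
    nlinarith
  · have := Real.one_le_rpow h a0
    nlinarith

theorem v3_main {Y : ℝ} (hY : 0 < Y) (t : ℝ) {a b : Eis → ℂ} {Q Ca Cb : ℝ} {m : ℂ}
    (ha : ∀ r, ‖a r‖ ≤ Ca * ab r) (hb : ∀ r, ‖b r‖ ≤ Cb * ab r) (hQ : 0 < Q) (hV : Vor0 a b Q m) :
    ∑' r, a r / (ab r : ℂ) * W Y t r =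
      m * (∫ v in Set.Ioi (0 : ℝ), melK2 Y t v * ((v : ℂ)⁻¹ * ((v ^ (-(2 / 3) : ℝ) : ℝ) : ℂ))) +
        ∑' r, b r / (ab r : ℂ) * v3H Y t (ab r / Q) := by
  have ha0 : a 0 / (ab 0 : ℂ) = 0 := by simp [ab]
  have hb0 : b 0 / (ab 0 : ℂ) = 0 := by simp [ab]
  have hA := melK_sum (melg_int Y t 2) 2 (h := fun r v => a r / (ab r : ℂ) * (kap (ab r * v) : ℂ))
    (melC_conv (c := fun r => a r / (ab r : ℂ)) ha0
      fun r hr => (melB_hasA (ab_pos hr) (u := (2 : ℝ)) (by simp)).1)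
    (melC_summable (c := fun r => a r / (ab r : ℂ)) ha0 (fun r => (v3_div ha r).2)
      (norm_nonneg (melG 2)) fun r hr => by
      have hy := ab_pos hr
      rw [melB_norm_int]
      · have := (melB_hasA hy (u := (2 : ℝ)) (by simp)).2
        rw [mellin] at this
        rw [this, norm_mul, norm_cpow_eq_rpow_re_of_pos hy, mul_comm]
        norm_num
      · intro v hv
        refine ⟨v ^ (3 : ℝ) * kap (ab r * v),
          mul_nonneg (Real.rpow_nonneg (le_of_lt hv) _) (kap_nonneg (mul_pos hy hv).le), ?_⟩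
        rw [ofReal_mul, ← melC_cpow hv, smul_eq_mul]
        norm_num)
  have hB := melK_sum (melg_int Y t (-2 : ℝ)) (-2)
    (h := fun r v => b r / (ab r : ℂ) * (kap (ab r / Q * v⁻¹) : ℂ))
    (melC_conv (c := fun r => b r / (ab r : ℂ)) hb0 fun r hr =>
      (v3_hasB (div_pos (ab_pos hr) hQ) (u := (-2 : ℝ)) (by norm_num)).1)
    (melC_summable (c := fun r => b r / (ab r : ℂ)) (D := ‖melG 2‖ * Q ^ 4) hb0
      (fun r => (v3_div hb r).2) (by positivity) fun r hr => by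
      have hy := div_pos (ab_pos hr) hQ
      rw [melB_norm_int]
      · have := (v3_hasB hy (u := (-2 : ℝ)) (by norm_num)).2
        rw [mellin] at this
        rw [this, norm_mul, norm_cpow_eq_rpow_re_of_pos hy, Real.div_rpow (ab_nonneg r) hQ.le]
        norm_num
        field_simp
      · intro v hv
        refine ⟨v ^ (-5 : ℝ) * kap (ab r / Q * v⁻¹),
          mul_nonneg (Real.rpow_nonneg (le_of_lt hv) _)
            (kap_nonneg (mul_pos hy (inv_pos.2 hv)).le), ?_⟩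
        rw [ofReal_mul, ← melC_cpow hv, smul_eq_mul]
        norm_num)
  have eA : ∀ r, ∫ v in Set.Ioi (0 : ℝ), melK (fun τ => melg Y t ((2 : ℝ) + τ * I)) 2 v *
      ((v : ℂ)⁻¹ * (a r / (ab r : ℂ) * (kap (ab r * v) : ℂ))) = a r / (ab r : ℂ) * W Y t r :=
    fun r => by
    by_cases hr : r = 0
    · simp [hr, ab]
    rw [← melC_weight hY t hr, ← integral_const_mul]
    refine integral_congr_ae (Eventually.of_forall fun v => ?_)
    simp only [melK2]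
    ring
  have eB : ∀ r, ∫ v in Set.Ioi (0 : ℝ), melK (fun τ => melg Y t ((-2 : ℝ) + τ * I)) (-2) v *
      ((v : ℂ)⁻¹ * (b r / (ab r : ℂ) * (kap (ab r / Q * v⁻¹) : ℂ))) =
      b r / (ab r : ℂ) * v3H Y t (ab r / Q) := fun r => by
    rw [v3H, ← integral_const_mul]
    refine setIntegral_congr_fun measurableSet_Ioi fun v hv => ?_
    simp only [melK2, melK_shift Y t (show (-2 : ℝ) ≤ 2 by norm_num) hv]
    ring
  simp only [eA] at hA
  simp only [eB] at hB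
  have i1 := v3_int Y t (h := fun v => ((v ^ (-(2 / 3) : ℝ) : ℝ) : ℂ))
    (by fun_prop) (β := -(2 / 3)) (D := 1) (by norm_num) fun v hv => by
      rw [norm_real, Real.norm_of_nonneg (by positivity), one_mul]
  obtain ⟨D, hD⟩ := v3_Ph_le hb
  have hk := continuous_kap.measurable
  have i2 := v3_int Y t (h := fun v => Ph b (1 / (Q * v)))
    (Measurable.tsum fun r => by fun_prop) (β := 4) (D := D * Q ^ (4 : ℝ)) (by norm_num)
    fun v hv => by
      refine (hD _ (by positivity)).trans_eq ?_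
      rw [one_div, Real.inv_rpow (by positivity), ← Real.rpow_neg (by positivity), neg_neg,
        Real.mul_rpow hQ.le hv.le, mul_assoc]
  have e2 : ∑' r, b r / (ab r : ℂ) * v3H Y t (ab r / Q) =
      ∫ v in Set.Ioi (0 : ℝ), melK2 Y t v * ((v : ℂ)⁻¹ * Ph b (1 / (Q * v))) := by
    rw [hB.tsum_eq]
    refine setIntegral_congr_fun measurableSet_Ioi fun v hv => ?_
    have e4 : ∀ r, ab r / Q * v⁻¹ = ab r * (1 / (Q * v)) := fun r => by ring
    simp only [melK2, melK_shift Y t (show (-2 : ℝ) ≤ 2 by norm_num) hv, e4, Ph]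
  rw [hA.tsum_eq, e2, ← integral_const_mul, ← integral_add (i1.const_mul m) i2]
  refine setIntegral_congr_fun measurableSet_Ioi fun v hv => ?_
  have h1 := hV v hv
  rw [Ph] at h1
  simp only [h1, melK2]
  ring

/-- Let Y' = Y exp (1/4); ab r * W Y t r = exp (1/16) √Y W Y' t r (rpow_mul_w), so by melC_weight
∑ a W = exp (1/16) √Y ∫ melK2 Y' t v / v * Ph a v dv (melK_sum). Insert Vor0. Polar term: write
v ^ (-2/3) melG (1/3) = ∫ kap (y v) y ^ (-1/3) dy, Fubini, and the version of melC_weight for real y > 0;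
melG (1/3) = c0 ^ (-4/3) Gamma (2/3) / 2. Dual term for r, y = ab r / Q: ∫ melE Y' t u melG (-u) / melG u
y ^ (2 u) dτ on Re u = 0 and on Re u = -1 (melK_shift, melK_fub, mellin_kap', melA_ratio with m = 0, 1);
the two bounds C and C (1 + |t|) ^ 4 / (Y y ^ 2) give C ((1 + |t|) ^ 4 / (Y y ^ 2)) ^ (1/2 + e). -/
theorem v3 {e : ℝ} (he : 0 < e) (he' : e ≤ 1 / 2) : ∃ C : ℝ, 0 < C ∧
    ∀ (a b : Eis → ℂ) (Q Ca Cb B0 Y t : ℝ) (m : ℂ), 0 < Q → 0 < Y → a 0 = 0 → b 0 = 0 →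
    (∀ r, ‖a r‖ ≤ Ca * ab r) → (∀ r, ‖b r‖ ≤ Cb * ab r) → Vor0 a b Q m →
    Summable (fun r => ‖b r‖ * N r ^ (-(1 + e))) → ∑' r, ‖b r‖ * N r ^ (-(1 + e)) ≤ B0 →
      ‖∑' r, a r * W Y t r - m * ((c0 ^ (4 / 3 : ℝ) / Real.Gamma (2 / 3) : ℝ) : ℂ) * MI Y t‖ ≤
        C * B0 * Q ^ (1 + 2 * e) * (1 + |t|) ^ (2 + 4 * e) * Y ^ (-e) := by
  obtain ⟨C, hC, hH⟩ := v3H_interp
  refine ⟨Real.exp (1 / 16) * C, by positivity,
    fun a b Q Ca Cb B0 Y t m hQ hY ha0 hb0 ha hb hV hs hB => ?_⟩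
  have hY' : 0 < Y * Real.exp (1 / 4) := by positivity
  have hκ : 0 < Real.exp (1 / 16) * √Y := by positivity
  have e1 : ∑' r, a r * W Y t r = ((Real.exp (1 / 16) * √Y : ℝ) : ℂ) *
      ∑' r, a r / (ab r : ℂ) * W (Y * Real.exp (1 / 4)) t r := by
    rw [← tsum_mul_left]
    refine tsum_congr fun r => ?_
    by_cases hr : r = 0
    · simp [hr, ha0]
    have h := congrArg ofReal (v3_shift hY (N_pos hr))
    have h1 := ofReal_ne_zero.2 (ab_pos hr).ne'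
    rw [ofReal_mul _ (w _), ofReal_mul _ (w _), ← ab] at h
    rw [W, W]
    linear_combination -(a r / (ab r : ℂ) * nit t r) * h -
      (w (N r / Y) : ℂ) * nit t r * div_mul_cancel₀ (a r) h1
  have e2 : ((Real.exp (1 / 16) * √Y : ℝ) : ℂ) * (∫ v in Set.Ioi (0 : ℝ),
      melK2 (Y * Real.exp (1 / 4)) t v * ((v : ℂ)⁻¹ * ((v ^ (-(2 / 3) : ℝ) : ℝ) : ℂ))) =
      ((c0 ^ (4 / 3 : ℝ) / Real.Gamma (2 / 3) : ℝ) : ℂ) * MI Y t := by
    have h1 := v3_polar hY' t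
    have h2 := v3_melG
    rw [← v3_MI hY t]
    generalize (∫ v in Set.Ioi (0 : ℝ), melK2 (Y * Real.exp (1 / 4)) t v *
      ((v : ℂ)⁻¹ * ((v ^ (-(2 / 3) : ℝ) : ℝ) : ℂ))) = J at h1 ⊢
    generalize ((Real.exp (1 / 16) * √Y : ℝ) : ℂ) = κ
    generalize ((c0 ^ (4 / 3 : ℝ) / Real.Gamma (2 / 3) : ℝ) : ℂ) = ρ at h2 ⊢
    linear_combination -(κ * J) * h2 + 2 * κ * ρ * h1
  rw [e1, v3_main hY' t ha hb hQ hV, mul_add, mul_left_comm, e2, ← mul_assoc, add_sub_cancel_left,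
    norm_mul, norm_real, Real.norm_of_nonneg hκ.le]
  obtain ⟨D, hD⟩ : ∃ D, D = C * ((1 + |t|) ^ (2 + 4 * e) * Y ^ (-(1 / 2 + e)) * Q ^ (1 + 2 * e)) :=
    ⟨_, rfl⟩
  have hD0 : 0 ≤ D := by rw [hD]; positivity
  have h1 : ∀ r, ‖b r / (ab r : ℂ) * v3H (Y * Real.exp (1 / 4)) t (ab r / Q)‖ ≤
      D * (‖b r‖ * N r ^ (-(1 + e))) := by
    intro r
    by_cases hr : r = 0
    · simp [hr, hb0]
    have hy := ab_pos hr
    have hN := N_pos hr
    have h2 := hH _ t _ (1 / 2 + e) hY' (div_pos hy hQ) (by linarith) (by linarith)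
    have h4 : ∀ x : ℝ, 0 < x → ∀ n : ℕ, (x ^ n) ^ (1 / 2 + e) = x ^ (n * (1 / 2 + e)) :=
      fun x hx n => (Real.rpow_natCast_mul hx.le n _).symm
    have h3 : ((1 + |t|) ^ 4 * (Y * Real.exp (1 / 4))⁻¹ * (ab r / Q)⁻¹ ^ 2) ^ (1 / 2 + e) ≤
        (1 + |t|) ^ (2 + 4 * e) * Y ^ (-(1 / 2 + e)) *
          (Q ^ (1 + 2 * e) * N r ^ (-(1 / 2 + e))) := by
      have := le_mul_of_one_le_right hY.le (Real.one_le_exp (by norm_num : (0 : ℝ) ≤ 1 / 4))
      refine le_trans (b := ((1 + |t|) ^ 4 * Y⁻¹ * (Q ^ 2 * (N r)⁻¹)) ^ (1 / 2 + e)) ?_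
        (le_of_eq ?_)
      · rw [inv_div, div_pow, ab_sq, div_eq_mul_inv (Q ^ 2)]
        gcongr
      · rw [Real.mul_rpow (by positivity) (by positivity), Real.mul_rpow (by positivity)
          (by positivity), Real.mul_rpow (by positivity) (by positivity), h4 _ (by positivity),
          h4 _ hQ, Real.inv_rpow hY.le, Real.inv_rpow hN.le, ← Real.rpow_neg hY.le,
          ← Real.rpow_neg hN.le, show ((4 : ℕ) : ℝ) * (1 / 2 + e) = 2 + 4 * e by push_cast; ring,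
          show ((2 : ℕ) : ℝ) * (1 / 2 + e) = 1 + 2 * e by push_cast; ring]
    have h5 : N r ^ (-(1 + e)) = (ab r)⁻¹ * N r ^ (-(1 / 2 + e)) := by
      rw [ab, Real.sqrt_eq_rpow, ← Real.rpow_neg hN.le, ← Real.rpow_add hN]
      congr 1
      ring
    rw [norm_mul, norm_div, norm_real, Real.norm_of_nonneg hy.le, h5, hD]
    exact (mul_le_mul_of_nonneg_left (h2.trans (mul_le_mul_of_nonneg_left h3 hC.le))
      (by positivity)).trans_eq (by ring)
  have h2 := (tsum_of_norm_bounded (hs.hasSum.mul_left D) h1).trans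
    (mul_le_mul_of_nonneg_left hB hD0)
  refine (mul_le_mul_of_nonneg_left h2 hκ.le).trans_eq ?_
  have h3 : Y ^ (-e) = √Y * Y ^ (-(1 / 2 + e)) := by
    rw [Real.sqrt_eq_rpow, ← Real.rpow_add hY]
    congr 1
    ring
  rw [hD, h3]
  ring

end Vale.Agent.P006
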