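import Vale.Agent.P006.NumA
import Vale.Agent.P006.V3
import Vale.Agent.P006.GaussP

/-! Numerical estimates, part two. -/

namespace Vale.Agent.P006

open Vale.Agent.P026 Eis Complex MeasureTheory Filter Topology
open scoped Classical ComplexConjugate

/-- Residues 0, 1, om, om ^ 2 modulo 2 (pois_res_two, resid_sum); cub x (-2) = x for units x;
psi (-2) x = (-1) ^ x.b. -/
theorem G_neg_two : G (-2) = 1 := by
  have hp : Prime (-2 : Eis) := prime_two.neg
  have hd : ∀ x : Eis, (-2 : Eis) ∣ x ↔ 2 ∣ x.a ∧ 2 ∣ x.b := fun x => neg_dvd.trans bs_two_dvd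
  have hc : ∀ x : Eis, cub x (-2) = if 2 ∣ x.a ∧ 2 ∣ x.b then 0 else
      if 2 ∣ x.a - 1 ∧ 2 ∣ x.b then 1 else if 2 ∣ x.a ∧ 2 ∣ x.b - 1 then toC om
      else toC (om ^ 2) := fun x => by
    rw [cub_prime hp, cubP, show ((nrm (-2)).natAbs - 1) / 3 = 1 by decide]
    simp [hd]
  have hN : N (-2) = 4 := by norm_num [N, nrm]
  have hab : ab (-2) = 2 := by rw [ab, hN, Real.sqrt_eq_iff_mul_self_eq] <;> norm_num
  have hs : ∀ x : Eis, psi (-2) (1 * x) = cexp (Real.pi * I) ^ (-x.b) := fun x => by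
    rw [psi, hN, ← Complex.exp_int_mul]
    congr 1
    simp [cj]
    ring
  have ho : toC om ^ 2 + toC om + 1 = 0 := by simpa using congrArg toC om_sq_add
  rw [G, if_pos (PS.of_prime hp prim_neg_two), g3, gauss, ← resid_sum hp.ne_zero
    (Per.mul (Per.of_congr fun _ _ h => cub_congr h) (per_psi _ _)) {0, 1, om, ⟨-1, -1⟩} id
    (by simp only [hd]; decide) (by rw [hN]; norm_cast),
    Finset.sum_insert (by decide), Finset.sum_insert (by decide), Finset.sum_insert (by decide),
    Finset.sum_singleton, hab]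
  simp only [hs, hc, Complex.exp_pi_mul_I, id]
  norm_num
  linear_combination (-1 / 2) * ho

theorem numb_th {r : Eis} (h : N r < 64) : ‖th r‖ ≤ 1 := by
  by_cases h0 : th r = 0
  · simp [h0]
  obtain ⟨e, d, he, hd, rfl⟩ := th_ne_zero h0
  by_cases h1 : d = 1
  · subst h1
    rw [one_pow, mul_one, th_PS he, Complex.norm_conj]
    exact norm_G_le _
  · have h2 := pow_le_pow_left₀ (by norm_num) (four_le_N hd h1) 3
    rw [N_mul, N_pow] at h
    nlinarith [one_le_N he.ne_zero]

/-- The terms which are estimated trivially. -/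
noncomputable def numbF (r : Eis) : ℝ :=
  if Prim r ∧ r ≠ 1 ∧ r ≠ -2 then ‖th r‖ / ab r * kap (ab r) else 0

theorem numbF_nonneg (r : Eis) : 0 ≤ numbF r := by
  have := ab_nonneg r
  have := kap_nonneg this
  unfold numbF
  split_ifs <;> positivity

theorem numbF_le {r : Eis} {w : ℝ} (n : ℕ) (hw : 0 ≤ w) (h1 : r ≠ 0 → ‖th r‖ ≤ w * √(ab r))
    (h2 : (n : ℝ) ^ 2 ≤ 64.96 * N r) :
    numbF r ≤ √Real.pi * c0 ^ (-(1 / 6) : ℝ) * (w * 0.905 ^ n) := by
  have hc := c0_pos
  unfold numbF
  split_ifs with h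
  swap
  · positivity
  have h0 := ab_pos h.1.ne_zero
  have h3 : (n : ℝ) ≤ 8.06 * ab r := (abs_le_of_sq_le_sq' (by
    rw [mul_pow, ab_sq]; linarith [N_nonneg r]) (by positivity)).2
  have h4 := numa_exp (x := 2 * c0 * ab r) (y := 0.1) (q := 0.905) n (by norm_num)
    (by nlinarith [c0_bounds.1]) (by norm_num)
  calc _ ≤ w * √(ab r) / ab r * (√Real.pi * c0 ^ (-(1 / 6) : ℝ) * √(ab r) * 0.905 ^ n) := by
        gcongr
        · exact kap_nonneg h0.le
        · exact h1 h.1.ne_zero
        · exact (kap_bounds h0).2.trans (by gcongr)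
    _ = √Real.pi * c0 ^ (-(1 / 6) : ℝ) * (w * 0.905 ^ n) * (√(ab r) * √(ab r) / ab r) := by ring
    _ = _ := by rw [Real.mul_self_sqrt h0.le, div_self h0.ne', mul_one]

theorem numbF_a (r : Eis) (n : ℕ) (h2 : (n : ℝ) ^ 2 ≤ 64.96 * N r) :
    numbF r ≤ √Real.pi * c0 ^ (-(1 / 6) : ℝ) * (1 * 0.905 ^ n) := by
  refine numbF_le n zero_le_one (fun h => (norm_th_le r).trans ?_) h2
  rw [one_mul, ab, Real.sqrt_eq_rpow, Real.sqrt_eq_rpow, ← Real.rpow_mul (N_nonneg r)]
  exact Real.rpow_le_rpow_of_exponent_le (one_le_N h) (by norm_num)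

theorem numbF_b (a b : ℤ) (n : ℕ) {w : ℝ} {k : ℤ} (hw : 0 ≤ w) (hk : nrm (numaP (a, b)) = k)
    (h1 : k < 64) (h2 : 100 * (n : ℤ) ^ 2 ≤ 6496 * k) (h3 : 1 ≤ w ^ 4 * k) :
    numbF (numaP (a, b)) ≤ √Real.pi * c0 ^ (-(1 / 6) : ℝ) * (w * 0.905 ^ n) := by
  have e : N (numaP (a, b)) = k := by rw [N, hk]
  refine numbF_le n hw (fun _ => (numb_th (by rw [e]; exact_mod_cast h1)).trans ?_) ?_
  · refine (pow_le_pow_iff_left₀ zero_le_one (by positivity) (n := 4) (by norm_num)).1 ?_
    rw [mul_pow, show 4 = 2 * 2 from rfl, pow_mul (√_), Real.sq_sqrt (ab_nonneg _), ab_sq, e]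
    simpa using h3
  · have : (100 : ℝ) * (n : ℝ) ^ 2 ≤ 6496 * k := by exact_mod_cast h2
    rw [e]
    linarith

theorem numbF_sum (S : Finset Eis) :
    ∑ r ∈ S, numbF r ≤ √Real.pi * c0 ^ (-(1 / 6) : ℝ) * 0.47 := by
  set K := √Real.pi * c0 ^ (-(1 / 6) : ℝ) with hK
  have hK0 : 0 < K := by have := c0_pos; have := Real.pi_pos; positivity
  refine (numa_shell numaP numbF_nonneg 2 (g := fun m => K * (0.224 * 0.136 ^ m))
    (T := fun m => K * (2.2 * (m + 1) * 0.136 ^ m)) (fun m hm p hp => ?_) (fun m hm => ?_)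
    (fun m => by positivity) S fun n _ hn => numa_prim ?_).trans ?_
  · have h2 : (2 : ℝ) ≤ m := by exact_mod_cast hm
    refine (numbF_a _ (15 + 20 * m) ?_).trans ?_
    · have := numa_NP hp
      push_cast
      nlinarith
    · rw [pow_add, pow_mul, one_mul]
      gcongr <;> norm_num
  · have h2 : (2 : ℝ) ≤ m := by exact_mod_cast hm
    have h3 : 0 < K * 0.136 ^ m := by positivity
    rw [pow_succ]
    push_cast
    nlinarith
  · by_contra h
    exact hn (if_neg fun h' => h h'.1)
  · have h1 : numbF (numaP (0, 0)) = 0 := if_neg fun h => h.2.1 (by decide)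
    have h2 : numbF (numaP (-1, 0)) = 0 := if_neg fun h => h.2.2 (by decide)
    have h3 : ∀ a b : ℤ, 64 ≤ nrm (numaP (a, b)) → numbF (numaP (a, b)) ≤ K * (1 * 0.905 ^ 64) :=
      fun a b h => numbF_a _ 64 (by
        have : (64 : ℝ) ≤ N (numaP (a, b)) := by unfold N; exact_mod_cast h
        push_cast
        linarith)
    rw [numa_sum_two, h1, h2]
    have := numbF_b (-2) (-2) 44 (w := 0.527) (k := 31) (by norm_num) rfl (by decide) (by decide)
      (by norm_num)
    have := numbF_b (-2) (-1) 35 (w := 0.527) (k := 19) (by norm_num) rfl (by decide) (by decide)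
      (by norm_num)
    have := numbF_b (-2) 0 40 (w := 0.527) (k := 25) (by norm_num) rfl (by decide) (by decide)
      (by norm_num)
    have := numbF_b (-2) 1 56 (w := 0.527) (k := 49) (by norm_num) rfl (by decide) (by decide)
      (by norm_num)
    have := h3 (-2) 2 (by decide)
    have := numbF_b (-1) (-2) 42 (w := 0.527) (k := 28) (by norm_num) rfl (by decide) (by decide)
      (by norm_num)
    have := numbF_b (-1) (-1) 21 (w := 0.615) (k := 7) (by norm_num) rfl (by decide) (by decide)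
      (by norm_num)
    have := numbF_b (-1) 1 35 (w := 0.527) (k := 19) (by norm_num) rfl (by decide) (by decide)
      (by norm_num)
    have := numbF_b (-1) 2 58 (w := 0.527) (k := 52) (by norm_num) rfl (by decide) (by decide)
      (by norm_num)
    have := numbF_b 0 (-2) 52 (w := 0.527) (k := 43) (by norm_num) rfl (by decide) (by decide)
      (by norm_num)
    have := numbF_b 0 (-1) 29 (w := 0.527) (k := 13) (by norm_num) rfl (by decide) (by decide)
      (by norm_num)
    have := numbF_b 0 1 21 (w := 0.615) (k := 7) (by norm_num) rfl (by decide) (by decide)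
      (by norm_num)
    have := numbF_b 0 2 44 (w := 0.527) (k := 31) (by norm_num) rfl (by decide) (by decide)
      (by norm_num)
    have := h3 1 (-2) (by decide)
    have := numbF_b 1 (-1) 49 (w := 0.527) (k := 37) (by norm_num) rfl (by decide) (by decide)
      (by norm_num)
    have := numbF_b 1 0 32 (w := 0.527) (k := 16) (by norm_num) rfl (by decide) (by decide)
      (by norm_num)
    have := numbF_b 1 1 29 (w := 0.527) (k := 13) (by norm_num) rfl (by decide) (by decide)
      (by norm_num)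
    have := numbF_b 1 2 42 (w := 0.527) (k := 28) (by norm_num) rfl (by decide) (by decide)
      (by norm_num)
    have := h3 2 (-2) (by decide)
    have := h3 2 (-1) (by decide)
    have := numbF_b 2 0 56 (w := 0.527) (k := 49) (by norm_num) rfl (by decide) (by decide)
      (by norm_num)
    have := numbF_b 2 1 49 (w := 0.527) (k := 37) (by norm_num) rfl (by decide) (by decide)
      (by norm_num)
    have := numbF_b 2 2 52 (w := 0.527) (k := 43) (by norm_num) rfl (by decide) (by decide)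
      (by norm_num)
    norm_num at *
    linarith

/-- True value 1.4798. The terms n = 1 and n = -2 are kap 1 and kap 2 / 2 > 0. For the other primary n
(N n ≥ 7), ‖th n‖ / ab n * kap (ab n) ≤ 1.19 ‖th n‖ (ab n) ^ (-1/2) exp (- 0.806 (ab n - 1)) kap 1 by
kap_bounds, with ‖th n‖ ≤ 1 for N n < 64, and th 4 = 0. The primary norms are 7, 7, 13, 13, (16), 19, 19,
25, 28, 28, 31, 31, 37, 37, 43, 43, 49, 49, 49, ...; these terms sum to about 0.78 kap 1, and
kap 2 / 2 ≥ 0.29 kap 1 gives extra room. Enumerate (1 + 3 a, 3 b) in a small square by decide and bound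
the tail by a product of geometric series, using 4 N = (2 a - b) ^ 2 + 3 b ^ 2. -/
theorem ph_pos : 0 < (Ph th 1).re := by
  have hc := c0_bounds
  have hF := summable_of_sum_le numbF_nonneg numbF_sum
  have hT := Real.tsum_le_of_sum_le numbF_nonneg numbF_sum
  have hs := summable_Ph (a := th) (C := 1) (fun r => by simpa using norm_th_le_ab r) one_pos
  rw [Ph, Complex.re_tsum hs]
  replace hs := (Complex.hasSum_re hs.hasSum).summable
  simp only [mul_one] at hs ⊢
  set f : Eis → ℝ := fun r => (th r / (ab r : ℂ) * (kap (ab r) : ℂ)).re with hf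
  have a1 : ab 1 = 1 := by norm_num [ab, N, nrm]
  have a2 : ab (-2) = 2 := by
    rw [ab, Real.sqrt_eq_iff_mul_self_eq (N_nonneg _)] <;> norm_num [N, nrm]
  have f1 : f 1 = kap 1 := by simp [hf, th_PS PS.one, G_one, a1]
  have f2 : f (-2) = kap 2 / 2 := by
    simp only [hf, th_PS (PS.of_prime prime_two.neg prim_neg_two), G_neg_two, a2, map_one]
    norm_cast
    ring
  have h0 : ∀ r, 0 ≤ f r + numbF r := fun r => by
    by_cases h1 : r = 1
    · rw [h1, f1]
      exact add_nonneg (kap_nonneg zero_le_one) (numbF_nonneg _)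
    by_cases h2 : r = -2
    · rw [h2, f2]
      exact add_nonneg (div_nonneg (kap_nonneg zero_le_two) zero_le_two) (numbF_nonneg _)
    by_cases h3 : Prim r
    · have := (Complex.abs_re_le_norm (th r / (ab r : ℂ) * (kap (ab r) : ℂ)))
      rw [norm_mul, norm_div, Complex.norm_of_nonneg (ab_nonneg r),
        Complex.norm_of_nonneg (kap_nonneg (ab_nonneg r))] at this
      rw [numbF, if_pos ⟨h3, h1, h2⟩]
      linarith [neg_abs_le (f r)]
    · simp [hf, th_of_not h3, numbF_nonneg]
  have h4 := (hs.add hF).sum_le_tsum {1, -2} fun r _ => h0 r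
  rw [hs.tsum_add hF, Finset.sum_pair (by decide), f1, f2] at h4
  have k1 := (kap_bounds one_pos).1
  have k2 := (kap_bounds two_pos).1
  set K := √Real.pi * c0 ^ (-(1 / 6) : ℝ) with hK
  have hK0 : 0 < K := by have := c0_pos; have := Real.pi_pos; positivity
  have e1 : 0.44 ≤ Real.exp (-(2 * c0 * 1)) := by
    have h5 := pow_le_pow_left₀ (by norm_num) (Real.add_one_le_exp (-0.0252)) 32
    rw [← Real.exp_nat_mul] at h5
    exact le_trans (by norm_num) (h5.trans (Real.exp_le_exp.2 (by push_cast; linarith)))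
  have e2 : 0.44 * 0.44 ≤ Real.exp (-(2 * c0 * 2)) := by
    rw [show -(2 * c0 * 2) = -(2 * c0 * 1) + -(2 * c0 * 1) by ring, Real.exp_add]
    gcongr
  have e3 : 0.844 ≤ 1 - 1 / (16 * c0 * 1) := by
    have : 1 / (16 * c0 * 1) ≤ 0.156 := by rw [div_le_iff₀ (by linarith)]; linarith
    linarith
  have e4 : 0.922 ≤ 1 - 1 / (16 * c0 * 2) := by
    have : 1 / (16 * c0 * 2) ≤ 0.078 := by rw [div_le_iff₀ (by linarith)]; linarith
    linarith
  have e5 : 1.414 ≤ √2 := Real.le_sqrt_of_sq_le (by norm_num)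
  have k3 : K * √1 * 0.44 * 0.844 ≤ kap 1 := le_trans (by gcongr) k1
  have k4 : K * 1.414 * (0.44 * 0.44) * 0.922 ≤ kap 2 := le_trans (by gcongr) k2
  rw [Real.sqrt_one] at k3
  linarith [numbF_nonneg 1, numbF_nonneg (-2)]

end Vale.Agent.P006
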