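import Vale.Agent.P006.Link
import Vale.Agent.P006.Bud
import Vale.Agent.P006.NumB

/-! The sign of the constant. -/

namespace Vale.Agent.P006

open Vale.Agent.P026 Eis Complex MeasureTheory Filter Topology
open scoped Classical ComplexConjugate

theorem sign_one {θ : HF → ℂ} {tau : Eis → Eis → Eis → ℂ} (h : TH θ tau) (j : Eis)
    (S : Finset Eis) : ∑ r ∈ S, ‖tau 1 j r / (ab r : ℂ)‖ * kap (3 * ab r) ≤ 0.62 * sg0 := by
  have hs := sg0_pos
  rw [← Finset.sum_filter_of_ne (p := fun r => r ≠ 0 ∧ lam ∣ r) fun r _ hr => by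
    by_contra h1
    rcases not_and_or.1 h1 with h2 | h2
    · rw [not_not.1 h2, h.isC.zero] at hr
      simp at hr
    · rw [h.supp_one j h2] at hr
      simp at hr]
  set T := S.filter fun r => r ≠ 0 ∧ lam ∣ r with hT
  have hm : ∀ r ∈ T, r ≠ 0 ∧ lam ∣ r := fun r hr => (Finset.mem_filter.1 hr).2
  have h1 := Finset.sum_sq_le_sum_mul_sum_of_sq_le_mul T
    (r := fun r => ‖tau 1 j r / (ab r : ℂ)‖ * kap (3 * ab r))
    (f := fun r => ‖tau 1 j r / (ab r : ℂ)‖ ^ 2 * JJ (ab r))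
    (g := fun r => kap (3 * ab r) ^ 2 / JJ (ab r))
    (fun r _ => mul_nonneg (sq_nonneg _) (JJ_nonneg _))
    (fun r _ => div_nonneg (sq_nonneg _) (JJ_nonneg _)) fun r hr => le_of_eq (by
      have := JJ_pos (ab_pos (hm r hr).1)
      field_simp)
  have h2 := bud h 1 j T
  have h3 := num_J T hm
  have h4 : Real.Gamma (4 / 3) ≤ 9.3 * sg0 := by
    rw [← div_le_iff₀ hs, gamma_div_sg0, div_le_iff₀ (by positivity)]
    nlinarith [zP_le, Real.pi_gt_d2]
  refine (abs_le_of_sq_le_sq' (h1.trans ?_) (by positivity)).2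
  calc _ ≤ sg0 * (9.3 * sg0) * (1 / 25) :=
        mul_le_mul (h2.trans (by gcongr)) h3
          (Finset.sum_nonneg fun r _ => div_nonneg (sq_nonneg _) (JJ_nonneg _)) (by positivity)
    _ ≤ _ := by nlinarith

theorem sign_two {θ : HF → ℂ} {tau : Eis → Eis → Eis → ℂ} (h : TH θ tau) :
    ‖Ph (yraw tau 1) 3‖ ≤ 0.62 * sg0 := by
  have a1 : ab 1 = 1 := by norm_num [ab, N, nrm]
  have hb : ∀ S : Finset Eis, ∑ r ∈ S, ‖yraw tau 1 r / (ab r : ℂ) * (kap (ab r * 3) : ℂ)‖
      ≤ 0.62 * sg0 := fun S => by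
    calc _ ≤ ∑ r ∈ S, 9⁻¹ * ∑ i ∈ res 3, ‖tau 1 (-i) r / (ab r : ℂ)‖ * kap (3 * ab r) := by
          refine Finset.sum_le_sum fun r _ => ?_
          have h0 := ab_nonneg r
          have h1 := kap_nonneg (y := 3 * ab r) (by positivity)
          have h2 : ‖gauss (cop 1) 1 r‖ ≤ 1 := by
            simpa [dv_one, N, nrm] using norm_gauss_cop_le PS.one r
          have h3 : ‖∑ i ∈ res 3, psi 3 (-i) * tau 1 (-i) r‖ ≤ ∑ i ∈ res 3, ‖tau 1 (-i) r‖ :=
            (norm_sum_le _ _).trans (le_of_eq (by simp only [norm_mul, norm_psi, one_mul]))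
          simp only [yraw, G_one, a1, norm_mul, norm_div, mul_comm (ab r) 3,
            Complex.norm_of_nonneg h0, Complex.norm_of_nonneg h1, ← Finset.sum_mul,
            ← Finset.sum_div, Complex.ofReal_one, norm_one, Complex.norm_ofNat]
          calc _ ≤ 1 / (9 * 1) * 1 * (∑ i ∈ res 3, ‖tau 1 (-i) r‖) / ab r * kap (3 * ab r) := by
                gcongr
            _ = _ := by ring
      _ ≤ 9⁻¹ * ∑ i ∈ res 3, 0.62 * sg0 := by
          rw [← Finset.mul_sum, Finset.sum_comm]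
          gcongr with i
          exact sign_one h _ S
      _ = _ := by
          rw [Finset.sum_const, nsmul_eq_mul, card_res (by decide)]
          norm_num [N, nrm]
          ring
  exact (norm_tsum_le_tsum_norm (summable_of_sum_le (fun _ => norm_nonneg _) hb)).trans
    (Real.tsum_le_of_sum_le (fun _ => norm_nonneg _) hb)

/-- twist_raw with b = 1, v = 1: tau 0 1 3 / 3 * Ph th 1 = sg0 3 ^ (-1/3) + Ph (yraw tau 1) 3. The last
series is an average over nine classes i of ∑ tau 1 (-i) r / ab r kap (3 ab r), supported on lam ∣ r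
(TH.supp_one); Cauchy-Schwarz with bud, num_J, gamma_div_sg0, zP_le bounds it by
sg0 √(9.24 / 25) < sg0 3 ^ (-1/3). So c from link is positive by ph_pos. -/
theorem tp : TP cs := by
  obtain ⟨θ, tau, h⟩ := exists_TH
  obtain ⟨c, h1, h2, h3⟩ := link h
  rcases sq_eq_sq_iff_eq_or_eq_neg.1 h1 with rfl | rfl
  · exact h2
  exfalso
  have h4 := twist_raw h PS.one one_pos
  have n1 : N 1 = 1 := by norm_num [N, nrm]
  simp only [cub_one_right, mul_one, phi_one, n1, G_one, Real.one_rpow, one_div, inv_inv, h3] at h4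
  have h5 := congrArg Complex.re h4
  rw [add_re, ofReal_re, ← Complex.ofReal_ofNat, ← Complex.ofReal_div, re_ofReal_mul] at h5
  have h6 := (Complex.abs_re_le_norm _).trans (sign_two h)
  have hs := sg0_pos
  have h7 : (0.62 : ℝ) < 3 ^ (-(3⁻¹) : ℝ) := by
    refine lt_of_pow_lt_pow_left₀ 3 (by positivity) ?_
    rw [← Real.rpow_natCast, ← Real.rpow_natCast, ← Real.rpow_mul (by norm_num)]
    norm_num
  have h8 : 0 < 3 ^ (3⁻¹ : ℝ) * sg0 * cs / Real.Gamma (4 / 3) / 3 * (Ph th 1).re := by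
    have := cs_pos
    have := ph_pos
    positivity
  have h9 := mul_lt_mul_of_pos_left h7 hs
  have e : 3 ^ (3⁻¹ : ℝ) * sg0 * -cs / Real.Gamma (4 / 3) / 3 * (Ph th 1).re
      = -(3 ^ (3⁻¹ : ℝ) * sg0 * cs / Real.Gamma (4 / 3) / 3 * (Ph th 1).re) := by ring
  rw [e] at h5
  linarith [neg_abs_le (Ph (yraw tau 1) 3).re]

end Vale.Agent.P006
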