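import Vale.Agent.P006.Sharp
import Vale.Agent.P006.Fin
import Vale.Agent.P006.Sign

/-! Assembly. -/

namespace Vale.Agent.P006

open Vale.Agent.P026 Eis Complex MeasureTheory Filter Topology

theorem main_prim :
    Tendsto (fun X : ℝ => (∑ p ∈ pz X, G p) / ((X ^ (5 / 6 : ℝ) / Real.log X : ℝ) : ℂ)) atTop
      (𝓝 ((6 / 5 * cs : ℝ) : ℂ)) := fin_prim (sharp_all tp)

theorem main_rat : Tendsto (fun X : ℝ =>
      (∑ p ∈ (Finset.range (⌊X⌋₊ + 1)).filter (fun p => p.Prime ∧ p % 3 = 1),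
        kum p / ((2 * √(p : ℝ) : ℝ) : ℂ)) / ((X ^ (5 / 6 : ℝ) / Real.log X : ℝ) : ℂ)) atTop
      (𝓝 (((2 * Real.pi) ^ (2 / 3 : ℝ) / (5 * Real.Gamma (2 / 3)) : ℝ) : ℂ)) := fin_rat main_prim

end Vale.Agent.P006
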