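import Vale.Agent.P006.Ari
import Vale.Agent.P006.Pri
import Vale.Agent.P006.WtQ

/-! Frequencies close to cubes: the pointwise reduction to kernels. -/

namespace Vale.Agent.P006

open Vale.Agent.P026 Eis Complex MeasureTheory Filter Topology
open scoped Classical ComplexConjugate

/-- Sum of N D ^ (-1/4) over squarefree divisors. -/
noncomputable def nrO (n : Eis) : ℝ := ∑ D ∈ dv n, N D ^ (-(1 / 4) : ℝ)

theorem nr_nonneg (n : Eis) : 0 ≤ nrO n :=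
  Finset.sum_nonneg fun D _ => Real.rpow_nonneg (N_nonneg D) _

theorem nr_prod {n : Eis} (hn : n ≠ 0) : nrO n = ∏ p ∈ pf n, (1 + N p ^ (-(1 / 4) : ℝ)) :=
  sum_dv_eq_prod hn (fun D => N D ^ (-(1 / 4) : ℝ)) (by rw [N_one, Real.one_rpow])
    fun x y _ _ _ => by rw [N_mul, Real.mul_rpow (N_nonneg x) (N_nonneg y)]

theorem nr_mul {x y : Eis} (hx : x ≠ 0) (hy : y ≠ 0) : nrO (x * y) ≤ nrO x * nrO y := by
  have h1 : ∀ p : Eis, 1 ≤ 1 + N p ^ (-(1 / 4) : ℝ) := fun p =>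
    le_add_of_nonneg_right (Real.rpow_nonneg (N_nonneg p) _)
  have e : pf (x * y) = pf x ∪ pf y := by
    ext p
    rw [Finset.mem_union, mem_pf (mul_ne_zero hx hy), mem_pf hx, mem_pf hy]
    exact ⟨fun h => (h.1.dvd_or_dvd h.2.2).imp (fun k => ⟨h.1, h.2.1, k⟩) fun k => ⟨h.1, h.2.1, k⟩,
      fun h => h.elim (fun k => ⟨k.1, k.2.1, k.2.2.mul_right _⟩)
        fun k => ⟨k.1, k.2.1, k.2.2.mul_left _⟩⟩
  rw [nr_prod (mul_ne_zero hx hy), nr_prod hx, nr_prod hy, e, ← Finset.prod_union_inter]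
  exact le_mul_of_one_le_right (Finset.prod_nonneg fun p _ => zero_le_one.trans (h1 p))
    (Finset.one_le_prod fun p _ => h1 p)

theorem nr_le_card (n : Eis) : nrO n ≤ (dv n).card := by
  refine (Finset.sum_le_sum (g := fun _ => (1 : ℝ)) fun D hD => ?_).trans (by simp)
  exact Real.rpow_le_one_of_one_le_of_nonpos
    (one_le_N (Finset.mem_filter.1 hD).2.1.ne_zero) (by norm_num)

theorem nr_mean : ∃ C : ℝ, 0 < C ∧ ∀ x : ℝ, 0 < x → ∑ l ∈ ball x, nrO l ≤ C * x := by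
  have hs := summable_N_rpow (s := 5 / 4) (by norm_num)
  have h0 : ∀ d : Eis, 0 ≤ N d ^ (-(5 / 4) : ℝ) := fun d => Real.rpow_nonneg (N_nonneg d) _
  have hT : 0 ≤ ∑' d : Eis, N d ^ (-(5 / 4) : ℝ) := tsum_nonneg h0
  refine ⟨16 * (∑' d : Eis, N d ^ (-(5 / 4) : ℝ)) + 1, by positivity, fun x hx => ?_⟩
  unfold nrO
  rw [sum_dv_swap (Finset.Subset.refl (ball x))]
  have h1 : ∀ d ∈ PB x, ∑ _l ∈ (ball x).filter (fun l => d ∣ l), N d ^ (-(1 / 4) : ℝ) ≤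
      16 * x * N d ^ (-(5 / 4) : ℝ) := by
    intro d hd
    have hd0 := (mem_PB.1 hd).1.ne_zero
    have hp := N_pos hd0
    rw [sum_ball_dvd hd0 x fun _ => N d ^ (-(1 / 4) : ℝ), Finset.sum_const, nsmul_eq_mul]
    refine (mul_le_mul_of_nonneg_right (card_ball_le (by positivity))
      (Real.rpow_nonneg hp.le _)).trans (le_of_eq ?_)
    rw [show (-(5 / 4) : ℝ) = -1 + -(1 / 4) by norm_num, Real.rpow_add hp, Real.rpow_neg_one]
    ring
  refine (Finset.sum_le_sum h1).trans ?_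
  rw [← Finset.mul_sum]
  have h2 := mul_le_mul_of_nonneg_left (hs.sum_le_tsum (PB x) fun d _ => h0 d)
    (by positivity : 0 ≤ 16 * x)
  linarith

/-- The fibre of S over e. -/
noncomputable def nrF (S : Finset Eis) (e : Eis) : Finset Eis :=
  (S.filter (fun n => e ∣ n)).image (fun n => n / e)

theorem nr_fib {S : Finset Eis} {e m : Eis} (he : e ≠ 0) (hm : m ∈ nrF S e) : e * m ∈ S := by
  obtain ⟨n, hn, rfl⟩ := Finset.mem_image.1 hm
  rw [lp_div_mul he (Finset.mem_filter.1 hn).2]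
  exact (Finset.mem_filter.1 hn).1

theorem nr_cs {S : Finset Eis} (hS : ∀ m ∈ S, Prim m) (a : Eis → ℂ) (τ : ℝ) (q : Eis) {l : Eis}
    (hl : l ≠ 0) : ‖∑ m ∈ S, tw a τ m * cub (q * l ^ 3) m‖ ^ 2 ≤ nrO l * ∑ e ∈ dv l,
      N e ^ (1 / 4 : ℝ) * ‖∑ m ∈ nrF S e, tw (fun m => a (e * m)) τ m * cub q m‖ ^ 2 := by
  have e1 : ∑ m ∈ S, tw a τ m * cub (q * l ^ 3) m = ∑ e ∈ dv l, mu e * (nit τ e * cub q e) *
      ∑ m ∈ nrF S e, tw (fun m => a (e * m)) τ m * cub q m := by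
    rw [Finset.sum_congr rfl fun m hm => by
      rw [cub_mul_cube q l (hS m hm), cop_eq_sum (hS m hm) hl, ← mul_assoc, Finset.mul_sum],
      Finset.sum_comm]
    refine Finset.sum_congr rfl fun e he => ?_
    have h0 := ((mem_dv hl).1 he).1.ne_zero
    simp only [mul_ite, mul_zero]
    rw [← Finset.sum_filter, sum_filter_dvd h0, Finset.mul_sum]
    refine Finset.sum_congr rfl fun m hm => ?_
    have hm0 : m ≠ 0 := right_ne_zero_of_mul (hS _ (nr_fib h0 hm)).ne_zero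
    rw [tw, tw, nit_mul τ h0 hm0, cub_mul_right q h0 hm0]
    ring
  rw [e1]
  refine (pow_le_pow_left₀ (norm_nonneg _) (norm_sum_le _ _) 2).trans
    (Finset.sum_sq_le_sum_mul_sum_of_sq_le_mul _ (fun e _ => Real.rpow_nonneg (N_nonneg e) _)
      (fun e _ => mul_nonneg (Real.rpow_nonneg (N_nonneg e) _) (sq_nonneg _)) fun e he => ?_)
  have hp := N_pos ((mem_dv hl).1 he).1.ne_zero
  rw [← mul_assoc (N e ^ _), ← Real.rpow_add hp, neg_add_cancel, Real.rpow_zero, one_mul, norm_mul]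
  refine pow_le_pow_left₀ (by positivity) (mul_le_of_le_one_left (norm_nonneg _) ?_) 2
  rw [norm_mul, norm_mul, norm_nit, one_mul]
  exact mul_le_one₀ (norm_mu_le e) (norm_nonneg _) (norm_cub_le q e)

theorem nr_cover {F : Eis → ℝ} (hF : ∀ h, 0 ≤ F h) {H : ℝ} (Q : ℝ) :
    ∑ h ∈ (ball H).filter (Near Q), F h ≤
      ∑ l ∈ ball (H ^ (1 / 3 : ℝ)), ∑ q ∈ KQ Q, F (q * l ^ 3) := by
  rw [← Finset.sum_product']
  refine le_trans (Finset.sum_le_sum_of_subset_of_nonneg (fun h hh => ?_) fun h _ _ => hF h)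
    (Finset.sum_image_le_of_nonneg (s := ball (H ^ (1 / 3 : ℝ)) ×ˢ KQ Q)
      (g := fun p => p.2 * p.1 ^ 3) fun h _ => hF h)
  obtain ⟨h1, q, l, hq, hQ, rfl⟩ := Finset.mem_filter.1 hh
  obtain ⟨h2, h3⟩ := mem_ball.1 h1
  have hl : l ≠ 0 := fun k => h2 (by rw [k]; ring)
  refine Finset.mem_image.2 ⟨(l, q), Finset.mem_product.2 ⟨mem_ball.2 ⟨hl, ?_⟩, mem_KQ.2 ⟨hq, hQ⟩⟩,
    rfl⟩
  have h4 : N l ^ 3 ≤ H := by
    rw [N_mul, N_pow] at h3
    exact (le_mul_of_one_le_left (pow_nonneg (N_nonneg l) 3) (one_le_N hq.ne_zero)).trans h3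
  have h5 := Real.rpow_le_rpow (pow_nonneg (N_nonneg l) 3) h4 (by norm_num : (0 : ℝ) ≤ 1 / 3)
  rwa [← Real.rpow_natCast, ← Real.rpow_mul (N_nonneg l), Nat.cast_ofNat, mul_one_div_cancel
    (by norm_num), Real.rpow_one] at h5

theorem nr_point : ∃ C : ℝ, 0 < C ∧ ∀ (S : Finset Eis) (a : Eis → ℂ) (H Q τ : ℝ), 0 < H →
    (∀ m ∈ S, Prim m) →
      ∑ h ∈ (ball H).filter (Near Q), ‖∑ m ∈ S, tw a τ m * cub h m‖ ^ 2 ≤
        ∑ e ∈ PB (H ^ (1 / 3 : ℝ)), C * H ^ (1 / 3 : ℝ) * (nrO e * N e ^ (-(3 / 4) : ℝ)) *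
          ∑ q ∈ KQ Q, ‖∑ m ∈ nrF S e, tw (fun m => a (e * m)) τ m * cub q m‖ ^ 2 := by
  obtain ⟨C, hC, hm⟩ := nr_mean
  refine ⟨C, hC, fun S a H Q τ hH hS => ?_⟩
  refine (nr_cover (F := fun h => ‖∑ m ∈ S, tw a τ m * cub h m‖ ^ 2) (fun _ => sq_nonneg _) Q).trans ?_
  set L := H ^ (1 / 3 : ℝ) with hL
  have hL0 : 0 < L := by positivity
  have h1 : ∀ l ∈ ball L, ∑ q ∈ KQ Q, ‖∑ m ∈ S, tw a τ m * cub (q * l ^ 3) m‖ ^ 2 ≤
      ∑ e ∈ dv l, nrO l * (N e ^ (1 / 4 : ℝ) *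
        ∑ q ∈ KQ Q, ‖∑ m ∈ nrF S e, tw (fun m => a (e * m)) τ m * cub q m‖ ^ 2) := by
    intro l hl
    refine (Finset.sum_le_sum fun q _ => nr_cs hS a τ q (mem_ball.1 hl).1).trans (le_of_eq ?_)
    simp only [Finset.mul_sum]
    exact Finset.sum_comm
  refine (Finset.sum_le_sum h1).trans ?_
  rw [sum_dv_swap (Finset.Subset.refl (ball L))]
  refine Finset.sum_le_sum fun e he => ?_
  have h0 := (mem_PB.1 he).1.ne_zero
  have hp := N_pos h0
  rw [← Finset.sum_mul, ← mul_assoc]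
  refine mul_le_mul_of_nonneg_right ?_ (Finset.sum_nonneg fun _ _ => sq_nonneg _)
  have h2 : ∑ l ∈ (ball L).filter (fun l => e ∣ l), nrO l ≤ nrO e * (C * (L / N e)) := by
    rw [sum_ball_dvd h0]
    refine (Finset.sum_le_sum fun l hl => nr_mul h0 (mem_ball.1 hl).1).trans ?_
    rw [← Finset.mul_sum]
    exact mul_le_mul_of_nonneg_left (hm _ (by positivity)) (nr_nonneg e)
  refine (mul_le_mul_of_nonneg_right h2 (Real.rpow_nonneg hp.le _)).trans (le_of_eq ?_)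
  rw [show (-(3 / 4) : ℝ) = -1 + 1 / 4 by norm_num, Real.rpow_add hp, Real.rpow_neg_one]
  ring

theorem nr_omw {S : Finset Eis} (hS : (0 : Eis) ∉ S) (a : Eis → ℂ) {e : Eis} (he : e ≠ 0) :
    ∑ m ∈ nrF S e, ‖a (e * m)‖ ^ 2 / omw m ≤ omw e * ∑ m ∈ S, ‖a m‖ ^ 2 / omw m := by
  have hp : ∀ m, m ≠ 0 → 0 < omw m := fun m hm => one_pos.trans_le (one_le_omw hm)
  refine le_trans ?_ (mul_le_mul_of_nonneg_left (Finset.sum_le_sum_of_subset_of_nonneg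
    (Finset.filter_subset (fun n => e ∣ n) S) fun m hm _ =>
      div_nonneg (sq_nonneg _) (hp m (wt_ne hS hm)).le) (hp e he).le)
  rw [sum_filter_dvd he, Finset.mul_sum]
  refine Finset.sum_le_sum fun m hm => ?_
  have h1 := wt_ne hS (nr_fib he hm)
  have h2 := right_ne_zero_of_mul h1
  rw [← mul_div_assoc, div_le_div_iff₀ (hp m h2) (hp _ h1)]
  have := mul_le_mul_of_nonneg_left (omw_mul_le he h2) (sq_nonneg ‖a (e * m)‖)
  linarith

theorem nr_conv : ∃ C : ℝ, 0 < C ∧ ∀ T : Finset Eis, (0 : Eis) ∉ T →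
    ∑ e ∈ T, nrO e * N e ^ (-(3 / 4) : ℝ) * (N e ^ (-(1 / 2) : ℝ) * omw e) ≤ C := by
  obtain ⟨C1, hC1, h1⟩ := card_dv_le (e := 1 / 16) (by norm_num)
  obtain ⟨C2, hC2, h2⟩ := omw_le (e := 1 / 16) (by norm_num)
  have hs := summable_N_rpow (s := 9 / 8) (by norm_num)
  have h0 : ∀ d : Eis, 0 ≤ N d ^ (-(9 / 8) : ℝ) := fun d => Real.rpow_nonneg (N_nonneg d) _
  have hT : 0 ≤ ∑' d : Eis, N d ^ (-(9 / 8) : ℝ) := tsum_nonneg h0
  refine ⟨C1 * C2 * (∑' d : Eis, N d ^ (-(9 / 8) : ℝ)) + 1, by positivity, fun T hT0 => ?_⟩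
  have h3 : ∀ e ∈ T, nrO e * N e ^ (-(3 / 4) : ℝ) * (N e ^ (-(1 / 2) : ℝ) * omw e) ≤
      C1 * C2 * N e ^ (-(9 / 8) : ℝ) := by
    intro e he
    have he0 := wt_ne hT0 he
    have hp := N_pos he0
    have a1 := (nr_le_card e).trans (h1 e he0)
    have a2 := h2 e he0
    have a3 := one_le_omw he0
    refine (mul_le_mul (mul_le_mul_of_nonneg_right a1 (by positivity))
      (mul_le_mul_of_nonneg_left a2 (by positivity)) (by positivity) (by positivity)).trans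
      (le_of_eq ?_)
    rw [show (-(9 / 8) : ℝ) = 1 / 16 + -(3 / 4) + (-(1 / 2) + 1 / 16) by norm_num,
      Real.rpow_add hp, Real.rpow_add hp, Real.rpow_add hp]
    ring
  refine (Finset.sum_le_sum h3).trans ?_
  rw [← Finset.mul_sum]
  have := mul_le_mul_of_nonneg_left (hs.sum_le_tsum T fun d _ => h0 d)
    (by positivity : 0 ≤ C1 * C2)
  linarith

end Vale.Agent.P006
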