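import Vale.Agent.P026.Kap

/-! Auxiliary results for the numerical estimates: the Bessel type integral and sums over shells. -/

namespace Vale.Agent.P006

open Vale.Agent.P026 Eis MeasureTheory Filter Topology Set

theorem numa_sub {f f' g h : ℝ → ℝ} {s : Set ℝ} (hd : ∀ t, 0 < t → HasDerivAt f (f' t) t)
    (hi : InjOn f (Ioi 0)) (hs : f '' Ioi 0 = s) (he : ∀ t, 0 < t → |f' t| * g (f t) = h t)
    (hg : IntegrableOn g s) : IntegrableOn h (Ioi 0) ∧ ∫ x in s, g x = ∫ t in Ioi 0, h t := by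
  subst hs
  have hd' : ∀ t ∈ Ioi (0 : ℝ), HasDerivWithinAt f (f' t) (Ioi 0) t :=
    fun t ht => (hd t ht).hasDerivWithinAt
  exact ⟨((integrableOn_image_iff_integrableOn_abs_deriv_smul measurableSet_Ioi hd' hi g).1
    hg).congr_fun (fun t ht => he t ht) measurableSet_Ioi,
    (integral_image_eq_integral_abs_deriv_smul measurableSet_Ioi hd' hi g).trans
      (setIntegral_congr_fun measurableSet_Ioi fun t ht => he t ht)⟩

/-- The exponential factor after the substitution. -/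
noncomputable def numaE (a t : ℝ) : ℝ := Real.exp (-(a ^ 6 * (t ^ 6 + (t ^ 6)⁻¹)))

theorem numa_root {x : ℝ} (hx : 0 < x) {n : ℕ} (hn : n ≠ 0) : ∃ t : ℝ, 0 < t ∧ t ^ n = x :=
  ⟨x ^ (n⁻¹ : ℝ), Real.rpow_pos_of_pos hx _, Real.rpow_inv_natCast_pow hx.le hn⟩

theorem numa_one {a : ℝ} (ha : 0 < a) : IntegrableOn (fun t => 6 * a ^ 2 * (t * numaE a t)) (Ioi 0)
    ∧ kk (a ^ 6) = ∫ t in Ioi 0, 6 * a ^ 2 * (t * numaE a t) := by
  refine numa_sub (f := fun t => a ^ 6 * t ^ 6) (f' := fun t => a ^ 6 * (6 * t ^ 5))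
    (fun t _ => by simpa using (hasDerivAt_pow 6 t).const_mul (a ^ 6))
    (fun s hs t ht h => (pow_left_inj₀ (le_of_lt hs) (le_of_lt ht) (by norm_num)).1
      (mul_left_cancel₀ (by positivity) h)) ?_ (fun t ht => ?_) (integrableOn_kk _)
  · ext u
    refine ⟨fun ⟨t, (ht : 0 < t), h⟩ => h ▸ (by simp only [mem_Ioi]; positivity), fun (hu : 0 < u) => ?_⟩
    obtain ⟨t, ht, h⟩ := numa_root (x := u / a ^ 6) (by positivity) (n := 6) (by norm_num)
    exact ⟨t, ht, by simp only [h]; field_simp⟩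
  · have e : (a ^ 6 * t ^ 6) ^ (-(2 / 3) : ℝ) = ((a * t) ^ 4)⁻¹ := by
      rw [← mul_pow, ← Real.rpow_natCast, ← Real.rpow_mul (by positivity), ← Real.rpow_natCast,
        ← Real.rpow_neg (by positivity)]
      norm_num
    have e2 : -(a ^ 6 * t ^ 6) - (a ^ 6) ^ 2 / (a ^ 6 * t ^ 6) = -(a ^ 6 * (t ^ 6 + (t ^ 6)⁻¹)) := by
      field_simp
      ring
    rw [abs_of_pos (by positivity), e, e2, numaE]
    field_simp

theorem numa_two {a : ℝ} (ha : 0 < a) :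
    IntegrableOn (fun t => 6 * a ^ 2 * ((t ^ 3)⁻¹ * numaE a t)) (Ioi 0)
    ∧ kk (a ^ 6) = ∫ t in Ioi 0, 6 * a ^ 2 * ((t ^ 3)⁻¹ * numaE a t) := by
  rw [(numa_one ha).2]
  refine numa_sub (f := fun t => t⁻¹) (f' := fun t => -(t ^ 2)⁻¹)
    (fun t ht => hasDerivAt_inv ht.ne') (fun s _ t _ h => inv_injective h) ?_ (fun t ht => ?_)
    (numa_one ha).1
  · ext u
    exact ⟨fun ⟨t, (ht : 0 < t), h⟩ => h ▸ inv_pos.2 ht,
      fun (hu : 0 < u) => ⟨u⁻¹, inv_pos.2 hu, inv_inv u⟩⟩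
  · rw [abs_neg, abs_of_pos (by positivity), numaE, numaE, inv_pow, inv_inv, add_comm]
    field_simp

theorem numa_three {a : ℝ} (ha : 0 < a) {g : ℝ → ℝ}
    (hg : Integrable fun x => g x * Real.exp (-1 * x ^ 2)) :
    IntegrableOn (fun t => 3 * a ^ 3 * Real.exp (2 * a ^ 6) * ((t ^ 2 + (t ^ 4)⁻¹)
      * g (a ^ 3 * (t ^ 3 - (t ^ 3)⁻¹)) * numaE a t)) (Ioi 0) ∧
    ∫ x, g x * Real.exp (-1 * x ^ 2) = ∫ t in Ioi 0, 3 * a ^ 3 * Real.exp (2 * a ^ 6)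
      * ((t ^ 2 + (t ^ 4)⁻¹) * g (a ^ 3 * (t ^ 3 - (t ^ 3)⁻¹)) * numaE a t) := by
  rw [← setIntegral_univ]
  refine numa_sub (f := fun t => a ^ 3 * (t ^ 3 - (t ^ 3)⁻¹))
    (f' := fun t => a ^ 3 * (3 * (t ^ 2 + (t ^ 4)⁻¹))) (fun t ht => ?_)
    (StrictMonoOn.injOn fun s (hs : 0 < s) t (ht : 0 < t) h => ?_) ?_ (fun t ht => ?_)
    hg.integrableOn
  · refine (((hasDerivAt_pow 3 t).sub ((hasDerivAt_pow 3 t).inv (by positivity))).const_mul
      (a ^ 3)).congr_deriv ?_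
    simp only [Nat.cast_ofNat, Nat.add_one_sub_one]
    field_simp
    ring
  · have h1 : s ^ 3 < t ^ 3 := by gcongr
    have h2 : (t ^ 3)⁻¹ < (s ^ 3)⁻¹ := by gcongr
    exact mul_lt_mul_of_pos_left (by linarith) (by positivity)
  · refine eq_univ_of_forall fun x => ?_
    set c := x / a ^ 3 with hc
    have h1 : |c| < √(c ^ 2 + 4) := Real.lt_sqrt_of_sq_lt (by rw [sq_abs]; linarith)
    have h2 : √(c ^ 2 + 4) ^ 2 = c ^ 2 + 4 := Real.sq_sqrt (by positivity)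
    have h3 : 0 < (c + √(c ^ 2 + 4)) / 2 := by linarith [neg_abs_le c]
    obtain ⟨t, ht, h⟩ := numa_root h3 (n := 3) (by norm_num)
    refine ⟨t, ht, ?_⟩
    have h4 : ((c + √(c ^ 2 + 4)) / 2)⁻¹ = (√(c ^ 2 + 4) - c) / 2 :=
      inv_eq_of_mul_eq_one_right (by linarith)
    simp only [h, h4]
    have : x = a ^ 3 * c := by rw [hc]; field_simp
    rw [this]
    ring
  · have e : -1 * (a ^ 3 * (t ^ 3 - (t ^ 3)⁻¹)) ^ 2
        = 2 * a ^ 6 + -(a ^ 6 * (t ^ 6 + (t ^ 6)⁻¹)) := by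
      field_simp
      ring
    rw [abs_of_pos (by positivity), e, Real.exp_add, numaE]
    ring

theorem numa_gauss : Integrable (fun x : ℝ => x ^ 2 * Real.exp (-1 * x ^ 2)) ∧
    ∫ x : ℝ, x ^ 2 * Real.exp (-1 * x ^ 2) = √Real.pi / 2 := by
  have h0 := integrable_exp_neg_mul_sq one_pos
  have h2 : Integrable (fun x : ℝ => x ^ 2 * Real.exp (-1 * x ^ 2)) := by
    simpa only [Real.rpow_two] using integrable_rpow_mul_exp_neg_mul_sq one_pos (s := 2) (by norm_num)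
  refine ⟨h2, ?_⟩
  have h := integral_eq_zero_of_hasDerivAt_of_integrable
    (f := fun x : ℝ => x * Real.exp (-1 * x ^ 2))
    (f' := fun x => Real.exp (-1 * x ^ 2) - 2 * (x ^ 2 * Real.exp (-1 * x ^ 2)))
    (fun x => ((hasDerivAt_id' x).mul ((hasDerivAt_pow 2 x).const_mul (-1)).exp).congr_deriv
      (by norm_num; ring)) (h0.sub (h2.const_mul 2)) (integrable_mul_exp_neg_mul_sq one_pos)
  rw [integral_sub h0 (h2.const_mul 2), integral_const_mul, integral_gaussian, div_one] at h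
  linarith

theorem numa_poly {t : ℝ} (ht : 0 < t) : t + (t ^ 3)⁻¹ ≤ t ^ 2 + (t ^ 4)⁻¹ ∧
    (t ^ 2 + (t ^ 4)⁻¹) * (1 - (t ^ 3 - (t ^ 3)⁻¹) ^ 2 / 8) ≤ t + (t ^ 3)⁻¹ := by
  have h1 : 0 ≤ (t - 1) ^ 2 * (1 + t + t ^ 2 + t ^ 3 + t ^ 4) := by positivity
  have h2 : 8 * t ^ 6 * (1 + t + t ^ 2 + t ^ 3 + t ^ 4)
      ≤ (t ^ 6 + 1) * (1 + t + t ^ 2 + t ^ 3 + t ^ 4 + t ^ 5) ^ 2 := by
    have h3 : 2 * t ^ 3 ≤ t ^ 6 + 1 := by nlinarith [sq_nonneg (t ^ 3 - 1)]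
    have h4 : 4 * t ^ 3 * (1 + t + t ^ 2 + t ^ 3 + t ^ 4)
        ≤ (1 + t + t ^ 2 + t ^ 3 + t ^ 4 + t ^ 5) ^ 2 := by
      have : 0 ≤ 1 + 2 * t + 3 * t ^ 2 + t ^ 4 + 2 * t ^ 5 + t ^ 6 + 3 * t ^ 8 + 2 * t ^ 9 + t ^ 10 := by
        positivity
      linarith
    calc _ = 2 * t ^ 3 * (4 * t ^ 3 * (1 + t + t ^ 2 + t ^ 3 + t ^ 4)) := by ring
      _ ≤ _ := by gcongr
  constructor
  · rw [← sub_nonneg]
    have e : t ^ 2 + (t ^ 4)⁻¹ - (t + (t ^ 3)⁻¹)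
        = (t - 1) ^ 2 * (1 + t + t ^ 2 + t ^ 3 + t ^ 4) / t ^ 4 := by
      field_simp
      ring
    rw [e]
    positivity
  · rw [← sub_nonneg]
    have e : t + (t ^ 3)⁻¹ - (t ^ 2 + (t ^ 4)⁻¹) * (1 - (t ^ 3 - (t ^ 3)⁻¹) ^ 2 / 8)
        = (t - 1) ^ 2 * ((t ^ 6 + 1) * (1 + t + t ^ 2 + t ^ 3 + t ^ 4 + t ^ 5) ^ 2
          - 8 * t ^ 6 * (1 + t + t ^ 2 + t ^ 3 + t ^ 4)) / (8 * t ^ 10) := by
      field_simp
      ring
    rw [e]
    exact div_nonneg (mul_nonneg (by positivity) (sub_nonneg.2 h2)) (by positivity)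

theorem numa_kk {a : ℝ} (ha : 0 < a) :
    √Real.pi * a⁻¹ * Real.exp (-(2 * a ^ 6)) * (1 - 1 / (16 * a ^ 6)) ≤ kk (a ^ 6) ∧
    kk (a ^ 6) ≤ √Real.pi * a⁻¹ * Real.exp (-(2 * a ^ 6)) := by
  obtain ⟨i1, e1⟩ := numa_one ha
  obtain ⟨i2, e2⟩ := numa_two ha
  have h0 := integrable_exp_neg_mul_sq one_pos
  obtain ⟨i3, e3⟩ := numa_three ha (g := fun _ => 1) (by simpa only [one_mul] using h0)
  obtain ⟨i4, e4⟩ := numa_three ha (g := fun x => 1 - x ^ 2 / (8 * a ^ 6)) (by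
    refine (h0.sub (numa_gauss.1.div_const (8 * a ^ 6))).congr (ae_of_all _ fun x => ?_)
    simp only [Pi.sub_apply]
    ring)
  have e5 : ∫ x : ℝ, (1 - x ^ 2 / (8 * a ^ 6)) * Real.exp (-1 * x ^ 2)
      = √Real.pi * (1 - 1 / (16 * a ^ 6)) := by
    have : ∀ x : ℝ, (1 - x ^ 2 / (8 * a ^ 6)) * Real.exp (-1 * x ^ 2)
        = Real.exp (-1 * x ^ 2) - x ^ 2 * Real.exp (-1 * x ^ 2) / (8 * a ^ 6) := fun x => by ring
    simp only [this]
    rw [integral_sub h0 (numa_gauss.1.div_const _), integral_div, numa_gauss.2, integral_gaussian,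
      div_one]
    ring
  simp only [one_mul, integral_gaussian, div_one] at e3
  rw [e5] at e4
  set c := a * Real.exp (2 * a ^ 6) / 2 with hc
  have hc0 : 0 < c := by positivity
  have e6 : c * (2 * kk (a ^ 6)) = ∫ t in Ioi 0, c * (6 * a ^ 2 * (t * numaE a t)
      + 6 * a ^ 2 * ((t ^ 3)⁻¹ * numaE a t)) := by
    rw [integral_const_mul, integral_add i1 i2, ← e1, ← e2, two_mul]
  have hE : ∀ t, 0 < numaE a t := fun t => Real.exp_pos _
  have hk : ∀ t, 0 ≤ 3 * a ^ 3 * Real.exp (2 * a ^ 6) * numaE a t := fun t => by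
    have := hE t
    positivity
  have l1 : c * (2 * kk (a ^ 6)) ≤ √Real.pi := by
    rw [e6, e3]
    refine setIntegral_mono_on ((i1.add i2).const_mul c) i3 measurableSet_Ioi fun t ht => ?_
    have := mul_le_mul_of_nonneg_left (numa_poly ht).1 (hk t)
    rw [hc]
    linarith
  have l2 : √Real.pi * (1 - 1 / (16 * a ^ 6)) ≤ c * (2 * kk (a ^ 6)) := by
    rw [e6, e4]
    refine setIntegral_mono_on i4 ((i1.add i2).const_mul c) measurableSet_Ioi fun t ht => ?_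
    have := mul_le_mul_of_nonneg_left (numa_poly ht).2 (hk t)
    have e : (a ^ 3 * (t ^ 3 - (t ^ 3)⁻¹)) ^ 2 / (8 * a ^ 6) = (t ^ 3 - (t ^ 3)⁻¹) ^ 2 / 8 := by
      field_simp
    rw [hc, e]
    linarith
  have e7 : kk (a ^ 6) = c * (2 * kk (a ^ 6)) * (a⁻¹ * Real.exp (-(2 * a ^ 6))) := by
    rw [hc, Real.exp_neg]
    field_simp
  have hp : 0 ≤ a⁻¹ * Real.exp (-(2 * a ^ 6)) := by positivity
  constructor
  · rw [e7]
    linarith [mul_le_mul_of_nonneg_right l2 hp]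
  · rw [e7]
    linarith [mul_le_mul_of_nonneg_right l1 hp]

/-- The square of integer points with coordinates at most m in absolute value. -/
noncomputable def numaSq (m : ℕ) : Finset (ℤ × ℤ) := Finset.Icc (-(m : ℤ)) m ×ˢ Finset.Icc (-(m : ℤ)) m

theorem numa_mem {m : ℕ} {p : ℤ × ℤ} : p ∈ numaSq m ↔ |p.1| ≤ m ∧ |p.2| ≤ m := by
  simp only [numaSq, Finset.mem_product, Finset.mem_Icc, abs_le]

theorem numa_card (m : ℕ) : (numaSq m).card = (2 * m + 1) ^ 2 := by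
  have : ((m : ℤ) + 1 - -(m : ℤ)).toNat = 2 * m + 1 := by omega
  rw [numaSq, Finset.card_product, Int.card_Icc, this, sq]

theorem numa_shell {F : Eis → ℝ} (φ : ℤ × ℤ → Eis) (hF : ∀ n, 0 ≤ F n) {g T : ℕ → ℝ} (M : ℕ)
    (hg : ∀ m : ℕ, M ≤ m → ∀ p : ℤ × ℤ, (m + 1 ≤ |p.1| ∨ m + 1 ≤ |p.2|) → F (φ p) ≤ g m)
    (hT : ∀ m, M ≤ m → 8 * (m + 1) * g m + T (m + 1) ≤ T m) (hT0 : ∀ m, 0 ≤ T m)
    (S : Finset Eis) (hS : ∀ n ∈ S, F n ≠ 0 → ∃ p, φ p = n) :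
    ∑ n ∈ S, F n ≤ ∑ p ∈ numaSq M, F (φ p) + T M := by
  have h1 : ∀ m, M ≤ m → ∑ p ∈ numaSq m, F (φ p) + T m ≤ ∑ p ∈ numaSq M, F (φ p) + T M := by
    intro m hm
    induction m, hm using Nat.le_induction with
    | base => exact le_rfl
    | succ m hm ih =>
      have hs : numaSq m ⊆ numaSq (m + 1) := fun p hp => by
        rw [numa_mem] at hp ⊢
        push_cast
        constructor <;> linarith [hp.1, hp.2]
      have h2 := Finset.sum_le_card_nsmul (numaSq (m + 1) \ numaSq m) (fun p => F (φ p)) (g m)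
        fun p hp => hg m hm p (by
          have := (Finset.mem_sdiff.1 hp).2
          rw [numa_mem] at this
          omega)
      have h3 : (numaSq (m + 1) \ numaSq m).card = 8 * (m + 1) := by
        rw [Finset.card_sdiff_of_subset hs, numa_card, numa_card]
        exact Nat.sub_eq_of_eq_add (by ring)
      rw [h3, nsmul_eq_mul] at h2
      push_cast at h2
      rw [← Finset.sum_sdiff hs]
      linarith [hT m hm]
  classical
  choose! ψ hψ using hS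
  obtain ⟨m, hm⟩ : ∃ m, M ≤ m ∧ ∀ n ∈ S, ψ n ∈ numaSq m := by
    refine ⟨M + S.sup fun n => (ψ n).1.natAbs + (ψ n).2.natAbs, by omega, fun n hn => ?_⟩
    have := Finset.le_sup (f := fun n => (ψ n).1.natAbs + (ψ n).2.natAbs) hn
    rw [numa_mem, Int.abs_eq_natAbs, Int.abs_eq_natAbs]
    omega
  calc ∑ n ∈ S, F n ≤ ∑ n ∈ (numaSq m).image φ, F n := by
        rw [← Finset.sum_filter_ne_zero]
        refine Finset.sum_le_sum_of_subset_of_nonneg (fun n hn => ?_) fun n _ _ => hF n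
        obtain ⟨hn, h⟩ := Finset.mem_filter.1 hn
        exact Finset.mem_image.2 ⟨ψ n, hm.2 n hn, hψ n hn h⟩
    _ ≤ ∑ p ∈ numaSq m, F (φ p) := Finset.sum_image_le_of_nonneg fun n _ => hF n
    _ ≤ _ := by linarith [h1 m hm.1, hT0 m]

theorem numa_sum_one (f : ℤ × ℤ → ℝ) : ∑ p ∈ numaSq 1, f p = f (-1, -1) + f (-1, 0) + f (-1, 1)
    + (f (0, -1) + f (0, 0) + f (0, 1)) + (f (1, -1) + f (1, 0) + f (1, 1)) := by
  have e : Finset.Icc (-((1 : ℕ) : ℤ)) (1 : ℕ) = {-1, 0, 1} := by decide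
  rw [numaSq, e, Finset.sum_product]
  simp only [add_assoc, Finset.sum_insert, Finset.sum_singleton, Finset.mem_insert,
    Finset.mem_singleton, Int.reduceNeg, Int.reduceEq, or_self, not_false_eq_true]

theorem numa_sum_two (f : ℤ × ℤ → ℝ) : ∑ p ∈ numaSq 2, f p =
    f (-2, -2) + f (-2, -1) + f (-2, 0) + f (-2, 1) + f (-2, 2)
    + (f (-1, -2) + f (-1, -1) + f (-1, 0) + f (-1, 1) + f (-1, 2))
    + (f (0, -2) + f (0, -1) + f (0, 0) + f (0, 1) + f (0, 2))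
    + (f (1, -2) + f (1, -1) + f (1, 0) + f (1, 1) + f (1, 2))
    + (f (2, -2) + f (2, -1) + f (2, 0) + f (2, 1) + f (2, 2)) := by
  have e : Finset.Icc (-((2 : ℕ) : ℤ)) (2 : ℕ) = {-2, -1, 0, 1, 2} := by decide
  rw [numaSq, e, Finset.sum_product]
  simp only [add_assoc, Finset.sum_insert, Finset.sum_singleton, Finset.mem_insert,
    Finset.mem_singleton, Int.reduceNeg, Int.reduceEq, or_self, not_false_eq_true]

end Vale.Agent.P006
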