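import Vale.Agent.P006.Wt
import Vale.Agent.P026.Kap
import Vale.Agent.P006.NumAA

/-! Numerical estimates, part one. -/

namespace Vale.Agent.P006

open Vale.Agent.P026 Eis Complex MeasureTheory Filter Topology
open scoped Classical ComplexConjugate

/-- Substitute u = y exp s: kk y = y ^ (1/3) ∫ over s > 0 of 2 cosh (s / 3) exp (- 2 y cosh s), and
cosh s = 1 + 2 sinh (s / 2) ^ 2. With x = 2 √y sinh (s / 2): kk y exp (2 y) = 2 y ^ (-1/6) ∫ over x > 0 of
exp (- x ^ 2) cosh (s / 3) / cosh (s / 2), and 1 - x ^ 2 / (8 y) ≤ 1 / cosh (s / 2) ≤ ratio ≤ 1. -/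
theorem kk_bounds {y : ℝ} (hy : 0 < y) :
    √Real.pi * y ^ (-(1 / 6) : ℝ) * Real.exp (-(2 * y)) * (1 - 1 / (16 * y)) ≤ kk y ∧
    kk y ≤ √Real.pi * y ^ (-(1 / 6) : ℝ) * Real.exp (-(2 * y)) := by
  obtain ⟨a, ha, rfl⟩ := numa_root hy (n := 6) (by norm_num)
  have e : (a ^ 6) ^ (-(1 / 6) : ℝ) = a⁻¹ := by
    rw [← Real.rpow_natCast, ← Real.rpow_mul ha.le, ← Real.rpow_neg_one]
    norm_num
  rw [e]
  exact numa_kk ha

theorem numa_sqrt : 1.73205 < √3 ∧ √3 < 1.732051 :=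
  ⟨Real.lt_sqrt_of_sq_lt (by norm_num), (Real.sqrt_lt' (by norm_num)).2 (by norm_num)⟩

theorem c0_bounds : 0.403 < c0 ∧ c0 < 0.4031 := by
  have h := numa_sqrt
  rw [c0, lt_div_iff₀ (by positivity), div_lt_iff₀ (by positivity)]
  constructor <;> linarith [Real.pi_gt_d6, Real.pi_lt_d6]

/-- kap y ^ 2 = π c0 ^ (-1/3) y exp (- 4 c0 y) times a factor in [(1 - 1 / (16 c0 y)) ^ 2, 1]. -/
theorem kap_bounds {y : ℝ} (hy : 0 < y) :
    √Real.pi * c0 ^ (-(1 / 6) : ℝ) * √y * Real.exp (-(2 * c0 * y)) * (1 - 1 / (16 * c0 * y)) ≤ kap y ∧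
    kap y ≤ √Real.pi * c0 ^ (-(1 / 6) : ℝ) * √y * Real.exp (-(2 * c0 * y)) := by
  obtain ⟨h1, h2⟩ := kk_bounds (mul_pos c0_pos hy)
  have e : √y = y ^ (2 / 3 : ℝ) * y ^ (-(1 / 6) : ℝ) := by
    rw [← Real.rpow_add hy, Real.sqrt_eq_rpow]
    norm_num
  have hp : 0 ≤ y ^ (2 / 3 : ℝ) := by positivity
  rw [Real.mul_rpow c0_pos.le hy.le, ← mul_assoc 2] at h1 h2
  rw [← mul_assoc 16] at h1
  rw [e, kap]
  exact ⟨by linarith [mul_le_mul_of_nonneg_left h1 hp], by linarith [mul_le_mul_of_nonneg_left h2 hp]⟩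

theorem numa_N {x : Eis} {k : ℤ} (hk : 0 ≤ k) (h : k ≤ |x.a| ∨ k ≤ |x.b|) :
    3 * (k : ℝ) ^ 2 ≤ 4 * N x := by
  have : 3 * k ^ 2 ≤ 4 * nrm x := by
    rcases h with h | h <;> have := pow_le_pow_left₀ hk h 2 <;> rw [sq_abs] at this <;> unfold nrm
    · nlinarith [sq_nonneg (2 * x.b - x.a)]
    · nlinarith [sq_nonneg (2 * x.a - x.b)]
  unfold N
  exact_mod_cast this

/-- Parametrisation of the primary elements. -/
def numaP (p : ℤ × ℤ) : Eis := ⟨1 + 3 * p.1, 3 * p.2⟩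

theorem numa_prim {n : Eis} (h : Prim n) : ∃ p, numaP p = n := by
  obtain ⟨⟨a, ha⟩, b, hb⟩ := bs_prim.1 h
  exact ⟨(a, b), Eis.ext (by simp only [numaP]; omega) hb.symm⟩

theorem numa_NP {m : ℕ} {p : ℤ × ℤ} (h : m + 1 ≤ |p.1| ∨ m + 1 ≤ |p.2|) :
    3 * (3 * (m : ℝ) + 2) ^ 2 ≤ 4 * N (numaP p) := by
  have := numa_N (x := numaP p) (k := 3 * m + 2) (by positivity) (by
    simp only [numaP, le_abs] at h ⊢
    omega)
  exact_mod_cast this

theorem numa_exp {x y q : ℝ} (n : ℕ) (hy : 0 ≤ y) (h : n * y ≤ x)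
    (hq : 1 ≤ q * (1 + y + y ^ 2 / 2)) : Real.exp (-x) ≤ q ^ n := by
  have h1 : 0 < 1 + y + y ^ 2 / 2 := by positivity
  have h2 : Real.exp (-y) ≤ q := by
    rw [Real.exp_neg]
    exact (inv_anti₀ h1 (Real.quadratic_le_exp_of_nonneg hy)).trans
      ((inv_le_iff_one_le_mul₀ h1).2 hq)
  calc Real.exp (-x) ≤ Real.exp (n * -y) := Real.exp_le_exp.2 (by linarith)
    _ ≤ _ := by rw [Real.exp_nat_mul]; gcongr

/-- True value 1.1422. The primary elements are (1 + 3 a) + 3 b om; treat N ≤ 13 or so by hand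
(norms 1, 4, 7, 7, 13, 13) and the tail by counting, or use ∑ over all nonzero elements. -/
theorem zP_le : zP ≤ 3 / 2 := by
  have h0 : ∀ d : Eis, 0 ≤ if Prim d then (N d ^ 2)⁻¹ else 0 := fun d => by
    split_ifs <;> positivity
  have h1 : ∀ d : Eis, (if Prim d then (N d ^ 2)⁻¹ else 0) ≤ (N d ^ 2)⁻¹ := fun d => by
    split_ifs
    · exact le_rfl
    · positivity
  refine Real.tsum_le_of_sum_le h0 fun S => (numa_shell numaP h0 1
    (g := fun m => (16 * (m + 1) ^ 2 * (m + 2))⁻¹) (T := fun m => (2 * (m + 1))⁻¹)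
    (fun m hm p hp => (h1 _).trans (inv_anti₀ (by positivity) ?_)) (fun m _ => le_of_eq ?_)
    (fun m => by positivity) S fun n _ hn => numa_prim (by by_contra h; exact hn (if_neg h))).trans
    ((add_le_add_left (Finset.sum_le_sum fun p _ => h1 _) _).trans ?_)
  · have h2 := numa_NP hp
    have h3 : (1 : ℝ) ≤ m := by exact_mod_cast hm
    have h4 : 4 * ((m : ℝ) + 1) ^ 2 ≤ N (numaP p) := by nlinarith
    calc _ ≤ (4 * ((m : ℝ) + 1) ^ 2) ^ 2 := by
          have : (m : ℝ) + 2 ≤ (m + 1) ^ 2 := by nlinarith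
          nlinarith [mul_le_mul_of_nonneg_left this (sq_nonneg ((m : ℝ) + 1))]
      _ ≤ _ := by gcongr
  · push_cast
    field_simp
    ring
  · rw [numa_sum_one]
    norm_num [N, nrm, numaP]

theorem numa_JJ {x : ℝ} (hx : 1.732 ≤ x) :
    kap (3 * x) ^ 2 / JJ x ≤ 5.62 * Real.exp (-(4.03 * x)) := by
  have hc := c0_bounds
  have hx0 : 0 < x := by linarith
  set K := √Real.pi * c0 ^ (-(1 / 6) : ℝ) with hK
  have hK0 : 0 < K := by have := c0_pos; have := Real.pi_pos; positivity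
  set A := K ^ 2 * x * Real.exp (-(2 * c0 * x)) * 0.5347 with hA
  have hi : IntegrableOn (fun v => kap (x * v) ^ 2 / v ^ 3) (Set.Ioc (1 / 3) 1) :=
    (ContinuousOn.integrableOn_Icc (ContinuousOn.div
      ((continuous_kap.comp (by fun_prop)).pow 2).continuousOn (by fun_prop)
      fun v hv => by have : 0 < v := by linarith [hv.1]
                     positivity)).mono_set Set.Ioc_subset_Icc_self
  have hc2 : ContinuousOn (fun v : ℝ => (v ^ 2)⁻¹) (Set.uIcc (1 / 3) (1 / 2)) :=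
    ContinuousOn.inv₀ (by fun_prop) fun v hv => by
      rw [Set.uIcc_of_le (by norm_num)] at hv
      have : 0 < v := by linarith [hv.1]
      positivity
  have e : ∫ v in (1 / 3 : ℝ)..(1 / 2), (v ^ 2)⁻¹ = 1 := by
    rw [intervalIntegral.integral_eq_sub_of_hasDerivAt (f := fun v => -v⁻¹) (fun v hv => by
      rw [Set.uIcc_of_le (by norm_num)] at hv
      simpa only [neg_neg] using (hasDerivAt_inv (by linarith [hv.1] : 0 < v).ne').fun_neg)
      hc2.intervalIntegrable]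
    norm_num
  have hJ : A ≤ JJ x := by
    have hs : Set.Ioc (1 / 3 : ℝ) (1 / 2) ⊆ Set.Ioc (1 / 3) 1 := Set.Ioc_subset_Ioc_right (by norm_num)
    refine le_trans ?_ (setIntegral_mono_set hi (ae_restrict_of_forall_mem measurableSet_Ioc
      fun v hv => by have : 0 < v := by linarith [hv.1]
                     positivity) hs.eventuallyLE)
    rw [intervalIntegral.integral_of_le (by norm_num)] at e
    refine le_trans (le_of_eq (by rw [integral_const_mul, e, mul_one])) (setIntegral_mono_on (hc2.intervalIntegrable.1.const_mul A) (hi.mono_set hs)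
      measurableSet_Ioc fun v hv => ?_)
    have hv0 : 0 < v := by linarith [hv.1]
    have h1 := (kap_bounds (mul_pos hx0 hv0)).1
    have h2 : 0.7313 ≤ 1 - 1 / (16 * c0 * (x * v)) := by
      have h3 : 1.732 * (1 / 3) ≤ x * v := mul_le_mul hx hv.1.le (by norm_num) hx0.le
      have h4 : 0.403 * (1.732 * (1 / 3)) ≤ c0 * (x * v) :=
        mul_le_mul hc.1.le h3 (by norm_num) c0_pos.le
      have : 1 / (16 * c0 * (x * v)) ≤ 0.2687 := by
        rw [div_le_iff₀ (by linarith)]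
        linarith
      linarith
    have h5 : Real.exp (-(c0 * x)) ≤ Real.exp (-(2 * c0 * (x * v))) :=
      Real.exp_le_exp.2 (by nlinarith [mul_pos c0_pos hx0, hv.2])
    have h6 : K * √(x * v) * Real.exp (-(c0 * x)) * 0.7313 ≤ kap (x * v) :=
      le_trans (by gcongr) h1
    have h7 := pow_le_pow_left₀ (by positivity) h6 2
    rw [mul_pow, mul_pow, mul_pow, Real.sq_sqrt (by positivity), ← Real.exp_nat_mul,
      show ((2 : ℕ) : ℝ) * -(c0 * x) = -(2 * c0 * x) by push_cast; ring] at h7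
    rw [le_div_iff₀ (by positivity)]
    refine le_trans ?_ h7
    have : 0 ≤ K ^ 2 * (x * v) * Real.exp (-(2 * c0 * x)) := by positivity
    calc _ = K ^ 2 * (x * v) * Real.exp (-(2 * c0 * x)) * 0.5347 := by rw [hA]; field_simp
      _ ≤ _ := by gcongr; norm_num
  have hA0 : 0 < A := by positivity
  have h8 := pow_le_pow_left₀ (kap_nonneg (by positivity)) (kap_bounds (y := 3 * x) (by positivity)).2 2
  rw [mul_pow, mul_pow, Real.sq_sqrt (by positivity), ← Real.exp_nat_mul] at h8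
  rw [div_le_iff₀ (hA0.trans_le hJ)]
  refine h8.trans (le_trans ?_ (mul_le_mul_of_nonneg_left hJ (by positivity)))
  have h9 : Real.exp (((2 : ℕ) : ℝ) * -(2 * c0 * (3 * x)))
      ≤ Real.exp (-(4.03 * x)) * Real.exp (-(2 * c0 * x)) := by
    rw [← Real.exp_add]
    exact Real.exp_le_exp.2 (by push_cast; nlinarith)
  have : 0 ≤ K ^ 2 * x * (Real.exp (-(4.03 * x)) * Real.exp (-(2 * c0 * x))) := by positivity
  calc _ ≤ K ^ 2 * (3 * x) * (Real.exp (-(4.03 * x)) * Real.exp (-(2 * c0 * x))) := by gcongr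
    _ ≤ _ := by rw [hA]; linarith

/-- For x ≥ √3 restrict the integral JJ x to v in (1/3, 1/2]: kap (3 x) ^ 2 / JJ x ≤
3 exp (- 12 c0 x) / ∫ (1 - 1 / (16 c0 x v)) ^ 2 exp (- 4 c0 x v) v ^ (-2) dv ≤ 9 exp (- 10 c0 x); this is
≤ 0.0086 at x = √3 which is too weak for the six elements of norm 3, where a finer lower bound for the
integral (two or three subintervals of (1/3, 1]) gives ≤ 1/200 each. For the other r, N r ≥ 9. True value
of the sum is about 0.011. -/
theorem num_J (S : Finset Eis) (hS : ∀ r ∈ S, r ≠ 0 ∧ lam ∣ r) :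
    ∑ r ∈ S, kap (3 * ab r) ^ 2 / JJ (ab r) ≤ 1 / 25 := by
  have hN : ∀ e, N (lam * e) = 3 * N e := fun e => by
    rw [N_mul]
    norm_num [N, nrm, lam]
  set F : Eis → ℝ := fun r => if r ≠ 0 ∧ lam ∣ r then 5.62 * Real.exp (-(4.03 * ab r)) else 0
    with hF
  have h0 : ∀ r, 0 ≤ F r := fun r => by simp only [hF]; split_ifs <;> positivity
  have h1 : ∀ (r : Eis) (y q : ℝ) (n : ℕ), 0 ≤ y → (n * y) ^ 2 ≤ 16.24 * N r →
      1 ≤ q * (1 + y + y ^ 2 / 2) → F r ≤ 5.62 * q ^ n := fun r y q n hy h hq => by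
    have h2 : n * y ≤ 4.03 * ab r := abs_le_of_sq_le_sq' (by
      rw [mul_pow 4.03, ab_sq]; linarith [N_nonneg r]) (by have := ab_nonneg r; positivity) |>.2
    have h3 := numa_exp (x := 4.03 * ab r) n hy h2 hq
    have := Real.exp_pos (-(4.03 * ab r))
    simp only [hF]
    split_ifs <;> linarith
  refine (Finset.sum_le_sum (g := F) fun r hr => ?_).trans ((numa_shell
    (fun p => lam * ⟨p.1, p.2⟩) h0 1 (g := fun m => 5.62 * 0.003 ^ (m + 1))
    (T := fun m => 50 * (m + 1) * 0.003 ^ (m + 1)) (fun m hm p hp => ?_) (fun m hm => ?_)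
    (fun m => by positivity) S fun n hn _ => ?_).trans ?_)
  · simp only [hF, if_pos (hS r hr)]
    obtain ⟨h2, e, rfl⟩ := hS r hr
    refine numa_JJ (Real.le_sqrt_of_sq_le ?_)
    rw [hN]
    linarith [one_le_N (right_ne_zero_of_mul h2)]
  · have h2 := numa_N (x := ⟨p.1, p.2⟩) (k := m + 1) (by positivity) hp
    refine (h1 _ 0.5 0.6154 (12 * (m + 1)) (by norm_num) ?_ (by norm_num)).trans ?_
    · rw [hN]
      push_cast at h2 ⊢
      nlinarith
    · rw [pow_mul]
      gcongr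
      norm_num
  · have h2 : (1 : ℝ) ≤ m := by exact_mod_cast hm
    have h3 : (0 : ℝ) < 0.003 ^ (m + 1) := by positivity
    rw [pow_succ _ (m + 1)]
    push_cast
    nlinarith
  · obtain ⟨-, e, rfl⟩ := hS n hn
    exact ⟨(e.a, e.b), rfl⟩
  · have h2 : ∀ a b : ℤ, 1 ≤ a ^ 2 - a * b + b ^ 2 → F (lam * ⟨a, b⟩) ≤ 0.0058 := fun a b h => by
      refine (h1 _ 0.249 0.7813 28 (by norm_num) ?_ (by norm_num)).trans (by norm_num)
      have : (1 : ℝ) ≤ N ⟨a, b⟩ := by unfold N nrm; exact_mod_cast h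
      rw [hN]
      push_cast
      linarith
    have h3 : ∀ a b : ℤ, 3 ≤ a ^ 2 - a * b + b ^ 2 → F (lam * ⟨a, b⟩) ≤ 0.0001 := fun a b h => by
      refine (h1 _ 0.5 0.6154 24 (by norm_num) ?_ (by norm_num)).trans (by norm_num)
      have : (3 : ℝ) ≤ N ⟨a, b⟩ := by unfold N nrm; exact_mod_cast h
      rw [hN]
      push_cast
      linarith
    have h4 : F (lam * ⟨0, 0⟩) = 0 := if_neg fun h => h.1 (by decide)
    rw [numa_sum_one]
    have := h2 (-1) (-1) (by norm_num)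
    have := h2 (-1) 0 (by norm_num)
    have := h3 (-1) 1 (by norm_num)
    have := h2 0 (-1) (by norm_num)
    have := h2 0 1 (by norm_num)
    have := h3 1 (-1) (by norm_num)
    have := h2 1 0 (by norm_num)
    have := h2 1 1 (by norm_num)
    norm_num
    linarith

end Vale.Agent.P006
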