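import Vale.Agent.P006.Ari
import Vale.Agent.P006.Wt
import Vale.Agent.P006.WtQ

/-! Duality and the ordinary large sieve for families of kernels. -/

namespace Vale.Agent.P006

open Vale.Agent.P026 Eis Complex MeasureTheory Filter Topology
open scoped Classical ComplexConjugate

/-- Duality: take b j = conj of the inner sum and use Cauchy-Schwarz. -/
theorem du {ι κ : Type} (J : Finset ι) (S : Finset κ) (f : ι → κ → ℂ) (v : κ → ℝ)
    (hv : ∀ n ∈ S, 0 < v n) {Δ : ℝ} (hΔ : 0 ≤ Δ)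
    (h : ∀ b : ι → ℂ, ∑ n ∈ S, v n * ‖∑ j ∈ J, b j * f j n‖ ^ 2 ≤ Δ * ∑ j ∈ J, ‖b j‖ ^ 2)
    (a : κ → ℂ) :
    ∑ j ∈ J, ‖∑ n ∈ S, a n * f j n‖ ^ 2 ≤ Δ * ∑ n ∈ S, ‖a n‖ ^ 2 / v n := by
  have h1 := h fun j => conj (∑ n ∈ S, a n * f j n)
  simp only [Complex.norm_conj] at h1
  have e : ((∑ j ∈ J, ‖∑ n ∈ S, a n * f j n‖ ^ 2 : ℝ) : ℂ) =
      ∑ n ∈ S, a n * ∑ j ∈ J, conj (∑ n ∈ S, a n * f j n) * f j n := by
    simp only [Finset.mul_sum]
    rw [Finset.sum_comm, ofReal_sum]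
    refine Finset.sum_congr rfl fun j _ => ?_
    rw [← Complex.normSq_eq_norm_sq, ← Complex.mul_conj, Finset.sum_mul]
    refine Finset.sum_congr rfl fun n _ => ?_
    ring
  have h2 := congrArg norm e
  rw [Complex.norm_real, Real.norm_of_nonneg (Finset.sum_nonneg fun _ _ => sq_nonneg _)] at h2
  have h3 := h2.le.trans (norm_sum_le _ _)
  have h4 := Finset.sum_sq_le_sum_mul_sum_of_sq_le_mul S
    (r := fun n => ‖a n * ∑ j ∈ J, conj (∑ n ∈ S, a n * f j n) * f j n‖)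
    (f := fun n => ‖a n‖ ^ 2 / v n)
    (g := fun n => v n * ‖∑ j ∈ J, conj (∑ n ∈ S, a n * f j n) * f j n‖ ^ 2)
    (fun n hn => div_nonneg (sq_nonneg _) (hv n hn).le)
    (fun n hn => mul_nonneg (hv n hn).le (sq_nonneg _)) (fun n hn => by
      have := (hv n hn).ne'
      rw [norm_mul]
      apply le_of_eq
      field_simp)
  have p1 : 0 ≤ ∑ n ∈ S, ‖a n‖ ^ 2 / v n :=
    Finset.sum_nonneg fun n hn => div_nonneg (sq_nonneg _) (hv n hn).le
  have p2 : 0 ≤ ∑ j ∈ J, ‖∑ n ∈ S, a n * f j n‖ ^ 2 := Finset.sum_nonneg fun _ _ => sq_nonneg _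
  have h5 := (pow_le_pow_left₀ p2 h3 2).trans (h4.trans (mul_le_mul_of_nonneg_left h1 p1))
  generalize ∑ j ∈ J, ‖∑ n ∈ S, a n * f j n‖ ^ 2 = X at *
  generalize ∑ n ∈ S, ‖a n‖ ^ 2 / v n = Y at *
  rcases p2.eq_or_lt with h0 | h0
  · rw [← h0]
    exact mul_nonneg hΔ p1
  · apply le_of_mul_le_mul_right _ h0
    nlinarith

theorem ols_pois : ∃ C : ℝ, 0 < C ∧ ∀ (q : Eis) (F : Eis → ℂ) (B : ℝ), q ≠ 0 → Per q F →
    (∀ h, ‖gauss F q h‖ ≤ B) → gauss F q 0 = 0 → ∀ K : ℝ, 0 < K →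
      ‖∑' n : Eis, F n * (Real.exp (-(Real.pi * N n / K)) : ℂ)‖ ≤ C * B := by
  obtain ⟨C, hC, h⟩ := tsum_exp_le
  refine ⟨C, hC, fun q F B hq hF hB h0 K hK => ?_⟩
  have n := N_pos hq
  have B0 : 0 ≤ B := (norm_nonneg _).trans (hB 0)
  have pi := Real.pi_pos
  have ha : 0 < 4 * Real.pi / 3 * K / N q := by positivity
  have s1 : Summable fun c : Eis =>
      (if c = 0 then 0 else Real.exp (-(4 * Real.pi / 3 * K / N q * N c))) :=
    (summable_exp ha).of_nonneg_of_le (fun c => by split_ifs <;> positivity)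
      fun c => by split_ifs; exacts [(Real.exp_pos _).le, le_rfl]
  have b1 : ‖∑' h : Eis, gauss F q h * (Real.exp (-(4 * Real.pi / 3 * K * N h / N q)) : ℂ)‖ ≤
      B * ∑' c : Eis, (if c = 0 then 0 else Real.exp (-(4 * Real.pi / 3 * K / N q * N c))) := by
    rw [← tsum_mul_left]
    refine tsum_of_norm_bounded (s1.mul_left B).hasSum fun c => ?_
    split_ifs with hc
    · simp [hc, h0]
    · rw [norm_mul, Complex.norm_real, Real.norm_of_nonneg (Real.exp_pos _).le,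
        div_mul_eq_mul_div _ (N q)]
      exact mul_le_mul_of_nonneg_right (hB c) (Real.exp_pos _).le
  rw [poisson_per hq hF hK, norm_mul, Complex.norm_real, Real.norm_of_nonneg (by positivity)]
  refine (mul_le_mul_of_nonneg_left (b1.trans (mul_le_mul_of_nonneg_left (h _ ha) B0))
    (by positivity)).trans ?_
  have s3 : 1 ≤ √3 := Real.one_le_sqrt.2 (by norm_num)
  have e : 2 * K / (√3 * N q) * (B * (C / (4 * Real.pi / 3 * K / N q))) =
      C * B * (3 / (2 * Real.pi * √3)) := by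
    field_simp
    ring
  rw [e]
  refine mul_le_of_le_one_right (by positivity) ?_
  rw [div_le_one (by positivity)]
  nlinarith [Real.pi_gt_three]

theorem ols_gauss_const (c : ℂ) (F : Eis → ℂ) (q h : Eis) :
    gauss (fun n => c * F n) q h = c * gauss F q h := by
  unfold gauss
  rw [Finset.mul_sum]
  exact Finset.sum_congr rfl fun _ _ => mul_assoc _ _ _

theorem ols_gauss_le {x : Eis} (hx : PS x) (s h : Eis) :
    ‖gauss (fun n => cub (s * n) x) x h‖ ≤ ab x := by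
  simp only [cub_mul_left _ _ hx.1.not_lam_dvd]
  rw [ols_gauss_const, gauss_cub' hx, norm_mul, norm_mul, norm_mul, norm_g3' hx, mul_one,
    Complex.norm_conj, Complex.norm_real, Real.norm_of_nonneg (ab_nonneg x)]
  refine (mul_le_of_le_one_left (mul_nonneg (norm_nonneg _) (ab_nonneg x))
    (norm_cub_le _ _)).trans ?_
  exact mul_le_of_le_one_left (ab_nonneg x) (norm_cub_le _ _)

theorem ols_gauss_triv {F : Eis → ℂ} (hF : ∀ n, ‖F n‖ ≤ 1) {q : Eis} (hq : q ≠ 0) (h : Eis) :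
    ‖gauss F q h‖ ≤ N q := by
  unfold gauss
  refine (norm_sum_le _ _).trans ?_
  rw [← card_res hq]
  refine (Finset.sum_le_card_nsmul _ _ 1 fun x _ => ?_).trans (by simp)
  rw [norm_mul, norm_psi, mul_one]
  exact hF x

theorem ols_ind_le (n : Eis) (z : ℂ) (hz : ‖z‖ ≤ 1) : ‖(if Prim n then 1 else 0) * z‖ ≤ 1 := by
  split_ifs
  · simpa using hz
  · simp

/-- Smooth Polya-Vinogradov bound for primitive characters: poisson_per with modulus 9 x y; the
function is (periodic modulo 9) * cub n x * conj (cub n y) by cub_recip, its Gauss sums have norm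
≤ 81 ab x ab y (lp_gauss_crt, gauss_cub', gauss_conj_cub) and vanish at 0 (sum_prim_cub); tsum_exp_le. -/
theorem pois_char : ∃ C : ℝ, 0 < C ∧ ∀ (u x y : Eis) (k : ℕ), u ∣ 3 ^ k → PS x → PS y →
    IsCoprime x y → ¬ Cube (u * x * y ^ 2) → ∀ K : ℝ, 0 < K →
      ‖∑' n : Eis, (if Prim n then 1 else 0) * cub (u * x * y ^ 2) n *
        (Real.exp (-(Real.pi * N n / K)) : ℂ)‖ ≤ C * (ab x * ab y) := by
  obtain ⟨C, hC, h⟩ := ols_pois
  have h3 : (3 : Eis) ≠ 0 := by decide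
  have h27 : (9 * 3 : Eis) ≠ 0 := by decide
  refine ⟨C * N (9 * 3), mul_pos hC (N_pos h27), fun u x y k hu hx hy hxy hc K hK => ?_⟩
  have c0 : 3 * (x * y) ≠ 0 := mul_ne_zero h3 (mul_ne_zero hx.ne_zero hy.ne_zero)
  have hd : u * x * y ^ 2 ∣ (3 * (x * y)) ^ (k + 2) := by
    obtain ⟨w, hw⟩ := hu
    exact ⟨w * 9 * x ^ (k + 1) * y ^ k, by rw [mul_pow, pow_add, hw]; ring⟩
  rw [mul_assoc C]
  refine h (9 * (3 * (x * y))) (fun n => (if Prim n then 1 else 0) * cub (u * x * y ^ 2) n) _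
    (mul_ne_zero (by decide) c0) (per_prim_cub c0 _ hd) (fun r => ?_) ?_ K hK
  · have e : (fun n => (if Prim n then 1 else 0) * cub (u * x * y ^ 2) n) =
        fun n => ((if Prim n then 1 else 0) * cub u n) * (cub n x * conj (cub n y)) := by
      funext n
      split_ifs with hn
      · rw [cub_mul_left _ _ hn.not_lam_dvd, cub_mul_left _ _ hn.not_lam_dvd,
          cub_pow_left _ hn.not_lam_dvd, cub_recip hx.1 hn, cub_recip hy.1 hn, conj_cub]
        ring
      · simp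
    have p1 : Per x fun n => cub n x := Per.of_congr fun a b hab => cub_congr hab
    have p2 : Per y fun n => conj (cub n y) := Per.of_congr fun a b hab => by rw [cub_congr hab]
    have p3 : Per (x * y) fun n => cub n x * conj (cub n y) :=
      (p1.of_dvd (dvd_mul_right x y)).mul (p2.of_dvd (dvd_mul_left y x))
    have c3 : IsCoprime (9 * 3 : Eis) (x * y) := by
      have := ((hx.1.mul hy.1).coprime_three.symm.pow_left (m := 3))
      rwa [show (3 : Eis) ^ 3 = 9 * 3 by norm_num] at this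
    rw [e, ← mul_assoc, lp_gauss_crt h27 (mul_ne_zero hx.ne_zero hy.ne_zero) c3
      (per_prim_cub h3 k hu) p3, lp_gauss_crt hx.ne_zero hy.ne_zero hxy (p1.comp_mul (9 * 3))
      (p2.comp_mul (9 * 3)), norm_mul, norm_mul]
    refine mul_le_mul (ols_gauss_triv (fun n => ols_ind_le _ _ (norm_cub_le _ _)) h27 r)
      (mul_le_mul ?_ ?_ (norm_nonneg _) (ab_nonneg x)) (by positivity) (N_nonneg _)
    · simp only [← mul_assoc]
      exact ols_gauss_le hx _ r
    · simp only [← mul_assoc]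
      rw [gauss_conj, Complex.norm_conj]
      exact ols_gauss_le hy _ _
  · unfold gauss
    simp only [zero_mul, psi_of_dvd (dvd_zero _), mul_one]
    exact sum_prim_cub c0 _ hd hc

theorem ols_dvd {d m : Eis} (hd : PS d) (h : ∀ p, Prime p → Prim p → p ∣ d → p ∣ m) : d ∣ m := by
  revert h
  refine PS.induction (Pr := fun d => (∀ p, Prime p → Prim p → p ∣ d → p ∣ m) → d ∣ m)
    (fun _ => one_dvd _) (fun p x hp h1 _ hpx ih h => ?_) hd
  exact (hp.coprime_iff_not_dvd.2 hpx).mul_dvd (h p hp h1 (dvd_mul_right _ _))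
    (ih fun q hq h2 hqx => h q hq h2 (hqx.mul_left _))

theorem ols_S9 {p s : Eis} (hp : Prime p) (h1 : Prim p) (hs : s ∈ S9) : ¬ p ∣ s := fun h =>
  hp.not_isUnit (h1.coprime_three.isUnit_of_dvd' dvd_rfl (h.trans (S9_spec hs).2.1))

theorem ols_exp {p s k1 k2 : Eis} (hp : Prime p) (hs : ¬ p ∣ s) (h1 : PS k1) (h2 : PS k2)
    (h : IsCoprime k1 k2) : ∃ (e : ℕ) (w : Eis), e ≤ 2 ∧ ¬ p ∣ w ∧
      s * k1 * k2 ^ 2 = p ^ e * w ∧ (e ≠ 0 → p ∣ k1 * k2) := by
  by_cases a1 : p ∣ k1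
  · have a2 : ¬ p ∣ k2 := fun a2 => hp.not_isUnit (h.isUnit_of_dvd' a1 a2)
    obtain ⟨m, rfl⟩ := a1
    have a3 : ¬ p ∣ m := fun a3 => hp.not_isUnit (h1.2 p (mul_dvd_mul_left p a3))
    exact ⟨1, s * m * k2 ^ 2, by norm_num, hp.not_dvd_mul (hp.not_dvd_mul hs a3)
      fun a => a2 (hp.dvd_of_dvd_pow a), by ring, fun _ => (dvd_mul_right p m).mul_right _⟩
  by_cases a2 : p ∣ k2
  · obtain ⟨m, rfl⟩ := a2
    have a3 : ¬ p ∣ m := fun a3 => hp.not_isUnit (h2.2 p (mul_dvd_mul_left p a3))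
    exact ⟨2, s * k1 * m ^ 2, le_rfl, hp.not_dvd_mul (hp.not_dvd_mul hs a1)
      fun a => a3 (hp.dvd_of_dvd_pow a), by ring, fun _ => (dvd_mul_right p m).mul_left _⟩
  · exact ⟨0, s * k1 * k2 ^ 2, by norm_num, hp.not_dvd_mul (hp.not_dvd_mul hs a1)
      fun a => a2 (hp.dvd_of_dvd_pow a), by ring, fun h => absurd rfl h⟩

theorem ols_count {F : ℝ} {q q' t x y l : Eis} (hq : KerF F q) (hq' : KerF F q')
    (hx : PS x) (hy : PS y) (hxy : IsCoprime x y) (hl : l ≠ 0)
    (e : q * q' ^ 2 = t * x * y ^ 2 * l ^ 3) :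
    (((dv l).filter fun d => IsCoprime (t * x * y ^ 2) d).card : ℝ) * (ab x * ab y) ≤ F := by
  obtain ⟨s, hs, k1, k2, h1, h2, h12, rfl, hF⟩ := hq
  obtain ⟨s', hs', k1', k2', h1', h2', h12', rfl, hF'⟩ := hq'
  obtain ⟨g0, a, b, hg0, ha, hb, e1, e2, -, -, hab⟩ := split_PS (h1.mul h2 h12) (h1'.mul h2' h12')
  obtain ⟨g1, g, w, hg1, hg, hw, e3, e4, -, -, hgw⟩ := split_PS hg0 (hx.mul hy hxy)
  have sub : ((dv l).filter fun d => IsCoprime (t * x * y ^ 2) d) ⊆ dv g := by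
    intro d hd
    obtain ⟨hd1, hd2⟩ := Finset.mem_filter.1 hd
    obtain ⟨hd3, hd4⟩ := (mem_dv hl).1 hd1
    refine (mem_dv hg.ne_zero).2 ⟨hd3, ols_dvd hd3 fun p hp hp1 hpd => ?_⟩
    have n1 : ¬ p ∣ t * x * y ^ 2 := fun h => hp.not_isUnit (hd2.isUnit_of_dvd' h hpd)
    obtain ⟨e0, v, he, hv, ev, hd5⟩ := ols_exp hp (ols_S9 hp hp1 hs) h1 h2 h12
    obtain ⟨e', v', he', hv', ev', hd5'⟩ := ols_exp hp (ols_S9 hp hp1 hs') h1' h2' h12'
    obtain ⟨j, l', hl', rfl⟩ := WfDvdMonoid.max_power_factor hl hp.irreducible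
    have hj : j ≠ 0 := by
      rintro rfl
      exact hl' (by simpa using hpd.trans hd4)
    have h5 := bs_pow_inj hp (x := v * v' ^ 2) (y := t * x * y ^ 2 * l' ^ 3) (a := e0 + 2 * e')
      (b := 3 * j) (hp.not_dvd_mul hv fun h => hv' (hp.dvd_of_dvd_pow h))
      (hp.not_dvd_mul n1 fun h => hl' (hp.dvd_of_dvd_pow h)) (by
        rw [ev, ev'] at e
        linear_combination e)
    have d1 := hd5 (by omega)
    have d2 := hd5' (by omega)
    rw [e1] at d1
    rw [e2] at d2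
    have d3 : p ∣ g0 := by
      rcases hp.dvd_or_dvd d1 with h | h
      · exact h
      · exact absurd (hab.isUnit_of_dvd' h d2) hp.not_isUnit
    rw [e3] at d3
    refine (hp.dvd_or_dvd d3).resolve_left fun h => n1 ?_
    have h6 : p ∣ x * y := e4 ▸ h.mul_right w
    exact h6.trans ⟨t * y, by ring⟩
  have d1 : x * y ∣ g0 * a * b := by
    refine ols_dvd (hx.mul hy hxy) fun p hp hp1 hpd => ?_
    have h5 : p ∣ s * k1 * k2 ^ 2 * (s' * k1' * k2' ^ 2) ^ 2 :=
      e ▸ hpd.trans ⟨t * y * l ^ 3, by ring⟩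
    have h6 : p ∣ k1 * k2 ∨ p ∣ k1' * k2' := by
      by_contra hc
      obtain ⟨c1, c2⟩ := not_or.1 hc
      refine hp.not_dvd_mul (hp.not_dvd_mul (hp.not_dvd_mul (ols_S9 hp hp1 hs)
        fun h => c1 (h.mul_right _)) fun h => c1 ((hp.dvd_of_dvd_pow h).mul_left _))
        (fun h => ?_) h5
      exact hp.not_dvd_mul (hp.not_dvd_mul (ols_S9 hp hp1 hs') fun h => c2 (h.mul_right _))
        (fun h => c2 ((hp.dvd_of_dvd_pow h).mul_left _)) (hp.dvd_of_dvd_pow h)
    rcases h6 with h | h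
    · exact (e1 ▸ h).mul_right b
    · exact (e2 ▸ h).trans ⟨a, by ring⟩
  have d2 : g * (x * y) ∣ g0 * a * b :=
    (e4 ▸ hgw).mul_dvd ⟨g1 * a * b, by rw [e3]; ring⟩ d1
  have n1 := N_le_of_dvd (mul_ne_zero (mul_ne_zero hg0.ne_zero ha.ne_zero) hb.ne_zero) d2
  have n2 : N g ≤ N g0 := N_le_of_dvd hg0.ne_zero ⟨g1, by rw [e3]; ring⟩
  have n3 : (((dv l).filter fun d => IsCoprime (t * x * y ^ 2) d).card : ℝ) ≤ N g :=
    (Nat.cast_le.2 (Finset.card_le_card sub)).trans (card_dv_le_N hg.ne_zero)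
  rw [← N_mul, e1, N_mul] at hF
  rw [← N_mul, e2, N_mul] at hF'
  simp only [N_mul] at n1
  have p0 := mul_nonneg (ab_nonneg x) (ab_nonneg y)
  have p1 := mul_nonneg (N_nonneg g0) (N_nonneg a)
  have p2 := mul_nonneg (N_nonneg g0) (N_nonneg b)
  refine (mul_le_mul_of_nonneg_right n3 p0).trans ?_
  apply le_of_sq_le_sq _ (p1.trans hF)
  rw [mul_pow, mul_pow, ab_sq, ab_sq]
  have n4 := mul_le_mul n2 n1 (mul_nonneg (N_nonneg g) (mul_nonneg (N_nonneg x) (N_nonneg y)))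
    (N_nonneg g0)
  have n5 := mul_le_mul hF hF' p2 (p1.trans hF)
  nlinarith

theorem ols_summable {F : Eis → ℂ} {B : ℝ} (hB : ∀ m, ‖F m‖ ≤ B) {K : ℝ} (hK : 0 < K) :
    Summable fun n : Eis => F n * (Real.exp (-(Real.pi * N n / K)) : ℂ) := by
  have h := pois_summable hB (a := Real.pi / K) (div_pos Real.pi_pos hK)
  simpa only [div_mul_eq_mul_div] using h

theorem ols_mult {d : Eis} (hd : Prim d) (r : Eis) (K : ℝ) :
    ∑' n : Eis, (if d ∣ n then (if Prim n then 1 else 0) * cub r n else 0) *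
        (Real.exp (-(Real.pi * N n / K)) : ℂ) =
      cub r d * ∑' n : Eis, (if Prim n then 1 else 0) * cub r n *
        (Real.exp (-(Real.pi * N n / (K / N d))) : ℂ) := by
  rw [← tsum_mul_left, ← (mul_right_injective₀ hd.ne_zero).tsum_eq]
  · refine tsum_congr fun m => ?_
    rw [if_pos (dvd_mul_right d m), N_mul, div_div_eq_mul_div, mul_comm (N d), mul_assoc]
    by_cases hm : Prim m
    · rw [if_pos hm, if_pos (hd.mul hm), cub_mul_right _ hd.ne_zero hm.ne_zero]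
      ring_nf
    · rw [if_neg hm, if_neg fun h => hm (hd.of_mul h)]
      simp
  · intro n hn
    by_contra hc
    apply hn
    simp only []
    rw [if_neg, zero_mul]
    rintro ⟨m, rfl⟩
    exact hc ⟨m, rfl⟩

/-- Two different kernels: on primary n, cub q n * conj (cub q' n) = cub (u x y ^ 2) n * cop g n where
x y g is the radical of k1 k2 k1' k2' and every prime of g divides both radicals. Remove cop g by
cop_eq_sum; card (dv g) ≤ N g. -/
theorem pois_pair : ∃ C : ℝ, 0 < C ∧ ∀ (F : ℝ) (q q' : Eis), KerF F q → KerF F q' → q ≠ q' →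
    ∀ K : ℝ, 0 < K → ‖∑' n : Eis, (if Prim n then 1 else 0) * (cub q n * conj (cub q' n)) *
      (Real.exp (-(Real.pi * N n / K)) : ℂ)‖ ≤ C * F := by
  obtain ⟨C, hC, h⟩ := pois_char
  refine ⟨C, hC, fun F q q' hq hq' hne K hK => ?_⟩
  obtain ⟨r, l, ⟨t, ht, x, y, hx, hy, hxy, rfl⟩, hl, e⟩ :=
    exists_ker (mul_ne_zero hq.ker.ne_zero (pow_ne_zero 2 hq'.ker.ne_zero))
  have hc : ¬ Cube (t * x * y ^ 2) := fun hc =>
    hne (ker_cube hq.ker hq'.ker (e ▸ (cube_mul_iff hl).2 hc))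
  have e1 : ∀ n : Eis, (if Prim n then 1 else 0) * (cub q n * conj (cub q' n)) *
      (Real.exp (-(Real.pi * N n / K)) : ℂ) = ∑ d ∈ dv l, mu d *
        ((if d ∣ n then (if Prim n then 1 else 0) * cub (t * x * y ^ 2) n else 0) *
          (Real.exp (-(Real.pi * N n / K)) : ℂ)) := by
    intro n
    by_cases hn : Prim n
    · rw [cub_mul_conj_eq _ _ hn, e, cub_mul_cube _ _ hn, cop_eq_sum hn hl, Finset.mul_sum,
        Finset.mul_sum, Finset.sum_mul]
      refine Finset.sum_congr rfl fun d _ => ?_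
      split_ifs <;> ring
    · simp [hn]
  simp only [e1]
  rw [Summable.tsum_finsetSum fun d _ => (ols_summable (B := 1) (fun m => by
    split_ifs
    · simpa using norm_cub_le _ _
    · simp
    · simp) hK).mul_left _]
  refine (norm_sum_le _ _).trans ?_
  have b1 : ∀ d ∈ dv l, ‖∑' n : Eis, mu d *
      ((if d ∣ n then (if Prim n then 1 else 0) * cub (t * x * y ^ 2) n else 0) *
        (Real.exp (-(Real.pi * N n / K)) : ℂ))‖ ≤
      if IsCoprime (t * x * y ^ 2) d then C * (ab x * ab y) else 0 := by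
    intro d hd
    have hd1 := ((mem_dv hl).1 hd).1
    rw [tsum_mul_left, ols_mult hd1.1]
    split_ifs with h1
    · rw [norm_mul, norm_mul]
      refine (mul_le_of_le_one_left (by positivity) (norm_mu_le d)).trans ?_
      refine (mul_le_of_le_one_left (by positivity) (norm_cub_le _ _)).trans ?_
      exact h t x y 1 (by simpa using (S9_spec ht).2.1) hx hy hxy hc _
        (div_pos hK (N_pos hd1.ne_zero))
    · rw [(cub_eq_zero hd1.ne_zero).2 h1]
      simp
  refine (Finset.sum_le_sum b1).trans ?_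
  rw [← Finset.sum_filter, Finset.sum_const, nsmul_eq_mul, mul_left_comm]
  exact mul_le_mul_of_nonneg_left (ols_count hq hq' hx hy hxy hl e) hC.le

theorem ols_diag : ∃ C : ℝ, 0 < C ∧ ∀ (G : Eis → ℂ), (∀ n, ‖G n‖ ≤ 1) → ∀ K : ℝ, 0 < K →
    ‖∑' n : Eis, (if Prim n then 1 else 0) * G n * (Real.exp (-(Real.pi * N n / K)) : ℂ)‖ ≤
      C * K := by
  obtain ⟨C, hC, h⟩ := tsum_exp_le
  refine ⟨C / Real.pi, div_pos hC Real.pi_pos, fun G hG K hK => ?_⟩
  have ha : 0 < Real.pi / K := div_pos Real.pi_pos hK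
  have s1 : Summable fun c : Eis => (if c = 0 then 0 else Real.exp (-(Real.pi / K * N c))) :=
    (summable_exp ha).of_nonneg_of_le (fun c => by split_ifs <;> positivity)
      fun c => by split_ifs; exacts [(Real.exp_pos _).le, le_rfl]
  refine (tsum_of_norm_bounded s1.hasSum fun c => ?_).trans ((h _ ha).trans (le_of_eq ?_))
  · by_cases hc : Prim c
    · rw [if_neg hc.ne_zero, if_pos hc, one_mul, norm_mul, Complex.norm_real,
        Real.norm_of_nonneg (Real.exp_pos _).le, div_mul_eq_mul_div]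
      exact mul_le_of_le_one_left (Real.exp_pos _).le (hG c)
    · rw [if_neg hc, zero_mul, zero_mul, norm_zero]
      split_ifs <;> positivity
  · field_simp

theorem ols : ∃ C : ℝ, 0 < C ∧ ∀ (F K : ℝ) (J S : Finset Eis) (a : Eis → ℂ), 0 ≤ F → 0 < K →
    (∀ q ∈ J, KerF F q) → (∀ n ∈ S, Prim n ∧ N n ≤ K) →
      ∑ q ∈ J, ‖∑ n ∈ S, a n * cub q n‖ ^ 2 ≤ C * (K + F * J.card) * sq S a := by
  obtain ⟨C1, hC1, h1⟩ := ols_diag
  obtain ⟨C2, hC2, h2⟩ := pois_pair
  refine ⟨Real.exp Real.pi * (C1 + C2), by positivity, fun F K J S a hF hK hJ hS => ?_⟩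
  have h := du J S (fun q n => cub q n) (fun _ => 1) (fun _ _ => one_pos)
    (Δ := Real.exp Real.pi * (C1 + C2) * (K + F * J.card)) (by positivity) (fun b => ?_) a
  · simpa only [div_one, sq] using h
  have hb : ∀ q q' n, ‖cub q n * conj (cub q' n)‖ ≤ 1 := fun q q' n => by
    rw [norm_mul, Complex.norm_conj]
    exact mul_le_one₀ (norm_cub_le _ _) (norm_nonneg _) (norm_cub_le _ _)
  have e1 : ∀ n : Eis, (((if Prim n then 1 else 0) * ‖∑ q ∈ J, b q * cub q n‖ ^ 2 *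
      Real.exp (-(Real.pi * N n / K)) : ℝ) : ℂ) = ∑ q ∈ J, ∑ q' ∈ J, b q * conj (b q') *
        ((if Prim n then 1 else 0) * (cub q n * conj (cub q' n)) *
          (Real.exp (-(Real.pi * N n / K)) : ℂ)) := by
    intro n
    rw [ofReal_mul, ofReal_mul, ← Complex.normSq_eq_norm_sq, ← Complex.mul_conj, map_sum,
      Finset.sum_mul_sum, Finset.mul_sum, Finset.sum_mul]
    refine Finset.sum_congr rfl fun q _ => ?_
    rw [Finset.mul_sum, Finset.sum_mul]
    refine Finset.sum_congr rfl fun q' _ => ?_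
    rw [map_mul]
    split_ifs
    · push_cast
      ring
    · simp
  have hs : HasSum (fun n : Eis => (((if Prim n then 1 else 0) * ‖∑ q ∈ J, b q * cub q n‖ ^ 2 *
      Real.exp (-(Real.pi * N n / K)) : ℝ) : ℂ)) (∑ q ∈ J, ∑ q' ∈ J, b q * conj (b q') *
        ∑' n : Eis, (if Prim n then 1 else 0) * (cub q n * conj (cub q' n)) *
          (Real.exp (-(Real.pi * N n / K)) : ℂ)) := by
    simp only [e1]
    exact hasSum_sum fun q _ => hasSum_sum fun q' _ =>
      (ols_summable (fun n => ols_ind_le n _ (hb q q' n)) hK).hasSum.mul_left _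
  have b1 := sum_le_hasSum S (fun n _ => by
    simp only [ofReal_re]
    split_ifs <;> positivity) (hasSum_re hs)
  simp only [ofReal_re] at b1
  have b2 : ∑ n ∈ S, 1 * ‖∑ q ∈ J, b q * cub q n‖ ^ 2 ≤ Real.exp Real.pi *
      ∑ n ∈ S, (if Prim n then 1 else 0) * ‖∑ q ∈ J, b q * cub q n‖ ^ 2 *
        Real.exp (-(Real.pi * N n / K)) := by
    rw [Finset.mul_sum]
    refine Finset.sum_le_sum fun n hn => ?_
    rw [if_pos (hS n hn).1, mul_left_comm, ← Real.exp_add]
    refine le_mul_of_one_le_right (by positivity) (Real.one_le_exp ?_)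
    have : Real.pi * N n / K ≤ Real.pi := by
      rw [div_le_iff₀ hK]
      exact mul_le_mul_of_nonneg_left (hS n hn).2 Real.pi_pos.le
    linarith
  have b3 : ‖∑ q ∈ J, ∑ q' ∈ J, b q * conj (b q') *
      ∑' n : Eis, (if Prim n then 1 else 0) * (cub q n * conj (cub q' n)) *
        (Real.exp (-(Real.pi * N n / K)) : ℂ)‖ ≤
      ∑ q ∈ J, ∑ q' ∈ J, ((if q = q' then C1 * K * ‖b q‖ ^ 2 else 0) +
        C2 * F * (‖b q‖ * ‖b q'‖)) := by
    refine (norm_sum_le _ _).trans (Finset.sum_le_sum fun q hq => ?_)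
    refine (norm_sum_le _ _).trans (Finset.sum_le_sum fun q' hq' => ?_)
    rw [norm_mul, norm_mul, Complex.norm_conj]
    split_ifs with hqq
    · subst hqq
      have := mul_le_mul_of_nonneg_left (h1 _ (hb q q) K hK)
        (mul_nonneg (norm_nonneg (b q)) (norm_nonneg (b q)))
      have p : 0 ≤ C2 * F * (‖b q‖ * ‖b q‖) := by positivity
      nlinarith
    · have := mul_le_mul_of_nonneg_left (h2 F q q' (hJ q hq) (hJ q' hq') hqq K hK)
        (mul_nonneg (norm_nonneg (b q)) (norm_nonneg (b q')))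
      linarith
  simp only [Finset.sum_add_distrib, Finset.sum_ite_eq, ← Finset.mul_sum, ← Finset.sum_mul] at b3
  rw [Finset.sum_congr rfl fun q hq => if_pos hq, ← Finset.mul_sum, ← pow_two] at b3
  have b4 := mul_le_mul_of_nonneg_left
    (sq_sum_le_card_mul_sum_sq (s := J) (f := fun q => ‖b q‖)) (mul_nonneg hC2.le hF)
  have p : 0 ≤ ∑ q ∈ J, ‖b q‖ ^ 2 := Finset.sum_nonneg fun _ _ => sq_nonneg _
  refine b2.trans ?_
  rw [mul_assoc, mul_assoc]
  refine mul_le_mul_of_nonneg_left (b1.trans ((re_le_norm _).trans (b3.trans ?_)))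
    (Real.exp_pos _).le
  have p1 : 0 ≤ C2 * K * ∑ q ∈ J, ‖b q‖ ^ 2 := by positivity
  have p2 : 0 ≤ C1 * (F * J.card) * ∑ q ∈ J, ‖b q‖ ^ 2 := by positivity
  nlinarith

/-- The squarefree large sieve form is symmetric (du and cub_recip). -/
theorem QL_symm {M K Δ : ℝ} (hΔ : 0 ≤ Δ) (h : ∀ b : Eis → ℂ, QL K (PB M) b ≤ Δ * sq (PB M) b)
    (a : Eis → ℂ) : QL M (PB K) a ≤ Δ * sq (PB K) a := by
  have h1 := du (PB M) (PB K) (fun q n => cub q n) (fun _ => 1) (fun _ _ => one_pos) hΔ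
    (fun b => ?_) a
  · simpa only [div_one, sq, QL] using h1
  refine le_trans (le_of_eq (Finset.sum_congr rfl fun n hn => ?_)) (h b)
  rw [one_mul, Finset.sum_congr rfl fun m hm => by
    rw [cub_recip (mem_PB.1 hm).1.1 (mem_PB.1 hn).1.1]]

theorem QL_mono {M M' : ℝ} (h : M ≤ M') (S : Finset Eis) (a : Eis → ℂ) : QL M S a ≤ QL M' S a :=
  Finset.sum_le_sum_of_subset_of_nonneg (PB_mono h) fun _ _ _ => sq_nonneg _

theorem QL_le_QC (M : ℝ) (S : Finset Eis) (a : Eis → ℂ) : QL M S a ≤ QC S a M :=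
  (Finset.sum_le_sum_of_subset_of_nonneg (PB_subset M) fun _ _ _ => sq_nonneg _).trans
    (le_QC S a M)

theorem QL_triv {M K : ℝ} (hM : 0 < M) (hK : 0 < K) (a : Eis → ℂ) :
    QL M (PB K) a ≤ 256 * M * K * sq (PB K) a := by
  have p := sq_nonneg' (PB K) a
  have h1 : ∀ m ∈ PB M, ‖∑ n ∈ PB K, a n * cub m n‖ ^ 2 ≤ 16 * K * sq (PB K) a := by
    intro m _
    have h2 : ‖∑ n ∈ PB K, a n * cub m n‖ ≤ ∑ n ∈ PB K, ‖a n‖ :=
      (norm_sum_le _ _).trans (Finset.sum_le_sum fun n _ => by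
        rw [norm_mul]
        exact mul_le_of_le_one_right (norm_nonneg _) (norm_cub_le _ _))
    refine (pow_le_pow_left₀ (norm_nonneg _) h2 2).trans (sq_sum_le_card_mul_sum_sq.trans ?_)
    exact mul_le_mul_of_nonneg_right (card_PB_le hK.le) p
  refine (Finset.sum_le_card_nsmul _ _ _ h1).trans ?_
  rw [nsmul_eq_mul]
  refine (mul_le_mul_of_nonneg_right (card_PB_le hM.le) (by positivity)).trans (le_of_eq ?_)
  ring

/-- Extension by zero. -/
theorem QL_subset {M K Δ : ℝ} (h : ∀ b : Eis → ℂ, QL M (PB K) b ≤ Δ * sq (PB K) b)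
    {S : Finset Eis} (hS : S ⊆ PB K) (a : Eis → ℂ) : QL M S a ≤ Δ * sq S a := by
  have h1 := h fun n => if n ∈ S then a n else 0
  have e1 : sq (PB K) (fun n => if n ∈ S then a n else 0) = sq S a := by
    unfold sq
    rw [← Finset.sum_subset hS fun n _ hn => by simp [hn]]
    exact Finset.sum_congr rfl fun n hn => by simp [hn]
  have e2 : QL M (PB K) (fun n => if n ∈ S then a n else 0) = QL M S a := by
    unfold QL
    refine Finset.sum_congr rfl fun m _ => ?_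
    rw [← Finset.sum_subset hS fun n _ hn => by simp [hn]]
    congr 2
    exact Finset.sum_congr rfl fun n hn => by simp only [if_pos hn]
  rwa [e1, e2] at h1

end Vale.Agent.P006
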