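import Vale.Agent.P006.Ker
import Vale.Agent.P006.Sep

/-! Auxiliary facts for the Poisson steps. -/

namespace Vale.Agent.P006

open Vale.Agent.P026 Eis Complex MeasureTheory Filter Topology
open scoped Classical ComplexConjugate

/-- The mass at the frequency h. -/
noncomputable def pa_q (S : Finset Eis) (γ : Eis → ℂ) (h : Eis) : ℝ := ∑ D ∈ sqd h, qt S γ h D
/-- The averaged mass at the frequency h. -/
noncomputable def pa_qm (μ : Measure ℝ) (S : Finset Eis) (γ : Eis → ℂ) (h : Eis) : ℝ :=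
  ∫ τ, pa_q S (tw γ τ) h ∂μ

theorem pa_zero_ball (K : ℝ) : (0 : Eis) ∉ ball K := fun h => (mem_ball.1 h).1 rfl

theorem pa_q_nonneg (S : Finset Eis) (γ : Eis → ℂ) (h : Eis) : 0 ≤ pa_q S γ h :=
  Finset.sum_nonneg fun D _ => qt_nonneg S γ h D

theorem pa_qm_nonneg (μ : Measure ℝ) (S : Finset Eis) (γ : Eis → ℂ) (h : Eis) :
    0 ≤ pa_qm μ S γ h := integral_nonneg fun _ => pa_q_nonneg _ _ _

theorem pa_q_int (μ : Measure ℝ) [IsFiniteMeasure μ] (S : Finset Eis) (γ : Eis → ℂ) (h : Eis) :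
    Integrable (fun τ => pa_q S (tw γ τ) h) μ :=
  integrable_finsetSum _ fun D _ => integrable_qt μ S γ h D

theorem pa_QA_eq (μ : Measure ℝ) [IsFiniteMeasure μ] (S : Finset Eis) (γ : Eis → ℂ) (H : ℝ) :
    QA μ S γ H = ∑ h ∈ ball H, pa_qm μ S γ h :=
  integral_finsetSum _ fun h _ => pa_q_int μ S γ h

/-- Comparison of a weighted sum with a sum over frequencies. -/
theorem pa_wq_le (σ : ℝ) {H : ℝ} (hH : 0 < H) (S : Finset Eis) (γ : Eis → ℂ) {Hs Ht : Finset Eis}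
    {P : Eis → Eis → Prop} {p : Eis → Prop} [DecidablePred p]
    (hP : ∀ h ∈ Hs, ∀ D, P h D → h ∈ Ht ∧ p h) :
    wq σ H S γ Hs P ≤ ∑ h ∈ Ht, if p h then (N h / H) ^ (-σ) * pa_q S γ h else 0 := by
  have p0 : ∀ h D, 0 ≤ (N h / H) ^ (-σ) * qt S γ h D := fun h D => by
    have := N_nonneg h
    have := qt_nonneg S γ h D
    positivity
  have p1 : ∀ h, 0 ≤ if p h then (N h / H) ^ (-σ) * pa_q S γ h else 0 := fun h => by
    have := N_nonneg h
    have := pa_q_nonneg S γ h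
    split_ifs
    · positivity
    · exact le_rfl
  unfold wq
  calc _ ≤ ∑ h ∈ Hs, if h ∈ Ht then (if p h then (N h / H) ^ (-σ) * pa_q S γ h else 0) else 0 := by
        refine Finset.sum_le_sum fun h hh => ?_
        by_cases hc : h ∈ Ht ∧ p h
        · rw [if_pos hc.1, if_pos hc.2, pa_q, Finset.mul_sum]
          refine Finset.sum_le_sum fun D _ => ?_
          split_ifs
          · exact le_rfl
          · exact p0 h D
        · rw [Finset.sum_eq_zero fun D _ => if_neg fun hP' => hc (hP h hh D hP')]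
          split_ifs
          · exact mul_nonneg (Real.rpow_nonneg (div_nonneg (N_nonneg h) hH.le) _)
              (pa_q_nonneg S γ h)
          · exact le_rfl
          · exact le_rfl
    _ ≤ _ := by
        rw [← Finset.sum_filter]
        exact Finset.sum_le_sum_of_subset_of_nonneg (fun h hh => (Finset.mem_filter.1 hh).2)
          fun h _ _ => p1 h

theorem pa_wq_int (μ : Measure ℝ) [IsFiniteMeasure μ] (σ H : ℝ) (S : Finset Eis) (γ : Eis → ℂ)
    (Hs : Finset Eis) (P : Eis → Eis → Prop) :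
    Integrable (fun τ => wq σ H S (tw γ τ) Hs P) μ := by
  obtain ⟨B, hB⟩ := wq_tw_bdd σ H S γ Hs P
  exact (integrable_const B).mono' (continuous_wq σ H S γ Hs P).aestronglyMeasurable
    (Eventually.of_forall hB)

theorem pa_int_wq_le (μ : Measure ℝ) [IsFiniteMeasure μ] (σ : ℝ) {H : ℝ} (hH : 0 < H)
    (S : Finset Eis) (γ : Eis → ℂ) {Hs Ht : Finset Eis} {P : Eis → Eis → Prop} {p : Eis → Prop}
    [DecidablePred p] (hP : ∀ h ∈ Hs, ∀ D, P h D → h ∈ Ht ∧ p h) :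
    ∫ τ, wq σ H S (tw γ τ) Hs P ∂μ ≤
      ∑ h ∈ Ht, if p h then (N h / H) ^ (-σ) * pa_qm μ S γ h else 0 := by
  have hi : ∀ h ∈ Ht, Integrable
      (fun τ => if p h then (N h / H) ^ (-σ) * pa_q S (tw γ τ) h else 0) μ := fun h _ => by
    split_ifs
    · exact (pa_q_int μ S γ h).const_mul _
    · exact integrable_zero _ _ _
  refine (integral_mono (pa_wq_int μ σ H S γ Hs P) (integrable_finsetSum _ hi)
    fun τ => pa_wq_le σ hH S (tw γ τ) hP).trans (le_of_eq ?_)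
  rw [integral_finsetSum _ hi]
  refine Finset.sum_congr rfl fun h _ => ?_
  split_ifs
  · rw [integral_const_mul, pa_qm]
  · exact integral_zero _ _

theorem pa_sc_tw (γ : Eis → ℂ) (K a τ : ℝ) : sc (tw γ τ) K a = tw (sc γ K a) τ := by
  funext n
  simp only [sc, tw]
  ring

/-- The dual coefficients have comparable norm. -/
theorem pa_sq_dual {S : Finset Eis} {K a : ℝ} (hK : 0 < K) (ha : |a| ≤ 2) (hS : S ⊆ PD K)
    (γ : Eis → ℂ) (τ : ℝ) :
    sq S (tw (sc (fun c => conj (γ c * g3 c)) K a) τ) ≤ 256 * sq S γ := by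
  have h1 : sq S (fun c => conj (γ c * g3 c)) = sq S γ := by
    refine Finset.sum_congr rfl fun n hn => ?_
    rw [Complex.norm_conj, norm_mul, norm_g3' (mem_PD.1 (hS hn)).1, mul_one]
  rw [sq_tw]
  refine (sq_sc_le hK hK ha hS _).trans ?_
  rw [h1, div_self hK.ne']
  refine mul_le_mul_of_nonneg_right ?_ (sq_nonneg' S γ)
  have h2 : (1 + 1 : ℝ) ^ (2 * |a|) ≤ (1 + 1 : ℝ) ^ (4 : ℝ) :=
    Real.rpow_le_rpow_of_exponent_le (by norm_num) (by linarith)
  have h3 : (1 + 1 : ℝ) ^ (4 : ℝ) = 16 := by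
    rw [show (4 : ℝ) = ((4 : ℕ) : ℝ) by norm_num, Real.rpow_natCast]
    norm_num
  linarith

/-- Separation of variables with a uniform bound for the weighted sums. -/
theorem pa_sep {k : ℝ → ℂ} {σ : ℝ} {ρ : ℝ → ℝ} (hk : Rep k σ ρ) (hρ : Integrable ρ)
    (he : ∀ τ, ρ (-τ) = ρ τ) (h0 : ∀ τ, 0 ≤ ρ τ) {z κ K W : ℝ} (hz : 0 ≤ z) (hκ : 0 < κ)
    (hK : 0 < K) {S Hs : Finset Eis} (hS : (0 : Eis) ∉ S) (hH : (0 : Eis) ∉ Hs) (β : Eis → ℂ)
    (P : Eis → Eis → Prop)
    (hW : ∀ τ, wq σ (K ^ 2 / κ) S (tw (sc β K (σ - 1 / 2)) τ) Hs P ≤ W) :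
    ‖bq (fun y => (z : ℂ) * k (κ * y)) (fun _ => 1) S β Hs P‖ ≤ z / K * ((∫ τ, ρ τ) * W) := by
  refine (sep hk hρ he (z : ℂ) hκ hK (fun _ => by simp) hS hH β P).trans ?_
  rw [Complex.norm_real, Real.norm_of_nonneg hz, ← integral_mul_const]
  refine mul_le_mul_of_nonneg_left (integral_mono_of_nonneg (Eventually.of_forall fun τ => ?_)
    (hρ.mul_const W) (Eventually.of_forall fun τ => ?_)) (by positivity)
  · exact mul_nonneg (h0 τ) (wq_nonneg σ (by positivity) _ _ _ _)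
  · exact mul_le_mul_of_nonneg_left (hW τ) (h0 τ)

/-- Averaged separation of variables. -/
theorem pa_sep_int (μ : Measure ℝ) [IsProbabilityMeasure μ] {k : ℝ → ℂ} {σ : ℝ} {ρ : ℝ → ℝ}
    (hk : Rep k σ ρ) (hρ : Integrable ρ) (he : ∀ τ, ρ (-τ) = ρ τ) (h0 : ∀ τ, 0 ≤ ρ τ)
    {z κ K W : ℝ} (hz : 0 ≤ z) (hκ : 0 < κ) (hK : 0 < K) {S Hs : Finset Eis} (hS : (0 : Eis) ∉ S)
    (hH : (0 : Eis) ∉ Hs) (β : Eis → ℂ) (P : Eis → Eis → Prop)
    (hW : ∀ u, ∫ τ, wq σ (K ^ 2 / κ) S (tw (tw (sc β K (σ - 1 / 2)) u) τ) Hs P ∂μ ≤ W) :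
    ∫ τ, ‖bq (fun y => (z : ℂ) * k (κ * y)) (fun _ => 1) S (tw β τ) Hs P‖ ∂μ ≤
      z / K * ((∫ τ, ρ τ) * W) := by
  set f : ℝ → ℝ := fun v => wq σ (K ^ 2 / κ) S (tw (sc β K (σ - 1 / 2)) v) Hs P with hf
  have hfc : Continuous f := continuous_wq _ _ _ _ _ _
  obtain ⟨B, hB⟩ := wq_tw_bdd σ (K ^ 2 / κ) S (sc β K (σ - 1 / 2)) Hs P
  have hi : Integrable (Function.uncurry fun τ u : ℝ => ρ u * f (τ + u)) (μ.prod volume) := by
    refine ((integrable_const B).mul_prod hρ).mono' ?_ (Eventually.of_forall fun p => ?_)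
    · exact (hρ.aestronglyMeasurable.comp_snd).mul
        (hfc.comp (continuous_fst.add continuous_snd)).aestronglyMeasurable
    · rw [Function.uncurry_def, norm_mul, Real.norm_of_nonneg (h0 _), mul_comm B]
      exact mul_le_mul_of_nonneg_left (hB _) (h0 _)
  have h1 : ∀ τ, ‖bq (fun y => (z : ℂ) * k (κ * y)) (fun _ => 1) S (tw β τ) Hs P‖ ≤
      z / K * ∫ u, ρ u * f (τ + u) := fun τ => by
    have h := sep hk hρ he (z : ℂ) hκ hK (e := fun _ => 1) (fun _ => by simp) hS hH (tw β τ) P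
    rw [Complex.norm_real, Real.norm_of_nonneg hz] at h
    simpa only [pa_sc_tw, tw_tw] using h
  refine (integral_mono_of_nonneg (Eventually.of_forall fun τ => norm_nonneg _)
    (hi.integral_prod_left.const_mul (z / K)) (Eventually.of_forall h1)).trans ?_
  rw [integral_const_mul]
  refine mul_le_mul_of_nonneg_left ?_ (by positivity)
  refine (integral_integral_swap hi).trans_le ?_
  rw [← integral_mul_const]
  refine integral_mono hi.integral_prod_right (hρ.mul_const W) fun u => ?_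
  beta_reduce
  rw [integral_const_mul]
  refine mul_le_mul_of_nonneg_left ?_ (h0 u)
  have h2 := hW u
  simp only [tw_tw, add_comm u] at h2
  exact h2

end Vale.Agent.P006
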