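import Vale.Agent.P006.Ker
import Vale.Agent.P006.Sep
import Vale.Agent.P006.PAA

/-! The Poisson step for the averaged second moment. -/

namespace Vale.Agent.P006

open Vale.Agent.P026 Eis Complex MeasureTheory Filter Topology
open scoped Classical ComplexConjugate

/-- The dual sum for the exponential kernel. -/
theorem pa_dual : ∃ C : ℝ, 0 < C ∧ ∀ (μ : Measure ℝ) [IsProbabilityMeasure μ]
    (S : Finset Eis) (K M F z K' : ℝ), 0 < K → 0 < M → 0 ≤ F → 0 ≤ z → S ⊆ PD K →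
    (∀ (γ : Eis → ℂ) (x : ℝ), 0 < x → QA μ S γ (x * (K ^ 2 / M)) ≤
      F * (x ^ (1 / 3 : ℝ) + x ^ (3 / 2 : ℝ)) * sq S γ) →
    ∀ γ : Eis → ℂ, ∫ τ, ‖bq (fun y => (z : ℂ) * (Real.exp (-(M * y)) : ℂ)) (fun _ => 1) S
      (tw (fun c => conj (γ c * g3 c)) τ) (ball K') (fun _ _ => True)‖ ∂μ ≤
      C * (z / K * F) * sq S γ := by
  obtain ⟨ρ1, r1, -, e1, p1, i1⟩ := rep_exp (σ := 1 / 4) (by norm_num)
  obtain ⟨ρ2, r2, -, e2, p2, i2⟩ := rep_exp (σ := 2) (by norm_num)
  obtain ⟨C1, hC1, h1⟩ := hw_low (σ := 1 / 4) (δ := 1 / 12) (by norm_num) (by norm_num)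
  obtain ⟨C2, hC2, h2⟩ := hw_high (σ := 2) (δ := 1 / 2) (by norm_num) (by norm_num)
  have j1 : Integrable ρ1 := by simpa using i1 0
  have j2 : Integrable ρ2 := by simpa using i2 0
  have I1 : 0 ≤ ∫ τ, ρ1 τ := integral_nonneg p1
  have I2 : 0 ≤ ∫ τ, ρ2 τ := integral_nonneg p2
  refine ⟨(∫ τ, ρ1 τ) * (C1 * 512) + (∫ τ, ρ2 τ) * (C2 * 512) + 1, by positivity,
    fun μ _ S K M F z K' hK hM hF hz hS hQ γ => ?_⟩
  have hS0 : (0 : Eis) ∉ S := fun h => (mem_PD.1 (hS h)).1.ne_zero rfl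
  have hH : 0 < K ^ 2 / M := by positivity
  have hq := sq_nonneg' S γ
  set β : Eis → ℂ := fun c => conj (γ c * g3 c) with hβ
  have hball : ∀ a : ℝ, |a| ≤ 2 → ∀ u x : ℝ, 0 < x →
      ∑ h ∈ ball (x * (K ^ 2 / M)), pa_qm μ S (tw (sc β K a) u) h ≤
        ∑ i ∈ (Finset.univ : Finset Bool), F * (256 * sq S γ) *
          x ^ (if i then (1 / 3 : ℝ) else 3 / 2) := by
    intro a ha u x hx
    rw [← pa_QA_eq]
    refine (hQ _ x hx).trans ?_
    have := pa_sq_dual hK ha hS γ u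
    rw [Fintype.sum_bool]
    simp only [if_true, Bool.false_eq_true, if_false]
    calc _ ≤ F * (x ^ (1 / 3 : ℝ) + x ^ (3 / 2 : ℝ)) * (256 * sq S γ) :=
          mul_le_mul_of_nonneg_left this (by positivity)
      _ = _ := by ring
  have b1 := pa_sep_int μ r1 j1 e1 p1 (W := C1 * 512 * (F * sq S γ)) hz hM hK hS0
    (pa_zero_ball K') β (fun h _ => True ∧ ¬ 1 * (K ^ 2 / M) < N h) fun u => by
      refine (pa_int_wq_le μ _ hH S _ (Ht := ball (1 * (K ^ 2 / M))) (p := fun _ => True)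
        fun h hh D hP => ⟨mem_ball.2 ⟨(mem_ball.1 hh).1, not_lt.1 hP.2⟩, trivial⟩).trans ?_
      simp only [if_true]
      refine (h1 Bool Finset.univ (fun _ => F * (256 * sq S γ))
        (fun i => if i then (1 / 3 : ℝ) else 3 / 2) _ _ 1 (fun i _ => ⟨by positivity, ?_⟩)
        (pa_qm_nonneg μ S _) hH one_pos fun x hx _ =>
          hball _ (by rw [abs_le]; norm_num) u x hx).trans (le_of_eq ?_)
      · cases i <;> norm_num
      · simp only [Real.one_rpow, Fintype.sum_bool]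
        ring
  have b2 := pa_sep_int μ r2 j2 e2 p2 (W := C2 * 512 * (F * sq S γ)) hz hM hK hS0
    (pa_zero_ball K') β (fun h _ => True ∧ 1 * (K ^ 2 / M) < N h) fun u => by
      refine (pa_int_wq_le μ _ hH S _ (Ht := ball K') (p := fun h => 1 * (K ^ 2 / M) < N h)
        fun h hh D hP => ⟨hh, hP.2⟩).trans ?_
      refine (h2 Bool Finset.univ (fun _ => F * (256 * sq S γ))
        (fun i => if i then (1 / 3 : ℝ) else 3 / 2) _ _ 1 K' (fun i _ => ⟨by positivity, ?_⟩)
        (pa_qm_nonneg μ S _) hH one_pos fun x hx =>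
          hball _ (by rw [abs_le]; norm_num) u x (one_pos.trans hx)).trans (le_of_eq ?_)
      · cases i <;> norm_num
      · simp only [Real.one_rpow, Fintype.sum_bool]
        ring
  have hint : ∀ P : Eis → Eis → Prop, Integrable (fun τ => ‖bq
      (fun y => (z : ℂ) * (Real.exp (-(M * y)) : ℂ)) (fun _ => 1) S (tw β τ) (ball K') P‖) μ := by
    intro P
    obtain ⟨B, hB⟩ := wq_tw_bdd 2 (K ^ 2 / M) S (sc β K (2 - 1 / 2)) (ball K') P
    refine (integrable_const (z / K * ((∫ τ, ρ2 τ) * B))).mono'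
      (continuous_bq _ _ _ _ _ _).norm.aestronglyMeasurable (Eventually.of_forall fun τ => ?_)
    rw [norm_norm]
    refine pa_sep r2 j2 e2 p2 hz hM hK hS0 (pa_zero_ball K') _ P fun u => ?_
    rw [pa_sc_tw, tw_tw]
    exact (le_abs_self _).trans (hB _)
  refine (integral_mono (hint _) ((hint (fun h _ => True ∧ 1 * (K ^ 2 / M) < N h)).add
    (hint (fun h _ => True ∧ ¬ 1 * (K ^ 2 / M) < N h))) fun τ => ?_).trans ?_
  · simp only [Pi.add_apply]
    rw [bq_split _ _ _ _ _ (fun _ _ => True) (fun h _ => 1 * (K ^ 2 / M) < N h)]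
    exact norm_add_le _ _
  · simp only [Pi.add_apply]
    rw [integral_add (hint _) (hint _)]
    have : 0 ≤ z / K * F * sq S γ := by positivity
    linarith

/-- Use dual_le_int with pp_exp (weight ≥ exp (- π) on ball M); the dual coefficients are
tw β (-τ), β = conj (γ g3). Here κ = 4 π M / 3, so the scale in sep is 3 H / (4 π) with H = K ^ 2 / M.
Split N h ≤ H (σ = 1/4) and N h > H (σ = 2) by bq_split, use sep with rep_exp. Fubini in (τ, u),
symmetry of μ, tw_tw, sq_sc_le, then hw_low and hw_high for q h = ∫ ∑ D, qt. -/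
theorem pa : ∃ C : ℝ, 0 < C ∧ ∀ (μ : Measure ℝ) [IsProbabilityMeasure μ],
    μ.map (fun τ => -τ) = μ → ∀ (S : Finset Eis) (K M F : ℝ), 0 < K → 0 < M → 0 ≤ F → S ⊆ PD K →
    (∀ (γ : Eis → ℂ) (x : ℝ), 0 < x → QA μ S γ (x * (K ^ 2 / M)) ≤
      F * (x ^ (1 / 3 : ℝ) + x ^ (3 / 2 : ℝ)) * sq S γ) →
    ∀ γ : Eis → ℂ, QA μ S γ M ≤ C * (M + M / K * F) * sq S γ := by
  obtain ⟨C, hC, h⟩ := pa_dual
  have hpi := Real.pi_pos
  have h3 : (0 : ℝ) < √3 := by positivity
  set c : ℝ := 2 * (3 / (4 * Real.pi)) / √3 with hc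
  have hc0 : 0 < c := by positivity
  refine ⟨Real.exp (4 * Real.pi ^ 2 / 3) * (c * (1 + C)), by positivity,
    fun μ _ hμ S K M F hK hM hF hS hQ γ => ?_⟩
  have hPS : ∀ n ∈ S, PS n := fun n hn => (mem_PD.1 (hS hn)).1
  have hM' : 0 < 3 * M / (4 * Real.pi) := by positivity
  have hp := pp_exp hM'
  have ek : (fun y : ℝ => ((2 * (3 * M / (4 * Real.pi)) / √3 : ℝ) : ℂ) *
      (Real.exp (-(4 * Real.pi / 3 * (3 * M / (4 * Real.pi)) * y)) : ℂ)) =
      fun y : ℝ => ((c * M : ℝ) : ℂ) * (Real.exp (-(M * y)) : ℂ) := by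
    funext y
    rw [show 4 * Real.pi / 3 * (3 * M / (4 * Real.pi)) = M by field_simp,
      show 2 * (3 * M / (4 * Real.pi)) / √3 = c * M by rw [hc]; ring]
  rw [ek] at hp
  have hd := dual_le_int hp (w0 := fun x => Real.exp (-(Real.pi * x / (3 * M / (4 * Real.pi)))))
    (fun x _ => ⟨rfl, (Real.exp_pos _).le⟩) μ hPS γ (B := C * (c * M / K * F) * sq S γ)
    (fun K' => by
      refine le_trans (le_of_eq ?_) (h μ S K M F (c * M) K' hK hM hF (by positivity) hS hQ γ)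
      conv_rhs => rw [← hμ]
      rw [integral_map (by fun_prop) (continuous_bq _ _ _ _ _ _).norm.aestronglyMeasurable])
    (ball M) (pa_zero_ball M)
  simp only [mul_zero, neg_zero, Real.exp_zero, Complex.ofReal_one, mul_one, Complex.norm_real,
    Real.norm_of_nonneg (mul_pos hc0 hM).le] at hd
  have h1 : QA μ S γ M ≤ Real.exp (4 * Real.pi ^ 2 / 3) *
      ∫ τ, ∑ h ∈ ball M, Real.exp (-(Real.pi * N h / (3 * M / (4 * Real.pi)))) *
        ∑ D ∈ sqd h, qt S (tw γ τ) h D ∂μ := by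
    rw [← integral_const_mul]
    refine integral_mono (integrable_QC μ S γ M) ((integrable_finsetSum _ fun h _ =>
      (pa_q_int μ S γ h).const_mul _).const_mul _) fun τ => ?_
    simp only [QC]
    rw [Finset.mul_sum]
    refine Finset.sum_le_sum fun h hh => ?_
    rw [← mul_assoc, ← Real.exp_add]
    refine le_mul_of_one_le_left (pa_q_nonneg S _ h) (Real.one_le_exp ?_)
    have e : Real.pi * N h / (3 * M / (4 * Real.pi)) = 4 * Real.pi ^ 2 / 3 * (N h / M) := by
      field_simp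
    have h2 : N h / M ≤ 1 := (div_le_one hM).2 (mem_ball.1 hh).2
    rw [e]
    have : 0 < 4 * Real.pi ^ 2 / 3 := by positivity
    nlinarith
  refine h1.trans ?_
  rw [mul_assoc, mul_assoc]
  refine mul_le_mul_of_nonneg_left (hd.trans ?_) (Real.exp_pos _).le
  have hq := sq_nonneg' S γ
  have t1 : 0 ≤ c * C * M * sq S γ := by positivity
  have t2 : 0 ≤ c * (M / K * F) * sq S γ := by positivity
  have e : C * (c * M / K * F) * sq S γ = c * C * (M / K * F) * sq S γ := by ring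
  rw [e]
  linarith

end Vale.Agent.P006
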