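import Vale.Agent.P006.Ann
import Vale.Agent.P006.Sep
import Vale.Agent.P006.PAA

/-! The Poisson step for a thin annulus. -/

namespace Vale.Agent.P006

open Vale.Agent.P026 Eis Complex MeasureTheory Filter Topology
open scoped Classical ComplexConjugate

theorem pb_even (T c s : ℝ) (τ : ℝ) :
    c * (dens T (-τ) * (1 + |-τ|) ^ s) = c * (dens T τ * (1 + |τ|) ^ s) := by
  rw [dens_neg, abs_neg]

theorem pb_pw {T : ℝ} (hT : 1 ≤ T) {a b c : ℝ} (h : a + b ≤ c) : T ^ a * T ^ b ≤ T ^ c := by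
  rw [← Real.rpow_add (by linarith)]
  exact Real.rpow_le_rpow_of_exponent_le hT h

theorem pb_cube {T : ℝ} (hT : 1 ≤ T) (a : ℝ) : (T ^ 3) ^ a = T ^ (3 * a) := by
  rw [← Real.rpow_natCast, ← Real.rpow_mul (by linarith)]
  norm_num

/-- Small dual frequencies. -/
theorem pb_low {C0 : ℝ} (hC0 : 0 < C0) : ∃ C : ℝ, 0 < C ∧ ∀ (S : Finset Eis) (K Y T a0 b0 d0 K' : ℝ)
    (k : ℝ → ℂ) (P : Eis → Eis → Prop), 0 < K → 0 < Y → 1 ≤ T → 0 ≤ a0 → 0 ≤ b0 → 0 ≤ d0 →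
    S ⊆ PD K → Rep k (1 / 4) (fun τ => C0 * (dens T τ * (1 + |τ|) ^ (-(1 / 2) : ℝ))) →
    (∀ h D, P h D → N h ≤ T * (K ^ 2 / Y)) →
    (∀ (γ : Eis → ℂ) (x : ℝ), 0 < x → QC S γ (x * (K ^ 2 / Y)) ≤
      (a0 * x ^ (1 / 3 : ℝ) + b0 * x ^ (2 / 3 : ℝ) + d0 * x) * (1 + x / T ^ 3) * sq S γ) →
    ∀ γ : Eis → ℂ, ‖bq (fun y => (Y : ℂ) * k (Y * y)) (fun _ => 1) S
      (fun c => conj (γ c * g3 c)) (ball K') P‖ ≤ C * (Y / K * (a0 * T ^ (-(5 / 12) : ℝ) +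
        b0 * T ^ (-(1 / 12) : ℝ) + d0 * T ^ (1 / 4 : ℝ))) * sq S γ := by
  obtain ⟨C1, hC1, h1⟩ := hw_low (σ := 1 / 4) (δ := 1 / 12) (by norm_num) (by norm_num)
  obtain ⟨C2, hC2, h2⟩ := integral_dens_half
  refine ⟨C0 * C2 * C1 * 512, by positivity,
    fun S K Y T a0 b0 d0 K' k P hK hY hT ha hb hd hS hk hP hQ γ => ?_⟩
  have hS0 : (0 : Eis) ∉ S := fun h => (mem_PD.1 (hS h)).1.ne_zero rfl
  have hH : 0 < K ^ 2 / Y := by positivity
  have hT0 : 0 < T := by linarith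
  have hq := sq_nonneg' S γ
  set W := C1 * (512 * sq S γ * (a0 * T ^ (1 / 12 : ℝ) + b0 * T ^ (5 / 12 : ℝ) +
    d0 * T ^ (3 / 4 : ℝ))) with hW
  have b1 := pa_sep hk ((h2 T hT).1.const_mul C0) (pb_even T C0 _) (fun τ => by
    have := dens_pos hT0 τ
    positivity) (W := W) hY.le hY hK hS0 (pa_zero_ball K') (fun c => conj (γ c * g3 c)) P fun τ => by
      refine (pa_wq_le _ hH S _ (Ht := ball (T * (K ^ 2 / Y))) (p := fun _ => True)
        fun h hh D hP' => ⟨mem_ball.2 ⟨(mem_ball.1 hh).1, hP h D hP'⟩, trivial⟩).trans ?_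
      simp only [if_true]
      refine (h1 (Fin 3) Finset.univ (fun i => 512 * sq S γ * ![a0, b0, d0] i)
        ![1 / 3, 2 / 3, 1] _ _ T (fun i _ => ?_) (pa_q_nonneg S _) hH hT0
        fun x hx hxT => ?_).trans (le_of_eq ?_)
      · fin_cases i <;> simp <;> constructor <;> first | positivity | norm_num
      · refine (hQ _ x hx).trans ?_
        have k1 := pa_sq_dual (a := 1 / 4 - 1 / 2) hK (by rw [abs_le]; norm_num) hS γ τ
        have k2 : 1 + x / T ^ 3 ≤ 2 := by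
          have : x / T ^ 3 ≤ 1 := (div_le_one (by positivity)).2
            (hxT.trans (le_self_pow₀ hT (by norm_num)))
          linarith
        calc _ ≤ (a0 * x ^ (1 / 3 : ℝ) + b0 * x ^ (2 / 3 : ℝ) + d0 * x) * 2 * (256 * sq S γ) := by
              gcongr
              exact sq_nonneg' _ _
          _ = _ := by
              simp only [Fin.sum_univ_three, Matrix.cons_val_zero, Matrix.cons_val_one,
                Matrix.cons_val, Real.rpow_one]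
              ring
      · simp only [Fin.sum_univ_three, Matrix.cons_val_zero, Matrix.cons_val_one,
          Matrix.cons_val, hW]
        norm_num
        left
        ring
  refine b1.trans ?_
  rw [integral_const_mul]
  have k1 := pb_pw hT (a := -(1 / 2)) (b := 1 / 12) (c := -(5 / 12)) (by norm_num)
  have k2 := pb_pw hT (a := -(1 / 2)) (b := 5 / 12) (c := -(1 / 12)) (by norm_num)
  have k3 := pb_pw hT (a := -(1 / 2)) (b := 3 / 4) (c := 1 / 4) (by norm_num)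
  calc _ ≤ Y / K * (C0 * (C2 * T ^ (-(1 / 2) : ℝ)) * W) := by
        gcongr
        exact (h2 T hT).2
    _ = C0 * C2 * C1 * 512 * (Y / K * (a0 * (T ^ (-(1 / 2) : ℝ) * T ^ (1 / 12 : ℝ)) +
          b0 * (T ^ (-(1 / 2) : ℝ) * T ^ (5 / 12 : ℝ)) +
          d0 * (T ^ (-(1 / 2) : ℝ) * T ^ (3 / 4 : ℝ)))) * sq S γ := by
        rw [hW]
        ring
    _ ≤ _ := by gcongr

/-- Intermediate dual frequencies. -/
theorem pb_mid {C0 : ℝ} (hC0 : 0 < C0) : ∃ C : ℝ, 0 < C ∧ ∀ (S : Finset Eis) (K Y T a1 b1 d1 K' : ℝ)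
    (k : ℝ → ℂ) (P : Eis → Eis → Prop), 0 < K → 0 < Y → 1 ≤ T → 0 ≤ a1 → 0 ≤ b1 → 0 ≤ d1 →
    S ⊆ PD K → Rep k (1 / 2) (fun τ => C0 * dens T τ) →
    (∀ h D, P h D → T * (K ^ 2 / Y) < N h ∧ N h ≤ T ^ 3 * (K ^ 2 / Y)) →
    (∀ (γ : Eis → ℂ) (x : ℝ), 0 < x → x ≤ T ^ 3 → QA (muT T) S γ (x * (K ^ 2 / Y)) ≤
      (a1 * x ^ (1 / 3 : ℝ) + b1 * x ^ (2 / 3 : ℝ) + d1 * x) * sq S γ) →
    ∀ γ : Eis → ℂ, ‖bq (fun y => (Y : ℂ) * k (Y * y)) (fun _ => 1) S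
      (fun c => conj (γ c * g3 c)) (ball K') P‖ ≤ C * (Y / K * (a1 * T ^ (-(1 / 6) : ℝ) +
        b1 * T ^ (1 / 2 : ℝ) + d1 * T ^ (3 / 2 : ℝ))) * sq S γ := by
  obtain ⟨C1, hC1, h1⟩ := hw (σ := 1 / 2) (δ := 1 / 6) (by norm_num) (by norm_num)
  refine ⟨C0 * C1 * 512, by positivity,
    fun S K Y T a1 b1 d1 K' k P hK hY hT ha hb hd hS hk hP hQ γ => ?_⟩
  have hS0 : (0 : Eis) ∉ S := fun h => (mem_PD.1 (hS h)).1.ne_zero rfl
  have hH : 0 < K ^ 2 / Y := by positivity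
  have hT0 : 0 < T := by linarith
  have hq := sq_nonneg' S γ
  have hρ : Integrable fun τ => C0 * dens T τ := by
    simpa using (integrable_dens_pow hT0 0).const_mul C0
  refine (sep hk hρ (fun τ => by rw [dens_neg]) (Y : ℂ) hY hK (e := fun _ => 1)
    (fun _ => by simp) hS0 (pa_zero_ball K') _ P).trans ?_
  simp only [mul_assoc C0]
  rw [Complex.norm_real, Real.norm_of_nonneg hY.le, integral_const_mul, ← integral_muT hT0]
  have k0 := (pa_int_wq_le (muT T) (1 / 2) hH S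
    (sc (fun c => conj (γ c * g3 c)) K (1 / 2 - 1 / 2)) (Hs := ball K')
    (Ht := ball (T ^ 3 * (K ^ 2 / Y))) (P := P) (p := fun h => T * (K ^ 2 / Y) < N h)
    fun h hh D hP' => ⟨mem_ball.2 ⟨(mem_ball.1 hh).1, (hP h D hP').2⟩, (hP h D hP').1⟩).trans
    (h1 (Fin 3) Finset.univ (fun i => 256 * sq S γ * ![a1, b1, d1] i)
        ![1 / 3, 2 / 3, 1] _ _ T (T ^ 3) (fun i _ => by
          fin_cases i <;> simp <;> constructor <;>
            first | positivity | (rw [le_abs]; norm_num))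
        (pa_qm_nonneg _ S _) hH hT0 (le_self_pow₀ hT (by norm_num))
        fun x hx hxT => by
          rw [← pa_QA_eq]
          refine (hQ _ x (hT0.trans hx) hxT).trans ?_
          have hx0 := hT0.trans hx
          have k1 := pa_sq_dual (a := 1 / 2 - 1 / 2) hK (by rw [abs_le]; norm_num) hS γ 0
          rw [tw_zero] at k1
          calc _ ≤ (a1 * x ^ (1 / 3 : ℝ) + b1 * x ^ (2 / 3 : ℝ) + d1 * x) * (256 * sq S γ) := by
                gcongr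
            _ = _ := by
                simp only [Fin.sum_univ_three, Matrix.cons_val_zero, Matrix.cons_val_one,
                  Matrix.cons_val, Real.rpow_one]
                ring)
  simp only [Fin.sum_univ_three, Matrix.cons_val_zero, Matrix.cons_val_one, Matrix.cons_val,
    pb_cube hT] at k0
  have k1 : T ^ (1 / 3 - 1 / 2 : ℝ) + T ^ (3 * (1 / 3 - 1 / 2) : ℝ) ≤ 2 * T ^ (-(1 / 6) : ℝ) := by
    rw [two_mul]
    exact add_le_add (Real.rpow_le_rpow_of_exponent_le hT (by norm_num))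
      (Real.rpow_le_rpow_of_exponent_le hT (by norm_num))
  have k2 : T ^ (2 / 3 - 1 / 2 : ℝ) + T ^ (3 * (2 / 3 - 1 / 2) : ℝ) ≤ 2 * T ^ (1 / 2 : ℝ) := by
    rw [two_mul]
    exact add_le_add (Real.rpow_le_rpow_of_exponent_le hT (by norm_num))
      (Real.rpow_le_rpow_of_exponent_le hT (by norm_num))
  have k3 : T ^ (1 - 1 / 2 : ℝ) + T ^ (3 * (1 - 1 / 2) : ℝ) ≤ 2 * T ^ (3 / 2 : ℝ) := by
    rw [two_mul]
    exact add_le_add (Real.rpow_le_rpow_of_exponent_le hT (by norm_num))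
      (Real.rpow_le_rpow_of_exponent_le hT (by norm_num))
  calc _ ≤ Y / K * (C0 * (C1 * (256 * sq S γ * a1 * (2 * T ^ (-(1 / 6) : ℝ)) +
        256 * sq S γ * b1 * (2 * T ^ (1 / 2 : ℝ)) + 256 * sq S γ * d1 * (2 * T ^ (3 / 2 : ℝ))))) := by
        refine mul_le_mul_of_nonneg_left (mul_le_mul_of_nonneg_left (k0.trans ?_) hC0.le)
          (by positivity)
        gcongr
    _ = _ := by ring

/-- Large dual frequencies. -/
theorem pb_high {C0 : ℝ} (hC0 : 0 < C0) : ∃ C : ℝ, 0 < C ∧ ∀ (S : Finset Eis)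
    (K Y T a0 b0 d0 K' : ℝ) (k : ℝ → ℂ) (P : Eis → Eis → Prop), 0 < K → 0 < Y → 1 ≤ T → 0 ≤ a0 →
    0 ≤ b0 → 0 ≤ d0 → S ⊆ PD K → Rep k (5 / 2) (fun τ => C0 * (dens T τ * (1 + |τ|) ^ 4)) →
    (∀ h D, P h D → T ^ 3 * (K ^ 2 / Y) < N h) →
    (∀ (γ : Eis → ℂ) (x : ℝ), 0 < x → QC S γ (x * (K ^ 2 / Y)) ≤
      (a0 * x ^ (1 / 3 : ℝ) + b0 * x ^ (2 / 3 : ℝ) + d0 * x) * (1 + x / T ^ 3) * sq S γ) →
    ∀ γ : Eis → ℂ, ‖bq (fun y => (Y : ℂ) * k (Y * y)) (fun _ => 1) S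
      (fun c => conj (γ c * g3 c)) (ball K') P‖ ≤ C * (Y / K * (a0 * T ^ (-(5 / 12) : ℝ) +
        b0 * T ^ (-(1 / 12) : ℝ) + d0 * T ^ (1 / 4 : ℝ))) * sq S γ := by
  obtain ⟨C1, hC1, h1⟩ := hw_high (σ := 5 / 2) (δ := 1 / 2) (by norm_num) (by norm_num)
  obtain ⟨C2, hC2, h2⟩ := integral_dens_pow 4
  refine ⟨C0 * C2 * C1 * 512, by positivity,
    fun S K Y T a0 b0 d0 K' k P hK hY hT ha hb hd hS hk hP hQ γ => ?_⟩
  have hS0 : (0 : Eis) ∉ S := fun h => (mem_PD.1 (hS h)).1.ne_zero rfl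
  have hH : 0 < K ^ 2 / Y := by positivity
  have hT0 : 0 < T := by linarith
  have hT3 : 0 < T ^ 3 := by positivity
  have hq := sq_nonneg' S γ
  set W := C1 * (512 * sq S γ / T ^ 3 * (a0 * T ^ (-(7 / 2) : ℝ) + b0 * T ^ (-(5 / 2) : ℝ) +
    d0 * T ^ (-(3 / 2) : ℝ))) with hW
  have b1 := pa_sep hk ((integrable_dens_pow hT0 4).const_mul C0)
    (fun τ => by rw [dens_neg, abs_neg]) (fun τ => by
    have := dens_pos hT0 τ
    positivity) (W := W) hY.le hY hK hS0 (pa_zero_ball K') (fun c => conj (γ c * g3 c)) P fun τ => by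
      refine (pa_wq_le _ hH S _ (Ht := ball K') (p := fun h => T ^ 3 * (K ^ 2 / Y) < N h)
        fun h hh D hP' => ⟨hh, hP h D hP'⟩).trans ?_
      refine (h1 (Fin 3) Finset.univ (fun i => 512 * sq S γ / T ^ 3 * ![a0, b0, d0] i)
        ![4 / 3, 5 / 3, 2] _ _ (T ^ 3) K' (fun i _ => ?_) (pa_q_nonneg S _) hH hT3
        fun x hx => ?_).trans (le_of_eq ?_)
      · fin_cases i <;> simp <;> constructor <;> first | positivity | norm_num
      · have hx0 := hT3.trans hx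
        refine (hQ _ x hx0).trans ?_
        have k1 := pa_sq_dual (a := 5 / 2 - 1 / 2) hK (by rw [abs_le]; norm_num) hS γ τ
        have k2 : 1 + x / T ^ 3 ≤ 2 * (x / T ^ 3) := by
          have : 1 ≤ x / T ^ 3 := (one_le_div hT3).2 hx.le
          linarith
        have e1 : x ^ (4 / 3 : ℝ) = x ^ (1 / 3 : ℝ) * x := by
          rw [← Real.rpow_add_one hx0.ne']
          norm_num
        have e2 : x ^ (5 / 3 : ℝ) = x ^ (2 / 3 : ℝ) * x := by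
          rw [← Real.rpow_add_one hx0.ne']
          norm_num
        calc _ ≤ (a0 * x ^ (1 / 3 : ℝ) + b0 * x ^ (2 / 3 : ℝ) + d0 * x) * (2 * (x / T ^ 3)) *
              (256 * sq S γ) := by
              gcongr
              exact sq_nonneg' _ _
          _ = _ := by
              simp only [Fin.sum_univ_three, Matrix.cons_val_zero, Matrix.cons_val_one,
                Matrix.cons_val, Real.rpow_two, e1, e2]
              ring
      · simp only [Fin.sum_univ_three, Matrix.cons_val_zero, Matrix.cons_val_one,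
          Matrix.cons_val, hW, pb_cube hT]
        norm_num
        left
        ring
  refine b1.trans ?_
  rw [integral_const_mul]
  have k1 := pb_pw hT (a := 1) (b := -(7 / 2)) (c := -(5 / 12)) (by norm_num)
  have k2 := pb_pw hT (a := 1) (b := -(5 / 2)) (c := -(1 / 12)) (by norm_num)
  have k3 := pb_pw hT (a := 1) (b := -(3 / 2)) (c := 1 / 4) (by norm_num)
  rw [Real.rpow_one] at k1 k2 k3
  calc _ ≤ Y / K * (C0 * (C2 * T ^ 4) * W) := by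
        gcongr
        exact h2 T hT
    _ = C0 * C2 * C1 * 512 * (Y / K * (a0 * (T * T ^ (-(7 / 2) : ℝ)) +
          b0 * (T * T ^ (-(5 / 2) : ℝ)) + d0 * (T * T ^ (-(3 / 2) : ℝ)))) * sq S γ := by
        rw [hW]
        field_simp
    _ ≤ _ := by gcongr

/-- dual_le with pb0; H = K ^ 2 / Y. Split the dual frequencies by x = N h / H:
x ≤ T: σ = 1/4, pointwise hypothesis, hw_low, integral_dens_half;
T < x ≤ T ^ 3: σ = 1/2, averaged hypothesis (integral_muT), hw with δ = 1/6;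
x > T ^ 3: σ = 5/2, pointwise hypothesis (monomials up to x ^ 2), hw_high, integral_dens_pow. -/
theorem pb : ∃ C : ℝ, 0 < C ∧ ∀ (S : Finset Eis) (K Y T a0 b0 d0 a1 b1 d1 : ℝ), 0 < K → 0 < Y →
    1 ≤ T → 0 ≤ a0 → 0 ≤ b0 → 0 ≤ d0 → 0 ≤ a1 → 0 ≤ b1 → 0 ≤ d1 → S ⊆ PD K →
    (∀ (γ : Eis → ℂ) (x : ℝ), 0 < x → QC S γ (x * (K ^ 2 / Y)) ≤
      (a0 * x ^ (1 / 3 : ℝ) + b0 * x ^ (2 / 3 : ℝ) + d0 * x) * (1 + x / T ^ 3) * sq S γ) →
    (∀ (γ : Eis → ℂ) (x : ℝ), 0 < x → x ≤ T ^ 3 → QA (muT T) S γ (x * (K ^ 2 / Y)) ≤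
      (a1 * x ^ (1 / 3 : ℝ) + b1 * x ^ (2 / 3 : ℝ) + d1 * x) * sq S γ) →
    ∀ (γ : Eis → ℂ) (Hs : Finset Eis), (0 : Eis) ∉ Hs →
      ∑ h ∈ Hs, lg (T ^ 2 / 2) (N h / Y) * ∑ D ∈ sqd h, qt S γ h D ≤
        C * (Y / T + Y / K * (a0 * T ^ (-(5 / 12) : ℝ) + b0 * T ^ (-(1 / 12) : ℝ) +
          d0 * T ^ (1 / 4 : ℝ) + a1 * T ^ (-(1 / 6) : ℝ) + b1 * T ^ (1 / 2 : ℝ) +
          d1 * T ^ (3 / 2 : ℝ))) * sq S γ := by
  obtain ⟨C0, hC0, h0⟩ := pb0
  obtain ⟨C1, hC1, h1⟩ := pb_low hC0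
  obtain ⟨C2, hC2, h2⟩ := pb_mid hC0
  obtain ⟨C3, hC3, h3⟩ := pb_high hC0
  refine ⟨C0 + C1 + C2 + C3, by positivity,
    fun S K Y T a0 b0 d0 a1 b1 d1 hK hY hT ha0 hb0 hd0 ha1 hb1 hd1 hS hQ hA γ Hs hH => ?_⟩
  obtain ⟨k, kP, k0, r1, r2, r3⟩ := h0 T hT
  have hPS : ∀ n ∈ S, PS n := fun n hn => (mem_PD.1 (hS hn)).1
  have hT0 : 0 < T := by linarith
  have hq := sq_nonneg' S γ
  set X0 := Y / K * (a0 * T ^ (-(5 / 12) : ℝ) + b0 * T ^ (-(1 / 12) : ℝ) + d0 * T ^ (1 / 4 : ℝ))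
    with hX0
  set X1 := Y / K * (a1 * T ^ (-(1 / 6) : ℝ) + b1 * T ^ (1 / 2 : ℝ) + d1 * T ^ (3 / 2 : ℝ))
    with hX1
  have hd := dual_le (kP Y hY) (w0 := fun x => if x = 0 then 0 else lg (T ^ 2 / 2) (x / Y))
    (fun x _ => by
      split_ifs
      · simp
      · exact ⟨rfl, (lg_pos _ _).le⟩) hPS γ
    (B := C3 * X0 * sq S γ + C2 * X1 * sq S γ + C1 * X0 * sq S γ) (fun K' => by
      rw [bq_split _ _ _ _ _ (fun _ _ => True) (fun h _ => T * (K ^ 2 / Y) < N h),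
        bq_split _ _ _ _ _ (fun h _ => True ∧ T * (K ^ 2 / Y) < N h)
          (fun h _ => T ^ 3 * (K ^ 2 / Y) < N h)]
      exact norm_add_le_of_le (norm_add_le_of_le
        (h3 S K Y T a0 b0 d0 K' k _ hK hY hT ha0 hb0 hd0 hS r3 (fun h D hP => hP.2) hQ γ)
        (h2 S K Y T a1 b1 d1 K' k _ hK hY hT ha1 hb1 hd1 hS r2
          (fun h D hP => ⟨hP.1.2, not_lt.1 hP.2⟩) hA γ))
        (h1 S K Y T a0 b0 d0 K' k _ hK hY hT ha0 hb0 hd0 hS r1
          (fun h D hP => not_lt.1 hP.2) hQ γ)) Hs hH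
  have e1 : ∑ h ∈ Hs, lg (T ^ 2 / 2) (N h / Y) * ∑ D ∈ sqd h, qt S γ h D =
      ∑ h ∈ Hs, (if N h = 0 then 0 else lg (T ^ 2 / 2) (N h / Y)) * ∑ D ∈ sqd h, qt S γ h D :=
    Finset.sum_congr rfl fun h hh => by
      rw [if_neg (N_pos fun h' => hH (h' ▸ hh)).ne']
  rw [e1]
  refine hd.trans ?_
  have k1 : ‖(Y : ℂ) * k (Y * 0)‖ ≤ C0 * (Y / T) := by
    rw [mul_zero, norm_mul, Complex.norm_real, Real.norm_of_nonneg hY.le]
    exact (mul_le_mul_of_nonneg_left k0 hY.le).trans (le_of_eq (by ring))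
  have k2 := mul_le_mul_of_nonneg_right k1 hq
  have e2 : Y / T + Y / K * (a0 * T ^ (-(5 / 12) : ℝ) + b0 * T ^ (-(1 / 12) : ℝ) +
      d0 * T ^ (1 / 4 : ℝ) + a1 * T ^ (-(1 / 6) : ℝ) + b1 * T ^ (1 / 2 : ℝ) +
      d1 * T ^ (3 / 2 : ℝ)) = Y / T + X0 + X1 := by
    rw [hX0, hX1]
    ring
  rw [e2]
  have p0 : 0 ≤ X0 := by positivity
  have p1 : 0 ≤ X1 := by positivity
  have t0 : 0 ≤ (C1 + C2 + C3) * (Y / T) * sq S γ := by positivity
  have t1 : 0 ≤ (C0 + C2) * X0 * sq S γ := by positivity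
  have t2 : 0 ≤ (C0 + C1 + C3) * X1 * sq S γ := by positivity
  linarith

end Vale.Agent.P006
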