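import Vale.Agent.P006.Bas
import Vale.Agent.P026.Recip3
import Vale.Agent.P026.Fin2A
import Vale.Agent.Lib.Mertens

/-! Primary primes and their norms; crude Mertens bounds; Euler products (first half of Pri). -/

namespace Vale.Agent.P006

open Vale.Agent.P026 Eis Complex MeasureTheory Filter Topology
open scoped Classical ComplexConjugate

theorem pri_nrm_mod {x : Eis} (hx : Prim x) : nrm x % 3 = 1 := by
  obtain ⟨⟨a, ha⟩, b, hb⟩ := bs_prim.1 hx
  have e : nrm x = 3 * (3 * a ^ 2 + 2 * a - (3 * a + 1) * b + 3 * b ^ 2) + 1 := by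
    rw [nrm, hb, show x.a = 3 * a + 1 by omega]
    ring
  omega

theorem pri_N_assoc {x y : Eis} (hy : y ≠ 0) (h : Associated x y) : N x = N y :=
  le_antisymm (N_le_of_dvd hy h.dvd) (N_le_of_dvd (h.ne_zero_iff.2 hy) h.symm.dvd)

theorem pri_N_cj (x : Eis) : N (cj x) = N x := by rw [N, N, nrm_cj]

theorem pri_eq_or {p q : Eis} (hp : Prime p) (h1 : Prim p) (hq : Prime q) (h2 : Prim q)
    (h : N p = N q) : p = q ∨ p = cj q := by
  have e : nrm p = nrm q := by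
    unfold N at h
    exact_mod_cast h
  have k : p ∣ q * cj q := by
    rw [mul_cj, ← e, ← mul_cj]
    exact dvd_mul_right _ _
  exact (hp.dvd_or_dvd k).imp (r3_eq_of_dvd hq h2 hp h1)
    (r3_eq_of_dvd (r3_prime_cj hq) h2.cj hp h1)

theorem pri_over {p : Eis} (hp : Prime p) (n : ℕ) :
    n ≠ 0 → p ∣ (n : Eis) → ∃ q : ℕ, q.Prime ∧ p ∣ (q : Eis) := by
  induction n using induction_on_primes with
  | zero => exact fun h => absurd rfl h
  | one => exact fun _ h => absurd (by simpa using h) hp.not_dvd_one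
  | prime_mul q a hq ih =>
    intro h0 h
    rw [Nat.cast_mul] at h
    exact (hp.dvd_or_dvd h).elim (fun k => ⟨q, hq, k⟩) (ih (right_ne_zero_of_mul h0))

theorem inert_prime {q : ℕ} (hq : q.Prime) (h : q % 3 = 2) :
    Prime (-(q : Eis)) ∧ Prim (-(q : Eis)) :=
  ⟨Prime.neg ((f2_dich hq).resolve_right fun ⟨π, _, e⟩ => f2_mod π (by omega)),
    bs_prim.2 (by simp; omega)⟩

/-- A primary prime lies over a rational prime q ≠ 3. -/
theorem prime_norm {p : Eis} (hp : Prime p) (h1 : Prim p) :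
    (∃ q : ℕ, q.Prime ∧ q % 3 = 1 ∧ N p = q) ∨ (∃ q : ℕ, q.Prime ∧ q % 3 = 2 ∧ p = -(q : Eis)) := by
  obtain ⟨n, hn⟩ := Int.eq_ofNat_of_zero_le (nrm_nonneg p)
  have h0 := nrm_pos hp.ne_zero
  obtain ⟨q, hq, hd⟩ := pri_over hp n (by omega) (by
    rw [← Int.cast_natCast, ← hn, ← mul_cj]
    exact dvd_mul_right _ _)
  rcases f2_dich hq with k | ⟨π, k, e⟩
  · have h3 : q % 3 ≠ 0 := fun j => h1.not_lam_dvd ((bs_lam_dvd.2 (by simp; omega)).trans
      (hp.associated_of_dvd k hd).symm.dvd)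
    have h4 : q % 3 ≠ 1 := fun j => f2_not_prime hq j k
    have h5 : q % 3 = 2 := by omega
    exact Or.inr ⟨q, hq, h5, r3_eq_of_dvd k.neg (inert_prime hq h5).2 hp h1 (dvd_neg.2 hd)⟩
  · have h3 : p ∣ π * cj π := by rwa [mul_cj, e, Int.cast_natCast]
    have h4 : N p = q := by
      have e' : N π = q := by rw [N, e, Int.cast_natCast]
      rcases hp.dvd_or_dvd h3 with j | j
      · rw [pri_N_assoc k.ne_zero (hp.associated_of_dvd k j), e']
      · rw [pri_N_assoc (r3_prime_cj k).ne_zero (hp.associated_of_dvd (r3_prime_cj k) j),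
          pri_N_cj, e']
    have h5 : nrm p = q := by
      unfold N at h4
      exact_mod_cast h4
    have h6 := pri_nrm_mod h1
    exact Or.inl ⟨q, hq, by omega, h4⟩

/-- Splitting of q ≡ 1 mod 3. -/
theorem exists_split {q : ℕ} (hq : q.Prime) (h : q % 3 = 1) :
    ∃ π : Eis, Prime π ∧ Prim π ∧ N π = q ∧ π ≠ cj π ∧ π * cj π = q ∧
      ∀ p, Prime p → Prim p → N p = q → p = π ∨ p = cj π := by
  obtain ⟨π₀, h1, h2⟩ := (f2_dich hq).resolve_left (f2_not_prime hq h)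
  obtain ⟨u, hu, h3⟩ := exists_prim_assoc (x := π₀) (by
    rintro ⟨e, rfl⟩
    rw [nrm_mul, show nrm lam = 3 by decide] at h2
    omega)
  obtain ⟨π, hπ⟩ : ∃ π, π = u * π₀ := ⟨_, rfl⟩
  have a1 : Prime π := hπ ▸ (associated_unit_mul_right π₀ u hu).prime h1
  have a2 : nrm π = q := by rw [hπ, nrm_mul, isUnit_iff_nrm.1 hu, one_mul, h2]
  have a3 : N π = q := by rw [N, a2, Int.cast_natCast]
  rw [← hπ] at h3
  refine ⟨π, a1, h3, a3, fun e => ?_, by rw [mul_cj, a2, Int.cast_natCast],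
    fun p hp hp' e => pri_eq_or hp hp' a1 h3 (e.trans a3.symm)⟩
  have b0 : π.b = 0 := by
    have := congrArg Eis.b e
    rw [cj_b] at this
    omega
  have b1 : π.a.natAbs * π.a.natAbs = q := by
    rw [nrm, b0] at a2
    have k : ((π.a.natAbs * π.a.natAbs : ℕ) : ℤ) = q :=
      (Int.natAbs_mul_self (a := π.a)).trans (by rw [← a2]; ring)
    exact_mod_cast k
  exact Nat.not_prime_mul (fun j => by rw [j] at b1; exact hq.one_lt.ne b1)
    (fun j => by rw [j] at b1; exact hq.one_lt.ne b1) (b1 ▸ hq)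

theorem card_prime_norm (x : ℝ) (S : Finset Eis)
    (hS : ∀ p ∈ S, Prime p ∧ Prim p ∧ N p = x) : S.card ≤ 2 := by
  rcases S.eq_empty_or_nonempty with rfl | ⟨q, hq⟩
  · simp
  · refine (Finset.card_le_card (t := {q, cj q}) fun p hp => ?_).trans Finset.card_le_two
    rw [Finset.mem_insert, Finset.mem_singleton]
    exact pri_eq_or (hS p hp).1 (hS p hp).2.1 (hS q hq).1 (hS q hq).2.1
      ((hS p hp).2.2.trans (hS q hq).2.2.symm)

theorem pri_N_neg (q : ℕ) : N (-(q : Eis)) = (q : ℝ) ^ 2 := by simp [N, nrm]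

/-- Reduction of sums over primary primes to rational primes. -/
theorem sum_pz_le {f : ℝ → ℝ} (hf : ∀ x, 1 ≤ x → 0 ≤ f x) (z : ℝ) :
    ∑ p ∈ pz z, f (N p) ≤ 2 * ∑ q ∈ (Finset.Icc 1 ⌊z⌋₊).filter Nat.Prime, f q +
      ∑ q ∈ Finset.Icc 2 ⌊√z⌋₊, f ((q : ℝ) ^ 2) := by
  rw [← Finset.sum_filter_add_sum_filter_not (pz z) (fun p => ∃ q : ℕ, q.Prime ∧ N p = q)]
  refine add_le_add ?_ ?_
  · rw [← Finset.sum_fiberwise_of_maps_to (t := (Finset.Icc 1 ⌊z⌋₊).filter Nat.Prime)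
      (g := fun p => ⌊N p⌋₊), Finset.mul_sum]
    · refine Finset.sum_le_sum fun q hq => ?_
      have e : ∀ p ∈ ((pz z).filter (fun p => ∃ q : ℕ, q.Prime ∧ N p = q)).filter
          (fun p => ⌊N p⌋₊ = q), Prime p ∧ Prim p ∧ N p = q := by
        intro p hp
        obtain ⟨h1, h2⟩ := Finset.mem_filter.1 hp
        obtain ⟨h3, r, -, h4⟩ := Finset.mem_filter.1 h1
        rw [h4, Nat.floor_natCast] at h2
        exact ⟨(mem_pz.1 h3).1, (mem_pz.1 h3).2.1, by rw [h4, h2]⟩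
      rw [Finset.sum_congr rfl fun p hp => by rw [(e p hp).2.2], Finset.sum_const, nsmul_eq_mul]
      refine mul_le_mul_of_nonneg_right (by exact_mod_cast card_prime_norm _ _ e) (hf _ ?_)
      exact_mod_cast (Finset.mem_filter.1 hq).2.one_lt.le
    · intro p hp
      obtain ⟨h3, r, hr, h4⟩ := Finset.mem_filter.1 hp
      refine Finset.mem_filter.2 ⟨Finset.mem_Icc.2 ⟨?_, Nat.floor_le_floor (mem_pz.1 h3).2.2⟩, ?_⟩
      · rw [h4, Nat.floor_natCast]
        exact hr.one_lt.le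
      · rwa [h4, Nat.floor_natCast]
  · have inj : ∀ a ∈ Finset.Icc 2 ⌊√z⌋₊, ∀ b ∈ Finset.Icc 2 ⌊√z⌋₊,
        -((a : ℕ) : Eis) = -((b : ℕ) : Eis) → a = b := fun a _ b _ e => by
      simpa using congrArg Eis.a e
    have e := Finset.sum_image (f := fun p => f (N p)) inj
    simp only [pri_N_neg] at e
    rw [← e]
    refine Finset.sum_le_sum_of_subset_of_nonneg (fun p hp => ?_) fun p hp _ => ?_
    · obtain ⟨h3, h4⟩ := Finset.mem_filter.1 hp
      obtain ⟨a1, a2, a3⟩ := mem_pz.1 h3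
      rcases prime_norm a1 a2 with ⟨q, hq, -, k⟩ | ⟨q, hq, -, k⟩
      · exact absurd ⟨q, hq, k⟩ h4
      · refine Finset.mem_image.2 ⟨q, Finset.mem_Icc.2 ⟨hq.two_le, Nat.le_floor ?_⟩, k.symm⟩
        rw [k, pri_N_neg] at a3
        exact Real.le_sqrt_of_sq_le a3
    · obtain ⟨q, hq, rfl⟩ := Finset.mem_image.1 hp
      rw [pri_N_neg]
      refine hf _ (one_le_pow₀ ?_)
      exact_mod_cast one_le_two.trans (Finset.mem_Icc.1 hq).1

theorem mertens_inv : ∃ C : ℝ, 0 < C ∧ ∀ z : ℝ, 2 ≤ z →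
    ∑ p ∈ pz z, (N p)⁻¹ ≤ 2 * Real.log (Real.log z) + C := by
  obtain ⟨C, hC, h⟩ := Lib.Mertens.mertens2_crude
  refine ⟨2 * C + 1, by positivity, fun z hz => ?_⟩
  have h1 := sum_pz_le (f := fun x => x⁻¹) (fun x hx => by positivity) z
  have h2 := (abs_le.1 (h z hz)).2
  have h3 := Lib.Mertens.sum_inv_sq_le (Finset.Icc 2 ⌊√z⌋₊) fun p hp => (Finset.mem_Icc.1 hp).1
  simp only [one_div, inv_pow] at h1 h2 h3
  linarith

theorem mertens_log : ∃ C : ℝ, 0 < C ∧ ∀ z : ℝ, 1 ≤ z →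
    ∑ p ∈ pz z, Real.log (N p) / N p ≤ 2 * Real.log z + C := by
  obtain ⟨C, h⟩ := Lib.Mertens.mertens1
  have hs : Summable fun q : ℕ => 4 * (q : ℝ) ^ (-(3 / 2) : ℝ) :=
    (Real.summable_nat_rpow.2 (by norm_num)).mul_left 4
  have hT : 0 ≤ ∑' q : ℕ, 4 * (q : ℝ) ^ (-(3 / 2) : ℝ) := tsum_nonneg fun q => by positivity
  refine ⟨2 * |C| + 1 + ∑' q : ℕ, 4 * (q : ℝ) ^ (-(3 / 2) : ℝ), by positivity, fun z hz => ?_⟩
  have h1 := sum_pz_le (f := fun x => Real.log x / x)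
    (fun x hx => div_nonneg (Real.log_nonneg hx) (by linarith)) z
  have h2 := (abs_le.1 (h z hz)).2
  have h3 : ∑ q ∈ Finset.Icc 2 ⌊√z⌋₊, Real.log ((q : ℝ) ^ 2) / (q : ℝ) ^ 2 ≤
      ∑' q : ℕ, 4 * (q : ℝ) ^ (-(3 / 2) : ℝ) := by
    refine le_trans (Finset.sum_le_sum fun q hq => ?_)
      (hs.sum_le_tsum (Finset.Icc 2 ⌊√z⌋₊) fun q _ => by positivity)
    have q0 : (0 : ℝ) < q := by exact_mod_cast two_pos.trans_le (Finset.mem_Icc.1 hq).1
    have a := Real.log_le_rpow_div q0.le (show (0 : ℝ) < 1 / 2 by norm_num)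
    have b : (q : ℝ) ^ (-(3 / 2) : ℝ) * (q : ℝ) ^ 2 = (q : ℝ) ^ (1 / 2 : ℝ) := by
      rw [← Real.rpow_two, ← Real.rpow_add q0]
      norm_num
    rw [div_le_iff₀ (by positivity), mul_assoc, b, Real.log_pow]
    push_cast
    linarith
  linarith [le_abs_self C]

/-- Euler product bound for submultiplicative functions (induction on P; write n = p ^ a m). -/
theorem euler_le {f : Eis → ℝ} (h0 : ∀ n, 0 ≤ f n) (h1 : f 1 ≤ 1)
    (hm : ∀ (p m : Eis) (a : ℕ), Prime p → Prim p → Prim m → ¬ p ∣ m →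
      f (p ^ a * m) ≤ f (p ^ a) * f m)
    (P : Finset Eis) (hP : ∀ p ∈ P, Prime p ∧ Prim p) (g : Eis → ℝ)
    (hg : ∀ p ∈ P, ∀ k : ℕ, ∑ a ∈ Finset.range k, f (p ^ a) ≤ g p)
    (S : Finset Eis) (hS : ∀ n ∈ S, Prim n ∧ ∀ p, Prime p → Prim p → p ∣ n → p ∈ P) :
    ∑ n ∈ S, f n ≤ ∏ p ∈ P, g p := by
  induction P using Finset.induction_on generalizing S with
  | empty =>
    rw [Finset.prod_empty]
    refine le_trans (Finset.sum_le_sum_of_subset_of_nonneg (t := {1}) (fun n hn => ?_)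
      fun n _ _ => h0 n) (by rwa [Finset.sum_singleton])
    by_contra k
    obtain ⟨p, a, b, c⟩ := exists_prime_dvd (hS n hn).1 fun j => k (Finset.mem_singleton.2 j)
    exact Finset.notMem_empty _ ((hS n hn).2 p a b c)
  | insert p P hp ih =>
    obtain ⟨p1, p2⟩ := hP p (Finset.mem_insert_self _ _)
    have key : ∀ n : Eis, ∃ x : ℕ × Eis, n ≠ 0 → ¬ p ∣ x.2 ∧ n = p ^ x.1 * x.2 := fun n => by
      by_cases hn : n = 0
      · exact ⟨(0, 0), fun k => absurd hn k⟩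
      · obtain ⟨a, m, k⟩ := WfDvdMonoid.max_power_factor hn p1.irreducible
        exact ⟨(a, m), fun _ => k⟩
    choose φ hφ using key
    have hφ' : ∀ n ∈ S, ¬ p ∣ (φ n).2 ∧ n = p ^ (φ n).1 * (φ n).2 :=
      fun n hn => hφ n (hS n hn).1.ne_zero
    have hpr : ∀ n ∈ S, Prim (φ n).2 := fun n hn =>
      (p2.pow (φ n).1).of_mul (by rw [← (hφ' n hn).2]; exact (hS n hn).1)
    have h2 := ih (fun q hq => hP q (Finset.mem_insert_of_mem hq))
      (fun q hq => hg q (Finset.mem_insert_of_mem hq)) (S.image fun n => (φ n).2) (by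
        intro m hm
        obtain ⟨n, hn, rfl⟩ := Finset.mem_image.1 hm
        refine ⟨hpr n hn, fun q q1 q2 q3 => ?_⟩
        have := (hS n hn).2 q q1 q2 (by rw [(hφ' n hn).2]; exact q3.mul_left _)
        exact (Finset.mem_insert.1 this).resolve_left fun e => (hφ' n hn).1 (e ▸ q3))
    have h3 := hg p (Finset.mem_insert_self _ _) (S.sup (fun n => (φ n).1) + 1)
    have h4 := hg p (Finset.mem_insert_self _ _) 0
    rw [Finset.sum_range_zero] at h4
    rw [Finset.prod_insert hp]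
    refine le_trans ?_ (mul_le_mul h3 h2 (Finset.sum_nonneg fun n _ => h0 n) h4)
    rw [Finset.sum_mul_sum, ← Finset.sum_product']
    have inj : ∀ a ∈ S, ∀ b ∈ S, φ a = φ b → a = b := fun a ha b hb e => by
      rw [(hφ' a ha).2, (hφ' b hb).2, e]
    refine le_trans (Finset.sum_le_sum (g := fun n => f (p ^ (φ n).1) * f (φ n).2) fun n hn => ?_)
      ?_
    · have := hm p _ (φ n).1 p1 p2 (hpr n hn) (hφ' n hn).1
      rwa [← (hφ' n hn).2] at this
    · rw [← Finset.sum_image (f := fun x : ℕ × Eis => f (p ^ x.1) * f x.2) inj]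
      refine Finset.sum_le_sum_of_subset_of_nonneg (fun x hx => ?_)
        fun x _ _ => mul_nonneg (h0 _) (h0 _)
      obtain ⟨n, hn, rfl⟩ := Finset.mem_image.1 hx
      exact Finset.mem_product.2 ⟨Finset.mem_range.2 (Nat.lt_succ_of_le
        (Finset.le_sup (f := fun n => (φ n).1) hn)), Finset.mem_image_of_mem _ hn⟩

theorem pri_geo {x : ℝ} (J : ℕ) :
    ∑ j ∈ Finset.range J, (if x ≤ 2 ^ j then ((2 : ℝ) ^ j)⁻¹ else 0) ≤
      max 0 (2 * x⁻¹ - 2 * ((2 : ℝ) ^ J)⁻¹) ∨ x ≤ 0 := by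
  refine (le_or_gt x 0).symm.imp_left fun hx => ?_
  induction J with
  | zero => simp
  | succ J ih =>
    rw [Finset.sum_range_succ]
    have e : ((2 : ℝ) ^ (J + 1))⁻¹ * 2 = ((2 : ℝ) ^ J)⁻¹ := by
      rw [pow_succ]
      field_simp
    split_ifs with h
    · have := inv_anti₀ hx h
      rw [max_eq_right (by linarith)] at ih
      exact le_trans (by linarith) (le_max_right _ _)
    · have := inv_anti₀ (by positivity) (not_le.1 h).le
      rw [max_eq_left (by linarith)] at ih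
      exact le_trans (by linarith) (le_max_left _ _)

theorem pri_log_le : ∃ c : ℝ, 0 < c ∧ ∀ z : ℝ, 1 ≤ z →
    c * Real.log z ≤ ∑ n ∈ (ball z).filter Prim, (N n)⁻¹ := by
  obtain ⟨c, hc, h⟩ := card_P1_ge
  refine ⟨c / 2, by positivity, fun z hz => ?_⟩
  obtain ⟨J, h1, h2⟩ := exists_nat_pow_near hz one_lt_two
  have h3 : Real.log z ≤ J + 1 := by
    have := Real.log_le_log (by linarith) h2.le
    rw [Real.log_pow] at this
    have h4 : Real.log 2 ≤ 1 := by linarith [Real.log_two_lt_d9]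
    push_cast at this
    nlinarith [Nat.cast_nonneg (α := ℝ) J]
  have h4 : ∑ n ∈ (ball z).filter Prim, ∑ j ∈ Finset.range (J + 1),
      (if N n ≤ 2 ^ j then ((2 : ℝ) ^ j)⁻¹ else 0) ≤ 2 * ∑ n ∈ (ball z).filter Prim, (N n)⁻¹ := by
    rw [Finset.mul_sum]
    refine Finset.sum_le_sum fun n hn => ?_
    have hn := N_pos (Finset.mem_filter.1 hn).2.ne_zero
    refine ((pri_geo (J + 1)).resolve_right (not_le.2 hn)).trans (max_le (by positivity) ?_)
    exact sub_le_self _ (by positivity)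
  have h5 : ∑ _j ∈ Finset.range (J + 1), c ≤ ∑ j ∈ Finset.range (J + 1),
      ∑ n ∈ (ball z).filter Prim, (if N n ≤ 2 ^ j then ((2 : ℝ) ^ j)⁻¹ else 0) := by
    refine Finset.sum_le_sum fun j hj => ?_
    have a := h (2 ^ j) (one_le_pow₀ one_le_two)
    have b : (2 : ℝ) ^ j ≤ z :=
      (pow_le_pow_right₀ one_le_two (Nat.lt_succ_iff.1 (Finset.mem_range.1 hj))).trans h1
    rw [← Finset.sum_filter, Finset.sum_const, nsmul_eq_mul, ← div_eq_mul_inv,
      le_div_iff₀ (by positivity)]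
    refine a.trans (Nat.cast_le.2 (Finset.card_le_card fun n hn => ?_))
    obtain ⟨k1, k2⟩ := Finset.mem_filter.1 hn
    exact Finset.mem_filter.2 ⟨Finset.mem_filter.2 ⟨ball_mono b k1, k2.1⟩, (mem_ball.1 k1).2⟩
  rw [Finset.sum_comm] at h4
  rw [Finset.sum_const, Finset.card_range, nsmul_eq_mul] at h5
  push_cast at h5
  nlinarith

theorem pri_inv_le {p : Eis} (hp : Prime p) : (N p)⁻¹ ≤ 1 / 2 := by
  rw [one_div]
  exact inv_anti₀ two_pos (cnt_two_le hp)

theorem pri_geom {t : ℝ} (h0 : 0 ≤ t) (h1 : t < 1) (k : ℕ) :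
    ∑ a ∈ Finset.range k, t ^ a ≤ (1 - t)⁻¹ := by
  rw [← tsum_geometric_of_lt_one h0 h1]
  exact (summable_geometric_of_lt_one h0 h1).sum_le_tsum _ fun _ _ => by positivity

theorem prod_pz_le : ∃ C : ℝ, 0 < C ∧ ∀ z : ℝ, 2 ≤ z →
    ∏ p ∈ pz z, (1 - (N p)⁻¹) ≤ C / Real.log z := by
  obtain ⟨c, hc, h⟩ := pri_log_le
  refine ⟨c⁻¹, by positivity, fun z hz => ?_⟩
  have h1 := euler_le (f := fun n => (N n)⁻¹) (fun n => inv_nonneg.2 (N_nonneg n)) (by simp)
    (fun p m a _ _ _ _ => by rw [N_mul, mul_inv]) (pz z)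
    (fun p hp => ⟨(mem_pz.1 hp).1, (mem_pz.1 hp).2.1⟩) (fun p => (1 - (N p)⁻¹)⁻¹)
    (fun p hp k => by
      simp only [N_pow, ← inv_pow]
      exact pri_geom (inv_nonneg.2 (N_nonneg p)) (by linarith [pri_inv_le (mem_pz.1 hp).1]) k)
    ((ball z).filter Prim) (fun n hn => by
      obtain ⟨k1, k2⟩ := Finset.mem_filter.1 hn
      exact ⟨k2, fun p a b d => mem_pz.2 ⟨a, b, (N_le_of_dvd k2.ne_zero d).trans
        (mem_ball.1 k1).2⟩⟩)
  have h2 := (h z (by linarith)).trans h1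
  have h3 : 0 < Real.log z := Real.log_pos (by linarith)
  have h4 : 0 < ∏ p ∈ pz z, (1 - (N p)⁻¹) :=
    Finset.prod_pos fun p hp => by linarith [pri_inv_le (mem_pz.1 hp).1]
  rw [Finset.prod_inv_distrib, le_inv_comm₀ (by positivity) h4, mul_inv] at h2
  rwa [div_eq_mul_inv]

theorem sum_inv_le_log : ∃ C : ℝ, 0 < C ∧ ∀ K : ℝ, 0 < K →
    ∑ n ∈ ball K, (N n)⁻¹ ≤ C * Real.log (2 + K) := by
  have l2 : 0 < Real.log 2 := Real.log_pos one_lt_two
  refine ⟨64 / Real.log 2, by positivity, fun K hK => ?_⟩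
  obtain ⟨J, h1, h2⟩ := exists_nat_pow_near (show 1 ≤ 2 + K by linarith) one_lt_two
  have h3 := Real.log_le_log (by positivity) h1
  have h4 := Real.log_le_log two_pos (show 2 ≤ 2 + K by linarith)
  rw [Real.log_pow] at h3
  have h5 : ∑ n ∈ ball K, (N n)⁻¹ ≤ ∑ n ∈ ball K, ∑ j ∈ Finset.range (J + 1),
      (if N n ≤ 2 ^ (j + 1) then ((2 : ℝ) ^ j)⁻¹ else 0) := by
    refine Finset.sum_le_sum fun n hn => ?_
    obtain ⟨k1, k2⟩ := mem_ball.1 hn
    obtain ⟨j, j1, j2⟩ := exists_nat_pow_near (one_le_N k1) one_lt_two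
    have j3 : j < J + 1 := (pow_lt_pow_iff_right₀ (a := (2 : ℝ)) one_lt_two).1 (by linarith)
    refine le_trans ?_ (Finset.single_le_sum (f := fun j =>
      if N n ≤ 2 ^ (j + 1) then ((2 : ℝ) ^ j)⁻¹ else 0) (fun i _ => by positivity)
        (Finset.mem_range.2 j3))
    rw [if_pos j2.le]
    exact inv_anti₀ (by positivity) j1
  have h6 : ∑ j ∈ Finset.range (J + 1), ∑ n ∈ ball K,
      (if N n ≤ 2 ^ (j + 1) then ((2 : ℝ) ^ j)⁻¹ else 0) ≤ ∑ _j ∈ Finset.range (J + 1), 32 := by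
    refine Finset.sum_le_sum fun j _ => ?_
    rw [← Finset.sum_filter, Finset.sum_const, nsmul_eq_mul, ← div_eq_mul_inv,
      div_le_iff₀ (by positivity)]
    refine (Nat.cast_le.2 (Finset.card_le_card (t := ball (2 ^ (j + 1))) fun n hn => ?_)).trans
      ((card_ball_le (by positivity)).trans (le_of_eq (by ring)))
    obtain ⟨k1, k2⟩ := Finset.mem_filter.1 hn
    exact mem_ball.2 ⟨(mem_ball.1 k1).1, k2⟩
  rw [Finset.sum_comm] at h5
  rw [Finset.sum_const, Finset.card_range, nsmul_eq_mul] at h6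
  push_cast at h6
  rw [div_mul_eq_mul_div, le_div_iff₀ l2]
  nlinarith

end Vale.Agent.P006
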