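import Vale.Agent.P006.LC
import Vale.Agent.P006.WtQ

/-! Gaussian smoothing of a cut off function. -/

namespace Vale.Agent.P006

open Vale.Agent.P026 Eis Complex MeasureTheory Filter Topology
open scoped Classical ComplexConjugate

/-- The cut off function. -/
noncomputable def usC (c L y : ℝ) : ℝ :=
  (Set.Ioc (-L) 0).indicator (fun u => Real.exp (c * u ^ 2)) y
/-- Its Fourier transform. -/
noncomputable def usH (c L τ : ℝ) : ℂ :=
  ∫ u in (-L)..0, (Real.exp (c * u ^ 2) : ℂ) * cexp (I * ((τ * -u : ℝ) : ℂ))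
/-- Its Gaussian smoothing. -/
noncomputable def usS (c L T y : ℝ) : ℝ :=
  T / √(2 * Real.pi) * ∫ u in (-L)..0, Real.exp (c * u ^ 2) * Real.exp (-(T ^ 2 * (y - u) ^ 2 / 2))

theorem us_cont (c L : ℝ) : Continuous (usH c L) := by
  unfold usH
  refine intervalIntegral.continuous_parametric_intervalIntegral_of_continuous' ?_ _ _
  fun_prop

theorem us_exp {c L u : ℝ} (hc : 0 ≤ c) (h1 : -L ≤ u) (h2 : u ≤ 0) :
    Real.exp (c * u ^ 2) ≤ Real.exp (c * L ^ 2) :=
  Real.exp_le_exp.2 (mul_le_mul_of_nonneg_left (by nlinarith) hc)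

theorem us_norm {c L : ℝ} (hc : 0 ≤ c) (hL : 0 ≤ L) :
    ∃ C : ℝ, 0 < C ∧ ∀ τ, ‖usH c L τ‖ ≤ C / (1 + |τ|) := by
  set H := Real.exp (c * L ^ 2) with hH
  have H0 : 0 < H := Real.exp_pos _
  have hL' : -L ≤ 0 := by linarith
  refine ⟨H * L + (1 + H + 2 * c * L * H * L), by positivity, fun τ => ?_⟩
  have a1 : ‖usH c L τ‖ ≤ H * L := by
    refine (intervalIntegral.norm_integral_le_of_norm_le_const (C := H) fun u hu => ?_).trans
      (by rw [sub_neg_eq_add, zero_add, abs_of_nonneg hL])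
    rw [Set.uIoc_of_le hL'] at hu
    rw [norm_mul, Complex.norm_exp_I_mul_ofReal, mul_one, norm_real,
      Real.norm_of_nonneg (Real.exp_pos _).le]
    exact us_exp hc hu.1.le hu.2
  have d1 : ∀ x : ℝ, HasDerivAt (fun u : ℝ => (Real.exp (c * u ^ 2) : ℂ))
      ((Real.exp (c * x ^ 2) * (c * (2 * x)) : ℝ) : ℂ) x := fun x => by
    have := (((hasDerivAt_pow 2 x).const_mul c).exp).ofReal_comp
    simpa using this
  have d2 : ∀ x : ℝ, HasDerivAt (fun u : ℝ => cexp (I * ((τ * -u : ℝ) : ℂ)))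
      (cexp (I * ((τ * -x : ℝ) : ℂ)) * (I * ((τ * -1 : ℝ) : ℂ))) x := fun x =>
    ((((hasDerivAt_neg' x).const_mul τ).ofReal_comp).const_mul I).cexp
  have key := intervalIntegral.integral_mul_deriv_eq_deriv_mul (a := -L) (b := 0)
    (fun x _ => d1 x) (fun x _ => d2 x) (Continuous.intervalIntegrable (by fun_prop) _ _)
    (Continuous.intervalIntegrable (by fun_prop) _ _)
  simp only [← mul_assoc _ (cexp _)] at key
  rw [intervalIntegral.integral_mul_const, ← usH] at key
  have a2 := congrArg norm key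
  rw [norm_mul, norm_mul, norm_I, norm_real, one_mul, mul_neg_one, norm_neg,
    Real.norm_eq_abs] at a2
  have a3 : ‖usH c L τ‖ * |τ| ≤ 1 + H + 2 * c * L * H * L := by
    rw [a2]
    refine (norm_sub_le _ _).trans (add_le_add ((norm_sub_le _ _).trans (add_le_add ?_ ?_)) ?_)
    · simp
    · rw [norm_mul, Complex.norm_exp_I_mul_ofReal, mul_one, norm_real, neg_sq,
        Real.norm_of_nonneg H0.le]
    · refine (intervalIntegral.norm_integral_le_of_norm_le_const (C := 2 * c * L * H)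
        fun u hu => ?_).trans (by rw [sub_neg_eq_add, zero_add, abs_of_nonneg hL])
      rw [Set.uIoc_of_le hL'] at hu
      rw [norm_mul, Complex.norm_exp_I_mul_ofReal, mul_one, norm_real, norm_mul,
        Real.norm_of_nonneg (Real.exp_pos _).le, Real.norm_of_nonpos (by nlinarith [hu.2]),
        mul_comm]
      exact mul_le_mul (by nlinarith [hu.1]) (us_exp hc hu.1.le hu.2) (Real.exp_pos _).le
        (by positivity)
  rw [le_div_iff₀ (by positivity)]
  linarith

theorem us_rep (c L T y : ℝ) : (usS c L T y : ℂ) = ((T / √(2 * Real.pi) : ℝ) : ℂ) *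
    ∫ τ, usH c L τ * cexp (I * ((τ * y : ℝ) : ℂ)) ∂muT T := by
  have : IsProbabilityMeasure (muT T) := by unfold muT; infer_instance
  rw [usS, ofReal_mul, ← intervalIntegral.integral_ofReal]
  congr 1
  have e : ∀ u : ℝ, ((Real.exp (c * u ^ 2) * Real.exp (-(T ^ 2 * (y - u) ^ 2 / 2)) : ℝ) : ℂ) =
      ∫ τ, (Real.exp (c * u ^ 2) : ℂ) * cexp (I * ((τ * (y - u) : ℝ) : ℂ)) ∂muT T := fun u => by
    rw [integral_const_mul, integral_nit_muT, ofReal_mul]
  simp only [e]
  rw [intervalIntegral_integral_swap]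
  · refine integral_congr_ae (ae_of_all _ fun τ => ?_)
    simp only [usH]
    rw [← intervalIntegral.integral_mul_const]
    refine intervalIntegral.integral_congr fun u _ => ?_
    simp only [mul_assoc, ← Complex.exp_add]
    congr 2
    push_cast
    ring
  · have hi : Integrable (fun u : ℝ => Real.exp (c * u ^ 2)) (volume.restrict (Set.uIoc (-L) 0)) :=
      intervalIntegrable_iff.1 (Continuous.intervalIntegrable (by fun_prop) _ _)
    refine (hi.comp_fst (muT T)).mono' (Continuous.aestronglyMeasurable ?_)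
      (ae_of_all _ fun p => ?_)
    · unfold Function.uncurry
      fun_prop
    · rw [Function.uncurry, norm_mul, Complex.norm_exp_I_mul_ofReal, mul_one, norm_real,
        Real.norm_of_nonneg (Real.exp_pos _).le]

theorem us_lip {c L u y : ℝ} (hc : 0 ≤ c) (h1 : -L ≤ u) (h2 : u ≤ y) (h3 : y ≤ 0) :
    |Real.exp (c * y ^ 2) - Real.exp (c * u ^ 2)| ≤ 2 * c * L * Real.exp (c * L ^ 2) * |y - u| := by
  have a1 : Real.exp (c * y ^ 2) ≤ Real.exp (c * u ^ 2) :=
    Real.exp_le_exp.2 (mul_le_mul_of_nonneg_left (by nlinarith) hc)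
  have a2 := Real.add_one_le_exp (c * y ^ 2 - c * u ^ 2)
  rw [Real.exp_sub, le_div_iff₀ (Real.exp_pos _)] at a2
  have a3 := us_exp hc h1 (h2.trans h3)
  have a4 : c * u ^ 2 - c * y ^ 2 ≤ 2 * c * L * (y - u) := by
    have : 0 ≤ c * ((y - u) * (2 * L + u + y)) := mul_nonneg hc (mul_nonneg (by linarith) (by linarith))
    linarith
  have a5 : 0 ≤ 2 * c * L * (y - u) := mul_nonneg (mul_nonneg (by linarith) (by linarith)) (by linarith)
  rw [abs_sub_comm, abs_of_nonneg (sub_nonneg.2 a1), abs_of_nonneg (sub_nonneg.2 h2)]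
  calc _ ≤ (c * u ^ 2 - c * y ^ 2) * Real.exp (c * u ^ 2) := by linarith
    _ ≤ 2 * c * L * (y - u) * Real.exp (c * L ^ 2) := mul_le_mul a4 a3 (Real.exp_pos _).le a5
    _ = _ := by ring

theorem us_pt {c L T : ℝ} (hc : 0 ≤ c) (hL : 0 ≤ L) (hT : 0 < T) (y u : ℝ) :
    |usC c L y - usC c L u| ≤ (2 * c * L + 1) * Real.exp (c * L ^ 2) *
      (1 / T + Real.exp (-(T ^ 2 / 4 * y ^ 2)) + Real.exp (-(T ^ 2 / 4 * (y + L) ^ 2))) *
        Real.exp (T ^ 2 / 4 * (y - u) ^ 2) := by
  set H := Real.exp (c * L ^ 2) with hH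
  have H0 : 0 < H := Real.exp_pos _
  set E := Real.exp (T ^ 2 / 4 * (y - u) ^ 2) with hE
  have E0 : 0 < E := Real.exp_pos _
  have cL : 0 ≤ 2 * c * L := by positivity
  have p0 : 0 < 1 / T := by positivity
  have p1 := Real.exp_pos (-(T ^ 2 / 4 * y ^ 2))
  have p2 := Real.exp_pos (-(T ^ 2 / 4 * (y + L) ^ 2))
  have k1 : ∀ z : ℝ, z ^ 2 ≤ (y - u) ^ 2 → 1 ≤ Real.exp (-(T ^ 2 / 4 * z ^ 2)) * E := fun z hz => by
    rw [hE, ← Real.exp_add]
    exact Real.one_le_exp (by nlinarith [sq_nonneg T])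
  have k2 : |y - u| ≤ 1 / T * E := by
    rw [one_div, ← div_eq_inv_mul, le_div_iff₀ hT]
    have := Real.add_one_le_exp (T ^ 2 / 4 * (y - u) ^ 2)
    rw [← hE, ← sq_abs (y - u)] at this
    nlinarith [sq_nonneg (|y - u| * T - 2)]
  have k3 : y ^ 2 ≤ (y - u) ^ 2 ∨ (y + L) ^ 2 ≤ (y - u) ^ 2 → H ≤ (2 * c * L + 1) * H *
      (1 / T + Real.exp (-(T ^ 2 / 4 * y ^ 2)) + Real.exp (-(T ^ 2 / 4 * (y + L) ^ 2))) * E := by
    intro h
    rw [mul_assoc]
    refine le_trans (by nlinarith) (le_mul_of_one_le_right (by positivity) ?_)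
    rcases h with h | h
    · nlinarith [k1 _ h, mul_pos p0 E0, mul_pos p2 E0]
    · nlinarith [k1 _ h, mul_pos p0 E0, mul_pos p1 E0]
  have k4 : 2 * c * L * H * |y - u| ≤ (2 * c * L + 1) * H *
      (1 / T + Real.exp (-(T ^ 2 / 4 * y ^ 2)) + Real.exp (-(T ^ 2 / 4 * (y + L) ^ 2))) * E := by
    rw [mul_assoc _ _ E]
    exact mul_le_mul (by nlinarith) (by nlinarith [mul_pos p1 E0, mul_pos p2 E0]) (abs_nonneg _)
      (by positivity)
  unfold usC
  by_cases hy : y ∈ Set.Ioc (-L) 0 <;> by_cases hu : u ∈ Set.Ioc (-L) 0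
  · rw [Set.indicator_of_mem hy, Set.indicator_of_mem hu]
    refine le_trans ?_ k4
    rcases le_total u y with h | h
    · exact us_lip hc hu.1.le h hy.2
    · rw [abs_sub_comm, abs_sub_comm y]
      exact us_lip hc hy.1.le h hu.2
  · rw [Set.indicator_of_mem hy, Set.indicator_of_notMem hu, sub_zero, abs_of_pos (Real.exp_pos _)]
    refine (us_exp hc hy.1.le hy.2).trans (k3 ?_)
    rw [Set.mem_Ioc, not_and_or, not_lt, not_le] at hu
    exact hu.elim (fun h => Or.inr (by nlinarith [hy.1])) fun h => Or.inl (by nlinarith [hy.2])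
  · rw [Set.indicator_of_mem hu, Set.indicator_of_notMem hy, zero_sub, abs_neg,
      abs_of_pos (Real.exp_pos _)]
    refine (us_exp hc hu.1.le hu.2).trans (k3 ?_)
    rw [Set.mem_Ioc, not_and_or, not_lt, not_le] at hy
    exact hy.elim (fun h => Or.inr (by nlinarith [hu.1])) fun h => Or.inl (by nlinarith [hu.2])
  · rw [Set.indicator_of_notMem hu, Set.indicator_of_notMem hy, sub_zero, abs_zero]
    positivity

theorem us_err {c L : ℝ} (hc : 0 ≤ c) (hL : 0 ≤ L) : ∃ C : ℝ, 0 < C ∧ ∀ T y : ℝ, 0 < T →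
    |usC c L y - usS c L T y| ≤
      C * (1 / T + Real.exp (-(T ^ 2 / 4 * y ^ 2)) + Real.exp (-(T ^ 2 / 4 * (y + L) ^ 2))) := by
  refine ⟨(2 * c * L + 1) * Real.exp (c * L ^ 2) * 2, by positivity, fun T y hT => ?_⟩
  have hp := Real.pi_pos
  have hL' : -L ≤ 0 := by linarith
  have g1 : ∀ b : ℝ, 0 < b → Integrable (fun u => Real.exp (-(T ^ 2 / b) * (y - u) ^ 2)) ∧
      ∫ u, Real.exp (-(T ^ 2 / b) * (y - u) ^ 2) = √(b * Real.pi) / T := fun b hb =>
    ⟨(integrable_exp_neg_mul_sq (by positivity)).comp_sub_left y, by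
      rw [integral_sub_left_eq_self (fun x => Real.exp (-(T ^ 2 / b) * x ^ 2)) volume y,
        integral_gaussian, div_div_eq_mul_div, Real.sqrt_div' _ (sq_nonneg T), Real.sqrt_sq hT.le,
        mul_comm]⟩
  set K := T / √(2 * Real.pi) with hK
  have K0 : 0 < K := by positivity
  have i1 : Integrable fun u => usC c L u * Real.exp (-(T ^ 2 / 2) * (y - u) ^ 2) := by
    refine Integrable.mul_bdd (c := 1) ?_ (Continuous.aestronglyMeasurable (by fun_prop))
      (ae_of_all _ fun u => ?_)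
    · exact (integrable_indicator_iff measurableSet_Ioc).2
        (Continuous.integrableOn_Ioc (by fun_prop))
    · rw [Real.norm_of_nonneg (Real.exp_pos _).le]
      exact Real.exp_le_one_iff.2 (by nlinarith [sq_nonneg (T * (y - u))])
  have e1 : usS c L T y = K * ∫ u, usC c L u * Real.exp (-(T ^ 2 / 2) * (y - u) ^ 2) := by
    rw [usS, intervalIntegral.integral_of_le hL', ← integral_indicator measurableSet_Ioc]
    congr 2
    funext u
    rw [Set.indicator_mul_left, usC]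
    congr 2
    ring
  have e2 : usC c L y = K * ∫ u, usC c L y * Real.exp (-(T ^ 2 / 2) * (y - u) ^ 2) := by
    rw [integral_const_mul, (g1 2 two_pos).2, hK]
    field_simp
  rw [e1, e2, ← mul_sub, ← integral_sub ((g1 2 two_pos).1.const_mul _) i1, abs_mul, abs_of_pos K0,
    ← Real.norm_eq_abs]
  set D := (1 / T + Real.exp (-(T ^ 2 / 4 * y ^ 2)) + Real.exp (-(T ^ 2 / 4 * (y + L) ^ 2)))
    with hD
  have D0 : 0 < D := by positivity
  refine (mul_le_mul_of_nonneg_left (norm_integral_le_of_norm_le ((g1 4 four_pos).1.const_mul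
    ((2 * c * L + 1) * Real.exp (c * L ^ 2) * D)) (ae_of_all _ fun u => ?_)) K0.le).trans ?_
  · rw [← sub_mul, norm_mul, Real.norm_of_nonneg (Real.exp_pos _).le, Real.norm_eq_abs]
    refine (mul_le_mul_of_nonneg_right (us_pt hc hL hT y u) (Real.exp_pos _).le).trans (le_of_eq ?_)
    rw [mul_assoc, ← Real.exp_add]
    congr 2
    ring
  · have : √(4 * Real.pi) ≤ 2 * √(2 * Real.pi) := by
      rw [Real.sqrt_le_left (by positivity), mul_pow, Real.sq_sqrt (by positivity)]
      linarith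
    rw [integral_const_mul, (g1 4 four_pos).2, mul_comm, mul_assoc, mul_right_comm _ 2]
    refine mul_le_mul_of_nonneg_left ?_ (by positivity)
    rw [hK, div_mul_div_cancel₀ hT.ne', div_le_iff₀ (by positivity)]
    exact this

end Vale.Agent.P006
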