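import Vale.Agent.P006.LC
import Vale.Agent.P006.USA

/-! Removing the smooth weight. -/

namespace Vale.Agent.P006

open Vale.Agent.P026 Eis Complex MeasureTheory Filter Topology
open scoped Classical ComplexConjugate

theorem us_wt {c : ℝ} (hc : 0 < c) {x : ℝ} (hx : 0 < x) :
    (x + x⁻¹) * lg c x ≤ 2 * Real.exp (1 / (2 * c)) * lg (c / 2) x := by
  have a1 := lg_le_rpow (half_pos hc) (-1) hx
  have a2 := lg_le_rpow (half_pos hc) 1 hx
  rw [Real.rpow_neg_one, show (-1 : ℝ) ^ 2 / (4 * (c / 2)) = 1 / (2 * c) by ring,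
    ← div_eq_mul_inv, le_div_iff₀ hx] at a1
  rw [Real.rpow_one, show (1 : ℝ) ^ 2 / (4 * (c / 2)) = 1 / (2 * c) by ring,
    ← div_le_iff₀ hx, div_eq_mul_inv] at a2
  rw [← add_halves c, ← lg_mul, add_halves, ← mul_assoc]
  exact mul_le_mul_of_nonneg_right (by linarith) (lg_pos _ _).le

theorem us_tsum {f g : Eis → ℝ} {B : ℝ} (f0 : ∀ n, 0 ≤ f n) (h0 : f 0 = 0)
    (h : ∀ n, n ≠ 0 → f n ≤ g n) (hg : ∀ S : Finset Eis, (0 : Eis) ∉ S → ∑ n ∈ S, g n ≤ B) :
    Summable f ∧ ∑' n, f n ≤ B := by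
  have := summable_of_ball (C := B) f0 fun K =>
    (Finset.sum_le_sum fun n hn => h n (mem_ball.1 hn).1).trans (hg _ (bas_zero K))
  rwa [h0, zero_add] at this

theorem us_sharp {c Y : ℝ} (hY : 0 < Y) (a : Eis → ℂ) (h0 : a 0 = 0) :
    (∑ n ∈ ball Y, if Y / 2 < N n then a n else 0) = ∑' n, a n * (lg c (N n / Y) : ℂ) *
      (usC c (Real.log 2) (Real.log (N n / Y)) : ℂ) := by
  have key : ∀ n : Eis, n ≠ 0 → (Real.log (N n / Y) ∈ Set.Ioc (-Real.log 2) 0 ↔
      Y / 2 < N n ∧ N n ≤ Y) := fun n hn => by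
    have hx := div_pos (N_pos hn) hY
    rw [Set.mem_Ioc, ← Real.log_inv, Real.log_lt_log_iff (by norm_num) hx,
      Real.log_nonpos_iff hx.le, div_le_one hY, lt_div_iff₀ hY, ← div_eq_inv_mul]
  rw [tsum_eq_sum (s := ball Y) fun n hn => ?_]
  · refine Finset.sum_congr rfl fun n hn => ?_
    obtain ⟨k1, k2⟩ := mem_ball.1 hn
    split_ifs with h
    · rw [usC, Set.indicator_of_mem ((key n k1).2 ⟨h, k2⟩), mul_assoc, ← ofReal_mul, lg,
        ← Real.exp_add, neg_add_cancel, Real.exp_zero, ofReal_one, mul_one]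
    · rw [usC, Set.indicator_of_notMem fun k => h ((key n k1).1 k).1, ofReal_zero, mul_zero]
  · by_cases k : n = 0
    · rw [k, h0, zero_mul, zero_mul]
    · rw [usC, Set.indicator_of_notMem fun j => hn (mem_ball.2 ⟨k, ((key n k).1 j).2⟩),
        ofReal_zero, mul_zero]

theorem us_smooth {c L T Y K : ℝ} (hY : 0 < Y) (hT : 0 < T) (hK : 0 ≤ K)
    (hH : ∀ τ, ‖usH c L τ‖ ≤ K / (1 + |τ|)) {b : Eis → ℂ} (h0 : b 0 = 0)
    (hb : Summable fun n => ‖b n‖) :
    Summable (fun n => b n * (usS c L T (Real.log (N n / Y)) : ℂ)) ∧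
    ‖∑' n, b n * (usS c L T (Real.log (N n / Y)) : ℂ)‖ ≤
      K * ∫ t : ℝ, Real.exp (-(t ^ 2 / (2 * T ^ 2))) / (1 + |t|) * ‖∑' n, b n * nit t n‖ := by
  have : IsProbabilityMeasure (muT T) := by unfold muT; infer_instance
  have hp := Real.pi_pos
  have hc := us_cont c L
  have hK' : ∀ τ, ‖usH c L τ‖ ≤ K := fun τ =>
    (hH τ).trans (div_le_self hK (le_add_of_nonneg_right (abs_nonneg τ)))
  set F : Eis → ℝ → ℂ := fun n τ =>
    b n * (usH c L τ * cexp (I * ((τ * Real.log (N n / Y) : ℝ) : ℂ))) with hF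
  have nF : ∀ n τ, ‖F n τ‖ ≤ ‖b n‖ * K := fun n τ => by
    rw [hF, norm_mul, norm_mul, Complex.norm_exp_I_mul_ofReal, mul_one]
    exact mul_le_mul_of_nonneg_left (hK' τ) (norm_nonneg _)
  have iF : ∀ n, Integrable (F n) (muT T) := fun n =>
    Integrable.of_bound (Continuous.aestronglyMeasurable (by rw [hF]; fun_prop)) _
      (ae_of_all _ (nF n))
  have hs := hasSum_integral_of_summable_integral_norm iF (Summable.of_nonneg_of_le
    (fun n => integral_nonneg fun τ => norm_nonneg _) (fun n => (integral_mono (iF n).norm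
      (integrable_const _) (nF n)).trans (le_of_eq (by simp))) (hb.mul_right K))
  have hs2 := hs.mul_left ((T / √(2 * Real.pi) : ℝ) : ℂ)
  have e1 : ∀ n, ((T / √(2 * Real.pi) : ℝ) : ℂ) * ∫ τ, F n τ ∂muT T =
      b n * (usS c L T (Real.log (N n / Y)) : ℂ) := fun n => by
    rw [us_rep, hF, integral_const_mul, mul_left_comm]
  simp only [e1] at hs2
  refine ⟨hs2.summable, ?_⟩
  have e2 : ∀ τ, ‖∑' n, F n τ‖ = ‖usH c L τ‖ * ‖∑' n, b n * nit τ n‖ := fun τ => by
    have : ∀ n, F n τ = usH c L τ * cexp (I * ((τ * -Real.log Y : ℝ) : ℂ)) * (b n * nit τ n) := by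
      intro n
      by_cases k : n = 0
      · simp [hF, k, h0]
      simp only [hF]
      rw [Real.log_div (N_pos k).ne' hY.ne', nit, sub_eq_neg_add, mul_add, ofReal_add, mul_add,
        Complex.exp_add]
      ring
    simp only [this]
    rw [tsum_mul_left, norm_mul, norm_mul, Complex.norm_exp_I_mul_ofReal, mul_one]
  have nS : ∀ τ n, ‖b n * nit τ n‖ ≤ ‖b n‖ := fun τ n => by rw [norm_mul, norm_nit, mul_one]
  have cS : Continuous fun τ => ∑' n, b n * nit τ n :=
    continuous_tsum (fun n => continuous_const.mul (continuous_nit n)) hb fun n τ => nS τ n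
  have i2 : Integrable (fun τ => K / (1 + |τ|) * ‖∑' n, b n * nit τ n‖) (muT T) := by
    refine Integrable.of_bound (Continuous.aestronglyMeasurable (Continuous.mul
      (continuous_const.div (by fun_prop) fun τ => by positivity) cS.norm)) (K * ∑' n, ‖b n‖)
      (ae_of_all _ fun τ => ?_)
    rw [Real.norm_of_nonneg (by positivity)]
    exact mul_le_mul (div_le_self hK (le_add_of_nonneg_right (abs_nonneg τ)))
      (tsum_of_norm_bounded hb.hasSum (nS τ)) (norm_nonneg _) hK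
  rw [hs2.tsum_eq, norm_mul, norm_real, Real.norm_of_nonneg (by positivity)]
  refine (mul_le_mul_of_nonneg_left (norm_integral_le_of_norm_le i2 (ae_of_all _ fun τ =>
    (e2 τ).le.trans (mul_le_mul_of_nonneg_right (hH τ) (norm_nonneg _)))) (by positivity)).trans ?_
  have e3 : ∀ τ, dens T τ * (K / (1 + |τ|) * ‖∑' n, b n * nit τ n‖) = (√(2 * Real.pi) * T)⁻¹ * K *
      (Real.exp (-(τ ^ 2 / (2 * T ^ 2))) / (1 + |τ|) * ‖∑' n, b n * nit τ n‖) := fun τ => by
    rw [dens]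
    ring
  rw [integral_muT hT]
  simp only [e3]
  rw [integral_const_mul, ← mul_assoc]
  refine mul_le_mul_of_nonneg_right ?_ (integral_nonneg fun τ => by positivity)
  have e4 : T / √(2 * Real.pi) * ((√(2 * Real.pi) * T)⁻¹ * K) = K / √(2 * Real.pi) ^ 2 := by
    field_simp
  rw [e4, Real.sq_sqrt (by positivity)]
  exact div_le_self hK (by linarith [Real.pi_gt_three])

/-- Let h y = exp (c y ^ 2) on (- log 2, 0] and 0 elsewhere, y n = log (N n / Y); the sharp sum is
∑ a n lg c (N n / Y) h (y n). Let hT = h * gT with gT x = (2 π)⁻¹ ∫ exp (- t ^ 2 / (2 T ^ 2)) exp (i t x) dt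
the Gaussian density of deviation 1 / T. Fubini: hT y = (2 π)⁻¹ ∫ exp (- t ^ 2 / (2 T ^ 2)) ĥ t exp (i t y) dt,
‖ĥ t‖ ≤ C / (1 + |t|) by integration by parts. And |h y - hT y| ≤ C (1 / T + exp (- T ^ 2 y ^ 2 / 4) +
exp (- T ^ 2 (y + log 2) ^ 2 / 4)); sum this with ac (c = T ^ 2 / 4, scales Y and Y / 2) and sum_lg_le. -/
theorem us {c : ℝ} (hc : 0 < c) : ∃ C : ℝ, 0 < C ∧ ∀ (a : Eis → ℂ) (M Y T : ℝ), 0 ≤ M → 0 < Y →
    1 ≤ T → a 0 = 0 → (∀ n, n ≠ 0 → ‖a n‖ ≤ M * (N n / Y + Y / N n)) →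
      Continuous (fun t => ∑' n, a n * (lg c (N n / Y) : ℂ) * nit t n) ∧
      (∀ t, ‖∑' n, a n * (lg c (N n / Y) : ℂ) * nit t n‖ ≤ C * M * Y) ∧
      ‖∑ n ∈ ball Y, if Y / 2 < N n then a n else 0‖ ≤
        C * (∫ t : ℝ, Real.exp (-(t ^ 2 / (2 * T ^ 2))) / (1 + |t|) *
          ‖∑' n, a n * (lg c (N n / Y) : ℂ) * nit t n‖) + C * M * (Y / T + √Y) := by
  have hL : 0 ≤ Real.log 2 := Real.log_nonneg one_le_two
  obtain ⟨C1, hC1, h1⟩ := sum_lg_le (k := 0) (half_pos hc) (by norm_num)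
  obtain ⟨C2, hC2, h2⟩ := us_norm hc.le hL
  obtain ⟨C3, hC3, h3⟩ := us_err hc.le hL
  obtain ⟨C4, hC4, h4⟩ := ac
  set K := 2 * Real.exp (1 / (2 * c)) with hK
  have K0 : 0 < K := by positivity
  refine ⟨K * C1 + C2 + K * C3 * (C1 + 4 * C4), by positivity, fun a M Y T hM hY hT a0 ha => ?_⟩
  have T0 : 0 < T := by linarith
  set b : Eis → ℂ := fun n => a n * (lg c (N n / Y) : ℂ) with hb
  have b0 : b 0 = 0 := by simp only [hb, a0, zero_mul]
  have nb : ∀ n, n ≠ 0 → ‖b n‖ ≤ M * K * lg (c / 2) (N n / Y) := fun n hn => by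
    have := us_wt hc (div_pos (N_pos hn) hY)
    rw [inv_div] at this
    rw [hb, norm_mul, norm_real, Real.norm_of_nonneg (lg_pos _ _).le, mul_assoc]
    refine (mul_le_mul_of_nonneg_right (ha n hn) (lg_pos _ _).le).trans ?_
    rw [mul_assoc]
    exact mul_le_mul_of_nonneg_left this hM
  have s1 : ∀ S : Finset Eis, (0 : Eis) ∉ S → ∑ n ∈ S, lg (c / 2) (N n / Y) ≤ C1 * Y := by
    intro S hS
    simpa using h1 Y hY S hS
  obtain ⟨sb, tb⟩ := us_tsum (B := M * K * (C1 * Y)) (fun n => norm_nonneg (b n))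
    (by rw [b0, norm_zero]) nb fun S hS => by
      rw [← Finset.mul_sum]
      exact mul_le_mul_of_nonneg_left (s1 S hS) (by positivity)
  have nS : ∀ τ n, ‖b n * nit τ n‖ ≤ ‖b n‖ := fun τ n => by rw [norm_mul, norm_nit, mul_one]
  refine ⟨continuous_tsum (fun n => continuous_const.mul (continuous_nit n)) sb fun n τ => nS τ n,
    fun t => (tsum_of_norm_bounded sb.hasSum (nS t)).trans (tb.trans ?_), ?_⟩
  · nlinarith [mul_nonneg hM hY.le, mul_pos (mul_pos K0 hC3) (add_pos hC1 (mul_pos four_pos hC4)),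
      mul_nonneg (mul_nonneg hM hY.le) (add_pos hC2
        (mul_pos (mul_pos K0 hC3) (add_pos hC1 (mul_pos four_pos hC4)))).le]
  obtain ⟨s2, t2⟩ := us_smooth hY T0 hC2.le h2 b0 sb
  have hT4 : 1 / 12 ≤ T ^ 2 / 4 := by nlinarith
  have sq4 : √(T ^ 2 / 4) = T / 2 := by
    rw [show T ^ 2 / 4 = (T / 2) ^ 2 by ring, Real.sqrt_sq (by positivity)]
  obtain ⟨s3, t3⟩ := us_tsum (B := M * K * C3 * ((C1 + 4 * C4) * (Y / T + √Y)))
    (f := fun n => ‖b n * ((usC c (Real.log 2) (Real.log (N n / Y)) : ℂ) -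
      (usS c (Real.log 2) T (Real.log (N n / Y)) : ℂ))‖)
    (g := fun n => M * K * C3 * (1 / T * lg (c / 2) (N n / Y) + lg (T ^ 2 / 4) (N n / Y) +
      lg (T ^ 2 / 4) (N n / (Y / 2)))) (fun n => norm_nonneg _)
    (by simp only [b0, zero_mul, norm_zero]) (fun n hn => by
      have e : Real.log (N n / Y) + Real.log 2 = Real.log (N n / (Y / 2)) := by
        rw [← Real.log_mul (div_pos (N_pos hn) hY).ne' two_ne_zero, div_div_eq_mul_div,
          div_mul_eq_mul_div]
      have k := h3 T (Real.log (N n / Y)) T0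
      rw [e, ← lg, ← lg] at k
      have l1 := lg_le_one (half_pos hc).le (N n / Y)
      have l2 := lg_pos (T ^ 2 / 4) (N n / Y)
      have l3 := lg_pos (T ^ 2 / 4) (N n / (Y / 2))
      have l4 := lg_pos (c / 2) (N n / Y)
      rw [norm_mul, ← ofReal_sub, norm_real, Real.norm_eq_abs]
      refine (mul_le_mul (nb n hn) k (abs_nonneg _) (by positivity)).trans ?_
      rw [mul_assoc, mul_left_comm _ C3, ← mul_assoc]
      exact mul_le_mul_of_nonneg_left (by nlinarith) (by positivity)) fun S hS => by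
      rw [← Finset.mul_sum, Finset.sum_add_distrib, Finset.sum_add_distrib, ← Finset.mul_sum]
      refine mul_le_mul_of_nonneg_left ?_ (by positivity)
      have k1 := mul_le_mul_of_nonneg_left (s1 S hS) (one_div_pos.2 T0).le
      have k2 := h4 _ Y hT4 hY S hS
      have k3 := h4 _ (Y / 2) hT4 (half_pos hY) S hS
      have k4 : √(Y / 2) ≤ √Y := Real.sqrt_le_sqrt (by linarith)
      rw [sq4, show Y / (T / 2) = 2 * (Y / T) by ring] at k2
      rw [sq4, show Y / 2 / (T / 2) = Y / T by ring] at k3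
      rw [show 1 / T * (C1 * Y) = C1 * (Y / T) by ring] at k1
      nlinarith [mul_pos hC1 (Real.sqrt_pos.2 hY), mul_pos hC4 (Real.sqrt_pos.2 hY),
        mul_pos hC4 (div_pos hY T0), mul_le_mul_of_nonneg_left k4 hC4.le]
  have e := s2.tsum_add s3.of_norm
  simp only [← mul_add, add_sub_cancel] at e
  rw [us_sharp (c := c) hY a a0]
  refine (congrArg norm e).le.trans ((norm_add_le _ _).trans (add_le_add (t2.trans ?_)
    ((norm_tsum_le_tsum_norm s3).trans (t3.trans ?_))))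
  · have p1 : 0 < K * C1 := by positivity
    have p2 : 0 < K * C3 * (C1 + 4 * C4) := by positivity
    exact mul_le_mul_of_nonneg_right (by linarith) (integral_nonneg fun τ => by positivity)
  · have : 0 ≤ M * (Y / T + √Y) := by positivity
    nlinarith [mul_nonneg this (add_pos (mul_pos K0 hC1) hC2).le]
/-- Summation of dyadic pieces. -/
theorem sum_ball_dyadic (a : Eis → ℂ) {Y : ℝ} (hY : 0 < Y) (J : ℕ) :
    ∑ n ∈ ball Y, a n = ∑ n ∈ ball (Y / 2 ^ J), a n +
      ∑ j ∈ Finset.range J, ∑ n ∈ ball (Y / 2 ^ j), if Y / 2 ^ j / 2 < N n then a n else 0 := by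
  induction J with
  | zero => simp
  | succ J ih =>
    have hZ : 0 < Y / 2 ^ J := by positivity
    rw [Finset.sum_range_succ, ih, add_comm (∑ j ∈ Finset.range J, _), ← add_assoc, pow_succ,
      ← div_div]
    congr 1
    rw [← Finset.sum_filter, add_comm,
      ← Finset.sum_filter_add_sum_filter_not (ball (Y / 2 ^ J)) fun n => Y / 2 ^ J / 2 < N n]
    congr 1
    refine Finset.sum_congr ?_ fun _ _ => rfl
    ext n
    rw [Finset.mem_filter, mem_ball, mem_ball, not_lt]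
    exact ⟨fun h => ⟨h.1.1, h.2⟩, fun h => ⟨⟨h.1, by linarith [h.2]⟩, h.2⟩⟩
/-- Power saving survives: take T = Y ^ (δ / (A + 2)). -/
theorem us_pow {δ : ℝ} (hδ : 0 < δ) (A : ℕ) : ∃ C η : ℝ, 0 < C ∧ 0 < η ∧ ∀ (a : Eis → ℂ) (B : ℝ),
    1 ≤ B → a 0 = 0 → Bd1 a →
    (∀ Y t : ℝ, 1 ≤ Y → ‖∑' n, a n * W Y t n‖ ≤ B * (1 + |t|) ^ A * Y ^ (1 - δ)) →
      ∀ x : ℝ, 0 < x → ‖∑ n ∈ ball x, a n‖ ≤ C * B * x ^ (1 - η) := by
  obtain ⟨C1, hC1, h1⟩ := us one_pos
  obtain ⟨C2, hC2, h2⟩ := integral_dens_pow A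
  have hp := Real.pi_pos
  set θ := δ / (A + 2) with hθ
  have θ0 : 0 < θ := by positivity
  have η1 := min_le_left θ (1 / 2)
  have η2 := min_le_right θ (1 / 2)
  set η := min θ (1 / 2)
  set D := C1 * (√(2 * Real.pi) * C2) + 2 * C1 with hD
  have D0 : 0 < D := by positivity
  refine ⟨4 * D, η, by positivity, lt_min θ0 one_half_pos, fun a B hB a0 ha h x hx => ?_⟩
  have piece : ∀ Y : ℝ, 0 < Y →
      ‖∑ n ∈ ball Y, if Y / 2 < N n then a n else 0‖ ≤ D * B * Y ^ (1 - η) := by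
    intro Y hY
    rcases lt_or_ge Y 1 with k | k
    · rw [ball_eq_empty k, Finset.sum_empty, norm_zero]
      positivity
    have hT : 1 ≤ Y ^ θ := Real.one_le_rpow k θ0.le
    set T := Y ^ θ with hT'
    have T0 : 0 < T := by linarith
    obtain ⟨-, -, k3⟩ := h1 a 1 Y T zero_le_one hY hT a0 fun n hn => (ha n).trans (by
      have hx := div_pos (N_pos hn) hY
      rw [one_mul, ← inv_div (N n) Y]
      nlinarith [mul_inv_cancel₀ hx.ne', inv_pos.2 hx, sq_nonneg (N n / Y - (N n / Y)⁻¹),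
        sq_nonneg (N n / Y + (N n / Y)⁻¹ - 1)])
    have k4 : ∫ t : ℝ, Real.exp (-(t ^ 2 / (2 * T ^ 2))) / (1 + |t|) *
        ‖∑' n, a n * (lg 1 (N n / Y) : ℂ) * nit t n‖ ≤
          ∫ t : ℝ, √(2 * Real.pi) * T * (B * Y ^ (1 - δ)) * (dens T t * (1 + |t|) ^ A) := by
      refine integral_mono_of_nonneg (ae_of_all _ fun t => by positivity)
        ((integrable_dens_pow T0 A).const_mul _) (ae_of_all _ fun t => ?_)
      have k5 := h Y t k
      simp only [W, ← lg_one, ← mul_assoc] at k5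
      refine (mul_le_mul (div_le_self (Real.exp_pos _).le (le_add_of_nonneg_right (abs_nonneg t)))
        k5 (norm_nonneg _) (Real.exp_pos _).le).trans (le_of_eq ?_)
      simp only [dens]
      field_simp
    rw [integral_const_mul] at k4
    have k6 := mul_le_mul_of_nonneg_left (h2 T hT)
      (show 0 ≤ √(2 * Real.pi) * T * (B * Y ^ (1 - δ)) by positivity)
    have k7 : T * T ^ A * Y ^ (1 - δ) = Y ^ (1 - θ) := by
      rw [← pow_succ', hT', ← Real.rpow_mul_natCast hY.le, ← Real.rpow_add hY, hθ]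
      congr 1
      push_cast
      field_simp
      ring
    have k8 : Y ^ (1 - θ) ≤ Y ^ (1 - η) := Real.rpow_le_rpow_of_exponent_le k (by linarith)
    have k9 : √Y ≤ Y ^ (1 - η) := by
      rw [Real.sqrt_eq_rpow]
      exact Real.rpow_le_rpow_of_exponent_le k (by linarith)
    have k10 : Y / T = Y ^ (1 - θ) := by rw [Real.rpow_sub hY, Real.rpow_one]
    have k11 : Y ^ (1 - η) ≤ B * Y ^ (1 - η) := le_mul_of_one_le_left (by positivity) hB
    refine k3.trans ?_
    calc _ ≤ C1 * (√(2 * Real.pi) * C2 * (B * Y ^ (1 - η))) + C1 * 1 * (B * Y ^ (1 - η) +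
          B * Y ^ (1 - η)) := by
          refine add_le_add (mul_le_mul_of_nonneg_left (k4.trans (k6.trans ?_)) hC1.le)
            (mul_le_mul_of_nonneg_left (by linarith) (by positivity))
          calc _ = √(2 * Real.pi) * C2 * (B * (T * T ^ A * Y ^ (1 - δ))) := by ring
            _ ≤ _ := by rw [k7]; gcongr
      _ = _ := by rw [hD]; ring
  obtain ⟨J, hJ⟩ := pow_unbounded_of_one_lt x (one_lt_two (α := ℝ))
  rw [sum_ball_dyadic a hx J, ball_eq_empty ((div_lt_one (by positivity)).2 hJ), Finset.sum_empty,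
    zero_add]
  have g1 : ∀ j : ℕ, (x / 2 ^ j) ^ (1 - η) ≤ x ^ (1 - η) * (3 / 4) ^ j := fun j => by
    rw [Real.div_rpow hx.le (by positivity), div_eq_mul_inv, ← Real.rpow_natCast,
      ← Real.rpow_mul two_pos.le, mul_comm (j : ℝ), Real.rpow_mul_natCast two_pos.le, ← inv_pow]
    refine mul_le_mul_of_nonneg_left (pow_le_pow_left₀ (by positivity) ?_ j) (by positivity)
    rw [inv_le_comm₀ (by positivity) (by norm_num)]
    refine le_trans ?_ (Real.rpow_le_rpow_of_exponent_le one_le_two (show 1 / 2 ≤ 1 - η by linarith))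
    rw [← Real.sqrt_eq_rpow]
    exact Real.le_sqrt_of_sq_le (by norm_num)
  have g2 : ∑ j ∈ Finset.range J, (3 / 4 : ℝ) ^ j ≤ 4 :=
    ((summable_geometric_of_lt_one (by norm_num) (by norm_num)).sum_le_tsum _
      fun j _ => by positivity).trans (by
        rw [tsum_geometric_of_lt_one (by norm_num) (by norm_num)]; norm_num)
  refine (norm_sum_le _ _).trans ((Finset.sum_le_sum fun j _ => (piece _ (by positivity)).trans
    (mul_le_mul_of_nonneg_left (g1 j) (by positivity))).trans ?_)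
  rw [← Finset.mul_sum, ← Finset.mul_sum]
  calc _ ≤ D * B * (x ^ (1 - η) * 4) := by gcongr
    _ = _ := by ring

end Vale.Agent.P006
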