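import Vale.Agent.P006.Dec
import Vale.Agent.P006.US
import Vale.Agent.P006.Comb

/-! Auxiliary lemmas for the sharp cutoff. -/

namespace Vale.Agent.P006

open Vale.Agent.P026 Eis Complex MeasureTheory Filter Topology
open scoped Classical ComplexConjugate

theorem sh_log (K a : ℝ) {ε : ℝ} (hε : 0 < ε) :
    ∀ᶠ X : ℝ in atTop, K * Real.log X ^ a ≤ X ^ ε := by
  filter_upwards [((isLittleO_log_rpow_rpow_atTop a hε).const_mul_left K).eventuallyLE,
    eventually_ge_atTop 0] with X h h0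
  rw [Real.norm_of_nonneg (Real.rpow_nonneg h0 ε)] at h
  exact (le_abs_self _).trans h

theorem sh_pow (K a : ℝ) {b c : ℝ} (h : b < c) :
    ∀ᶠ L : ℝ in atTop, K * Real.log L ^ a * L ^ b ≤ L ^ c := by
  filter_upwards [sh_log K a (sub_pos.2 h), eventually_gt_atTop 0] with L h1 h0
  refine (mul_le_mul_of_nonneg_right h1 (Real.rpow_nonneg h0.le b)).trans (le_of_eq ?_)
  rw [← Real.rpow_add h0, sub_add_cancel]

theorem sh_pow0 (K : ℝ) {b c : ℝ} (h : b < c) :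
    ∀ᶠ X : ℝ in atTop, K * Real.log X ^ b ≤ Real.log X ^ c :=
  Real.tendsto_log_atTop.eventually ((sh_pow K 0 h).mono fun L k => by
    rwa [Real.rpow_zero, mul_one] at k)

theorem sh_const (K a : ℝ) {ε : ℝ} (hε : 0 < ε) :
    ∀ᶠ X : ℝ in atTop, K ≤ X ^ ε * Real.log X ^ a := by
  filter_upwards [sh_log K (-a) hε, eventually_gt_atTop 1] with X h1 h0
  have hL := Real.log_pos h0
  refine le_trans (le_of_eq ?_) (mul_le_mul_of_nonneg_right h1 (Real.rpow_nonneg hL.le a))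
  rw [mul_assoc, ← Real.rpow_add hL, neg_add_cancel, Real.rpow_zero, mul_one]

theorem sh_L (K : ℝ) : ∀ᶠ X : ℝ in atTop, K ≤ Real.log X :=
  Real.tendsto_log_atTop.eventually_ge_atTop K

theorem sh_union (n : ℕ) (s : ℕ → Set ℝ) (f : ℝ → ENNReal) {B : ℝ} (hB : 0 ≤ B)
    (h : ∀ j < n, ∫⁻ t in s j, f t ≤ ENNReal.ofReal B) :
    ∫⁻ t in ⋃ j ∈ Finset.range n, s j, f t ≤ ENNReal.ofReal (n * B) := by
  induction n with
  | zero => simp
  | succ n ih =>
    rw [Finset.range_add_one, Finset.set_biUnion_insert, Nat.cast_succ, add_mul, one_mul, add_comm,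
      ENNReal.ofReal_add hB (by positivity)]
    exact (lintegral_union_le _ _ _).trans
      (add_le_add (h n n.lt_succ_self) (ih fun j hj => h j (hj.trans n.lt_succ_self)))

theorem sh_comb {C L B : ℝ} (hC : 0 ≤ C) (hL : 0 ≤ L) (hB : 0 ≤ B) {I : (Fin 6 → Fin 3) → ENNReal}
    (h : ∀ ty, I ty ≤ ENNReal.ofReal B) :
    ENNReal.ofReal C + ENNReal.ofReal L * ∑ ty, I ty ≤ ENNReal.ofReal (C + L * (729 * B)) := by
  have h1 : ∑ ty, I ty ≤ ENNReal.ofReal (729 * B) := by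
    refine (Finset.sum_le_sum fun ty _ => h ty).trans (le_of_eq ?_)
    rw [Finset.sum_const, nsmul_eq_mul, ENNReal.ofReal_mul (by norm_num)]
    simp
  rw [ENNReal.ofReal_add hC (by positivity), ENNReal.ofReal_mul hL]
  gcongr

theorem sh_good {L l a b : ℝ} (hL : 1 ≤ L) (hl : 0 ≤ l) (ha : 0 ≤ a) (hb : 0 ≤ b)
    {F : (Fin 5 → ℝ) → ENNReal} (h : ∀ ρ, Good L (hat L ρ) →
      F ρ ≤ ENNReal.ofReal (a + if Exc L l (hat L ρ) then b else 0)) :
    ∫⁻ ρ in {ρ : Fin 5 → ℝ | Good L (hat L ρ)}, F ρ ≤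
      ENNReal.ofReal (a * (7 * L) ^ 5 + b * (8 * l) ^ 5) := by
  have h1 : ∀ ρ ∈ {ρ : Fin 5 → ℝ | Good L (hat L ρ)}, F ρ ≤ ENNReal.ofReal a +
      {ρ : Fin 5 → ℝ | Exc L l (hat L ρ)}.indicator (fun _ => ENNReal.ofReal b) ρ := by
    intro ρ hρ
    refine (h ρ hρ).trans (le_of_eq ?_)
    by_cases k : Exc L l (hat L ρ)
    · rw [if_pos k, Set.indicator_of_mem (show ρ ∈ {ρ : Fin 5 → ℝ | Exc L l (hat L ρ)} from k),
        ENNReal.ofReal_add ha hb]
    · rw [if_neg k, Set.indicator_of_notMem (show ρ ∉ {ρ : Fin 5 → ℝ | Exc L l (hat L ρ)} from k),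
        add_zero, add_zero]
  refine (setLIntegral_mono' (measurableSet_good L) h1).trans ?_
  rw [lintegral_add_left measurable_const, setLIntegral_const,
    ENNReal.ofReal_add (by positivity) (by positivity), ENNReal.ofReal_mul ha, ENNReal.ofReal_mul hb]
  refine add_le_add (mul_le_mul_right (vol_good hL) _) ((setLIntegral_le_lintegral _ _).trans ?_)
  exact (lintegral_indicator_const_le _ _).trans (mul_le_mul_right (vol_exc L hl) _)

theorem sh_meas (X z L : ℝ) (ty : Fin 6 → Fin 3) :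
    Measurable fun p : ℝ × (Fin 5 → ℝ) => ‖Box X z ty (hat L p.2) p.1‖ₑ :=
  ((continuous_box X z ty).comp
    (((continuous_hat L).comp continuous_snd).prodMk continuous_fst)).measurable.enorm

theorem sh_g {δ : ℝ} (hδ : 0 < δ) : Integrable fun t : ℝ => (1 + |t|) ^ (-(1 + δ)) :=
  integrable_one_add_norm (E := ℝ) (μ := volume) (by simpa using hδ)

/-- The integral over all heights. -/
theorem sh_core {δ T0 K E : ℝ} (hδ : 0 < δ) (hT : 0 < T0) (hK : 0 ≤ K) (hE : 0 ≤ E) (J : ℕ)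
    {w : ℝ → ℝ} {S : ℝ → ℂ} (hw : ∀ t, 0 ≤ w t ∧ w t ≤ 1 / (1 + |t|))
    (h1 : ∀ t, (|t| ≤ T0 ∨ 2 ^ J * T0 ≤ |t|) → w t * ‖S t‖ ≤ K * (1 + |t|) ^ (-(1 + δ)))
    (h2 : ∀ j < J, ∫⁻ t in {t : ℝ | 2 ^ j * T0 ≤ |t| ∧ |t| ≤ 2 * (2 ^ j * T0)}, ‖S t‖ₑ ≤
      ENNReal.ofReal (2 ^ j * T0 * E)) :
    ∫ t, w t * ‖S t‖ ≤ K * (∫ t : ℝ, (1 + |t|) ^ (-(1 + δ))) + J * E := by
  have hG : 0 ≤ ∫ t : ℝ, (1 + |t|) ^ (-(1 + δ)) := integral_nonneg fun t => by positivity
  have h0 : ∀ t, 0 ≤ w t * ‖S t‖ := fun t => mul_nonneg (hw t).1 (norm_nonneg _)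
  have cov : Set.univ ⊆ {t : ℝ | |t| ≤ T0 ∨ 2 ^ J * T0 ≤ |t|} ∪
      ⋃ j ∈ Finset.range J, {t : ℝ | 2 ^ j * T0 ≤ |t| ∧ |t| ≤ 2 * (2 ^ j * T0)} := by
    intro t _
    by_cases k : |t| ≤ T0 ∨ 2 ^ J * T0 ≤ |t|
    · exact Or.inl k
    rw [not_or, not_le, not_le] at k
    obtain ⟨j, a, b⟩ := exists_nat_pow_near ((one_le_div hT).2 k.1.le) (one_lt_two (α := ℝ))
    rw [le_div_iff₀ hT] at a
    rw [div_lt_iff₀ hT, pow_succ] at b
    refine Or.inr (Set.mem_biUnion (Finset.mem_coe.2 (Finset.mem_range.2 ?_)) ⟨a, by linarith⟩)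
    exact (pow_lt_pow_iff_right₀ one_lt_two).1 (lt_of_mul_lt_mul_right (a.trans_lt k.2) hT.le)
  have m1 : MeasurableSet {t : ℝ | |t| ≤ T0 ∨ 2 ^ J * T0 ≤ |t|} :=
    (measurableSet_le measurable_abs measurable_const).union
      (measurableSet_le measurable_const measurable_abs)
  have a1 : ∫⁻ t in {t : ℝ | |t| ≤ T0 ∨ 2 ^ J * T0 ≤ |t|}, ‖w t * ‖S t‖‖ₑ ≤
      ENNReal.ofReal (K * ∫ t : ℝ, (1 + |t|) ^ (-(1 + δ))) := by
    rw [← integral_const_mul, ofReal_integral_eq_lintegral_ofReal ((sh_g hδ).const_mul K)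
      (ae_of_all _ fun t => by positivity)]
    refine (setLIntegral_mono' m1 fun t ht => ?_).trans (setLIntegral_le_lintegral _ _)
    rw [Real.enorm_eq_ofReal (h0 t)]
    exact ENNReal.ofReal_le_ofReal (h1 t ht)
  have a2 := sh_union J (fun j => {t : ℝ | 2 ^ j * T0 ≤ |t| ∧ |t| ≤ 2 * (2 ^ j * T0)})
    (fun t => ‖w t * ‖S t‖‖ₑ) hE fun j hj => by
      have hp : 0 < 2 ^ j * T0 := by positivity
      refine (setLIntegral_mono' (g := fun t => ENNReal.ofReal (2 ^ j * T0)⁻¹ * ‖S t‖ₑ)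
        ((measurableSet_le measurable_const measurable_abs).inter
          (measurableSet_le measurable_abs measurable_const)) fun t ht => ?_).trans ?_
      · rw [Real.enorm_eq_ofReal (h0 t), ENNReal.ofReal_mul (hw t).1, ofReal_norm]
        refine mul_le_mul_left (ENNReal.ofReal_le_ofReal ((hw t).2.trans ?_)) _
        rw [one_div]
        exact inv_anti₀ hp (le_add_of_nonneg_of_le zero_le_one ht.1)
      · rw [lintegral_const_mul' _ _ ENNReal.ofReal_ne_top]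
        refine (mul_le_mul_right (h2 j hj) _).trans (le_of_eq ?_)
        rw [← ENNReal.ofReal_mul (by positivity), ← mul_assoc, inv_mul_cancel₀ hp.ne', one_mul]
  have a3 : ‖∫ t, w t * ‖S t‖‖ₑ ≤
      ENNReal.ofReal (K * (∫ t : ℝ, (1 + |t|) ^ (-(1 + δ))) + J * E) := by
    refine (enorm_integral_le_lintegral_enorm _).trans ?_
    rw [← setLIntegral_univ, ENNReal.ofReal_add (by positivity) (by positivity)]
    exact (lintegral_mono_set cov).trans ((lintegral_union_le _ _ _).trans (add_le_add a1 a2))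
  rw [Real.enorm_eq_ofReal (integral_nonneg h0)] at a3
  exact (ENNReal.ofReal_le_ofReal_iff (by positivity)).1 a3

theorem sh_small {δ T0 t : ℝ} (hδ : 0 < δ) (hδ1 : δ ≤ 1) (hT : 1 ≤ T0) (ht : |t| ≤ T0) :
    1 / (1 + |t|) ≤ 2 * T0 ^ δ * (1 + |t|) ^ (-(1 + δ)) := by
  have hp : 0 < 1 + |t| := by positivity
  have h1 : (1 + |t|) ^ δ ≤ 2 * T0 ^ δ := by
    refine (Real.rpow_le_rpow hp.le (by linarith : 1 + |t| ≤ 2 * T0) hδ.le).trans ?_
    rw [Real.mul_rpow (by norm_num) (by linarith)]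
    refine mul_le_mul_of_nonneg_right ?_ (by positivity)
    simpa using Real.rpow_le_rpow_of_exponent_le one_le_two hδ1
  refine le_trans (le_of_eq ?_) (mul_le_mul_of_nonneg_right h1 (by positivity))
  rw [← Real.rpow_add hp, show δ + -(1 + δ) = -1 by ring, Real.rpow_neg_one, one_div]

theorem sh_tail {δ T X t : ℝ} (hδ1 : δ ≤ 1) (hT : 1 ≤ T) (hX : T ≤ X)
    (hL : 2 ≤ Real.log X) (ht : T * Real.log X ^ 2 ≤ |t|) :
    Real.exp (-(t ^ 2 / (2 * T ^ 2))) / (1 + |t|) * X ≤ (1 + |t|) ^ (-(1 + δ)) := by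
  have hp : 0 < 1 + |t| := by positivity
  have hT0 : 0 < T := by linarith
  have hX0 : 0 < X := by linarith
  set u := |t| / T with hu
  have e0 : |t| = T * u := by rw [hu]; field_simp
  have h1 : Real.log X ^ 2 ≤ u := by rw [hu, le_div_iff₀ hT0]; linarith
  have e1 : t ^ 2 / (2 * T ^ 2) = u ^ 2 / 2 := by
    rw [← sq_abs t, e0]; field_simp
  have h4 : 4 ≤ u := by nlinarith
  have a1 : 1 + |t| ≤ X * Real.exp u := by
    have := Real.add_one_le_exp u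
    rw [e0]
    nlinarith [mul_le_mul_of_nonneg_right hX (by linarith : 0 ≤ u)]
  have a2 : Real.exp (-(u ^ 2 / 2)) * X * (X * Real.exp u) ≤ 1 := by
    have e : Real.exp (-(u ^ 2 / 2)) * X * (X * Real.exp u) =
        Real.exp (-(u ^ 2 / 2) + Real.log X + Real.log X + u) := by
      rw [Real.exp_add, Real.exp_add, Real.exp_add, Real.exp_log hX0]
      ring
    rw [e]
    exact Real.exp_le_one_iff.2 (by nlinarith)
  have a3 : Real.exp (-(u ^ 2 / 2)) * X ≤ (1 + |t|)⁻¹ := by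
    rw [← one_div, le_div_iff₀ hp]
    exact (mul_le_mul_of_nonneg_left a1 (by positivity)).trans a2
  have a4 : (1 + |t|) ^ (-2 : ℝ) ≤ (1 + |t|) ^ (-(1 + δ)) :=
    Real.rpow_le_rpow_of_exponent_le (by linarith [abs_nonneg t]) (by linarith)
  refine le_trans ?_ a4
  rw [e1, Real.rpow_neg hp.le, Real.rpow_two, pow_two (1 + |t|), mul_inv, div_mul_eq_mul_div, div_eq_mul_inv]
  exact mul_le_mul_of_nonneg_right a3 (by positivity)

theorem sh_tend {f : ℝ → ℂ} : Tendsto (fun X : ℝ => f X / ((X ^ (5 / 6 : ℝ) : ℝ) : ℂ)) atTop (𝓝 0) ↔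
    ∀ ε : ℝ, 0 < ε → ∀ᶠ X : ℝ in atTop, ‖f X‖ < ε * X ^ (5 / 6 : ℝ) := by
  rw [NormedAddGroup.tendsto_nhds_zero]
  refine forall₂_congr fun ε _ => eventually_congr ?_
  filter_upwards [eventually_gt_atTop 0] with X hX
  have hp := Real.rpow_pos_of_pos hX (5 / 6 : ℝ)
  rw [norm_div, norm_real, Real.norm_of_nonneg hp.le, div_lt_iff₀ hp]

theorem sh_dyad {a : Eis → ℂ} (h : ∀ ε : ℝ, 0 < ε → ∀ᶠ X : ℝ in atTop,
    ‖∑ n ∈ ball X, if X / 2 < N n then a n else 0‖ < ε * X ^ (5 / 6 : ℝ)) (ε : ℝ) (hε : 0 < ε) :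
    ∀ᶠ X : ℝ in atTop, ‖∑ n ∈ ball X, a n‖ < ε * X ^ (5 / 6 : ℝ) := by
  have hq0 : (0 : ℝ) ≤ (2⁻¹ : ℝ) ^ (5 / 6 : ℝ) := by positivity
  have hq1 : (2⁻¹ : ℝ) ^ (5 / 6 : ℝ) < 1 :=
    Real.rpow_lt_one (by norm_num) (by norm_num) (by norm_num)
  have hq2 := sub_pos.2 hq1
  obtain ⟨X0, hX0⟩ := eventually_atTop.1
    ((h (ε / 2 * (1 - (2⁻¹ : ℝ) ^ (5 / 6 : ℝ))) (by positivity)).and (eventually_gt_atTop 0))
  have hp := (hX0 X0 le_rfl).2
  filter_upwards [eventually_ge_atTop X0, (tendsto_rpow_atTop (by norm_num : (0 : ℝ) < 5 / 6)).eventually_gt_atTop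
    ((∑ n ∈ ball X0, ‖a n‖) / (ε / 2))] with X h1 h2
  have hX : 0 < X := by linarith
  obtain ⟨n, h3, h4⟩ := exists_nat_pow_near ((one_le_div hp).2 h1) (one_lt_two (α := ℝ))
  rw [sum_ball_dyadic a hX (n + 1)]
  have b1 : ‖∑ m ∈ ball (X / 2 ^ (n + 1)), a m‖ ≤ ∑ m ∈ ball X0, ‖a m‖ := by
    refine (norm_sum_le _ _).trans (Finset.sum_le_sum_of_subset_of_nonneg (ball_mono ?_)
      fun _ _ _ => norm_nonneg _)
    rw [div_lt_iff₀ hp] at h4
    rw [div_le_iff₀ (by positivity)]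
    linarith
  have b2 : ∀ j ∈ Finset.range (n + 1),
      ‖∑ m ∈ ball (X / 2 ^ j), if X / 2 ^ j / 2 < N m then a m else 0‖ ≤
        ε / 2 * (1 - (2⁻¹ : ℝ) ^ (5 / 6 : ℝ)) * X ^ (5 / 6 : ℝ) * ((2⁻¹ : ℝ) ^ (5 / 6 : ℝ)) ^ j := by
    intro j hj
    have c1 : X0 ≤ X / 2 ^ j := by
      have c2 : (2 : ℝ) ^ j ≤ 2 ^ n :=
        pow_le_pow_right₀ one_le_two (Nat.lt_succ_iff.1 (Finset.mem_range.1 hj))
      rw [le_div_iff₀ hp] at h3
      rw [le_div_iff₀ (by positivity)]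
      nlinarith
    refine (hX0 _ c1).1.le.trans (le_of_eq ?_)
    rw [Real.rpow_pow_comm (by norm_num), mul_assoc _ (X ^ _), ← Real.mul_rpow hX.le (by positivity),
      inv_pow, ← div_eq_mul_inv]
  have b3 := (norm_sum_le _ _).trans (Finset.sum_le_sum b2)
  rw [← Finset.mul_sum] at b3
  have b4 := (summable_geometric_of_lt_one hq0 hq1).sum_le_tsum (Finset.range (n + 1))
    fun j _ => by positivity
  rw [tsum_geometric_of_lt_one hq0 hq1] at b4
  have b5 := b3.trans (mul_le_mul_of_nonneg_left b4 (by positivity))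
  rw [mul_right_comm, mul_inv_cancel_right₀ hq2.ne'] at b5
  rw [div_lt_iff₀ (by positivity)] at h2
  have b6 := norm_add_le (∑ m ∈ ball (X / 2 ^ (n + 1)), a m) (∑ j ∈ Finset.range (n + 1),
    ∑ m ∈ ball (X / 2 ^ j), if X / 2 ^ j / 2 < N m then a m else 0)
  linarith

theorem sh_coef {X : ℝ} (hX : 0 < X) (hL : 1 ≤ Real.log X) {n : Eis} (hn : n ≠ 0) :
    ‖(Lam n : ℂ) * Dl n‖ ≤ 2 * (1 + cs) * Real.log X * (N n / X + X / N n) := by
  have hp := N_pos hn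
  have hx : 0 < N n / X := div_pos hp hX
  have hy : 0 < X / N n := div_pos hX hp
  have h1 : 1 ≤ N n / X + X / N n := by
    rcases le_total (N n) X with h | h
    · linarith [(one_le_div hp).2 h]
    · linarith [(one_le_div hX).2 h]
  have h2 : Real.log (N n) ≤ Real.log X + N n / X := by
    have := Real.log_le_sub_one_of_pos hx
    rw [Real.log_div hp.ne' hX.ne'] at this
    linarith
  have h3 : Real.log (N n) ≤ 2 * Real.log X * (N n / X + X / N n) := by nlinarith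
  have hc := cs_pos
  rw [norm_mul, norm_real, Real.norm_of_nonneg (Lam_nonneg n)]
  refine (mul_le_mul ((Lam_le n).trans h3) (norm_Dl_le n) (norm_nonneg _) (by positivity)).trans
    (le_of_eq (by ring))

end Vale.Agent.P006
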