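import Vale.Agent.P006.LowBox
import Vale.Agent.P006.HighBox
import Vale.Agent.P006.SharpA

/-! The smoothed sums at all heights and the sharp cutoff. -/

namespace Vale.Agent.P006

open Vale.Agent.P026 Eis Complex MeasureTheory Filter Topology
open scoped Classical ComplexConjugate

theorem sh_zz : ∀ᶠ X : ℝ in atTop, zz X ≤ √X := by
  filter_upwards [Real.tendsto_log_atTop.eventually (sh_L 40), sh_L 1, eventually_gt_atTop 0]
    with X h1 h2 hX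
  rw [zz, Real.sqrt_eq_rpow, Real.rpow_def_of_pos hX]
  refine Real.exp_le_exp.2 ?_
  rw [div_le_iff₀ (by linarith)]
  nlinarith

theorem sh_low {C P L l : ℝ} (hL : 0 < L) (hP : 0 ≤ P) (h1 : 3 * C ≤ P * L ^ (-(1 / 10) : ℝ))
    (h2 : 3 * (C * 729 * 7 ^ 5) * L ^ (-4 : ℝ) ≤ L ^ (-(1 / 10) : ℝ))
    (h3 : 3 * (C * 729) * l * L ^ (-(1 / 5) : ℝ) ≤ L ^ (-(1 / 10) : ℝ)) :
    C + C * L * (729 * (P * L ^ (-10 : ℝ) * (7 * L) ^ 5 + P * L ^ (-(6 / 5) : ℝ) * l)) ≤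
      P * L ^ (-(1 / 10) : ℝ) := by
  have e1 : L ^ (-4 : ℝ) = L ^ (-10 : ℝ) * L ^ 6 := by
    rw [← Real.rpow_add_natCast hL.ne']
    norm_num
  have e2 : L ^ (-(1 / 5) : ℝ) = L ^ (-(6 / 5) : ℝ) * L := by
    rw [← Real.rpow_add_one hL.ne']
    norm_num
  rw [e1] at h2
  rw [e2] at h3
  have a2 := mul_le_mul_of_nonneg_left h2 hP
  have a3 := mul_le_mul_of_nonneg_left h3 hP
  linarith

/-- dec with z = zz X, low_box, vol_good, vol_exc. -/
theorem low (hT : TP cs) (A : ℝ) : ∀ᶠ X : ℝ in atTop, ∀ t : ℝ, |t| ≤ Real.log X ^ A →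
    ‖SD X t‖ ≤ X ^ (5 / 6 : ℝ) * Real.log X ^ (-(1 / 10) : ℝ) := by
  obtain ⟨C, hC, h1⟩ := dec
  obtain ⟨C3, hC3, h2⟩ := low_box hT A
  filter_upwards [h1, h2, sh_zz, sh_L 1, eventually_gt_atTop 0,
    sh_const (3 * C) (-(1 / 10)) (by norm_num : (0 : ℝ) < 5 / 6),
    sh_pow0 (3 * (C * 729 * 7 ^ 5)) (by norm_num : (-4 : ℝ) < -(1 / 10)),
    Real.tendsto_log_atTop.eventually (sh_pow (3 * (C * 729) * (8 * C3) ^ 5) (5 : ℕ)
      (by norm_num : (-(1 / 5) : ℝ) < -(1 / 10)))] with X k1 k2 k3 k4 k5 k6 k7 k8 t ht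
  have hL : 0 < Real.log X := by linarith
  have hl := Real.log_nonneg k4
  have a1 := (k1 _ t k3).trans (sh_comb hC.le (by positivity) (by positivity) fun ty =>
    sh_good (l := C3 * Real.log (Real.log X)) (a := X ^ (5 / 6 : ℝ) * Real.log X ^ (-10 : ℝ))
      (b := X ^ (5 / 6 : ℝ) * Real.log X ^ (-(6 / 5) : ℝ)) k4 (by positivity) (by positivity)
      (by positivity) fun ρ hρ => by
        rw [← ofReal_norm]
        refine ENNReal.ofReal_le_ofReal ((k2 ty _ t ht hρ).trans (le_of_eq ?_))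
        rw [mul_add, mul_ite, mul_zero])
  rw [← ofReal_norm, ENNReal.ofReal_le_ofReal_iff (by positivity)] at a1
  refine a1.trans (sh_low hL (by positivity) k6 k7 (le_trans (le_of_eq ?_) k8))
  rw [Real.rpow_natCast]
  ring

/-- dec with z = 1, Tonelli (continuous_box), high_box, vol_good. -/
theorem high_window (hT : TP cs) : ∃ A0 : ℝ, 0 < A0 ∧ ∀ᶠ X : ℝ in atTop, ∀ t0 U : ℝ,
    Real.log X ^ A0 ≤ U → U ≤ X ^ (1 / 300 : ℝ) →
    (1 + |t0| + U) ^ 2 ≤ X ^ (1 / 3 - 1 / 1000 : ℝ) * √U →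
      ∫⁻ t in Set.Icc t0 (t0 + U), ‖SD X t‖ₑ ≤
        ENNReal.ofReal (U * X ^ (5 / 6 : ℝ) * Real.log X ^ (-3 : ℝ)) := by
  obtain ⟨C, hC, h1⟩ := dec
  obtain ⟨A0, hA0, h2⟩ := high_box hT
  refine ⟨A0, hA0, ?_⟩
  filter_upwards [h1, h2, sh_L 1, eventually_ge_atTop 1,
    sh_const (2 * C) (-3) (by norm_num : (0 : ℝ) < 5 / 6),
    sh_pow0 (2 * (C * 729 * 7 ^ 5)) (by norm_num : (-4 : ℝ) < -3)]
    with X k1 k2 k4 k5 k6 k7 t0 U u1 u2 u3
  have hL : 0 < Real.log X := by linarith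
  have hX : 0 < X := by linarith
  have hU : 0 < U := (Real.rpow_pos_of_pos hL A0).trans_le u1
  have m := sh_meas X 1 (Real.log X)
  refine (lintegral_mono fun t => k1 1 t (Real.one_le_sqrt.2 k5)).trans ?_
  rw [lintegral_add_left measurable_const, lintegral_const_mul' _ _ ENNReal.ofReal_ne_top,
    lintegral_finsetSum _ fun ty _ => (m ty).lintegral_prod_right', setLIntegral_const,
    Real.volume_Icc, add_sub_cancel_left, ← ENNReal.ofReal_mul hC.le]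
  refine (sh_comb (B := U * X ^ (5 / 6 : ℝ) * Real.log X ^ (-10 : ℝ) * (7 * Real.log X) ^ 5 +
    0 * (8 * 0) ^ 5) (by positivity) (by positivity) (by positivity) fun ty => ?_).trans
    (ENNReal.ofReal_le_ofReal ?_)
  · rw [lintegral_lintegral_swap (f := fun t ρ => ‖Box X 1 ty (hat (Real.log X) ρ) t‖ₑ)
      (m ty).aemeasurable]
    refine sh_good k4 le_rfl (by positivity) le_rfl fun ρ hρ => ?_
    rw [ite_self, add_zero]
    exact k2 ty _ t0 U u1 u2 u3 hρ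
  · have e1 : Real.log X ^ (-4 : ℝ) = Real.log X ^ (-10 : ℝ) * Real.log X ^ 6 := by
      rw [← Real.rpow_add_natCast hL.ne']
      norm_num
    rw [e1] at k7
    have a2 := mul_le_mul_of_nonneg_left k6 hU.le
    have a3 := mul_le_mul_of_nonneg_left k7 (by positivity : 0 ≤ U * X ^ (5 / 6 : ℝ))
    linarith

theorem sh_cover {T U B : ℝ} (hU : 0 < U) (hT : U ≤ T) (hB : 0 ≤ B) {f : ℝ → ENNReal}
    (h : ∀ t0, |t0| ≤ 2 * T → ∫⁻ t in Set.Icc t0 (t0 + U), f t ≤ ENNReal.ofReal (U * B)) :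
    ∫⁻ t in {t : ℝ | T ≤ |t| ∧ |t| ≤ 2 * T}, f t ≤ ENNReal.ofReal (T * (5 * B)) := by
  have hT0 : 0 < T := hU.trans_le hT
  have h0 : 0 ≤ 4 * T / U := by positivity
  have cov : {t : ℝ | T ≤ |t| ∧ |t| ≤ 2 * T} ⊆ ⋃ j ∈ Finset.range (⌊4 * T / U⌋₊ + 1),
      Set.Icc (-(2 * T) + j * U) (-(2 * T) + j * U + U) := by
    intro t ht
    obtain ⟨a, b⟩ := abs_le.1 ht.2
    have c0 : 0 ≤ (t + 2 * T) / U := div_nonneg (by linarith) hU.le
    have c1 := Nat.floor_le c0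
    have c2 := Nat.lt_floor_add_one ((t + 2 * T) / U)
    rw [le_div_iff₀ hU] at c1
    rw [div_lt_iff₀ hU] at c2
    refine Set.mem_biUnion (Finset.mem_coe.2 (Finset.mem_range.2 (Nat.lt_succ_of_le
      (Nat.floor_le_floor (div_le_div_of_nonneg_right (by linarith : t + 2 * T ≤ 4 * T) hU.le)))))
      ⟨by linarith, by linarith⟩
  have h1 := Nat.floor_le h0
  rw [le_div_iff₀ hU] at h1
  refine (lintegral_mono_set cov).trans ((sh_union _ _ f (B := U * B) (by positivity)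
    fun j hj => h _ ?_).trans (ENNReal.ofReal_le_ofReal ?_))
  · have c1 : (j : ℝ) ≤ ⌊4 * T / U⌋₊ := Nat.cast_le.2 (Nat.lt_succ_iff.1 hj)
    have c2 := mul_le_mul_of_nonneg_right c1 hU.le
    have c3 : 0 ≤ j * U := by positivity
    exact abs_le.2 ⟨by linarith, by linarith⟩
  · rw [Nat.cast_succ, ← mul_assoc, ← mul_assoc]
    exact mul_le_mul_of_nonneg_right (by linarith) hB

/-- Cover T ≤ |t| ≤ 2 T by at most 5 T / U windows of length U = min T (X ^ (1/300)). -/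
theorem high (hT : TP cs) : ∃ A0 : ℝ, 0 < A0 ∧ ∀ᶠ X : ℝ in atTop, ∀ T : ℝ,
    Real.log X ^ A0 ≤ T → T ≤ X ^ (1 / 6 : ℝ) * Real.log X ^ 5 →
      ∫⁻ t in {t : ℝ | T ≤ |t| ∧ |t| ≤ 2 * T}, ‖SD X t‖ₑ ≤
        ENNReal.ofReal (T * X ^ (5 / 6 : ℝ) * Real.log X ^ (-2 : ℝ)) := by
  obtain ⟨A0, hA0, h1⟩ := high_window hT
  refine ⟨A0, hA0, ?_⟩
  filter_upwards [h1, sh_L 1, eventually_ge_atTop 1, sh_log 1 A0 (by norm_num : (0 : ℝ) < 1 / 300),
    sh_pow 16 0 (by norm_num : (1 / 150 : ℝ) < 1 / 3 - 1 / 1000),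
    sh_pow 16 (10 : ℕ) (by norm_num : (1 / 3 : ℝ) < 1 / 3 - 1 / 1000 + 1 / 600),
    sh_pow0 5 (by norm_num : (-3 : ℝ) < -2)] with X k1 k2 k3 k4 k5 k6 k7 T u1 u2
  have hL : 0 < Real.log X := by linarith
  have hX : 0 < X := by linarith
  have hT1 : 1 ≤ T := (Real.one_le_rpow k2 hA0.le).trans u1
  rw [one_mul] at k4
  have hU : Real.log X ^ A0 ≤ min T (X ^ (1 / 300 : ℝ)) := le_min u1 k4
  have a0 : 16 * T ^ 2 ≤ X ^ (1 / 3 - 1 / 1000 : ℝ) * √(min T (X ^ (1 / 300 : ℝ))) := by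
    rcases le_total T (X ^ (1 / 300 : ℝ)) with h | h
    · rw [min_eq_left h]
      have b1 := pow_le_pow_left₀ (by linarith) h 2
      rw [← Real.rpow_two (X ^ _), ← Real.rpow_mul hX.le,
        show (1 / 300 * 2 : ℝ) = 1 / 150 by norm_num] at b1
      rw [Real.rpow_zero, mul_one] at k5
      exact le_trans (by linarith) (le_mul_of_one_le_right (by positivity) (Real.one_le_sqrt.2 hT1))
    · rw [min_eq_right h, Real.sqrt_eq_rpow, ← Real.rpow_mul hX.le, ← Real.rpow_add hX,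
        show (1 / 300 * (1 / 2) : ℝ) = 1 / 600 by norm_num]
      have b1 := pow_le_pow_left₀ (by linarith) u2 2
      rw [mul_pow, ← Real.rpow_two (X ^ _), ← Real.rpow_mul hX.le,
        show (1 / 6 * 2 : ℝ) = 1 / 3 by norm_num, ← pow_mul] at b1
      rw [Real.rpow_natCast] at k6
      linarith
  refine (sh_cover (B := X ^ (5 / 6 : ℝ) * Real.log X ^ (-3 : ℝ))
    ((Real.rpow_pos_of_pos hL A0).trans_le hU) (min_le_left _ _) (by positivity)
    fun t0 ht0 => ?_).trans (ENNReal.ofReal_le_ofReal ?_)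
  · rw [← mul_assoc]
    refine k1 t0 _ hU (min_le_right _ _) (le_trans ?_ a0)
    have b1 : 1 + |t0| + min T (X ^ (1 / 300 : ℝ)) ≤ 4 * T := by
      linarith [min_le_left T (X ^ (1 / 300 : ℝ))]
    refine (pow_le_pow_left₀ (by positivity) b1 2).trans (le_of_eq (by ring))
  · have := mul_le_mul_of_nonneg_left k7 (by positivity : 0 ≤ T * X ^ (5 / 6 : ℝ))
    linarith

/-- The weighted integral over all heights. -/
theorem sh_int (hT : TP cs) {M : ℝ} (hM : 0 ≤ M) : ∃ K : ℝ, 0 ≤ K ∧ ∀ᶠ X : ℝ in atTop,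
    (∀ t, ‖SD X t‖ ≤ M * Real.log X * X) →
    ∫ t : ℝ, Real.exp (-(t ^ 2 / (2 * (X ^ (1 / 6 : ℝ) * Real.log X ^ 3) ^ 2))) / (1 + |t|) *
      ‖SD X t‖ ≤ K * (X ^ (5 / 6 : ℝ) * Real.log X ^ (-(1 / 20) : ℝ)) := by
  obtain ⟨A0, hA0, h1⟩ := high hT
  obtain ⟨δ, hδ, hδ1, hδ2⟩ : ∃ δ : ℝ, 0 < δ ∧ δ ≤ 1 ∧ A0 * δ ≤ 1 / 20 :=
    ⟨min 1 (1 / 20 / A0), by positivity, min_le_left _ _,
      (le_div_iff₀' hA0).1 (min_le_right _ _)⟩
  have hG : 0 ≤ ∫ t : ℝ, (1 + |t|) ^ (-(1 + δ)) := integral_nonneg fun t => by positivity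
  refine ⟨2 * (∫ t : ℝ, (1 + |t|) ^ (-(1 + δ))) + 1, by positivity, ?_⟩
  filter_upwards [h1, low hT A0, sh_L 2, eventually_ge_atTop 1,
    sh_log 1 A0 (by norm_num : (0 : ℝ) < 1 / 6),
    sh_pow 1 (5 : ℕ) (by norm_num : (1 / 6 : ℝ) < 1),
    sh_const M (-(21 / 20)) (by norm_num : (0 : ℝ) < 5 / 6),
    sh_pow0 3 (by norm_num : (-1 : ℝ) < -(1 / 20))] with X k1 k2 k3 k4 k5 k6 k7 k8 hb
  have hL : 0 < Real.log X := by linarith
  have hL1 : 1 ≤ Real.log X := by linarith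
  have hX : 0 < X := by linarith
  have hT0 : 1 ≤ Real.log X ^ A0 := Real.one_le_rpow hL1 hA0.le
  have hP : 1 ≤ X ^ (1 / 6 : ℝ) := Real.one_le_rpow k4 (by norm_num)
  rw [one_mul] at k5
  rw [one_mul, Real.rpow_natCast, Real.rpow_one, mul_comm] at k6
  have hW : Real.log X ^ A0 ≤ X ^ (1 / 6 : ℝ) * Real.log X ^ 5 :=
    k5.trans (le_mul_of_one_le_right (by positivity) (one_le_pow₀ hL1))
  obtain ⟨n, n1, n2⟩ := exists_nat_pow_near ((one_le_div (by linarith)).2 hW) (one_lt_two (α := ℝ))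
  rw [le_div_iff₀ (by linarith)] at n1
  rw [div_lt_iff₀ (by linarith)] at n2
  have hn : ((n + 1 : ℕ) : ℝ) ≤ 3 * Real.log X := by
    have b1 : (2 : ℝ) ^ n ≤ X :=
      (le_mul_of_one_le_right (by positivity) hT0).trans (n1.trans k6)
    have b2 := Real.log_le_log (by positivity) b1
    rw [Real.log_pow] at b2
    have b3 := mul_le_mul_of_nonneg_left Real.log_two_gt_d9.le (Nat.cast_nonneg (α := ℝ) n)
    have b4 : (0 : ℝ) ≤ n := Nat.cast_nonneg n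
    push_cast
    linarith
  have hw : ∀ t : ℝ, 0 ≤ Real.exp (-(t ^ 2 / (2 * (X ^ (1 / 6 : ℝ) * Real.log X ^ 3) ^ 2))) /
      (1 + |t|) ∧ Real.exp (-(t ^ 2 / (2 * (X ^ (1 / 6 : ℝ) * Real.log X ^ 3) ^ 2))) / (1 + |t|) ≤
        1 / (1 + |t|) := fun t => ⟨by positivity, div_le_div_of_nonneg_right
      (Real.exp_le_one_iff.2 (neg_nonpos.2 (by positivity))) (by positivity)⟩
  refine (sh_core (K := 2 * (X ^ (5 / 6 : ℝ) * Real.log X ^ (-(1 / 20) : ℝ)))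
    (E := X ^ (5 / 6 : ℝ) * Real.log X ^ (-2 : ℝ)) hδ (one_pos.trans_le hT0) (by positivity)
    (by positivity) (n + 1) hw (fun t ht => ?_) fun j hj => ?_).trans ?_
  · rcases ht with ht | ht
    · refine (mul_le_mul ((hw t).2.trans (sh_small hδ hδ1 hT0 ht)) (k2 t ht) (norm_nonneg _)
        (by positivity)).trans ?_
      have b1 : (Real.log X ^ A0) ^ δ * Real.log X ^ (-(1 / 10) : ℝ) ≤
          Real.log X ^ (-(1 / 20) : ℝ) := by
        rw [← Real.rpow_mul hL.le, ← Real.rpow_add hL]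
        exact Real.rpow_le_rpow_of_exponent_le hL1 (by linarith)
      have b2 := mul_le_mul_of_nonneg_left b1
        (by positivity : 0 ≤ 2 * X ^ (5 / 6 : ℝ) * (1 + |t|) ^ (-(1 + δ)))
      linarith
    · have b1 := sh_tail (T := X ^ (1 / 6 : ℝ) * Real.log X ^ 3) (t := t) hδ1
        (one_le_mul_of_one_le_of_one_le hP (one_le_pow₀ hL1))
        (le_trans (mul_le_mul_of_nonneg_left (pow_le_pow_right₀ hL1 (by norm_num))
          (by positivity)) k6) k3 (by rw [mul_assoc, ← pow_add]; linarith)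
      have b2 : M * Real.log X ≤ X ^ (5 / 6 : ℝ) * Real.log X ^ (-(1 / 20) : ℝ) := by
        refine (mul_le_mul_of_nonneg_right k7 hL.le).trans (le_of_eq ?_)
        rw [mul_assoc, ← Real.rpow_add_one hL.ne']
        norm_num
      have b3 := mul_le_mul_of_nonneg_left (hb t) (hw t).1
      have b4 := mul_le_mul b2 b1 (mul_nonneg (hw t).1 hX.le) (by positivity)
      have b5 : 0 ≤ X ^ (5 / 6 : ℝ) * Real.log X ^ (-(1 / 20) : ℝ) * (1 + |t|) ^ (-(1 + δ)) := by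
        positivity
      linarith
  · rw [← mul_assoc _ (X ^ (5 / 6 : ℝ))]
    refine k1 _ (le_mul_of_one_le_left (by positivity) (one_le_pow₀ one_le_two))
      (le_trans (mul_le_mul_of_nonneg_right ?_ (by positivity)) n1)
    exact pow_le_pow_right₀ one_le_two (Nat.lt_succ_iff.1 hj)
  · have e : Real.log X ^ (-1 : ℝ) = Real.log X ^ (-2 : ℝ) * Real.log X := by
      rw [← Real.rpow_add_one hL.ne']
      norm_num
    rw [e] at k8
    have b1 := mul_le_mul_of_nonneg_right hn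
      (by positivity : 0 ≤ X ^ (5 / 6 : ℝ) * Real.log X ^ (-2 : ℝ))
    have b2 := mul_le_mul_of_nonneg_left k8 (by positivity : 0 ≤ X ^ (5 / 6 : ℝ))
    linarith

theorem sh_sharp (hT : TP cs) : ∃ K : ℝ, ∀ᶠ X : ℝ in atTop,
    ‖∑ n ∈ ball X, if X / 2 < N n then (Lam n : ℂ) * Dl n else 0‖ ≤
      K * (X ^ (5 / 6 : ℝ) * Real.log X ^ (-(1 / 20) : ℝ)) := by
  obtain ⟨C, hC, h1⟩ := us (c := 1 / 12) (by norm_num)
  have hc := cs_pos
  obtain ⟨K, hK, h2⟩ := sh_int hT (M := C * (2 * (1 + cs))) (by positivity)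
  refine ⟨C * K + 2, ?_⟩
  filter_upwards [h2, sh_L 1, eventually_ge_atTop 1,
    sh_pow0 (C * (2 * (1 + cs))) (by norm_num : (-2 : ℝ) < -(1 / 20)),
    sh_const (C * (2 * (1 + cs))) (-(21 / 20)) (by norm_num : (0 : ℝ) < 1 / 3)] with X k1 k2 k3 k4 k5
  have hL : 0 < Real.log X := by linarith
  have hX : 0 < X := by linarith
  obtain ⟨-, a2, a3⟩ := h1 (fun n => (Lam n : ℂ) * Dl n) (2 * (1 + cs) * Real.log X) X
    (X ^ (1 / 6 : ℝ) * Real.log X ^ 3) (by positivity) hX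
    (one_le_mul_of_one_le_of_one_le (Real.one_le_rpow k3 (by norm_num)) (one_le_pow₀ k2))
    ((congrArg ((Lam 0 : ℂ) * ·) (Dl_of_not fun h => h.ne_zero rfl)).trans (mul_zero _))
    fun n hn => sh_coef hX k2 hn
  have a4 := mul_le_mul_of_nonneg_left (k1 fun t => (a2 t).trans (le_of_eq (by ring))) hC.le
  have e1 : Real.log X * (X / (X ^ (1 / 6 : ℝ) * Real.log X ^ 3)) =
      X ^ (5 / 6 : ℝ) * Real.log X ^ (-2 : ℝ) := by
    have b1 : X ^ (5 / 6 : ℝ) = X / X ^ (1 / 6 : ℝ) := by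
      rw [show (5 / 6 : ℝ) = 1 - 1 / 6 by norm_num, Real.rpow_sub hX, Real.rpow_one]
    rw [b1, Real.rpow_neg hL.le, Real.rpow_two]
    field_simp
  have e2 : X ^ (1 / 3 : ℝ) * Real.log X ^ (-(21 / 20) : ℝ) * (Real.log X * √X) =
      X ^ (5 / 6 : ℝ) * Real.log X ^ (-(1 / 20) : ℝ) := by
    rw [show (5 / 6 : ℝ) = 1 / 3 + 1 / 2 by norm_num, Real.rpow_add hX, Real.sqrt_eq_rpow,
      show (-(1 / 20) : ℝ) = -(21 / 20) + 1 by norm_num, Real.rpow_add_one hL.ne']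
    ring
  have a5 := mul_le_mul_of_nonneg_left k4 (by positivity : 0 ≤ X ^ (5 / 6 : ℝ))
  have a6 := mul_le_mul_of_nonneg_right k5 (by positivity : 0 ≤ Real.log X * √X)
  rw [e2] at a6
  have e3 : C * (2 * (1 + cs) * Real.log X) * (X / (X ^ (1 / 6 : ℝ) * Real.log X ^ 3) + √X) =
      X ^ (5 / 6 : ℝ) * (C * (2 * (1 + cs)) * Real.log X ^ (-2 : ℝ)) +
        C * (2 * (1 + cs)) * (Real.log X * √X) := by
    linear_combination C * (2 * (1 + cs)) * e1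
  refine a3.trans ?_
  rw [e3]
  unfold SD at a4
  linarith

/-- us with c = 1/12, a = Lam Dl, M = C log X, T = X ^ (1/6) (log X) ^ 3. -/
theorem sharp (hT : TP cs) : Tendsto (fun X : ℝ =>
    (∑ n ∈ ball X, if X / 2 < N n then (Lam n : ℂ) * Dl n else 0) / ((X ^ (5 / 6 : ℝ) : ℝ) : ℂ))
    atTop (𝓝 0) := by
  obtain ⟨K, h⟩ := sh_sharp hT
  refine sh_tend.2 fun ε hε => ?_
  filter_upwards [h, sh_pow0 (2 * K / ε) (by norm_num : (-(1 / 20) : ℝ) < 0),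
    eventually_gt_atTop 0] with X k1 k2 hX
  rw [Real.rpow_zero, div_mul_eq_mul_div, div_le_iff₀ hε] at k2
  have hp := Real.rpow_pos_of_pos hX (5 / 6 : ℝ)
  have a1 := mul_le_mul_of_nonneg_left k2 hp.le
  have a2 := mul_pos hε hp
  linarith

/-- sum_ball_dyadic. -/
theorem sharp_all (hT : TP cs) : Tendsto (fun X : ℝ =>
    (∑ n ∈ ball X, (Lam n : ℂ) * Dl n) / ((X ^ (5 / 6 : ℝ) : ℝ) : ℂ)) atTop (𝓝 0) :=
  sh_tend.2 (sh_dyad (sh_tend.1 (sharp hT)))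

end Vale.Agent.P006
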