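import Vale.Agent.P006.V3
import Vale.Agent.P006.Mod
import Vale.Agent.P006.Bil

/-! The type I estimate. -/

namespace Vale.Agent.P006

open Vale.Agent.P026 Eis Complex MeasureTheory Filter Topology
open scoped Classical ComplexConjugate

/-- The theta completed sum of Dl (k e). -/
noncomputable def Th (k : Eis) (Y t : ℝ) : ℂ :=
  ∑' p : Eis × Eis, if Prim p.2 then (ab p.2 : ℂ) * cop k p.2 * Dl (k * p.1) * W Y t (p.1 * p.2 ^ 3)
    else 0

theorem conj_MI {Y : ℝ} (hY : 0 < Y) (t : ℝ) : conj (MI Y (-t)) = MI Y t := by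
  unfold MI
  rw [← integral_conj]
  refine setIntegral_congr_fun measurableSet_Ioi fun x (hx : 0 < x) => ?_
  simp only [gg, map_mul, conj_ofReal]
  congr 1
  rw [cpow_def_of_ne_zero (by exact_mod_cast hx.ne'), cpow_def_of_ne_zero (by exact_mod_cast hx.ne'),
    ← exp_conj, ← ofReal_log hx.le]
  congr 1
  simp [map_ofNat]

theorem t1_ab_le {x : Eis} : ab x ≤ N x := by
  by_cases h : x = 0
  · subst h; simp [ab]
  · have := one_le_ab h
    rw [← ab_sq]; nlinarith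

theorem t1_conj_W (Y t : ℝ) (n : Eis) : conj (W Y (-t) n) = W Y t n := by
  simp [W, conj_nit]

theorem t1_sum_W {a : Eis → ℂ} (ha : ∀ n, ‖a n‖ ≤ N n) {Y : ℝ} (hY : 0 < Y) (t : ℝ) :
    Summable fun n => a n * W Y t n := by
  refine (summable_w 1 hY).of_norm_bounded fun n => ?_
  rw [norm_mul, norm_W, Real.rpow_one]
  exact mul_le_mul_of_nonneg_right (ha n) (w_pos _).le

theorem t1_th_sq (n : Eis) : ‖th n‖ ^ 2 * N n ^ (-(1 / 6) : ℝ) ≤ N n := by
  by_cases h : n = 0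
  · subst h; simp [th_of_not (fun h : Prim 0 => h.ne_zero rfl)]
  · have h1 := pow_le_pow_left₀ (norm_nonneg _) (norm_th_le_ab n) 2
    rw [ab_sq] at h1
    exact (mul_le_of_le_one_right (by positivity)
      (Real.rpow_le_one_of_one_le_of_nonpos (one_le_N h) (by norm_num))).trans h1

theorem t1_Th_eq {k : Eis} (hk : PS k) {Y : ℝ} (hY : 0 < Y) (t : ℝ) :
    Th k Y t = G k * conj (∑' n, th n * cub n k * W Y (-t) n) -
      ((cs * N k ^ (-(1 / 6) : ℝ) : ℝ) : ℂ) *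
        ∑' n, ((‖th n‖ ^ 2 * N n ^ (-(1 / 6) : ℝ) : ℝ) : ℂ) * cop k n * W Y t n := by
  have s1 := (t1_sum_W (a := fun n => th n * cub n k) (fun n => by
    rw [norm_mul]
    exact (mul_le_of_le_one_right (norm_nonneg _) (norm_cub_le _ _)).trans
      ((norm_th_le_ab n).trans t1_ab_le)) hY (-t)).hasSum
  have s2 := (t1_sum_W (a := fun n => ((‖th n‖ ^ 2 * N n ^ (-(1 / 6) : ℝ) : ℝ) : ℂ) * cop k n)
    (fun n => by
      have := N_nonneg n
      rw [norm_mul, norm_real, Real.norm_of_nonneg (by positivity)]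
      exact (mul_le_of_le_one_right (by positivity) (norm_cop_le _ _)).trans (t1_th_sq n))
    hY t).hasSum
  have s3 := ((hasSum_conj'.2 s1).mul_left (G k)).sub
    (s2.mul_left ((cs * N k ^ (-(1 / 6) : ℝ) : ℝ) : ℂ))
  rw [← hasSum_cube_iff (fun n hn => th_ne_zero fun h => hn (by simp [h]))] at s3
  rw [← s3.tsum_eq]
  unfold Th
  refine tsum_congr fun ⟨e, d⟩ => ?_
  by_cases hd : Prim d
  · by_cases he : PS e
    · simp only [hd, he, and_self, if_true]
      have d0 := N_pos hd.ne_zero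
      have e1 : cop k (e * d ^ 3) = cop k e * cop k d := by
        simp only [cop, IsCoprime.mul_left_iff, IsCoprime.pow_left_iff (show 0 < 3 by norm_num)]
        by_cases h1 : IsCoprime e k <;> by_cases h2 : IsCoprime d k <;> simp [h1, h2]
      have e2 : conj (cop d k) = cop k d := by
        rw [cop_comm]; unfold cop; split_ifs <;> simp
      have e3 : ‖th (e * d ^ 3)‖ ^ 2 * N (e * d ^ 3) ^ (-(1 / 6) : ℝ) =
          ab d * N e ^ (-(1 / 6) : ℝ) := by
        rw [th_eq he hd, norm_mul, RCLike.norm_conj, norm_G he, norm_real,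
          Real.norm_of_nonneg (ab_nonneg d), one_mul, ab_sq, N_mul, N_pow,
          Real.mul_rpow (N_nonneg e) (by positivity), ← Real.rpow_natCast, ← Real.rpow_mul d0.le,
          mul_left_comm, mul_comm]
        congr 1
        unfold ab
        rw [Real.sqrt_eq_rpow, mul_comm, ← Real.rpow_add_one d0.ne']
        norm_num
      rw [e3, e1, Dl_mul hk he, th_eq he hd, cub_mul_left _ _ hk.1.not_lam_dvd,
        cub_cube_left d hk.1, cub_recip hk.1 he.1]
      simp only [map_mul, t1_conj_W, conj_conj, conj_ofReal, e2]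
      push_cast
      ring
    · simp [hd, he, Dl_of_not (fun h => he (PS.of_mul hk.1 h).2.1)]
  · simp [hd]

theorem ek (hT : TP cs) {e : ℝ} (he : 0 < e) (he' : e ≤ 1 / 4) : ∃ C : ℝ, 0 < C ∧
    ∀ k : Eis, PS k → ∀ Y t : ℝ, 1 ≤ Y → ‖Th k Y t‖ ≤
      C * (N k ^ (1 / 2 + 3 * e) * (1 + |t|) ^ (2 + 4 * e) +
        N k ^ (e - 1 / 6) * (1 + |t|) * Y ^ (1 / 2 + e)) := by
  obtain ⟨y, y0, y1, y2, y3⟩ := hT
  obtain ⟨C1, hC1, h1⟩ := y2 e he
  obtain ⟨C2, hC2, h2⟩ := v3 he (by linarith)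
  obtain ⟨C3, hC3, h3⟩ := mod_W he he'
  have c0' := cs_pos
  refine ⟨C2 * C1 + cs * C3, by positivity, fun k hk Y t hY => ?_⟩
  have hY0 : 0 < Y := by linarith
  have k1 := one_le_N hk.ne_zero
  have k0 : 0 < N k := by linarith
  obtain ⟨Cb, hb⟩ := y1 k hk
  have a1 := h2 (fun a => th a * cub a k) (y k) (N k / 3) 1 Cb _ Y (-t) (mainC cs k) (by positivity)
    hY0 (by simp [th_of_not (fun h : Prim 0 => h.ne_zero rfl)]) (y0 k) (fun r => by
      rw [norm_mul, one_mul]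
      exact (mul_le_of_le_one_right (norm_nonneg _) (norm_cub_le _ _)).trans (norm_th_le_ab r))
    hb (y3 k hk) (h1 k hk).1 (h1 k hk).2
  have a2 := h3 k hk.ne_zero Y t hY0
  have hc : 0 < c0 := by unfold c0; positivity
  have hG := Real.Gamma_pos_of_pos (show (0 : ℝ) < 2 / 3 by norm_num)
  have e1 : G k * conj (mainC cs k * ((c0 ^ (4 / 3 : ℝ) / Real.Gamma (2 / 3) : ℝ) : ℂ) * MI Y (-t)) =
      ((cs * N k ^ (-(1 / 6) : ℝ) : ℝ) : ℂ) * (((c0 * phi k : ℝ) : ℂ) * MI Y t) := by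
    have g1 : G k * conj (G k) = 1 := by
      rw [mul_conj, normSq_eq_norm_sq, norm_G hk]; simp
    have g2 : c0 ^ (-(1 / 3) : ℝ) * Real.Gamma (2 / 3) * (c0 ^ (4 / 3 : ℝ) / Real.Gamma (2 / 3)) =
        c0 := by
      rw [mul_assoc, mul_div_cancel₀ _ hG.ne', ← Real.rpow_add hc]; norm_num
    have g3 := congrArg (fun x : ℝ => (x : ℂ)) g2
    simp only [mainC, map_mul, conj_ofReal, conj_MI hY0]
    simp only [ofReal_mul] at g3 ⊢
    linear_combination (cs * phi k * ((N k ^ (-(1 / 6) : ℝ) : ℝ) : ℂ) * MI Y t) *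
      (((c0 ^ (-(1 / 3) : ℝ) : ℝ) : ℂ) * ((Real.Gamma (2 / 3) : ℝ) : ℂ) *
        ((c0 ^ (4 / 3 : ℝ) / Real.Gamma (2 / 3) : ℝ) : ℂ) * g1 + g3)
  have e2 : Th k Y t = G k * conj (∑' n, th n * cub n k * W Y (-t) n -
      mainC cs k * ((c0 ^ (4 / 3 : ℝ) / Real.Gamma (2 / 3) : ℝ) : ℂ) * MI Y (-t)) -
      ((cs * N k ^ (-(1 / 6) : ℝ) : ℝ) : ℂ) *
        (∑' n, ((‖th n‖ ^ 2 * N n ^ (-(1 / 6) : ℝ) : ℝ) : ℂ) * cop k n * W Y t n -
          ((c0 * phi k : ℝ) : ℂ) * MI Y t) := by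
    rw [t1_Th_eq hk hY0, map_sub, mul_sub, e1]; ring
  rw [e2]
  refine (norm_sub_le _ _).trans ?_
  rw [norm_mul, norm_mul, norm_G hk, one_mul, RCLike.norm_conj, norm_real,
    Real.norm_of_nonneg (by positivity)]
  rw [abs_neg] at a1
  have t0 : 0 < 1 + |t| := by positivity
  have b1 : C2 * (C1 * N k ^ (e - 1 / 2)) * (N k / 3) ^ (1 + 2 * e) * (1 + |t|) ^ (2 + 4 * e) *
      Y ^ (-e) ≤ C2 * C1 * (N k ^ (1 / 2 + 3 * e) * (1 + |t|) ^ (2 + 4 * e)) := by
    refine (mul_le_of_le_one_right (by positivity)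
      (Real.rpow_le_one_of_one_le_of_nonpos hY (by linarith))).trans ?_
    have : (N k / 3) ^ (1 + 2 * e) ≤ N k ^ (1 + 2 * e) :=
      Real.rpow_le_rpow (by positivity) (by linarith) (by linarith)
    refine (mul_le_mul_of_nonneg_right (mul_le_mul_of_nonneg_left this (by positivity))
      (by positivity)).trans (le_of_eq ?_)
    rw [show 1 / 2 + 3 * e = (e - 1 / 2) + (1 + 2 * e) by ring, Real.rpow_add k0 (e - 1 / 2)]
    ring
  have b2 := mul_le_mul_of_nonneg_left a2 (show 0 ≤ cs * N k ^ (-(1 / 6) : ℝ) by positivity)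
  have b3 : cs * N k ^ (-(1 / 6) : ℝ) * (C3 * N k ^ e * (1 + |t|) * Y ^ (1 / 2 + e)) =
      cs * C3 * (N k ^ (e - 1 / 6) * (1 + |t|) * Y ^ (1 / 2 + e)) := by
    rw [sub_eq_add_neg, Real.rpow_add k0]; ring
  have b4 : 0 ≤ cs * C3 * (N k ^ (1 / 2 + 3 * e) * (1 + |t|) ^ (2 + 4 * e)) := by positivity
  have b5 : 0 ≤ C2 * C1 * (N k ^ (e - 1 / 6) * (1 + |t|) * Y ^ (1 / 2 + e)) := by positivity
  linarith

/-- The terms of the cube expansion. -/
noncomputable def t1g (k : Eis) (Y t : ℝ) (m : Eis) : ℂ :=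
  if Prim m then (ab m : ℂ) * cop k m * nit t (m ^ 3) * ∑' e, W (Y / N m ^ 3) t e * Dl (k * e) else 0

theorem t1_Dl_zero (k : Eis) : Dl (k * 0) = 0 :=
  Dl_of_not fun h => h.ne_zero (mul_zero k)

theorem t1_triv : ∃ C : ℝ, 0 < C ∧ ∀ (k : Eis) (Y t : ℝ), 0 < Y →
    ‖∑' e, W Y t e * Dl (k * e)‖ ≤ C * Y := by
  obtain ⟨C, hC, h⟩ := sum_lg_le (c := 1) (k := 0) one_pos (by norm_num)
  have c0' := cs_pos
  refine ⟨(1 + cs) * C, by positivity, fun k Y t hY => ?_⟩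
  by_cases hs : Summable fun e => W Y t e * Dl (k * e)
  · refine le_of_tendsto' (Filter.Tendsto.norm hs.hasSum) fun s => ?_
    rw [← Finset.sum_erase s (a := 0) (by rw [t1_Dl_zero, mul_zero])]
    refine (norm_sum_le _ _).trans ((Finset.sum_le_sum (g := fun e => (1 + cs) *
      (N e ^ (0 : ℝ) * lg 1 (N e / Y))) fun e _ => ?_).trans ?_)
    · rw [norm_mul, norm_W, Real.rpow_zero, one_mul, lg_one, mul_comm]
      exact mul_le_mul_of_nonneg_right (norm_Dl_le _) (w_pos _).le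
    · rw [← Finset.mul_sum, mul_assoc]
      refine mul_le_mul_of_nonneg_left ((h Y hY _ (Finset.notMem_erase _ _)).trans ?_) (by positivity)
      simp
  · rw [tsum_eq_zero_of_not_summable hs, norm_zero]; positivity

theorem t1g_le (k : Eis) {Y : ℝ} (hY : 0 < Y) (t : ℝ) :
    ∃ C : ℝ, ∀ m, ‖t1g k Y t m‖ ≤ C * N m ^ (-2 : ℝ) := by
  obtain ⟨C, hC, h⟩ := t1_triv
  refine ⟨C * Y, fun m => ?_⟩
  have := N_nonneg m
  unfold t1g
  split_ifs with hm
  · have m0 := N_pos hm.ne_zero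
    rw [norm_mul, norm_mul, norm_mul, norm_nit, mul_one, norm_real, Real.norm_of_nonneg (ab_nonneg _)]
    refine (mul_le_mul ((mul_le_of_le_one_right (ab_nonneg _) (norm_cop_le _ _)).trans t1_ab_le)
      (h k _ t (by positivity)) (norm_nonneg _) m0.le).trans (le_of_eq ?_)
    rw [Real.rpow_neg m0.le, Real.rpow_two]
    field_simp
  · rw [norm_zero]; positivity

theorem t1_Th_hasSum (k : Eis) {Y : ℝ} (hY : 0 < Y) (t : ℝ) : HasSum (t1g k Y t) (Th k Y t) := by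
  have hs := summable_N_rpow (s := 2) (by norm_num)
  have c0' := cs_pos
  have s1 : Summable fun p : Eis × Eis => if Prim p.2 then
      (ab p.2 : ℂ) * cop k p.2 * Dl (k * p.1) * W Y t (p.1 * p.2 ^ 3) else 0 := by
    refine ((hs.mul_of_nonneg hs (fun c => Real.rpow_nonneg (N_nonneg c) _)
      fun c => Real.rpow_nonneg (N_nonneg c) _).mul_left
        ((1 + cs) * (Real.exp ((-2) ^ 2 / 4) * Y ^ 2))).of_norm_bounded fun ⟨e, d⟩ => ?_
    have := N_nonneg e
    have := N_nonneg d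
    dsimp only
    split_ifs with hd
    · by_cases he : e = 0
      · rw [he, t1_Dl_zero]; simp
      have d1 := one_le_N hd.ne_zero
      have e0 := N_pos he
      rw [norm_mul, norm_mul, norm_mul, norm_W, norm_real, Real.norm_of_nonneg (ab_nonneg _), N_mul,
        N_pow]
      refine (mul_le_mul (mul_le_mul ((mul_le_of_le_one_right (ab_nonneg _)
        (norm_cop_le _ _)).trans t1_ab_le) (norm_Dl_le _) (norm_nonneg _) (by positivity))
        (w_le_rpow (-2) (by positivity)) (w_pos _).le (by positivity)).trans ?_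
      rw [Real.rpow_neg (by positivity), Real.rpow_neg e0.le, Real.rpow_neg (by positivity),
        Real.rpow_two, Real.rpow_two, Real.rpow_two]
      have e1 : N d * (1 + cs) * (Real.exp ((-2) ^ 2 / 4) * ((N e * N d ^ 3 / Y) ^ 2)⁻¹) =
          (1 + cs) * (Real.exp ((-2) ^ 2 / 4) * Y ^ 2) * ((N e ^ 2)⁻¹ * (N d ^ 2)⁻¹) *
            (N d ^ 3)⁻¹ := by field_simp
      rw [e1]
      exact mul_le_of_le_one_right (by positivity) (inv_le_one_of_one_le₀ (one_le_pow₀ d1))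
    · rw [norm_zero]; positivity
  have s2 := (Equiv.prodComm Eis Eis).hasSum_iff.2 s1.hasSum
  refine s2.prod_fiberwise fun d => ?_
  unfold t1g
  by_cases hd : Prim d
  · simp only [Function.comp, Equiv.prodComm_apply, Prod.swap, hd, if_true]
    have d0 := N_pos hd.ne_zero
    have s3 : Summable fun e => W (Y / N d ^ 3) t e * Dl (k * e) := by
      refine ((summable_w 0 (show 0 < Y / N d ^ 3 by positivity)).mul_left (1 + cs)).of_norm_bounded
        fun e => ?_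
      rw [norm_mul, norm_W, Real.rpow_zero, one_mul, mul_comm]
      exact mul_le_mul_of_nonneg_right (norm_Dl_le _) (w_pos _).le
    refine (congrArg (HasSum · _) (funext fun e => ?_)).mp
      (s3.hasSum.mul_left ((ab d : ℂ) * cop k d * nit t (d ^ 3)))
    by_cases he : e = 0
    · rw [he, t1_Dl_zero]; simp
    · rw [mul_comm e, W_mul Y t he (pow_ne_zero 3 hd.ne_zero), N_pow]; ring
  · simp only [Function.comp, Equiv.prodComm_apply, Prod.swap, hd, if_false]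
    exact hasSum_zero

theorem t1g_mul (k : Eis) (Y t : ℝ) {d : Eis} (hd : Prim d) (c : Eis) :
    t1g k Y t (d * c) = (ab d : ℂ) * cop k d * nit t (d ^ 3) * t1g k (Y / N d ^ 3) t c := by
  unfold t1g
  by_cases hc : Prim c
  · have e1 : cop k (d * c) = cop k d * cop k c := by
      simp only [cop, IsCoprime.mul_left_iff]
      by_cases h1 : IsCoprime d k <;> by_cases h2 : IsCoprime c k <;> simp [h1, h2]
    rw [if_pos (hd.mul hc), if_pos hc, e1, ab_mul, N_mul, mul_pow, mul_pow, div_div,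
      nit_mul t (pow_ne_zero 3 hd.ne_zero) (pow_ne_zero 3 hc.ne_zero)]
    push_cast
    ring
  · rw [if_neg fun h => hc (hd.of_mul h), if_neg hc, mul_zero]

theorem t1_group {φ g : Eis → ℂ} {x : ℂ} (hφ : ∀ d, ¬ PS d → φ d = 0) (h0 : g 0 = 0)
    (h : HasSum (fun p : Eis × Eis => φ p.1 * g (p.1 * p.2)) x) :
    HasSum (fun m => (∑ d ∈ dv m, φ d) * g m) x := by
  refine ((Equiv.sigmaFiberEquiv fun p : Eis × Eis => p.1 * p.2).hasSum_iff.2 h).sigma fun n => ?_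
  by_cases hn : n = 0
  · rw [hn, h0, mul_zero]
    refine (congrArg (HasSum · _) (funext fun a => ?_)).mp hasSum_zero
    obtain ⟨⟨a, b⟩, hab⟩ := a
    exact ((congrArg (fun u => φ a * g u) hab).trans (by rw [h0, mul_zero])).symm
  have h3 : HasSum (fun d : Eis => if d ∣ n then φ d * g n else 0) (∑ d ∈ dv n, φ d * g n) := by
    rw [← Finset.sum_congr rfl fun d (hd : d ∈ dv n) =>
      (if_pos ((mem_dv hn).1 hd).2 : (if d ∣ n then φ d * g n else 0) = φ d * g n)]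
    refine hasSum_sum_of_ne_finset_zero fun d hd => ?_
    split_ifs with h
    · rw [hφ d fun k => hd ((mem_dv hn).2 ⟨k, h⟩), zero_mul]
    · rfl
  have h4 : Function.Injective (fun a : {p : Eis × Eis // p.1 * p.2 = n} => a.1.1) := by
    rintro ⟨⟨a, b⟩, h⟩ ⟨⟨a', b'⟩, h'⟩ (rfl : a = a')
    obtain rfl : b = b' := mul_left_cancel₀ (left_ne_zero_of_mul (h.trans_ne hn)) (h.trans h'.symm)
    rfl
  rw [Finset.sum_mul]
  refine (congrArg (HasSum · _) (funext fun a => ?_)).mp ((h4.hasSum_iff fun d hd =>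
    if_neg fun ⟨b, hb⟩ => hd ⟨⟨(d, b), hb.symm⟩, rfl⟩).2 h3)
  obtain ⟨⟨a, b⟩, rfl⟩ := a
  exact if_pos (dvd_mul_right _ _)

theorem th_moebius {k : Eis} (hk : PS k) {Y : ℝ} (hY : 0 < Y) (t D : ℝ) :
    HasSum (fun m : Eis => if Prim m then (∑ d ∈ dv m, if D < N d then mu d else 0) *
        ((ab m : ℂ) * cop k m * nit t (m ^ 3) * ∑' e, W (Y / N m ^ 3) t e * Dl (k * e)) else 0)
      (∑' e, W Y t e * Dl (k * e) -
        ∑ d ∈ PB D, mu d * (ab d : ℂ) * cop k d * nit t (d ^ 3) * Th k (Y / N d ^ 3) t) := by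
  obtain ⟨C, hC⟩ := t1g_le k hY t
  have h1 := hasSum_moebius (g := t1g k Y t) (fun n hn => if_neg hn) hC
  have e1 : t1g k Y t 1 = ∑' e, W Y t e * Dl (k * e) := by
    simp [t1g, Prim.one, ab, cop, nit, isCoprime_one_left]
  rw [e1] at h1
  have mz : ∀ d, ¬ PS d → mu d = 0 := fun d hd => by_contra fun h => hd (mu_ne_zero.1 h)
  have h2 : Summable fun p : Eis × Eis =>
      (if D < N p.1 then 0 else mu p.1) * t1g k Y t (p.1 * p.2) := by
    refine h1.summable.norm.of_norm_bounded fun p => ?_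
    split_ifs
    · rw [zero_mul, norm_zero]; exact norm_nonneg _
    · exact le_rfl
  have h3 := h2.hasSum.prod_fiberwise (g := fun d => if d ∈ PB D then
      mu d * (ab d : ℂ) * cop k d * nit t (d ^ 3) * Th k (Y / N d ^ 3) t else 0) fun d => by
    by_cases hd : d ∈ PB D
    · obtain ⟨d1, d2⟩ := mem_PB.1 hd
      have d0 := N_pos d1.ne_zero
      simp only [hd, if_true, not_lt.2 d2, if_false, t1g_mul k Y t d1.1, ← mul_assoc]
      exact (t1_Th_hasSum k (by positivity) t).mul_left _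
    · have : (if D < N d then 0 else mu d) = 0 := by
        split_ifs with h
        · rfl
        · exact mz d fun hp => hd (mem_PB.2 ⟨hp, not_lt.1 h⟩)
      simp only [hd, if_false, this, zero_mul]
      exact hasSum_zero
  have h4 := h3.unique (hasSum_sum_of_ne_finset_zero (s := PB D) fun d hd => if_neg hd)
  rw [Finset.sum_congr rfl fun d hd => if_pos hd] at h4
  have h5 := h1.sub h2.hasSum
  rw [h4] at h5
  have h6 := t1_group (φ := fun d => if D < N d then mu d else 0) (g := t1g k Y t)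
    (fun d hd => by simp [mz d hd]) (if_neg fun h => h.ne_zero rfl)
    ((congrArg (HasSum · _) (funext fun p => by split_ifs <;> simp)).mp h5)
  refine (congrArg (HasSum · _) (funext fun m => ?_)).mp h6
  unfold t1g
  split_ifs <;> simp

theorem t1_num {X K Y T κ : ℝ} (hκ : 0 < κ) (hκ' : κ ≤ 1 / 100) (hX : 1 ≤ X) (h0 : X⁻¹ ≤ K)
    (hKY : K * Y = X) (hT : 1 ≤ T) (h1 : T ^ 2 * K ≤ X ^ (2 / 3 - κ))
    (h2 : T ^ 2 * K ^ (3 / 2 : ℝ) ≤ X ^ (5 / 6 - κ)) (h3 : T ≤ 2 * X ^ (1 / 5 : ℝ)) :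
    ∃ D : ℝ, 1 ≤ D ∧ D ^ 3 ≤ Y ∧
      D * √D * (K ^ (1 / 2 + 3 * (κ / 100) + 1 / 2) * T ^ (2 + 4 * (κ / 100))) ≤
        2 * (K ^ (-(1 / 2) : ℝ) * X ^ (5 / 6 - κ / 4)) ∧
      K ^ (κ / 100 - 1 / 6 + 1 / 2) * T * Y ^ (1 / 2 + κ / 100) ≤
        2 * (K ^ (-(1 / 2) : ℝ) * X ^ (5 / 6 - κ / 4)) ∧
      X ^ (κ / 100) * (√X * Y ^ (κ / 100) * D ^ (1 - (1 + 2 * (κ / 100))) +
        Y * D ^ (1 - (5 / 2 - κ / 100)) +
        X ^ (1 / 3 : ℝ) * √Y * D ^ (1 - (2 - κ / 100))) ≤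
        3 * (K ^ (-(1 / 2) : ℝ) * X ^ (5 / 6 - κ / 4)) := by
  have hX0 : 0 < X := by linarith
  have hK : 0 < K := lt_of_lt_of_le (by positivity) h0
  have hT0 : 0 < T := by linarith
  obtain ⟨x, rfl⟩ : ∃ x, X = Real.exp x := ⟨_, (Real.exp_log hX0).symm⟩
  obtain ⟨k, rfl⟩ : ∃ x, K = Real.exp x := ⟨_, (Real.exp_log hK).symm⟩
  obtain ⟨τ, rfl⟩ : ∃ x, T = Real.exp x := ⟨_, (Real.exp_log hT0).symm⟩
  obtain rfl : Y = Real.exp (x - k) := by rw [Real.exp_sub, ← hKY]; field_simp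
  obtain ⟨c, c0, c1, e2⟩ : ∃ c : ℝ, 0 ≤ c ∧ c ≤ 1 ∧ (2 : ℝ) = Real.exp c :=
    ⟨Real.log 2, Real.log_nonneg (by norm_num), by linarith [Real.log_two_lt_d9],
      (Real.exp_log (by norm_num)).symm⟩
  have h3' : Real.exp τ ≤ Real.exp c * Real.exp x ^ (1 / 5 : ℝ) := e2 ▸ h3
  simp only [← Real.exp_neg, ← Real.exp_nat_mul, ← Real.exp_add, ← Real.exp_mul, Real.exp_le_exp,
    Real.one_le_exp_iff] at hX h0 hT h1 h2 h3'
  push_cast at h1 h2
  obtain ⟨μ, μ0, μ1, μ2⟩ : ∃ μ : ℝ, 0 ≤ μ ∧ x / 6 - k / 2 ≤ μ ∧ (μ = 0 ∨ μ = x / 6 - k / 2) :=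
    ⟨max 0 (x / 6 - k / 2), le_max_left _ _, le_max_right _ _, max_choice _ _⟩
  have p1 : 0 ≤ κ * x := by positivity
  have p2 : κ * x ≤ x / 100 := by nlinarith
  have p3 : κ * k ≤ κ * (2 / 3 * x) := mul_le_mul_of_nonneg_left (by linarith) hκ.le
  have p4 : κ * τ ≤ κ * (c + x * (1 / 5)) := mul_le_mul_of_nonneg_left h3' hκ.le
  have p5 : κ * c ≤ c / 100 := by nlinarith
  have p6 : κ * (-x) ≤ κ * k := mul_le_mul_of_nonneg_left h0 hκ.le
  have p7 : 0 ≤ κ * μ := by positivity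
  have p8 : κ * μ ≤ κ * x := mul_le_mul_of_nonneg_left (by rcases μ2 with h | h <;> linarith) hκ.le
  have p9 : 0 ≤ κ * (κ * x) := by positivity
  have p10 : κ * (κ * x) ≤ κ * x / 100 := by nlinarith
  have p11 : κ * μ ≤ μ / 100 := by nlinarith
  refine ⟨Real.exp (2 / 3 * (κ * x / 2 + μ)), Real.one_le_exp (by positivity), ?_, ?_, ?_, ?_⟩
  · rw [← Real.exp_nat_mul, Real.exp_le_exp]
    push_cast
    rcases μ2 with h | h <;> linarith
  · conv_rhs => rw [e2]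
    simp only [← Real.exp_half, ← Real.exp_add, ← Real.exp_mul, Real.exp_le_exp]
    rw [← e2]
    rcases μ2 with h | h <;> linarith
  · conv_rhs => rw [e2]
    simp only [← Real.exp_add, ← Real.exp_mul, Real.exp_le_exp]
    rw [← e2]
    rcases le_total 0 k with h | h
    · linarith
    · linarith
  · rw [mul_add, mul_add]
    simp only [← Real.exp_half, ← Real.exp_add, ← Real.exp_mul]
    refine le_trans (add_le_add (add_le_add (Real.exp_le_exp.2 (?_ : _ ≤ k * -(1 / 2) +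
      x * (5 / 6 - κ / 4))) (Real.exp_le_exp.2 (?_ : _ ≤ k * -(1 / 2) + x * (5 / 6 - κ / 4))))
      (Real.exp_le_exp.2 (?_ : _ ≤ k * -(1 / 2) + x * (5 / 6 - κ / 4)))) (le_of_eq (by ring))
    · linarith
    · linarith
    · linarith

theorem t1_head (hT : TP cs) {e : ℝ} (he : 0 < e) (he' : e ≤ 1 / 4) : ∃ C : ℝ, 0 < C ∧
    ∀ (S : Finset Eis) (α : Eis → ℂ) (K Y t D : ℝ), 0 < K → 1 ≤ D → D ^ 3 ≤ Y → (∀ k ∈ S, PS k) →
      ‖∑ k ∈ S, α k * ∑ d ∈ PB D,
        mu d * (ab d : ℂ) * cop k d * nit t (d ^ 3) * Th k (Y / N d ^ 3) t‖ ≤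
      C * √(nw S α K) * (D * √D * (K ^ (1 / 2 + 3 * e + 1 / 2) * (1 + |t|) ^ (2 + 4 * e)) +
        K ^ (e - 1 / 6 + 1 / 2) * (1 + |t|) * Y ^ (1 / 2 + e)) := by
  obtain ⟨C1, hC1, h1⟩ := ek hT he he'
  obtain ⟨C2, hC2, h2⟩ := l1_le (b := 1 / 2 + 3 * e) (by linarith) (by linarith)
  obtain ⟨C3, hC3, h3⟩ := l1_le (b := e - 1 / 6) (by linarith) (by linarith)
  have h4 := summable_N_rpow (s := 1 + 3 * e) (by linarith)
  obtain ⟨C4, hC4, h5⟩ : ∃ C4 : ℝ, 0 ≤ C4 ∧ ∀ s : Finset Eis, ∑ c ∈ s, N c ^ (-(1 + 3 * e)) ≤ C4 :=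
    ⟨_, tsum_nonneg fun c => Real.rpow_nonneg (N_nonneg c) _,
      fun s => h4.sum_le_tsum s fun c _ => Real.rpow_nonneg (N_nonneg c) _⟩
  refine ⟨C1 * (16 * C2 + C4 * C3), by positivity, fun S α K Y t D hK hD hY hS => ?_⟩
  have hD0 : 0 < D := by linarith
  have hY0 : 0 < Y := lt_of_lt_of_le (by positivity) hY
  have t0 : 0 < 1 + |t| := by positivity
  have S0 : (0 : Eis) ∉ S := fun h => (hS 0 h).ne_zero rfl
  have a1 : ∀ k ∈ S, ‖α k * ∑ d ∈ PB D,
      mu d * (ab d : ℂ) * cop k d * nit t (d ^ 3) * Th k (Y / N d ^ 3) t‖ ≤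
      C1 * (16 * (D * √D) * (1 + |t|) ^ (2 + 4 * e)) * (‖α k‖ * N k ^ (1 / 2 + 3 * e)) +
      C1 * (C4 * ((1 + |t|) * Y ^ (1 / 2 + e))) * (‖α k‖ * N k ^ (e - 1 / 6)) := by
    intro k hk
    have k0 := N_pos (hS k hk).ne_zero
    have b1 : ∀ d ∈ PB D, ‖mu d * (ab d : ℂ) * cop k d * nit t (d ^ 3) * Th k (Y / N d ^ 3) t‖ ≤
        C1 * (N k ^ (1 / 2 + 3 * e) * (1 + |t|) ^ (2 + 4 * e)) * √D +
        C1 * (N k ^ (e - 1 / 6) * (1 + |t|) * Y ^ (1 / 2 + e)) * N d ^ (-(1 + 3 * e)) := by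
      intro d hd
      obtain ⟨d1, d2⟩ := mem_PB.1 hd
      have d0 := N_pos d1.ne_zero
      have c1 := h1 k (hS k hk) (Y / N d ^ 3) t
        ((one_le_div (by positivity)).2 ((pow_le_pow_left₀ d0.le d2 3).trans hY))
      have c2 : ‖mu d * (ab d : ℂ) * cop k d * nit t (d ^ 3)‖ ≤ ab d := by
        rw [norm_mul, norm_mul, norm_mul, norm_nit, mul_one, norm_real,
          Real.norm_of_nonneg (ab_nonneg _)]
        exact (mul_le_of_le_one_right (mul_nonneg (norm_nonneg _) (ab_nonneg _))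
          (norm_cop_le _ _)).trans (mul_le_of_le_one_left (ab_nonneg _) (norm_mu_le _))
      rw [norm_mul]
      refine (mul_le_mul c2 c1 (norm_nonneg _) (ab_nonneg _)).trans ?_
      have c3 : ab d ≤ √D := Real.sqrt_le_sqrt d2
      have c4 : ab d * (Y / N d ^ 3) ^ (1 / 2 + e) = Y ^ (1 / 2 + e) * N d ^ (-(1 + 3 * e)) := by
        rw [far_pow hY0.le d0, ab, Real.sqrt_eq_rpow, mul_left_comm, ← Real.rpow_add d0]
        congr 2; push_cast; ring
      have c5 := mul_le_mul_of_nonneg_left c3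
        (show 0 ≤ C1 * (N k ^ (1 / 2 + 3 * e) * (1 + |t|) ^ (2 + 4 * e)) by positivity)
      calc _ = C1 * (N k ^ (1 / 2 + 3 * e) * (1 + |t|) ^ (2 + 4 * e)) * ab d +
            C1 * (N k ^ (e - 1 / 6) * (1 + |t|)) * (ab d * (Y / N d ^ 3) ^ (1 / 2 + e)) := by ring
        _ ≤ _ := by rw [c4]; linarith
    rw [norm_mul]
    refine (mul_le_mul_of_nonneg_left ((norm_sum_le _ _).trans (Finset.sum_le_sum b1))
      (norm_nonneg _)).trans ?_
    rw [Finset.sum_add_distrib, Finset.sum_const, nsmul_eq_mul, ← Finset.mul_sum]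
    refine (mul_le_mul_of_nonneg_left (add_le_add (mul_le_mul_of_nonneg_right (card_PB_le hD0.le)
      (by positivity)) (mul_le_mul_of_nonneg_left (h5 _) (by positivity))) (norm_nonneg _)).trans
      (le_of_eq (by ring))
  refine (norm_sum_le _ _).trans ((Finset.sum_le_sum a1).trans ?_)
  rw [Finset.sum_add_distrib, ← Finset.mul_sum, ← Finset.mul_sum]
  refine (add_le_add (mul_le_mul_of_nonneg_left (h2 K hK S α S0) (by positivity))
    (mul_le_mul_of_nonneg_left (h3 K hK S α S0) (by positivity))).trans ?_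
  have p1 : 0 ≤ C1 * (C4 * C3) * √(nw S α K) *
    (D * √D * (K ^ (1 / 2 + 3 * e + 1 / 2) * (1 + |t|) ^ (2 + 4 * e))) := by positivity
  have p2 : 0 ≤ C1 * (16 * C2) * √(nw S α K) *
    (K ^ (e - 1 / 6 + 1 / 2) * (1 + |t|) * Y ^ (1 / 2 + e)) := by positivity
  linarith

theorem t1_sq {K Y n e : ℝ} (hK : 0 < K) (hY : 0 < Y) (hn : 0 < n) (he : 0 < e) (he' : e ≤ 1) :
    (K + Y / n ^ 3 + (K * (Y / n ^ 3)) ^ (2 / 3 : ℝ)) * (Y / n ^ 3 * min 1 ((Y / n ^ 3) ^ 10)) *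
      (√n * n ^ e) ^ 2 ≤ (√(K * Y) * Y ^ e * n ^ (-(1 + 2 * e)) + Y * n ^ (-(5 / 2 - e)) +
        (K * Y) ^ (1 / 3 : ℝ) * √Y * n ^ (-(2 - e))) ^ 2 := by
  have y0 : 0 < Y / n ^ 3 := by positivity
  have m1 : min 1 ((Y / n ^ 3) ^ 10) ≤ (Y / n ^ 3) ^ (2 * e) := by
    rcases le_total 1 (Y / n ^ 3) with h | h
    · exact (min_le_left _ _).trans (Real.one_le_rpow h (by positivity))
    · refine (min_le_right _ _).trans ?_
      rw [← Real.rpow_natCast]
      exact Real.rpow_le_rpow_of_exponent_ge y0 h (by push_cast; linarith)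
  have m2 := min_le_left 1 ((Y / n ^ 3) ^ 10)
  have m0 : 0 ≤ min 1 ((Y / n ^ 3) ^ 10) := by positivity
  generalize min 1 ((Y / n ^ 3) ^ 10) = μ at m0 m1 m2
  have e1 : K * (Y / n ^ 3 * (Y / n ^ 3) ^ (2 * e)) * (√n * n ^ e) ^ 2 =
      (√(K * Y) * Y ^ e * n ^ (-(1 + 2 * e))) ^ 2 ∧
      Y / n ^ 3 * (Y / n ^ 3) * (√n * n ^ e) ^ 2 = (Y * n ^ (-(5 / 2 - e))) ^ 2 ∧
      (K * (Y / n ^ 3)) ^ (2 / 3 : ℝ) * (Y / n ^ 3) * (√n * n ^ e) ^ 2 =
        ((K * Y) ^ (1 / 3 : ℝ) * √Y * n ^ (-(2 - e))) ^ 2 := by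
    obtain ⟨k, rfl⟩ : ∃ x, K = Real.exp x := ⟨_, (Real.exp_log hK).symm⟩
    obtain ⟨y, rfl⟩ : ∃ x, Y = Real.exp x := ⟨_, (Real.exp_log hY).symm⟩
    obtain ⟨v, rfl⟩ : ∃ x, n = Real.exp x := ⟨_, (Real.exp_log hn).symm⟩
    simp only [← Real.exp_half, ← Real.exp_nat_mul, ← Real.exp_sub, ← Real.exp_add, ← Real.exp_mul]
    refine ⟨?_, ?_, ?_⟩ <;> congr 1 <;> push_cast <;> ring
  obtain ⟨e1, e2, e3⟩ := e1
  have a1 := mul_le_mul_of_nonneg_left m1
    (show 0 ≤ K * (Y / n ^ 3) * (√n * n ^ e) ^ 2 by positivity)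
  have a2 := mul_le_mul_of_nonneg_left m2 (show 0 ≤ (Y / n ^ 3 + (K * (Y / n ^ 3)) ^ (2 / 3 : ℝ)) *
    (Y / n ^ 3) * (√n * n ^ e) ^ 2 by positivity)
  have p1 : 0 ≤ √(K * Y) * Y ^ e * n ^ (-(1 + 2 * e)) := by positivity
  have p2 : 0 ≤ Y * n ^ (-(5 / 2 - e)) := by positivity
  have p3 : 0 ≤ (K * Y) ^ (1 / 3 : ℝ) * √Y * n ^ (-(2 - e)) := by positivity
  generalize √(K * Y) * Y ^ e * n ^ (-(1 + 2 * e)) = s1 at *
  generalize Y * n ^ (-(5 / 2 - e)) = s2 at *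
  generalize (K * Y) ^ (1 / 3 : ℝ) * √Y * n ^ (-(2 - e)) = s3 at *
  have := mul_nonneg p1 p2
  have := mul_nonneg p1 p3
  have := mul_nonneg p2 p3
  linarith

theorem t1_tail {e : ℝ} (he : 0 < e) (he' : e ≤ 1 / 4) : ∃ C : ℝ, 0 < C ∧
    ∀ (S : Finset Eis) (α : Eis → ℂ) (K Y Z t D : ℝ) (x : ℂ), 0 < K → 0 < Y → 0 < Z → 0 < D →
      (∀ k ∈ S, Prim k ∧ N k ≤ Z) →
      HasSum (fun m => ∑ k ∈ S, α k * if Prim m then (∑ d ∈ dv m, if D < N d then mu d else 0) *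
        ((ab m : ℂ) * cop k m * nit t (m ^ 3) * ∑' e, W (Y / N m ^ 3) t e * Dl (k * e)) else 0) x →
      ‖x‖ ≤ C * √(nw S α K) * (√(ell Z) * (√(K * Y) * Y ^ e * D ^ (1 - (1 + 2 * e)) +
        Y * D ^ (1 - (5 / 2 - e)) + (K * Y) ^ (1 / 3 : ℝ) * √Y * D ^ (1 - (2 - e)))) := by
  obtain ⟨C1, hC1, h1⟩ := bilW
  obtain ⟨C2, hC2, h2⟩ := card_dv_le he
  obtain ⟨C3, hC3, h3⟩ := cnt_tail (s := 1 + 2 * e) (by linarith)
  obtain ⟨C4, hC4, h4⟩ := cnt_tail (s := 5 / 2 - e) (by linarith)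
  obtain ⟨C5, hC5, h5⟩ := cnt_tail (s := 2 - e) (by linarith)
  refine ⟨√C1 * C2 * (C3 + C4 + C5), by positivity, fun S α K Y Z t D x hK hY hZ hD hS hx => ?_⟩
  refine le_of_tendsto' (Filter.Tendsto.norm hx) fun s => (norm_sum_le _ _).trans ?_
  have l0 := ls_ell_nonneg hZ.le
  have n0 := nw_nonneg S α K
  set c := √C1 * C2 * √(nw S α K) * √(ell Z) with hc
  have c0 : 0 ≤ c := by positivity
  refine (Finset.sum_le_sum (g := fun m => c * (√(K * Y) * Y ^ e *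
    (if D < N m then N m ^ (-(1 + 2 * e)) else 0) + Y * (if D < N m then N m ^ (-(5 / 2 - e)) else 0) +
    (K * Y) ^ (1 / 3 : ℝ) * √Y * (if D < N m then N m ^ (-(2 - e)) else 0))) fun m _ => ?_).trans ?_
  · have n1 := N_nonneg m
    by_cases hm : Prim m
    · have m0 := N_pos hm.ne_zero
      simp only [hm, if_true]
      by_cases hD' : D < N m
      · simp only [hD', if_true]
        have e1 : ∑ k ∈ S, α k * ((∑ d ∈ dv m, if D < N d then mu d else 0) *
            ((ab m : ℂ) * cop k m * nit t (m ^ 3) * ∑' e, W (Y / N m ^ 3) t e * Dl (k * e))) =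
            (∑ d ∈ dv m, if D < N d then mu d else 0) * (ab m : ℂ) * nit t (m ^ 3) *
              ∑ k ∈ S, α k * cop k m * ∑' e, 1 * W (Y / N m ^ 3) t e * Dl (k * e) := by
          rw [Finset.mul_sum]
          refine Finset.sum_congr rfl fun k _ => ?_
          simp only [one_mul]; ring
        have e2 : ‖∑ d ∈ dv m, if D < N d then mu d else 0‖ ≤ C2 * N m ^ e := by
          refine (norm_sum_le _ _).trans (le_trans ?_ (h2 m hm.ne_zero))
          rw [Finset.card_eq_sum_ones]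
          push_cast
          refine Finset.sum_le_sum fun d _ => ?_
          split_ifs
          · exact norm_mu_le d
          · simp
        have e3 := h1 S (fun k => α k * cop k m) (fun _ => 1) K (Y / N m ^ 3) Z t hK (by positivity)
          hZ hS (fun _ => by simp)
        have e4 : nw S (fun k => α k * cop k m) K ≤ nw S α K := nw_mono subset_rfl (fun k _ => by
          rw [norm_mul]; exact mul_le_of_le_one_right (norm_nonneg _) (norm_cop_le _ _)) K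
        have e5 := t1_sq hK hY m0 he (by linarith)
        rw [e1, norm_mul, norm_mul, norm_mul, norm_nit, mul_one, norm_real,
          Real.norm_of_nonneg (ab_nonneg _)]
        refine (mul_le_mul_of_nonneg_right (mul_le_mul_of_nonneg_right e2 (ab_nonneg _))
          (norm_nonneg _)).trans (abs_le_of_sq_le_sq' ?_ (by positivity)).2
        rw [mul_pow]
        refine (mul_le_mul_of_nonneg_left (e3.trans (mul_le_mul_of_nonneg_right
          (mul_le_mul_of_nonneg_left e4 (by positivity)) (by positivity))) (by positivity)).trans ?_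
        have e6 : c ^ 2 = C1 * C2 ^ 2 * nw S α K * ell Z := by
          rw [hc, mul_pow, mul_pow, mul_pow, Real.sq_sqrt l0, Real.sq_sqrt n0, Real.sq_sqrt hC1.le]
        rw [mul_pow c, e6]
        refine le_trans (le_of_eq ?_) (mul_le_mul_of_nonneg_left e5 (by positivity))
        unfold ab
        ring
      · have : (∑ d ∈ dv m, if D < N d then mu d else 0) = 0 :=
          Finset.sum_eq_zero fun d hd => if_neg fun h =>
            hD' (h.trans_le (N_le_of_dvd hm.ne_zero ((mem_dv hm.ne_zero).1 hd).2))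
        simp [this, hD']
    · simp only [hm, if_false, mul_zero, Finset.sum_const_zero, norm_zero]
      split_ifs <;> positivity
  rw [← Finset.mul_sum, Finset.sum_add_distrib, Finset.sum_add_distrib, ← Finset.mul_sum,
    ← Finset.mul_sum, ← Finset.mul_sum]
  have a1 := mul_le_mul_of_nonneg_left ((h3 D hD s).trans (mul_le_mul_of_nonneg_right
    (show C3 ≤ C3 + C4 + C5 by linarith) (by positivity))) (show 0 ≤ √(K * Y) * Y ^ e by positivity)
  have a2 := mul_le_mul_of_nonneg_left ((h4 D hD s).trans (mul_le_mul_of_nonneg_right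
    (show C4 ≤ C3 + C4 + C5 by linarith) (by positivity))) hY.le
  have a3 := mul_le_mul_of_nonneg_left ((h5 D hD s).trans (mul_le_mul_of_nonneg_right
    (show C5 ≤ C3 + C4 + C5 by linarith) (by positivity)))
    (show 0 ≤ (K * Y) ^ (1 / 3 : ℝ) * √Y by positivity)
  refine (mul_le_mul_of_nonneg_left (add_le_add (add_le_add a1 a2) a3) c0).trans (le_of_eq ?_)
  rw [hc]; ring

theorem t1_ell {e : ℝ} (he : 0 < e) : ∃ C : ℝ, 0 < C ∧ ∀ X : ℝ, 1 ≤ X →
    √(ell (X ^ 20)) ≤ C * X ^ e := by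
  refine ⟨2 + 20 / e, by positivity, fun X hX => ?_⟩
  have hX0 : 0 < X := by linarith
  have l1 := ls_one_le_log (show 0 ≤ X ^ 20 by positivity)
  have a1 : √(ell (X ^ 20)) ≤ Real.log (3 + X ^ 20) := by
    unfold ell
    rw [Real.sqrt_eq_rpow, ← Real.rpow_mul (by linarith)]
    simpa using Real.rpow_le_rpow_of_exponent_le l1 (show (5 / 4 * (1 / 2) : ℝ) ≤ 1 by norm_num)
  have a2 := Real.log_le_log (by positivity)
    (show 3 + X ^ 20 ≤ 2 ^ 2 * X ^ 20 by linarith [one_le_pow₀ hX (n := 20)])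
  rw [Real.log_mul (by norm_num) (by positivity), Real.log_pow, Real.log_pow] at a2
  have a3 := Real.log_le_rpow_div hX0.le he
  have a4 := Real.one_le_rpow hX he.le
  have a5 := Real.log_two_lt_d9
  push_cast at a2
  rw [add_mul, div_mul_eq_mul_div, mul_div_assoc]
  linarith

theorem t1 (hT : TP cs) {κ : ℝ} (hκ : 0 < κ) (hκ' : κ ≤ 1 / 100) : ∃ C : ℝ, 0 < C ∧
    ∀ (S : Finset Eis) (α : Eis → ℂ) (X K Y t : ℝ), 1 ≤ X → X⁻¹ ≤ K → K * Y = X →
    (1 + |t|) ^ 2 * K ≤ X ^ (2 / 3 - κ) → (1 + |t|) ^ 2 * K ^ (3 / 2 : ℝ) ≤ X ^ (5 / 6 - κ) →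
    |t| ≤ X ^ (1 / 5 : ℝ) → (∀ k ∈ S, Prim k ∧ N k ≤ X ^ 20) →
      ‖∑ k ∈ S, α k * ∑' e, W Y t e * Dl (k * e)‖ ≤
        C * √(nw S α K) * K ^ (-(1 / 2) : ℝ) * X ^ (5 / 6 - κ / 4) := by
  obtain ⟨C1, hC1, h1⟩ := t1_head hT (e := κ / 100) (by positivity) (by linarith)
  obtain ⟨C2, hC2, h2⟩ := t1_tail (e := κ / 100) (by positivity) (by linarith)
  obtain ⟨C3, hC3, h3⟩ := t1_ell (e := κ / 100) (by positivity)
  refine ⟨4 * C1 + 3 * (C2 * C3), by positivity, fun S α X K Y t hX hK hKY b1 b2 b3 hS => ?_⟩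
  have hX0 : 0 < X := by linarith
  have hK0 : 0 < K := lt_of_lt_of_le (by positivity) hK
  obtain ⟨D, d1, d2, d3, d4, d5⟩ := t1_num hκ hκ' hX hK hKY (by linarith [abs_nonneg t]) b1 b2
    (by linarith [Real.one_le_rpow hX (show (0 : ℝ) ≤ 1 / 5 by norm_num)])
  have hY : 0 < Y := lt_of_lt_of_le (by positivity) d2
  have s1 : ∀ k ∈ S.filter PS, PS k := fun k hk => (Finset.mem_filter.1 hk).2
  have e0 : ∑ k ∈ S, α k * ∑' e, W Y t e * Dl (k * e) =
      ∑ k ∈ S.filter PS, α k * ∑' e, W Y t e * Dl (k * e) := by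
    rw [Finset.sum_filter]
    refine Finset.sum_congr rfl fun k hk => ?_
    split_ifs with h
    · rfl
    · simp [fun e => Dl_of_not (c := k * e) fun h' => h (PS.of_mul (hS k hk).1 h').1]
  have a1 := h1 (S.filter PS) α K Y t D hK0 d1 d2 s1
  have a2 := h2 (S.filter PS) α K Y (X ^ 20) t D _ hK0 hY (by positivity) (by linarith)
    (fun k hk => hS k (Finset.mem_filter.1 hk).1)
    (hasSum_sum fun k hk => (th_moebius (s1 k hk) hY t D).mul_left (α k))
  simp only [mul_sub (α _), Finset.sum_sub_distrib] at a2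
  rw [hKY] at a2
  rw [e0]
  have n1 : √(nw (S.filter PS) α K) ≤ √(nw S α K) :=
    Real.sqrt_le_sqrt (nw_mono (Finset.filter_subset _ _) (fun _ _ => le_rfl) _)
  have t0 : 0 < 1 + |t| := by positivity
  have hD : 0 < D := by linarith
  have a3 := a1.trans (mul_le_mul (mul_le_mul_of_nonneg_left n1 hC1.le) (add_le_add d3 d4)
    (by positivity) (by positivity))
  have a4 := a2.trans (mul_le_mul (mul_le_mul_of_nonneg_left n1 hC2.le)
    ((mul_le_mul_of_nonneg_right (h3 X hX) (by positivity)).trans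
      (le_of_eq_of_le (mul_assoc _ _ _) (mul_le_mul_of_nonneg_left d5 hC3.le)))
    (by positivity) (by positivity))
  refine (norm_le_norm_sub_add _ _).trans ((add_le_add a4 a3).trans (le_of_eq (by ring)))

end Vale.Agent.P006
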