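import Vale.Agent.P006.T1
import Vale.Agent.P006.Rank

/-! Type I sums with a rough smooth variable: head and tail of the sieve. -/

namespace Vale.Agent.P006

open Vale.Agent.P026 Eis Complex MeasureTheory Filter Topology
open scoped Classical ComplexConjugate

theorem t1s_WW (Y t s : ℝ) {d m : Eis} (hd : d ≠ 0) (hm : m ≠ 0) :
    W (Real.exp s) t d * W (Y / Real.exp s) t m =
      ((lg 1 (N d / Real.exp s) * lg 1 (N m / (Y / Real.exp s)) : ℝ) : ℂ) * nit t (d * m) := by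
  rw [W, W, nit_mul t hd hm, lg_one, lg_one]
  push_cast
  ring

theorem W2_conv {Y : ℝ} (hY : 0 < Y) (t : ℝ) {d m : Eis} (hd : d ≠ 0) (hm : m ≠ 0) :
    Integrable (fun s : ℝ => W (Real.exp s) t d * W (Y / Real.exp s) t m) ∧
    W2 Y t (d * m) = ((√(Real.pi / 2))⁻¹ : ℝ) *
      ∫ s : ℝ, W (Real.exp s) t d * W (Y / Real.exp s) t m := by
  obtain ⟨h1, h2⟩ := lg_conv (N_pos hd) (N_pos hm) hY
  simp only [t1s_WW Y t _ hd hm]
  refine ⟨h1.ofReal.mul_const _, ?_⟩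
  have h0 : √(Real.pi / 2) ≠ 0 := by positivity
  rw [integral_mul_const, integral_complex_ofReal, h2, W2, N_mul, ← mul_assoc, ← ofReal_mul,
    inv_mul_cancel_left₀ h0]

/-- The map (k, δ) ↦ k δ is injective on rough times smooth (ro_smo_unique): a sum over pairs is a sum
over a finite set of primary elements, and the weighted norm is bounded by vp_mul_le. -/
theorem pair_push {z : ℝ} (P : Finset (Eis × Eis)) (hP : ∀ p ∈ P, Ro z p.1 ∧ Smo z p.2)
    (c : Eis × Eis → ℂ) : ∃ α : Eis → ℂ, (∀ F : Eis → ℂ,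
      ∑ p ∈ P, c p * F (p.1 * p.2) = ∑ a ∈ P.image (fun p => p.1 * p.2), α a * F a) ∧
      ∀ K R : ℝ, nw (P.image (fun p => p.1 * p.2)) α (K * R) ≤
        ∑ p ∈ P, ‖c p‖ ^ 2 * (vp (N p.1 / K) * vp (N p.2 / R)) := by
  have hinj : ∀ p ∈ P, ∀ q ∈ P, p.1 * p.2 = q.1 * q.2 → p = q := fun p hp q hq h => by
    obtain ⟨h1, h2⟩ := ro_smo_unique (hP p hp).1 (hP q hq).1 (hP p hp).2 (hP q hq).2 h
    exact Prod.ext h1 h2
  have hα : ∀ p ∈ P, ∑ q ∈ P.filter (fun q => q.1 * q.2 = p.1 * p.2), c q = c p := fun p hp => by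
    refine Finset.sum_eq_single_of_mem p (Finset.mem_filter.2 ⟨hp, rfl⟩) fun q hq hne => ?_
    exact absurd (hinj q (Finset.mem_filter.1 hq).1 p hp (Finset.mem_filter.1 hq).2) hne
  refine ⟨fun a => ∑ q ∈ P.filter (fun q => q.1 * q.2 = a), c q, fun F => ?_, fun K R => ?_⟩
  · rw [Finset.sum_image hinj]
    exact Finset.sum_congr rfl fun p hp => by simp only [hα p hp]
  · rw [nw, Finset.sum_image hinj]
    refine Finset.sum_le_sum fun p hp => ?_
    rw [hα p hp, N_mul, mul_div_mul_comm]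
    exact mul_le_mul_of_nonneg_left (vp_mul_le _ _) (by positivity)

theorem t1s_lg {c : ℝ} (hc : 0 < c) : ∃ C : ℝ, 0 < C ∧ ∀ Y : ℝ, 0 < Y →
    ∀ S : Finset Eis, (0 : Eis) ∉ S → ∑ n ∈ S, lg c (N n / Y) ≤ C * Y := by
  obtain ⟨C, hC, h⟩ := sum_lg_le (k := 0) hc (by norm_num)
  refine ⟨C, hC, fun Y hY S hS => ?_⟩
  simpa using h Y hY S hS

theorem t1s_sum {c : ℝ} (hc : 0 < c) : ∃ C : ℝ, 0 < C ∧ ∀ Y B : ℝ, 0 < Y → 0 ≤ B →
    ∀ f : Eis → ℝ, (∀ m, 0 ≤ f m) → f 0 = 0 → (∀ m, m ≠ 0 → f m ≤ B * lg c (N m / Y)) →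
      Summable f ∧ ∑' m, f m ≤ B * (C * Y) := by
  obtain ⟨C, hC, h⟩ := t1s_lg hc
  refine ⟨C, hC, fun Y B hY hB f h0 h1 h2 => ?_⟩
  have key : ∀ u : Finset Eis, ∑ m ∈ u, f m ≤ B * (C * Y) := fun u => by
    rw [← Finset.sum_erase u h1]
    refine (Finset.sum_le_sum fun m hm => h2 m (Finset.ne_of_mem_erase hm)).trans ?_
    rw [← Finset.mul_sum]
    exact mul_le_mul_of_nonneg_left (h Y hY _ (Finset.notMem_erase _ _)) hB
  exact ⟨summable_of_sum_le h0 key, Real.tsum_le_of_sum_le h0 key⟩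

theorem t1s_Dl0 : Dl 0 = 0 := Dl_of_not fun h => h.ne_zero rfl

theorem t1s_triv : ∃ C : ℝ, 0 < C ∧ ∀ Y : ℝ, 0 < Y → ∀ (t : ℝ) (a : Eis),
    Summable (fun m => W Y t m * Dl (a * m)) ∧ ‖∑' m, W Y t m * Dl (a * m)‖ ≤ C * Y := by
  obtain ⟨C, hC, h⟩ := t1s_sum one_pos
  have hcs := cs_pos
  refine ⟨(1 + cs) * C, by positivity, fun Y hY t a => ?_⟩
  obtain ⟨h1, h2⟩ := h Y (1 + cs) hY (by positivity) (fun m => ‖W Y t m * Dl (a * m)‖)
    (fun _ => norm_nonneg _) (by simp [t1s_Dl0]) fun m _ => by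
      rw [norm_mul, norm_W, lg_one, mul_comm]
      exact mul_le_mul_of_nonneg_right (norm_Dl_le _) (Real.exp_pos _).le
  exact ⟨h1.of_norm, (norm_tsum_le_tsum_norm h1).trans (h2.trans_eq (mul_assoc _ _ _).symm)⟩

theorem t1s_int {Y : ℝ} (hY : 0 < Y) (t : ℝ) (P : Finset (Eis × Eis)) (hP : ∀ p ∈ P, p.2 ≠ 0)
    (c : Eis × Eis → ℂ) :
    ∑ p ∈ P, c p * ∑' m, W2 Y t (p.2 * m) * Dl (p.1 * (p.2 * m)) =
      ((√(Real.pi / 2))⁻¹ : ℝ) * ∫ s : ℝ, ∑ p ∈ P, c p * W (Real.exp s) t p.2 *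
        ∑' m, W (Y / Real.exp s) t m * Dl (p.1 * p.2 * m) := by
  obtain ⟨C, -, hC⟩ := t1s_sum (c := 1 / 2) (by norm_num)
  obtain ⟨C', -, hC'⟩ := t1s_triv
  have hcs := cs_pos
  let F : Eis × Eis → Eis → ℝ → ℂ := fun p m s =>
    W (Real.exp s) t p.2 * W (Y / Real.exp s) t m * (c p * Dl (p.1 * p.2 * m))
  have hF0 : ∀ p, F p 0 = fun _ => 0 := fun p => funext fun s => by simp [F, t1s_Dl0]
  have hFi : ∀ p ∈ P, ∀ m, Integrable (F p m) := fun p hp m => by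
    by_cases hm : m = 0
    · rw [hm, hF0]; exact integrable_zero _ _ _
    · exact (W2_conv hY t (hP p hp) hm).1.mul_const _
  have hFe : ∀ p ∈ P, ∀ m, (((√(Real.pi / 2))⁻¹ : ℝ) : ℂ) * ∫ s, F p m s =
      c p * (W2 Y t (p.2 * m) * Dl (p.1 * (p.2 * m))) := fun p hp m => by
    by_cases hm : m = 0
    · rw [hm, hF0]; simp [t1s_Dl0]
    · rw [integral_mul_const, ← mul_assoc, ← (W2_conv hY t (hP p hp) hm).2, mul_assoc p.1]
      ring
  have hFs : ∀ p ∈ P, Summable fun m => ∫ s, ‖F p m s‖ := fun p hp => by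
    refine (hC (Y / N p.2) (√(Real.pi / 2) * (‖c p‖ * (1 + cs))) (div_pos hY (N_pos (hP p hp)))
      (by positivity) _ (fun m => integral_nonneg fun _ => norm_nonneg _) (by simp [hF0])
      fun m hm => ?_).1
    have e : ∀ s, ‖F p m s‖ = lg 1 (N p.2 / Real.exp s) * lg 1 (N m / (Y / Real.exp s)) *
        ‖c p * Dl (p.1 * p.2 * m)‖ := fun s => by
      simp only [F, norm_mul, norm_W, lg_one]
    simp only [e]
    rw [integral_mul_const, (lg_conv (N_pos (hP p hp)) (N_pos hm) hY).2, div_div_eq_mul_div,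
      mul_comm (N m), mul_right_comm, norm_mul]
    have := lg_pos (1 / 2) (N p.2 * N m / Y)
    have := norm_Dl_le (p.1 * p.2 * m)
    gcongr
  have hS : ∀ p ∈ P, Summable fun m => W2 Y t (p.2 * m) * Dl (p.1 * (p.2 * m)) := fun p hp => by
    refine (hC (Y / N p.2) (1 + cs) (div_pos hY (N_pos (hP p hp))) (by positivity)
      (fun m => ‖W2 Y t (p.2 * m) * Dl (p.1 * (p.2 * m))‖) (fun _ => norm_nonneg _)
      (by simp [t1s_Dl0]) fun m _ => ?_).1.of_norm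
    rw [norm_mul, norm_W2, N_mul, div_div_eq_mul_div, mul_comm (N m), mul_comm (1 + cs)]
    exact mul_le_mul_of_nonneg_left (norm_Dl_le _) (lg_pos _ _).le
  have h1 := (hasSum_integral_of_summable_integral_norm (F := fun m s => ∑ p ∈ P, F p m s)
    (fun m => integrable_finsetSum _ fun p hp => hFi p hp m)
    ((summable_sum hFs).of_nonneg_of_le (fun m => integral_nonneg fun _ => norm_nonneg _)
      fun m => by
        rw [← integral_finsetSum _ fun p hp => (hFi p hp m).norm]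
        exact integral_mono (integrable_finsetSum _ fun p hp => hFi p hp m).norm
          (integrable_finsetSum _ fun p hp => (hFi p hp m).norm)
          fun s => norm_sum_le _ _)).mul_left (((√(Real.pi / 2))⁻¹ : ℝ) : ℂ)
  have h2 := hasSum_sum fun p hp => (hS p hp).hasSum.mul_left (c p)
  have e1 : ∀ m, (((√(Real.pi / 2))⁻¹ : ℝ) : ℂ) * ∫ s, ∑ p ∈ P, F p m s =
      ∑ p ∈ P, c p * (W2 Y t (p.2 * m) * Dl (p.1 * (p.2 * m))) := fun m => by
    rw [integral_finsetSum _ fun p hp => hFi p hp m, Finset.mul_sum]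
    exact Finset.sum_congr rfl fun p hp => hFe p hp m
  simp only [e1] at h1
  rw [h2.unique h1]
  congr 1
  refine integral_congr_ae (Eventually.of_forall fun s => ?_)
  refine (hasSum_sum fun p _ => ?_).tsum_eq
  have h3 := (hC' (Y / Real.exp s) (div_pos hY (Real.exp_pos s)) t (p.1 * p.2)).1.hasSum.mul_left
    (c p * W (Real.exp s) t p.2)
  have e2 : (fun m => F p m s) =
      fun m => c p * W (Real.exp s) t p.2 * (W (Y / Real.exp s) t m * Dl (p.1 * p.2 * m)) :=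
    funext fun m => by simp only [F]; ring
  rw [e2]
  exact h3

theorem t1s_out {x D R s : ℝ} (h1 : 1 ≤ x) (h2 : x ≤ D) (hR : 0 ≤ R)
    (hs : s ∉ Set.Icc (-R) (Real.log D + R)) :
    w (x / Real.exp s) ≤ Real.exp (-(R ^ 2 / 4)) * (Real.exp (-(1 / 4) * s ^ 2) +
      Real.exp (-(1 / 4) * (s - Real.log D) ^ 2)) * lg (1 / 2) (x / Real.exp s) := by
  have hx : 0 < x := by linarith
  have l1 : 0 ≤ Real.log x := Real.log_nonneg h1
  have l2 : Real.log x ≤ Real.log D := Real.log_le_log hx h2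
  rw [w, lg, Real.log_div hx.ne' (Real.exp_pos s).ne', Real.log_exp]
  have key : ∀ v : ℝ, R ^ 2 ≤ (Real.log x - s) ^ 2 → v ^ 2 ≤ (Real.log x - s) ^ 2 →
      Real.exp (-(Real.log x - s) ^ 2) ≤ Real.exp (-(R ^ 2 / 4)) * Real.exp (-(1 / 4) * v ^ 2) *
        Real.exp (-(1 / 2 * (Real.log x - s) ^ 2)) := fun v a b => by
    rw [← Real.exp_add, ← Real.exp_add]
    exact Real.exp_le_exp.2 (by linarith)
  have p1 := Real.exp_pos (-(1 / 4) * s ^ 2)
  have p2 := Real.exp_pos (-(1 / 4) * (s - Real.log D) ^ 2)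
  rw [Set.mem_Icc, not_and_or, not_le, not_le] at hs
  rcases hs with hs | hs
  · refine (key s (by nlinarith) (by nlinarith)).trans ?_
    gcongr
    linarith
  · refine (key (s - Real.log D) (by nlinarith) (by nlinarith)).trans ?_
    gcongr
    linarith

theorem t1s_far : ∃ C : ℝ, 0 < C ∧ ∀ (S T : Finset Eis) (α : Eis → ℂ) (K Y t D R s : ℝ),
    0 < K → 0 < Y → 0 ≤ R → (0 : Eis) ∉ S → T ⊆ PB D → s ∉ Set.Icc (-R) (Real.log D + R) →
    ‖∑ p ∈ S ×ˢ T, α p.1 * mu p.2 * W (Real.exp s) t p.2 *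
        ∑' m, W (Y / Real.exp s) t m * Dl (p.1 * p.2 * m)‖ ≤
      C * √(nw S α K) * K ^ (1 / 2 : ℝ) * Y * Real.exp (-(R ^ 2 / 4)) *
        (Real.exp (-(1 / 4) * s ^ 2) + Real.exp (-(1 / 4) * (s - Real.log D) ^ 2)) := by
  obtain ⟨C1, hC1, h1⟩ := t1s_triv
  obtain ⟨C2, hC2, h2⟩ := l1_le (b := 0) (by norm_num) (by norm_num)
  obtain ⟨C3, hC3, h3⟩ := t1s_lg (c := 1 / 2) (by norm_num)
  refine ⟨C1 * C2 * C3, by positivity, fun S T α K Y t D R s hK hY hR hS hT hs => ?_⟩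
  have he := Real.exp_pos s
  set E := Real.exp (-(R ^ 2 / 4)) * (Real.exp (-(1 / 4) * s ^ 2) +
      Real.exp (-(1 / 4) * (s - Real.log D) ^ 2)) with hE
  have hE0 : 0 ≤ E := by positivity
  have a2 := h2 K hK S α hS
  simp only [Real.rpow_zero, mul_one, zero_add] at a2
  have a3 := h3 _ he T fun h => (mem_PB.1 (hT h)).1.ne_zero rfl
  calc _ ≤ ∑ p ∈ S ×ˢ T, ‖α p.1‖ * lg (1 / 2) (N p.2 / Real.exp s) *
          (E * (C1 * (Y / Real.exp s))) := by
        refine norm_sum_le_of_le _ fun p hp => ?_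
        obtain ⟨b1, b2⟩ := mem_PB.1 (hT (Finset.mem_product.1 hp).2)
        have b3 := t1s_out (one_le_N b1.ne_zero) b2 hR hs
        have b4 := (h1 _ (div_pos hY he) t (p.1 * p.2)).2
        have b5 := norm_mu_le p.2
        have b6 : 0 ≤ w (N p.2 / Real.exp s) := (Real.exp_pos _).le
        have b7 := lg_pos (1 / 2) (N p.2 / Real.exp s)
        rw [norm_mul, norm_mul, norm_mul, norm_W]
        calc _ ≤ ‖α p.1‖ * 1 * (E * lg (1 / 2) (N p.2 / Real.exp s)) * (C1 * (Y / Real.exp s)) := by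
              gcongr
          _ = _ := by ring
    _ = (∑ k ∈ S, ‖α k‖) * (∑ δ ∈ T, lg (1 / 2) (N δ / Real.exp s)) *
          (E * (C1 * (Y / Real.exp s))) := by
        rw [← Finset.sum_mul, Finset.sum_mul_sum, Finset.sum_product]
    _ ≤ (C2 * √(nw S α K) * K ^ (1 / 2 : ℝ)) * (C3 * Real.exp s) *
          (E * (C1 * (Y / Real.exp s))) := by
        have : 0 ≤ ∑ δ ∈ T, lg (1 / 2) (N δ / Real.exp s) :=
          Finset.sum_nonneg fun _ _ => (lg_pos _ _).le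
        gcongr
    _ = _ := by rw [hE]; field_simp

theorem t1s_near (hT : TP cs) {κ : ℝ} (hκ : 0 < κ) (hκ' : κ ≤ 1 / 100) : ∃ C : ℝ, 0 < C ∧
    ∀ (S T : Finset Eis) (α : Eis → ℂ) (X K Y t z D r : ℝ), 1 ≤ X → X ^ (-(1 / 2) : ℝ) ≤ K →
    K * Y = X → D ≤ X ^ (8 : ℝ) → (1 + |t|) ^ 2 * (K * D) ≤ X ^ (2 / 3 - κ) →
    (1 + |t|) ^ 2 * (K * D) ^ (3 / 2 : ℝ) ≤ X ^ (5 / 6 - κ) → |t| ≤ X ^ (1 / 5 : ℝ) →
    (∀ k ∈ S, Ro z k ∧ N k ≤ X ^ 12) → (∀ δ ∈ T, Smo z δ ∧ N δ ≤ D) →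
    X ^ (-(κ / 10)) ≤ r → r ≤ D * X ^ (κ / 10) →
    ‖∑ p ∈ S ×ˢ T, α p.1 * mu p.2 * W r t p.2 * ∑' m, W (Y / r) t m * Dl (p.1 * p.2 * m)‖ ≤
      C * √(nw S α K) * K ^ (-(1 / 2) : ℝ) * X ^ (5 / 6 - κ / 8) := by
  obtain ⟨C1, hC1, h1⟩ := t1 hT (half_pos hκ) (by linarith)
  obtain ⟨C2, hC2, h2⟩ := t1s_lg one_pos
  refine ⟨C1 * √(2 * Real.exp 4 * C2), by positivity,
    fun S T α X K Y t z D r hX hK hY hD a1 a2 a3 hS hT' r1 r2 => ?_⟩
  have hX0 : 0 < X := by linarith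
  have hK0 : 0 < K := (Real.rpow_pos_of_pos hX0 _).trans_le hK
  have hr : 0 < r := (Real.rpow_pos_of_pos hX0 _).trans_le r1
  have hx := Real.rpow_pos_of_pos hX0 (κ / 10)
  have hD0 : 0 < D := (mul_pos_iff_of_pos_right hx).1 (hr.trans_le r2)
  obtain ⟨β, hβ, hn⟩ := pair_push (z := z) (S ×ˢ T) (fun p hp =>
    ⟨(hS _ (Finset.mem_product.1 hp).1).1, (hT' _ (Finset.mem_product.1 hp).2).1⟩)
    fun p => α p.1 * mu p.2 * W r t p.2
  rw [hβ fun a => ∑' m, W (Y / r) t m * Dl (a * m)]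
  have hKr : K * r ≤ K * D * X ^ (κ / 10) := by
    rw [mul_assoc]; exact mul_le_mul_of_nonneg_left r2 hK0.le
  have c1 : X⁻¹ ≤ K * r := by
    refine le_trans ?_ (mul_le_mul hK r1 (by positivity) hK0.le)
    rw [← Real.rpow_add hX0, ← Real.rpow_neg_one]
    exact Real.rpow_le_rpow_of_exponent_le hX (by linarith)
  have c2 : (1 + |t|) ^ 2 * (K * r) ≤ X ^ (2 / 3 - κ / 2) := by
    calc _ ≤ (1 + |t|) ^ 2 * (K * D) * X ^ (κ / 10) := by
          rw [mul_assoc]; exact mul_le_mul_of_nonneg_left hKr (by positivity)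
      _ ≤ X ^ (2 / 3 - κ) * X ^ (κ / 10) := mul_le_mul_of_nonneg_right a1 hx.le
      _ ≤ _ := by
          rw [← Real.rpow_add hX0]
          exact Real.rpow_le_rpow_of_exponent_le hX (by linarith)
  have c3 : (1 + |t|) ^ 2 * (K * r) ^ (3 / 2 : ℝ) ≤ X ^ (5 / 6 - κ / 2) := by
    calc _ ≤ (1 + |t|) ^ 2 * (K * D) ^ (3 / 2 : ℝ) * X ^ (κ / 10 * (3 / 2)) := by
          rw [mul_assoc, Real.rpow_mul hX0.le, ← Real.mul_rpow (by positivity) hx.le]
          exact mul_le_mul_of_nonneg_left (Real.rpow_le_rpow (by positivity) hKr (by norm_num))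
            (by positivity)
      _ ≤ X ^ (5 / 6 - κ) * X ^ (κ / 10 * (3 / 2)) :=
          mul_le_mul_of_nonneg_right a2 (by positivity)
      _ ≤ _ := by
          rw [← Real.rpow_add hX0]
          exact Real.rpow_le_rpow_of_exponent_le hX (by linarith)
  have key := h1 ((S ×ˢ T).image fun p => p.1 * p.2) β X (K * r) (Y / r) t hX c1
    (by rw [← hY]; field_simp) c2 c3
    a3 (fun a ha => by
      obtain ⟨p, hp, rfl⟩ := Finset.mem_image.1 ha
      obtain ⟨b1, b2⟩ := hS _ (Finset.mem_product.1 hp).1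
      obtain ⟨b3, b4⟩ := hT' _ (Finset.mem_product.1 hp).2
      refine ⟨b1.1.mul b3.1, ?_⟩
      have b5 : D ≤ X ^ 8 := by exact_mod_cast hD
      rw [N_mul, show X ^ 20 = X ^ 12 * X ^ 8 by ring]
      exact mul_le_mul b2 (b4.trans b5) (N_nonneg _) (by positivity))
  have hnw : nw ((S ×ˢ T).image fun p => p.1 * p.2) β (K * r) ≤
      nw S α K * (2 * Real.exp 4 * C2 * r) := by
    refine (hn K r).trans ?_
    calc _ ≤ ∑ p ∈ S ×ˢ T, ‖α p.1‖ ^ 2 * vp (N p.1 / K) *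
            (2 * Real.exp 4 * lg 1 (N p.2 / r)) := by
          refine Finset.sum_le_sum fun p hp => ?_
          have b1 := (hT' _ (Finset.mem_product.1 hp).2).1.1.ne_zero
          have b2 := lg_mul_vp one_pos (div_pos (N_pos b1) hr)
          have b3 := norm_mu_le p.2
          have b4 := vp_nonneg (N p.1 / K)
          have b5 := vp_nonneg (N p.2 / r)
          have b6 := lg_pos 1 (N p.2 / r)
          rw [div_one] at b2
          rw [norm_mul, norm_mul, norm_W, ← lg_one]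
          calc _ ≤ (‖α p.1‖ * 1 * lg 1 (N p.2 / r)) ^ 2 * (vp (N p.1 / K) * vp (N p.2 / r)) := by
                gcongr
            _ = ‖α p.1‖ ^ 2 * vp (N p.1 / K) *
                (lg 1 (N p.2 / r) * vp (N p.2 / r) * lg 1 (N p.2 / r)) := by ring
            _ ≤ _ := by gcongr
      _ = nw S α K * (2 * Real.exp 4 * ∑ δ ∈ T, lg 1 (N δ / r)) := by
          rw [nw, Finset.mul_sum, Finset.sum_mul_sum, Finset.sum_product]
      _ ≤ _ := by
          rw [mul_assoc (2 * Real.exp 4)]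
          have := h2 r hr T fun h => (hT' _ h).1.1.ne_zero rfl
          have := nw_nonneg S α K
          gcongr
  refine key.trans ?_
  have e1 : √r * r ^ (-(1 / 2) : ℝ) = 1 := by
    rw [Real.sqrt_eq_rpow, ← Real.rpow_add hr]; norm_num
  calc _ ≤ C1 * √(nw S α K * (2 * Real.exp 4 * C2 * r)) * (K * r) ^ (-(1 / 2) : ℝ) *
        X ^ (5 / 6 - κ / 2 / 4) := by gcongr
    _ = C1 * √(2 * Real.exp 4 * C2) * √(nw S α K) * K ^ (-(1 / 2) : ℝ) * X ^ (5 / 6 - κ / 8) *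
        (√r * r ^ (-(1 / 2) : ℝ)) := by
        rw [Real.sqrt_mul (nw_nonneg _ _ _), Real.sqrt_mul (by positivity) r,
          Real.mul_rpow hK0.le hr.le, show κ / 2 / 4 = κ / 8 by ring]
        ring
    _ = _ := by rw [e1, mul_one]

theorem t1s_gauss (L : ℝ) :
    Integrable (fun s : ℝ => Real.exp (-(1 / 4) * s ^ 2) + Real.exp (-(1 / 4) * (s - L) ^ 2)) ∧
    ∫ s : ℝ, (Real.exp (-(1 / 4) * s ^ 2) + Real.exp (-(1 / 4) * (s - L) ^ 2)) =
      2 * √(Real.pi / (1 / 4)) := by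
  have h1 := integrable_exp_neg_mul_sq (b := 1 / 4) (by norm_num)
  have h2 := h1.comp_sub_right L
  refine ⟨h1.add h2, ?_⟩
  rw [integral_add h1 h2, integral_sub_right_eq_self (fun s => Real.exp (-(1 / 4) * s ^ 2)) L,
    integral_gaussian, two_mul]

/-- W2_conv; for s in [-R, log D + R], R = κ log X / 10, apply t1 with κ / 2 at scale K exp s to the
coefficients α k mu δ W (exp s) t δ (pair_push; their norm is ≤ C exp s * nw). For other s use the
trivial bound (l1_le, sum_lg_le, norm_Dl_le) and w (N δ / exp s) ≤ exp (- dist ^ 2). -/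
theorem t1s (hT : TP cs) {κ : ℝ} (hκ : 0 < κ) (hκ' : κ ≤ 1 / 100) : ∃ C : ℝ, 0 < C ∧
    ∀ (S : Finset Eis) (α : Eis → ℂ) (X K Y t z D : ℝ), 1 ≤ X → X ^ (-(1 / 2) : ℝ) ≤ K →
    K * Y = X → 1 ≤ D → (1 + |t|) ^ 2 * (K * D) ≤ X ^ (2 / 3 - κ) →
    (1 + |t|) ^ 2 * (K * D) ^ (3 / 2 : ℝ) ≤ X ^ (5 / 6 - κ) → |t| ≤ X ^ (1 / 5 : ℝ) →
    (∀ k ∈ S, Ro z k ∧ N k ≤ X ^ 12) →
      ‖∑ k ∈ S, α k * ∑ δ ∈ (PB D).filter (Smo z), mu δ *
          ∑' m, W2 Y t (δ * m) * Dl (k * (δ * m))‖ ≤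
        C * √(nw S α K) * K ^ (-(1 / 2) : ℝ) * X ^ (5 / 6 - κ / 10) := by
  obtain ⟨C1, hC1, h1⟩ := t1s_near hT hκ hκ'
  obtain ⟨C2, hC2, h2⟩ := t1s_far
  refine ⟨(√(Real.pi / 2))⁻¹ * (C1 * (9 / (κ / 40)) +
    C2 * Real.exp ((-1) ^ 2 / (4 * (κ ^ 2 / 400))) * (2 * √(Real.pi / (1 / 4)))), by positivity,
    fun S α X K Y t z D hX hK hY hD a1 a2 a3 hS => ?_⟩
  have hX0 : 0 < X := by linarith
  have hK0 : 0 < K := (Real.rpow_pos_of_pos hX0 _).trans_le hK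
  have hY0 : 0 < Y := (mul_pos_iff_of_pos_left hK0).1 (hY ▸ hX0)
  have hD0 : 0 < D := by linarith
  have hl : 0 ≤ Real.log X := Real.log_nonneg hX
  have hD8 : D ≤ X ^ (8 : ℝ) := by
    have b1 : X ^ (-(1 / 2) : ℝ) * D ≤ X ^ (2 / 3 - κ) :=
      (mul_le_mul_of_nonneg_right hK hD0.le).trans ((le_mul_of_one_le_left (by positivity)
        (one_le_pow₀ (le_add_of_nonneg_right (abs_nonneg t)))).trans a1)
    refine le_of_mul_le_mul_left (b1.trans ?_) (Real.rpow_pos_of_pos hX0 _)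
    rw [← Real.rpow_add hX0]
    exact Real.rpow_le_rpow_of_exponent_le hX (by linarith)
  have hlD : Real.log D ≤ 8 * Real.log X :=
    (Real.log_le_log hD0 hD8).trans_eq (Real.log_rpow hX0 8)
  have hlD0 : 0 ≤ Real.log D := Real.log_nonneg hD
  set T := (PB D).filter (Smo z) with hTd
  have e1 : ∑ k ∈ S, α k * ∑ δ ∈ T, mu δ * ∑' m, W2 Y t (δ * m) * Dl (k * (δ * m)) =
      ∑ p ∈ S ×ˢ T, α p.1 * mu p.2 * ∑' m, W2 Y t (p.2 * m) * Dl (p.1 * (p.2 * m)) := by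
    rw [Finset.sum_product]
    simp only [Finset.mul_sum, mul_assoc]
  rw [e1, t1s_int hY0 t _ (fun p hp =>
    (Finset.mem_filter.1 (Finset.mem_product.1 hp).2).2.1.ne_zero) fun p => α p.1 * mu p.2,
    norm_mul, norm_real, Real.norm_of_nonneg (by positivity), mul_assoc (√(Real.pi / 2))⁻¹,
    mul_assoc (√(Real.pi / 2))⁻¹, mul_assoc (√(Real.pi / 2))⁻¹]
  refine mul_le_mul_of_nonneg_left ?_ (by positivity)
  set R := κ / 10 * Real.log X with hR
  have hR0 : 0 ≤ R := by positivity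
  set A := C1 * √(nw S α K) * K ^ (-(1 / 2) : ℝ) * X ^ (5 / 6 - κ / 8) with hA
  set B := C2 * √(nw S α K) * K ^ (1 / 2 : ℝ) * Y * Real.exp (-(R ^ 2 / 4)) with hB
  have hA0 : 0 ≤ A := by positivity
  have hB0 : 0 ≤ B := by positivity
  obtain ⟨g1, g2⟩ := t1s_gauss (Real.log D)
  have g3 : Integrable ((Set.Icc (-R) (Real.log D + R)).indicator fun _ => A) :=
    (integrableOn_const (by simp)).integrable_indicator measurableSet_Icc
  refine (norm_integral_le_of_norm_le (g3.add (g1.const_mul B))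
    (Eventually.of_forall fun s => ?_)).trans ?_
  · by_cases hs : s ∈ Set.Icc (-R) (Real.log D + R)
    · rw [Pi.add_apply, Set.indicator_of_mem hs]
      refine le_trans (h1 S T α X K Y t z D _ hX hK hY hD8 a1 a2 a3 hS (fun δ hδ =>
        ⟨(Finset.mem_filter.1 hδ).2, (mem_PB.1 (Finset.mem_filter.1 hδ).1).2⟩) ?_ ?_)
        (le_add_of_nonneg_right (by positivity))
      · rw [Real.rpow_def_of_pos hX0]
        exact Real.exp_le_exp.2 (by linarith [hs.1])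
      · rw [Real.rpow_def_of_pos hX0, ← Real.exp_log hD0, ← Real.exp_add]
        exact Real.exp_le_exp.2 (by linarith [hs.2])
    · rw [Pi.add_apply, Set.indicator_of_notMem hs, zero_add]
      exact h2 S T α K Y t D R s hK0 hY0 hR0 (fun h => (hS _ h).1.1.ne_zero rfl)
        (Finset.filter_subset _ _) hs
  rw [integral_add' g3 (g1.const_mul B), integral_const_mul, g2,
    integral_indicator_const _ measurableSet_Icc, Real.volume_real_Icc_of_le (by linarith),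
    smul_eq_mul]
  have b1 : Real.log D + R - -R ≤ 9 / (κ / 40) * X ^ (κ / 40) := by
    have c1 := Real.log_le_rpow_div hX0.le (show 0 < κ / 40 by positivity)
    have c2 : κ * Real.log X ≤ Real.log X := mul_le_of_le_one_left hl (by linarith)
    calc _ ≤ 9 * Real.log X := by linarith
      _ ≤ 9 * (X ^ (κ / 40) / (κ / 40)) := by linarith
      _ = _ := by ring
  have b2 : Real.exp (-(R ^ 2 / 4)) ≤
      Real.exp ((-1) ^ 2 / (4 * (κ ^ 2 / 400))) * X ^ (-1 : ℝ) := by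
    refine le_trans (le_of_eq ?_) (lg_le_rpow (by positivity) (-1) hX0)
    rw [lg, hR]
    congr 1
    ring
  have b3 : K ^ (1 / 2 : ℝ) * Y * X ^ (-1 : ℝ) = K ^ (-(1 / 2) : ℝ) := by
    have e2 : K ^ (1 / 2 : ℝ) = K ^ (-(1 / 2) : ℝ) * K := by
      rw [← Real.rpow_add_one hK0.ne']; norm_num
    rw [Real.rpow_neg_one, e2, mul_assoc _ K, hY, mul_inv_cancel_right₀ hX0.ne']
  have b4 : (1 : ℝ) ≤ X ^ (5 / 6 - κ / 10) := Real.one_le_rpow hX (by linarith)
  have b5 : X ^ (κ / 40) * X ^ (5 / 6 - κ / 8) = X ^ (5 / 6 - κ / 10) := by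
    rw [← Real.rpow_add hX0]
    congr 1
    ring
  rw [add_mul, add_mul, add_mul]
  refine add_le_add ?_ ?_
  · refine (mul_le_mul_of_nonneg_right b1 hA0).trans (le_of_eq ?_)
    rw [hA, ← b5]
    ring
  · calc _ ≤ C2 * √(nw S α K) * K ^ (1 / 2 : ℝ) * Y *
          (Real.exp ((-1) ^ 2 / (4 * (κ ^ 2 / 400))) * X ^ (-1 : ℝ)) *
          (2 * √(Real.pi / (1 / 4))) := by rw [hB]; gcongr
      _ = C2 * Real.exp ((-1) ^ 2 / (4 * (κ ^ 2 / 400))) * (2 * √(Real.pi / (1 / 4))) *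
          √(nw S α K) * K ^ (-(1 / 2) : ℝ) * 1 := by rw [← b3]; ring
      _ ≤ _ := by gcongr

end Vale.Agent.P006
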