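import Vale.Agent.P006.T1S

/-! Pointwise bilinear bound for the tail of the sieve. -/

namespace Vale.Agent.P006

open Vale.Agent.P026 Eis Complex MeasureTheory Filter Topology
open scoped Classical ComplexConjugate

theorem t1t_wt {x : ℝ} (hx : 0 < x) :
    (x⁻¹ + x + 1) * x * (w x ^ 2 * vp x) ≤ 3 * (2 * Real.exp 8) ^ 3 * lg (1 / 2) x := by
  have a1 : x⁻¹ ≤ vp x := by
    have := rpow_le_vp (a := -1) hx (by norm_num)
    rwa [Real.rpow_neg_one] at this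
  have a2 : x ≤ vp x := by
    have := rpow_le_vp (a := 1) hx (by norm_num)
    rwa [Real.rpow_one] at this
  have a3 := two_le_vp hx
  have e : w x = lg (1 / 2) x ^ 2 := by rw [pow_two, lg_mul, ← lg_one]; norm_num
  have b := lg_mul_vp (c := 1 / 2) (by norm_num) hx
  rw [show (4 : ℝ) / (1 / 2) = 8 by norm_num] at b
  have l0 := lg_pos (1 / 2) x
  calc _ ≤ (3 * vp x) * vp x * (w x ^ 2 * vp x) := by
        have := w_pos x
        gcongr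
        linarith
    _ = 3 * (lg (1 / 2) x * vp x) ^ 3 * lg (1 / 2) x := by rw [e]; ring
    _ ≤ _ := by gcongr

theorem t1t_v : ∃ C : ℝ, 0 < C ∧ ∀ (B t : ℝ) (T : Finset Eis), 0 < B → (0 : Eis) ∉ T →
    nw T (W B t) B ≤ C * B := by
  obtain ⟨C, hC, h⟩ := sum_lg_le (c := 1) (k := 0) one_pos (by norm_num)
  refine ⟨2 * Real.exp 4 * C, by positivity, fun B t T hB hT => ?_⟩
  have k := h B hB T hT
  simp only [Real.rpow_zero, one_mul, zero_add, Real.rpow_one] at k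
  rw [mul_assoc]
  refine le_trans ?_ (mul_le_mul_of_nonneg_left k (by positivity))
  rw [nw, Finset.mul_sum]
  refine Finset.sum_le_sum fun m hm => ?_
  have b := lg_mul_vp (c := 1) one_pos (div_pos (N_pos (wt_ne hT hm)) hB)
  rw [div_one] at b
  rw [norm_W, ← lg_one, pow_two, mul_assoc, mul_comm]
  exact mul_le_mul_of_nonneg_right b (lg_pos _ _).le

theorem t1t_ell {Z : ℝ} (hZ : 0 < Z) : 0 ≤ ell Z :=
  Real.rpow_nonneg (Real.log_nonneg (by linarith)) _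

theorem t1t_num {X K Y R n : ℝ} (hK : 0 < K) (hR : 0 < R) (n0 : 0 < n) (X0 : 0 < X) (hX : K * Y = X)
    (d2 : X ^ (1 / 3 : ℝ) ≤ K * n) (d3 : K * n ≤ X ^ (2 / 3 : ℝ)) :
    (K * R + Y / R + X ^ (2 / 3 : ℝ)) * (w (n / R) ^ 2 * vp (n / R)) * (Y / R) ≤
      3 * (2 * Real.exp 8) ^ 3 * X ^ (2 / 3 : ℝ) * Y * (n⁻¹ * lg (1 / 2) (n / R)) := by
  have x0 : 0 < n / R := div_pos n0 hR
  have hY : 0 < Y := (mul_pos_iff_of_pos_left hK).1 (hX ▸ X0)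
  have q : K * R + Y / R + X ^ (2 / 3 : ℝ) ≤ X ^ (2 / 3 : ℝ) * ((n / R)⁻¹ + n / R + 1) := by
    have q1 : K * R ≤ X ^ (2 / 3 : ℝ) * (n / R)⁻¹ := by
      rw [show K * R = K * n * (n / R)⁻¹ by field_simp]
      gcongr
    have q2 : Y / R ≤ X ^ (2 / 3 : ℝ) * (n / R) := by
      have e3 : X ^ (2 / 3 : ℝ) * X ^ (1 / 3 : ℝ) = K * Y := by
        rw [← Real.rpow_add X0, hX]; norm_num
      rw [← mul_div_assoc]
      refine div_le_div_of_nonneg_right (le_of_mul_le_mul_left ?_ hK) hR.le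
      rw [← e3, mul_left_comm]
      gcongr
    linarith
  have := vp_nonneg (n / R)
  have k := t1t_wt x0
  have e : Y / R = Y * n⁻¹ * (n / R) := by field_simp
  have p0 := Real.rpow_pos_of_pos X0 (2 / 3)
  calc _ ≤ X ^ (2 / 3 : ℝ) * ((n / R)⁻¹ + n / R + 1) * (w (n / R) ^ 2 * vp (n / R)) * (Y / R) := by
        gcongr
    _ = X ^ (2 / 3 : ℝ) * (Y * n⁻¹) * (((n / R)⁻¹ + n / R + 1) * (n / R) *
        (w (n / R) ^ 2 * vp (n / R))) := by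
      rw [e]
      generalize n / R = x
      ring
    _ ≤ X ^ (2 / 3 : ℝ) * (Y * n⁻¹) * (3 * (2 * Real.exp 8) ^ 3 * lg (1 / 2) (n / R)) :=
      mul_le_mul_of_nonneg_left k (by positivity)
    _ = _ := by ring

theorem t1t_u (S : Finset Eis) (α : Eis → ℂ) (K R t : ℝ) (δ : Eis) :
    ∑ k ∈ S, ‖α k * mu δ * W R t δ‖ ^ 2 * (vp (N k / K) * vp (N δ / R)) ≤
      nw S α K * (w (N δ / R) ^ 2 * vp (N δ / R)) := by
  rw [nw, Finset.sum_mul]
  refine Finset.sum_le_sum fun k _ => ?_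
  rw [norm_mul, norm_mul, norm_W]
  have := norm_mu_le δ
  have := vp_nonneg (N k / K)
  have := vp_nonneg (N δ / R)
  have := w_pos (N δ / R)
  calc _ ≤ (‖α k‖ * 1 * w (N δ / R)) ^ 2 * (vp (N k / K) * vp (N δ / R)) := by gcongr
    _ = _ := by ring

theorem t1t_pt : ∃ C : ℝ, 0 < C ∧ ∀ (S Δ T : Finset Eis) (α : Eis → ℂ) (κ : Eis → ℕ) (J : ℕ)
    (X K Y t z Z R : ℝ), 0 < K → 0 < Y → 0 < R → 0 < Z → K * Y = X → (∀ k ∈ S, Ro z k) →
    (∀ δ ∈ Δ, Smo z δ ∧ κ δ < 2 ^ J ∧ X ^ (1 / 3 : ℝ) ≤ K * N δ ∧ K * N δ ≤ X ^ (2 / 3 : ℝ)) →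
    (∀ k ∈ S, ∀ δ ∈ Δ, N (k * δ) ≤ Z) → (∀ m ∈ T, Prim m) →
      ‖∑ p ∈ S ×ˢ Δ, ∑ m ∈ T, if κ m < κ p.2 then
          α p.1 * mu p.2 * W R t p.2 * (W (Y / R) t m * Dl (p.1 * p.2 * m)) else 0‖ ≤
        J * √(C * ell Z * X ^ (2 / 3 : ℝ) * Y * nw S α K *
          ∑ δ ∈ Δ, (N δ)⁻¹ * lg (1 / 2) (N δ / R)) := by
  obtain ⟨C1, hC1, h1⟩ := bilw
  obtain ⟨C2, hC2, h2⟩ := t1t_v
  refine ⟨C1 * C2 * (3 * (2 * Real.exp 8) ^ 3), by positivity,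
    fun S Δ T α κ J X K Y t z Z R hK hY hR hZ hX hS hΔ hN hT => ?_⟩
  have X0 : 0 < X := hX ▸ mul_pos hK hY
  have l0 := t1t_ell hZ
  set Q := C1 * ell Z * (K * R + Y / R + X ^ (2 / 3 : ℝ)) with hQ
  have Q0 : 0 ≤ Q := by positivity
  have v0 := vp_nonneg
  have u0 : ∀ p : Eis × Eis, 0 ≤ ‖α p.1 * mu p.2 * W R t p.2‖ ^ 2 *
      (vp (N p.1 / K) * vp (N p.2 / R)) := fun p => mul_nonneg (sq_nonneg _) (mul_nonneg (v0 _) (v0 _))
  refine (tri (S ×ˢ Δ) T (fun p m => α p.1 * mu p.2 * W R t p.2 *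
      (W (Y / R) t m * Dl (p.1 * p.2 * m)))
    (fun p => ‖α p.1 * mu p.2 * W R t p.2‖ ^ 2 * (vp (N p.1 / K) * vp (N p.2 / R)))
    (fun m => ‖W (Y / R) t m‖ ^ 2 * vp (N m / (Y / R))) u0
    (fun m => mul_nonneg (sq_nonneg _) (v0 _)) (Real.sqrt_nonneg Q) (fun P hP T' hT' => ?_)
    (fun p => κ p.2) κ J fun p hp => (hΔ _ (Finset.mem_product.1 hp).2).2.1).trans ?_
  · obtain ⟨β, e1, e2⟩ := pair_push (z := z) P (fun p hp =>
      ⟨hS _ (Finset.mem_product.1 (hP hp)).1, (hΔ _ (Finset.mem_product.1 (hP hp)).2).1⟩)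
      fun p => α p.1 * mu p.2 * W R t p.2
    have k := h1 (P.image fun p => p.1 * p.2) T' β (W (Y / R) t) (K * R) (Y / R) Z (by positivity)
      (by positivity) hZ (fun a ha => by
        obtain ⟨p, hp, rfl⟩ := Finset.mem_image.1 ha
        have hp' := Finset.mem_product.1 (hP hp)
        exact ⟨(hS _ hp'.1).1.mul (hΔ _ hp'.2).1.1, hN _ hp'.1 _ hp'.2⟩) fun b hb => hT b (hT' hb)
    rw [show K * R * (Y / R) = X by rw [← hX]; field_simp] at k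
    simp only [← Finset.mul_sum]
    rw [e1 fun a => ∑ m ∈ T', W (Y / R) t m * Dl (a * m), ← Real.sqrt_mul Q0,
      ← Real.sqrt_mul (mul_nonneg Q0 (Finset.sum_nonneg fun p _ => u0 p))]
    refine Real.le_sqrt_of_sq_le (le_trans (le_of_eq ?_) (k.trans ?_))
    · simp only [Bil, Finset.mul_sum, mul_assoc]
    · exact mul_le_mul_of_nonneg_right (mul_le_mul_of_nonneg_left (e2 K R) Q0) (nw_nonneg _ _ _)
  rw [mul_assoc, mul_assoc, ← Real.sqrt_mul (Finset.sum_nonneg fun p _ => u0 p),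
    ← Real.sqrt_mul Q0]
  refine mul_le_mul_of_nonneg_left (Real.sqrt_le_sqrt ?_) (Nat.cast_nonneg _)
  have k := h2 (Y / R) t T (by positivity) fun h0 => (hT 0 h0).ne_zero rfl
  refine (mul_le_mul_of_nonneg_left (mul_le_mul_of_nonneg_left k
    (Finset.sum_nonneg fun p _ => u0 p)) Q0).trans ?_
  rw [Finset.sum_product_right, Finset.sum_mul, Finset.mul_sum, Finset.mul_sum]
  refine Finset.sum_le_sum fun δ hδ => ?_
  obtain ⟨d1, -, d2, d3⟩ := hΔ δ hδ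
  have n1 := nw_nonneg S α K
  calc _ ≤ Q * (nw S α K * (w (N δ / R) ^ 2 * vp (N δ / R)) * (C2 * (Y / R))) :=
        mul_le_mul_of_nonneg_left (mul_le_mul_of_nonneg_right (t1t_u S α K R t δ) (by positivity)) Q0
    _ = C1 * C2 * ell Z * nw S α K * ((K * R + Y / R + X ^ (2 / 3 : ℝ)) *
        (w (N δ / R) ^ 2 * vp (N δ / R)) * (Y / R)) := by rw [hQ]; ring
    _ ≤ _ := (mul_le_mul_of_nonneg_left (t1t_num hK hR (N_pos d1.1.ne_zero) X0 hX d2 d3)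
      (by positivity)).trans_eq (by ring)

theorem t1t_int {ι : Type} (I : Finset ι) (a : ι → ℂ) (f : ι → ℝ → ℂ)
    (hf : ∀ i ∈ I, Integrable (f i)) {g : ℝ → ℝ} (hg : Integrable g)
    (h : ∀ s, ‖∑ i ∈ I, a i * f i s‖ ≤ g s) : ‖∑ i ∈ I, a i * ∫ s, f i s‖ ≤ ∫ s, g s := by
  simp only [← integral_const_mul]
  rw [← integral_finsetSum I fun i hi => (hf i hi).const_mul _]
  exact norm_integral_le_of_norm_le hg (Eventually.of_forall h)

theorem t1t_gauss {L a x s : ℝ} (hL : 1 ≤ L) (hx : 0 < x) (h1 : a ≤ Real.log x)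
    (h2 : Real.log x ≤ a + L) :
    lg (1 / 2) (x / Real.exp s) ≤ (2 * Real.exp (-(8 * L ^ 2)⁻¹ * (s - a) ^ 2)) ^ 2 := by
  have b0 : 0 < (8 * L ^ 2)⁻¹ := by positivity
  have b1 : (8 * L ^ 2)⁻¹ * L ^ 2 = 1 / 8 := by field_simp
  have b2 : (8 * L ^ 2)⁻¹ ≤ 1 / 8 := by nlinarith [one_le_pow₀ (n := 2) hL]
  have b3 : (Real.log x - a) ^ 2 ≤ L ^ 2 := by nlinarith
  have e1 : Real.exp (1 / 2) ≤ 4 := by
    have := Real.exp_le_exp.2 (show (1 / 2 : ℝ) ≤ 1 by norm_num)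
    linarith [Real.exp_one_lt_d9]
  rw [lg, Real.log_div hx.ne' (Real.exp_pos s).ne', Real.log_exp, mul_pow, ← Real.exp_nat_mul]
  generalize (8 * L ^ 2)⁻¹ = b at *
  refine le_trans (Real.exp_le_exp.2 (show _ ≤ 1 / 2 + (2 : ℕ) * (-b * (s - a) ^ 2) from ?_)) ?_
  · have c1 : b * (s - a) ^ 2 ≤ b * (2 * (Real.log x - s) ^ 2 + 2 * (Real.log x - a) ^ 2) :=
      mul_le_mul_of_nonneg_left (by nlinarith [sq_nonneg (2 * Real.log x - s - a)]) b0.le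
    have c2 := mul_le_mul_of_nonneg_right b2 (sq_nonneg (Real.log x - s))
    have c3 := mul_le_mul_of_nonneg_left b3 b0.le
    push_cast
    linarith
  · rw [Real.exp_add]
    exact mul_le_mul_of_nonneg_right (by linarith) (Real.exp_pos _).le

theorem t1t_gint {L : ℝ} (hL : 0 < L) (a M : ℝ) (hM : 0 ≤ M) :
    Integrable (fun s : ℝ => M * Real.exp (-(8 * L ^ 2)⁻¹ * (s - a) ^ 2)) ∧
    ∫ s : ℝ, M * Real.exp (-(8 * L ^ 2)⁻¹ * (s - a) ^ 2) ≤ M * (6 * L) := by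
  have b0 : 0 < (8 * L ^ 2)⁻¹ := by positivity
  refine ⟨((integrable_exp_neg_mul_sq b0).comp_sub_right a).const_mul M, ?_⟩
  rw [integral_const_mul, integral_sub_right_eq_self
    (fun s : ℝ => Real.exp (-(8 * L ^ 2)⁻¹ * s ^ 2)) a, integral_gaussian]
  refine mul_le_mul_of_nonneg_left (Real.sqrt_le_iff.2 ⟨by positivity, ?_⟩) hM
  rw [div_inv_eq_mul]
  nlinarith [Real.pi_lt_four, sq_nonneg L]

/-- The tail as an integral of bilinear forms. -/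
theorem t1t_main : ∃ C : ℝ, 0 < C ∧ ∀ (S Δ : Finset Eis) (α : Eis → ℂ) (κ : Eis → ℕ) (J : ℕ)
    (X K Y t z Z a L M : ℝ), 0 < K → 0 < Y → 0 < Z → K * Y = X → 1 ≤ L → (∀ k ∈ S, Ro z k) →
    (∀ δ ∈ Δ, Smo z δ ∧ κ δ < 2 ^ J ∧ X ^ (1 / 3 : ℝ) ≤ K * N δ ∧ K * N δ ≤ X ^ (2 / 3 : ℝ)) →
    (∀ δ ∈ Δ, a ≤ Real.log (N δ) ∧ Real.log (N δ) ≤ a + L) →
    (∀ k ∈ S, ∀ δ ∈ Δ, N (k * δ) ≤ Z) →
      ‖∑ k ∈ S, α k * ∑ δ ∈ Δ, mu δ * ∑ m ∈ ball M, if κ m < κ δ then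
            W2 Y t (δ * m) * Dl (k * (δ * m)) else 0‖ ≤
        J * (12 * L) * √(C * ell Z * X ^ (2 / 3 : ℝ) * Y * nw S α K * ∑ δ ∈ Δ, (N δ)⁻¹) := by
  obtain ⟨C, hC, h⟩ := t1t_pt
  refine ⟨C, hC, fun S Δ α κ J X K Y t z Z a L M hK hY hZ hX hL hS hΔ ha hN => ?_⟩
  have X0 : 0 < X := hX ▸ mul_pos hK hY
  set T := (ball M).filter Prim with hT
  set Q := C * ell Z * X ^ (2 / 3 : ℝ) * Y * nw S α K with hQ
  have Q0 : 0 ≤ Q := by
    have := t1t_ell hZ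
    have := nw_nonneg S α K
    positivity
  have s0 : 0 ≤ ∑ δ ∈ Δ, (N δ)⁻¹ := Finset.sum_nonneg fun δ _ => inv_nonneg.2 (N_nonneg δ)
  obtain ⟨g1, g2⟩ := t1t_gint (L := L) (by linarith) a (J * √(Q * ∑ δ ∈ Δ, (N δ)⁻¹) * 2)
    (by positivity)
  have mem : ∀ i ∈ (S ×ˢ Δ) ×ˢ T, i.1.2 ≠ 0 ∧ i.2 ≠ 0 := fun i hi => by
    simp only [Finset.mem_product, hT, Finset.mem_filter] at hi
    exact ⟨(hΔ _ hi.1.2).1.1.ne_zero, hi.2.2.ne_zero⟩
  have k := t1t_int ((S ×ˢ Δ) ×ˢ T) (fun i => if κ i.2 < κ i.1.2 then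
      α i.1.1 * mu i.1.2 * Dl (i.1.1 * i.1.2 * i.2) else 0)
    (fun i s => W (Real.exp s) t i.1.2 * W (Y / Real.exp s) t i.2)
    (fun i hi => (W2_conv hY t (mem i hi).1 (mem i hi).2).1) g1 fun s => by
      refine le_trans (le_of_eq ?_) ((h S Δ T α κ J X K Y t z Z (Real.exp s) hK hY (Real.exp_pos s)
        hZ hX hS hΔ hN fun m hm => (Finset.mem_filter.1 hm).2).trans ?_)
      · rw [Finset.sum_product]
        refine congrArg _ (Finset.sum_congr rfl fun p _ => Finset.sum_congr rfl fun m _ => ?_)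
        split_ifs <;> ring
      · rw [← hQ, mul_assoc _ 2, mul_assoc (J : ℝ),
          ← Real.sqrt_sq (show 0 ≤ 2 * Real.exp (-(8 * L ^ 2)⁻¹ * (s - a) ^ 2) by positivity),
          ← Real.sqrt_mul (mul_nonneg Q0 s0), mul_assoc Q, Finset.sum_mul]
        refine mul_le_mul_of_nonneg_left (Real.sqrt_le_sqrt (mul_le_mul_of_nonneg_left
          (Finset.sum_le_sum fun δ hδ => mul_le_mul_of_nonneg_left ?_
            (inv_nonneg.2 (N_nonneg δ))) Q0)) (Nat.cast_nonneg _)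
        exact t1t_gauss hL (N_pos (hΔ δ hδ).1.1.ne_zero) (ha δ hδ).1 (ha δ hδ).2
  have c1 : (√(Real.pi / 2))⁻¹ ≤ 1 :=
    inv_le_one_of_one_le₀ (Real.one_le_sqrt.2 (by linarith [Real.pi_gt_three]))
  have e : ∑ k ∈ S, α k * ∑ δ ∈ Δ, mu δ * ∑ m ∈ ball M, (if κ m < κ δ then
      W2 Y t (δ * m) * Dl (k * (δ * m)) else 0) = ((√(Real.pi / 2))⁻¹ : ℝ) *
      ∑ i ∈ (S ×ˢ Δ) ×ˢ T, (if κ i.2 < κ i.1.2 then
        α i.1.1 * mu i.1.2 * Dl (i.1.1 * i.1.2 * i.2) else 0) *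
          ∫ s : ℝ, W (Real.exp s) t i.1.2 * W (Y / Real.exp s) t i.2 := by
    rw [Finset.sum_product, Finset.sum_product, Finset.mul_sum]
    refine Finset.sum_congr rfl fun k hk => ?_
    rw [Finset.mul_sum, Finset.mul_sum]
    refine Finset.sum_congr rfl fun δ hδ => ?_
    have d := (hΔ δ hδ).1.1
    rw [Finset.mul_sum, Finset.mul_sum, Finset.mul_sum, hT, Finset.sum_filter]
    refine Finset.sum_congr rfl fun m hm => ?_
    by_cases h1 : Prim m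
    · rw [if_pos h1, (W2_conv hY t d.ne_zero h1.ne_zero).2, mul_assoc k]
      split_ifs <;> ring
    · rw [if_neg h1, Dl_of_not fun h2 => h1 (d.of_mul ((hS k hk).1.of_mul h2.1))]
      simp
  rw [e, norm_mul, Complex.norm_real, Real.norm_of_nonneg (by positivity)]
  refine (mul_le_of_le_one_left (norm_nonneg _) c1).trans (k.trans (g2.trans_eq ?_))
  ring

end Vale.Agent.P006
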