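import Vale.Agent.P006.Hecke
import Vale.Agent.P006.V3

/-! Auxiliary lemmas for the twisted Voronoi formula. -/

namespace Vale.Agent.P006

open Vale.Agent.P026 Eis Complex MeasureTheory Filter Topology
open scoped Classical ComplexConjugate

theorem twi_sum_le {ι : Type} [Nonempty ι] {g : ι → ℝ} (hg0 : ∀ i, 0 ≤ g i) (hg : Summable g)
    (π : ι → Eis) {f : Eis → ℝ} (h : ∀ r, 0 < f r → ∃ i, π i = r ∧ f r ≤ g i) (S : Finset Eis) :
    ∑ r ∈ S, f r ≤ ∑' i, g i := by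
  choose! φ h1 h2 using h
  calc ∑ r ∈ S, f r ≤ ∑ r ∈ S.filter (fun r => 0 < f r), f r := by
        rw [Finset.sum_filter]
        exact Finset.sum_le_sum fun r _ => by split_ifs with h; exacts [le_rfl, not_lt.1 h]
    _ ≤ ∑ r ∈ S.filter (fun r => 0 < f r), g (φ r) :=
        Finset.sum_le_sum fun r hr => h2 _ (Finset.mem_filter.1 hr).2
    _ = ∑ i ∈ (S.filter (fun r => 0 < f r)).image φ, g i := by
        rw [Finset.sum_image]
        intro x hx y hy hxy
        rw [← h1 x (Finset.mem_filter.1 hx).2, ← h1 y (Finset.mem_filter.1 hy).2, hxy]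
    _ ≤ ∑' i, g i := hg.sum_le_tsum _ fun i _ => hg0 i

theorem twi_ab (x : Eis) : ab x = N x ^ (1 / 2 : ℝ) := by
  rw [ab, Real.sqrt_eq_rpow]

theorem twi_rpow {x : Eis} (hx : x ≠ 0) {a b c : ℝ} (h : a + b ≤ c) :
    N x ^ a * N x ^ b ≤ N x ^ c := by
  rw [← Real.rpow_add (N_pos hx)]
  exact Real.rpow_le_rpow_of_exponent_le (one_le_N hx) h

theorem twi_ineq {e : ℝ} (he : 0 < e) {s d1 d2 x m : Eis} (hs : s ≠ 0) (h1 : d1 ≠ 0) (h2 : d2 ≠ 0)
    (hm : m ≠ 0) :
    N (d1 * d2) * (ab s * ab (d2 * m) * N (s * (d1 * x * (d2 * m) ^ 3)) ^ (-(1 + e))) ≤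
      N s ^ (-(1 / 2) : ℝ) * (N x ^ (-(1 + e)) * N m ^ (-(1 + e))) := by
  have a1 := twi_rpow h1 (a := 1) (b := -(1 + e)) (c := 0) (by linarith)
  have a2 := twi_rpow h2 (a := 3 / 2) (b := 3 * -(1 + e)) (c := 0) (by linarith)
  have a3 := twi_rpow hs (a := 1 / 2) (b := -(1 + e)) (c := -(1 / 2)) (by linarith)
  have a4 := twi_rpow hm (a := 1 / 2) (b := 3 * -(1 + e)) (c := -(1 + e)) (by linarith)
  have e2 : N d2 ^ (3 / 2 : ℝ) = N d2 * N d2 ^ (1 / 2 : ℝ) := by
    rw [show (3 / 2 : ℝ) = 1 + 1 / 2 by norm_num, Real.rpow_add (N_pos h2), Real.rpow_one]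
  have e3 : ∀ y : Eis, (N y ^ 3) ^ (-(1 + e)) = N y ^ (3 * -(1 + e)) := fun y => by
    rw [Real.rpow_mul (N_nonneg y)]; norm_num
  rw [Real.rpow_zero] at a1 a2
  rw [Real.rpow_one] at a1
  rw [e2] at a2
  have n := N_nonneg
  have p : ∀ (y : Eis) (a : ℝ), 0 ≤ N y ^ a := fun y a => Real.rpow_nonneg (n y) a
  have q : ∀ y : Eis, 0 ≤ N y ^ 3 := fun y => pow_nonneg (n y) 3
  simp only [N_mul, N_pow, ab_mul, twi_ab, mul_pow]
  rw [Real.mul_rpow (n s) (mul_nonneg (mul_nonneg (n _) (n _)) (mul_nonneg (q _) (q _))),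
    Real.mul_rpow (mul_nonneg (n _) (n _)) (mul_nonneg (q _) (q _)),
    Real.mul_rpow (n d1) (n x), Real.mul_rpow (q _) (q _), e3, e3, Real.mul_rpow (n d2) (n m)]
  calc _ = (N d1 * N d1 ^ (-(1 + e))) * (N d2 * N d2 ^ (1 / 2 : ℝ) * N d2 ^ (3 * -(1 + e))) *
        ((N s ^ (1 / 2 : ℝ) * N s ^ (-(1 + e))) * (N x ^ (-(1 + e)) *
          (N m ^ (1 / 2 : ℝ) * N m ^ (3 * -(1 + e))))) := by ring
    _ ≤ 1 * 1 * (N s ^ (-(1 / 2) : ℝ) * (N x ^ (-(1 + e)) * N m ^ (-(1 + e)))) := by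
        have := p s; have := p x; have := p m; have := p d1; have := p d2
        gcongr
        · exact mul_nonneg (mul_nonneg (p _ _) (p _ _))
            (mul_nonneg (p _ _) (mul_nonneg (p _ _) (p _ _)))
        · exact mul_nonneg (mul_nonneg (n _) (p _ _)) (p _ _)
        · exact mul_nonneg (p _ _) (mul_nonneg (p _ _) (p _ _))
        · exact p _ _
        · exact p _ _
    _ = _ := by ring

theorem twi_split {d e m : Eis} (hd : Squarefree d) (h : d ∣ e * m ^ 3) :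
    ∃ d1 d2, d = d1 * d2 ∧ d1 ∣ e ∧ d2 ∣ m := by
  obtain ⟨d1, d2, h1, h2, rfl⟩ := exists_dvd_and_dvd_of_dvd_mul h
  exact ⟨d1, d2, rfl, h1, (hd.of_mul_right.dvd_pow_iff_dvd (by norm_num)).1 h2⟩

theorem twi_three {u : Eis} (hu : IsUnit u) (k : ℕ) :
    Sm (u * lam ^ k) ∧ (∀ x, Prim x → IsCoprime x (u * lam ^ k)) := by
  have hl : lam ∣ 3 := ⟨-lam, by linear_combination lam_sq⟩
  refine ⟨⟨k, ?_⟩, fun x hx => ?_⟩
  · rw [hu.mul_left_dvd]
    exact pow_dvd_pow_of_dvd (hl.trans ⟨2, by norm_num⟩) k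
  · exact (isCoprime_mul_unit_left_right hu _ _).2
      (hx.coprime_three.of_isCoprime_of_dvd_right hl).pow_right

/-- The sum of the theta coefficients over the multiples of a squarefree element. -/
theorem twi_dvd_sum {θ : HF → ℂ} {tau : Eis → Eis → Eis → ℂ} (h : TH θ tau) {e : ℝ} (he : 0 < e) :
    ∃ C : ℝ, 0 < C ∧ ∀ A q d, PS d → ∀ T : Finset Eis, (∀ x, x ∣ d → x ∈ T) → ∀ S : Finset Eis,
      ∑ r ∈ S, (if d ∣ r then N d else 0) * (‖tau A q r‖ * N r ^ (-(1 + e))) ≤ C * T.card := by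
  obtain ⟨C0, hC0⟩ := h.isC.bound
  have hC : 0 ≤ C0 := by
    have := (norm_nonneg _).trans (hC0 0 0 1)
    simpa [ab] using this
  have s1 := summable_Sm (e := 1 / 2) (by norm_num)
  have s2 := summable_N_rpow (s := 1 + e) (by linarith)
  have p : ∀ (y : Eis) (a : ℝ), 0 ≤ N y ^ a := fun y a => Real.rpow_nonneg (N_nonneg y) a
  have p1 : ∀ y : Eis, 0 ≤ (if Sm y then N y ^ (-(1 / 2) : ℝ) else 0) := fun y => by
    split_ifs; exacts [p _ _, le_rfl]
  have s3 := s2.mul_of_nonneg s2 (fun y => p y _) (fun y => p y _)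
  have s4 := s1.mul_of_nonneg s3 p1 (fun y => mul_nonneg (p _ _) (p _ _))
  set g : Eis × Eis × Eis → ℝ := fun x =>
    (if Sm x.1 then N x.1 ^ (-(1 / 2) : ℝ) else 0) * (N x.2.1 ^ (-(1 + e)) * N x.2.2 ^ (-(1 + e)))
    with hg
  have g0 : ∀ x, 0 ≤ g x := fun x => mul_nonneg (p1 _) (mul_nonneg (p _ _) (p _ _))
  have t0 : 0 ≤ ∑' x, g x := tsum_nonneg g0
  refine ⟨C0 * ∑' x, g x + 1, by positivity, fun A q d hd T hT S => ?_⟩
  have s5 : HasSum (fun y : Eis => if y ∈ T then C0 else 0) (C0 * T.card) := by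
    have := hasSum_sum_of_ne_finset_zero (f := fun y : Eis => if y ∈ T then C0 else 0) (s := T)
      (L := SummationFilter.unconditional Eis) (fun y hy => if_neg hy)
    rwa [Finset.sum_congr rfl fun y hy => if_pos hy, Finset.sum_const, nsmul_eq_mul,
      mul_comm] at this
  have p2 : ∀ y : Eis, 0 ≤ (if y ∈ T then C0 else 0) := fun y => by
    split_ifs; exacts [hC, le_rfl]
  have s6 := s5.summable.mul_of_nonneg s4 p2 g0
  have s7 := (s5.mul s4.hasSum s6).tsum_eq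
  refine (twi_sum_le (fun x => mul_nonneg (p2 _) (g0 _)) s6
    (fun x => x.2.1 * (d / x.1 * x.2.2.1 * (x.1 * x.2.2.2) ^ 3)) (fun r hr => ?_) S).trans ?_
  · have hdr : d ∣ r := by
      by_contra hn
      simp [hn] at hr
    have ht : tau A q r ≠ 0 := by
      intro h0
      simp [h0] at hr
    have hr0 : r ≠ 0 := by
      rintro rfl
      exact ht (h.isC.zero _ _)
    obtain ⟨u, k, x, hu, hx, rfl⟩ := exists_three_part hr0
    obtain ⟨hs, hc⟩ := twi_three hu k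
    set s := u * lam ^ k
    have hsp : ∀ p, Prime p → Prim p → ¬ p ∣ s := fun p hp h1 hps =>
      hp.not_unit ((hc p h1).isUnit_of_dvd' dvd_rfl hps)
    obtain ⟨e0, m0, he0, hm0, rfl⟩ := h.hk.supp A q hsp hx ht
    obtain ⟨d1, d2, rfl, ⟨x1, rfl⟩, ⟨m1, rfl⟩⟩ :=
      twi_split hd.2 ((hc d hd.1).dvd_of_dvd_mul_left hdr)
    have n1 : d1 ≠ 0 := left_ne_zero_of_mul hd.ne_zero
    have n2 : d2 ≠ 0 := right_ne_zero_of_mul hd.ne_zero
    have n3 : m1 ≠ 0 := right_ne_zero_of_mul hm0.ne_zero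
    refine ⟨(d2, s, x1, m1), by simp only [mul_div_cancel_right₀ d1 n2], ?_⟩
    simp only [hg, if_pos hdr, if_pos hs, if_pos (hT d2 (Dvd.intro_left d1 rfl))]
    rw [h.hk.norm_le A q hsp hx, gp_norm_th he0 hm0]
    refine le_trans ?_ (mul_le_mul_of_nonneg_left (twi_ineq he hs.ne_zero n1 n2 n3) hC)
    have := hC0 A q s
    have := N_nonneg (d1 * d2)
    have := ab_nonneg (d2 * m1)
    have := p (s * (d1 * x1 * (d2 * m1) ^ 3)) (-(1 + e))
    calc _ ≤ N (d1 * d2) * (C0 * ab s * ab (d2 * m1) *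
          N (s * (d1 * x1 * (d2 * m1) ^ 3)) ^ (-(1 + e))) := by gcongr
      _ = _ := by ring
  · rw [s7]
    have : (0 : ℝ) ≤ T.card := Nat.cast_nonneg _
    nlinarith

theorem twi_Ph_sum {ι : Type} (s : Finset ι) (c : ι → ℂ) {a : ι → Eis → ℂ} {C : ℝ}
    (ha : ∀ i r, ‖a i r‖ ≤ C * ab r) {v : ℝ} (hv : 0 < v) :
    ∑ i ∈ s, c i * Ph (a i) v = Ph (fun r => ∑ i ∈ s, c i * a i r) v := by
  simp only [Ph, ← tsum_mul_left]
  rw [← Summable.tsum_finsetSum fun i _ => (summable_Ph (ha i) hv).mul_left (c i)]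
  refine tsum_congr fun r => ?_
  rw [Finset.sum_div, Finset.sum_mul]
  exact Finset.sum_congr rfl fun i _ => by ring

theorem twi_Ph_mul (c : ℂ) (a : Eis → ℂ) (v : ℝ) : Ph (fun r => c * a r) v = c * Ph a v := by
  simp only [Ph, ← tsum_mul_left]
  exact tsum_congr fun r => by ring

theorem twi_Ph_three {a : Eis → ℂ} (ha : ∀ r, ¬ (3 : Eis) ∣ r → a r = 0) (v : ℝ) :
    Ph a (v / 3) = Ph (fun n => a (3 * n)) v / 3 := by
  have h3 : ab 3 = 3 := by
    rw [ab, gz_N_three, show (9 : ℝ) = 3 ^ 2 by norm_num, Real.sqrt_sq (by norm_num)]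
  have hi : Function.Injective (fun n : Eis => 3 * n) := mul_right_injective₀ (by decide)
  rw [Ph, Ph, ← tsum_div_const, ← hi.tsum_eq]
  · refine tsum_congr fun n => ?_
    simp only [ab_mul, h3]
    rw [show 3 * ab n * (v / 3) = ab n * v by ring]
    push_cast
    ring
  · intro r hr
    by_contra hn
    apply hr
    have : ¬ (3 : Eis) ∣ r := fun ⟨n, hn'⟩ => hn ⟨n, hn'.symm⟩
    simp [ha r this]

theorem twi_inv_sum {b s : Eis} (hb : b ≠ 0) (D : Eis → Eis)
    (hD : ∀ a, IsCoprime a b → b ∣ s * a * D a - 1) (r : Eis) :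
    ∑ a ∈ res b, cop b a * psi b (-(r * D a)) = gauss (cop b) b r := by
  have hc : ∀ a, IsCoprime a b → IsCoprime (-D a) b := fun a ha => by
    obtain ⟨k, hk⟩ := hD a ha
    exact ⟨-(s * a), -k, by linear_combination hk⟩
  have hg : ∀ {x y : Eis}, b ∣ x - y → IsCoprime x b → IsCoprime y b := by
    rintro x y ⟨k, hk⟩ ⟨u, v, huv⟩
    exact ⟨u, v + u * k, by linear_combination huv - u * hk⟩
  rw [gauss, ← sum_res_reindex hb ((per_cop b).mul (per_psi b r))
    (fun a => if IsCoprime a b then -D a else a)]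
  · refine Finset.sum_congr rfl fun a _ => ?_
    by_cases ha : IsCoprime a b
    · simp only [cop, if_pos ha, if_pos (hc a ha), mul_neg]
    · simp only [cop, if_neg ha, zero_mul]
  · intro x y hxy
    by_cases hx : IsCoprime x b <;> by_cases hy : IsCoprime y b
    · simp only [if_pos hx, if_pos hy] at hxy
      obtain ⟨k1, h1⟩ := hD x hx
      obtain ⟨k2, h2⟩ := hD y hy
      obtain ⟨k3, h3⟩ := hxy
      exact ⟨s * x * y * k3 - x * k2 + y * k1, by linear_combination y * h1 - x * h2 + s * x * y * h3⟩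
    · simp only [if_pos hx, if_neg hy] at hxy
      exact absurd (hg hxy (hc x hx)) hy
    · simp only [if_neg hx, if_pos hy] at hxy
      exact absurd (hg (dvd_sub_comm.1 hxy) (hc y hy)) hx
    · simpa only [if_neg hx, if_neg hy] using hxy

theorem twi_three_dvd {x : Eis} : (3 : Eis) ∣ x ↔ 3 ∣ x.a ∧ 3 ∣ x.b := by
  have := bs_int_dvd 3 x
  simpa using this

theorem twi_ess_congr {x y : Eis} (h : (3 : Eis) ∣ x - y) : Ess x ↔ Ess y := by
  simp only [Ess, twi_three_dvd, sub_a, sub_b, add_a, add_b, one_a, one_b] at h ⊢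
  omega

theorem twi_ess_sum : ∑ u ∈ res 3, (if Ess u then psi 3 (-u) else 0) = 3 := by
  have h3 : (3 : Eis) ≠ 0 := by decide
  have key : ∀ u : Eis, (if Ess u then psi 3 (-u) else 0) =
      cls 3 u 0 + cls 3 u 1 + cls 3 u (-1) := fun u => by
    have e : Ess u → psi 3 (-u) = 1 := by
      rintro (h | h | h)
      · exact psi_of_dvd (dvd_neg.2 h)
      · rw [← psi_three_cube (-1)]
        exact psi_congr (by rw [show -u - (-1) ^ 3 = -(u - 1) by ring]; exact dvd_neg.2 h)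
      · rw [← psi_three_cube 1]
        exact psi_congr (by rw [show -u - 1 ^ 3 = -(u + 1) by ring]; exact dvd_neg.2 h)
    by_cases hE : Ess u
    · rw [if_pos hE, e hE]
      simp only [Ess, cls, twi_three_dvd, sub_a, sub_b, add_a, add_b, one_a, one_b, zero_a, zero_b,
        neg_a, neg_b] at hE ⊢
      split_ifs <;> first | (exfalso; omega) | norm_num
    · rw [if_neg hE]
      simp only [Ess, cls, twi_three_dvd, sub_a, sub_b, add_a, add_b, one_a, one_b, zero_a, zero_b,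
        neg_a, neg_b] at hE ⊢
      split_ifs <;> first | (exfalso; omega) | norm_num
  simp only [key, Finset.sum_add_distrib, sum_cls h3]
  norm_num

end Vale.Agent.P006
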