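import Vale.Agent.P006.Inv
import Vale.Agent.P006.V3
import Vale.Agent.P006.TwistA

/-! The Voronoi formula for the twisted theta coefficients. -/

namespace Vale.Agent.P006

open Vale.Agent.P026 Eis Complex MeasureTheory Filter Topology
open scoped Classical ComplexConjugate

theorem twi_cop_congr {b x y : Eis} (h : b ∣ x - y) : cop b x = cop b y := (per_cop b).congr h

theorem twi_cop_three {b : Eis} (hb : Prim b) (i a : Eis) : cop b (b * i + 3 * a) = cop b a := by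
  rw [twi_cop_congr (y := 3 * a) ⟨i, by ring⟩]
  unfold cop
  rw [IsCoprime.mul_left_iff]
  simp [hb.coprime_three.symm]

theorem twi_crt3 {b : Eis} (hb : Prim b) (i a : Eis) : (3 : Eis) ∣ -(b * i + 3 * a) - -i := by
  obtain ⟨k, hk⟩ := hb
  exact ⟨-(k * i) - a, by linear_combination -i * hk⟩

theorem twi_coef {b : Eis} (hb : PS b) (A : Eis) :
    gauss (fun x => (if Prim x then 1 else 0) * cub x b) (3 * b) (-A) / (N (3 * b) : ℂ) =
      G b / (9 * (ab b : ℂ)) * psi 3 (-A) * conj (cub A b) := by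
  have hl := hb.1.not_lam_dvd
  have ha : (ab b : ℂ) ≠ 0 := by exact_mod_cast (ab_pos hb.ne_zero).ne'
  rw [gauss_prim hb.1 (Per.of_congr fun x y h => cub_congr h)]
  have : gauss (fun x => cub (3 * x) b) b (-A) = cub 3 b * gauss (fun x => cub x b) b (-A) := by
    simp only [gauss, cub_mul_left _ _ hl, Finset.mul_sum, mul_assoc]
  rw [this, gauss_cub' hb, cub_neg_left _ hl, G, if_pos hb, N_mul, gz_N_three, ← ab_sq]
  push_cast
  field_simp

theorem twi_main {b : Eis} (hb : PS b) :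
    ∑ A ∈ res (3 * b), psi 3 (-A) * cop b A * (if Ess A then 1 else 0) =
      ((3 * (N b * phi b) : ℝ) : ℂ) := by
  have h3 : (3 : Eis) ≠ 0 := by decide
  rw [sum_res_crt h3 hb.ne_zero hb.1.coprime_three.symm (Per.of_congr fun x y h => by
    rw [psi_congr (y := -y) (by
      rw [show -x - -y = -(x - y) by ring]; exact dvd_neg.2 ((dvd_mul_right _ _).trans h)),
      twi_cop_congr ((dvd_mul_left _ _).trans h), twi_ess_congr ((dvd_mul_right _ _).trans h)])]
  have : ∀ u v : Eis, psi 3 (-(b * u + 3 * v)) * cop b (b * u + 3 * v) *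
      (if Ess (b * u + 3 * v) then 1 else 0) =
      (if Ess u then psi 3 (-u) else 0) * (cop b v * psi b (0 * v)) := fun u v => by
    have h := twi_crt3 hb.1 u v
    rw [psi_congr h, twi_cop_three hb.1, twi_ess_congr (y := u) (by
      rw [← dvd_neg, show -(b * u + 3 * v - u) = -(b * u + 3 * v) - -u by ring]; exact h)]
    split_ifs <;> simp
  simp only [this, ← Finset.mul_sum, ← Finset.sum_mul, twi_ess_sum]
  rw [← gauss, gauss_cop_zero hb.1]
  push_cast
  ring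

theorem twi_dual {θ : HF → ℂ} {tau : Eis → Eis → Eis → ℂ} (h : TH θ tau) {b : Eis} (hb : PS b)
    (D : Eis → Eis) (hp : ∀ x y, b ∣ x - y → D x = D y)
    (hD : ∀ a, IsCoprime a b → b ∣ a * (9 * D a) - 1) (r : Eis) :
    ∑ A ∈ res (3 * b), G b / (9 * (ab b : ℂ)) * psi 3 (-A) * cop b A *
      (tau 1 (-A) r * psi (9 * b) (-(r * (9 * D A)))) = yraw tau b r := by
  have h3 : (3 : Eis) ≠ 0 := by decide
  have h9 : (9 : Eis) ≠ 0 := by decide
  rw [sum_res_crt h3 hb.ne_zero hb.1.coprime_three.symm (Per.of_congr fun x y hxy => by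
    have h1 : (3 : Eis) ∣ -x - -y := by
      rw [show -x - -y = -(x - y) by ring]; exact dvd_neg.2 ((dvd_mul_right _ _).trans hxy)
    rw [psi_congr h1, twi_cop_congr ((dvd_mul_left _ _).trans hxy),
      hp x y ((dvd_mul_left _ _).trans hxy), h.isC.congr 1 (-x) 1 (-y) (by simp) h1])]
  have : ∀ u v : Eis, G b / (9 * (ab b : ℂ)) * psi 3 (-(b * u + 3 * v)) * cop b (b * u + 3 * v) *
      (tau 1 (-(b * u + 3 * v)) r * psi (9 * b) (-(r * (9 * D (b * u + 3 * v))))) =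
      (psi 3 (-u) * tau 1 (-u) r) * (G b / (9 * (ab b : ℂ)) *
        (cop b v * psi b (-(r * D (3 * v))))) := fun u v => by
    have h1 := twi_crt3 hb.1 u v
    rw [psi_congr h1, twi_cop_three hb.1, h.isC.congr 1 _ 1 (-u) (by simp) h1,
      hp (b * u + 3 * v) (3 * v) ⟨u, by ring⟩, mul_comm 9 b,
      show -(r * (9 * D (3 * v))) = 9 * -(r * D (3 * v)) by ring, psi_mul_left h9]
    ring
  simp only [this, ← Finset.mul_sum, ← Finset.sum_mul]
  rw [twi_inv_sum (s := 27) hb.ne_zero (fun v => D (3 * v)) fun a ha => by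
    have := hD (3 * a) (hb.1.coprime_three.symm.mul_left ha)
    rwa [show 3 * a * (9 * D (3 * a)) = 27 * a * D (3 * a) by ring] at this]
  rw [yraw]
  ring

theorem twi_inverse {b : Eis} (hb : Prim b) : ∃ D : Eis → Eis, (∀ x y, b ∣ x - y → D x = D y) ∧
    ∀ a, IsCoprime a b → b ∣ a * (9 * D a) - 1 := by
  have : ∀ a : Eis, ∃ d, IsCoprime a b → b ∣ a * (9 * d) - 1 := fun a => by
    by_cases ha : IsCoprime a b
    · have h9 : IsCoprime (9 : Eis) b := by
        rw [show (9 : Eis) = 3 ^ 2 by norm_num]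
        exact hb.coprime_three.symm.pow_left
      obtain ⟨u, v, huv⟩ := ha.mul_left h9
      exact ⟨u, fun _ => ⟨-v, by linear_combination huv⟩⟩
    · exact ⟨0, fun h => absurd h ha⟩
  choose D hD using this
  refine ⟨fun a => D (a % b), fun x y h => by simp only [mod_eq_of_dvd_sub h], fun a ha => ?_⟩
  obtain ⟨k, hk⟩ := dvd_sub_mod b a
  obtain ⟨u, v, huv⟩ := ha
  obtain ⟨l, hl⟩ := hD (a % b) ⟨u, v + u * k, by linear_combination huv - u * hk⟩
  exact ⟨l + k * (9 * D (a % b)), by linear_combination hl + 9 * D (a % b) * hk⟩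

theorem twi_real {b : Eis} (hb : b ≠ 0) {v : ℝ} (hv : 0 < v) :
    1 / (9 * ab b) * (3 * (N b * phi b)) * (sg0 * (1 / (N b * (v / 3))) ^ (2 / 3 : ℝ)) =
      sg0 * 3 ^ (-(1 / 3) : ℝ) * phi b * N b ^ (-(1 / 6) : ℝ) * v ^ (-(2 / 3) : ℝ) := by
  have hN := N_pos hb
  have e1 : (1 / (N b * (v / 3))) ^ (2 / 3 : ℝ) =
      3 ^ (2 / 3 : ℝ) * N b ^ (-(2 / 3) : ℝ) * v ^ (-(2 / 3) : ℝ) := by
    rw [show 1 / (N b * (v / 3)) = 3 * (N b)⁻¹ * v⁻¹ by field_simp,
      Real.mul_rpow (by positivity) (by positivity), Real.mul_rpow (by positivity) (by positivity),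
      Real.inv_rpow hN.le, Real.inv_rpow hv.le, Real.rpow_neg hN.le, Real.rpow_neg hv.le]
  have e2 : (3 : ℝ) ^ (2 / 3 : ℝ) = 3 * 3 ^ (-(1 / 3) : ℝ) := by
    rw [show (2 / 3 : ℝ) = 1 + -(1 / 3) by norm_num, Real.rpow_add (by norm_num), Real.rpow_one]
  have e3 : N b * N b ^ (-(2 / 3) : ℝ) = ab b * N b ^ (-(1 / 6) : ℝ) := by
    rw [twi_ab, ← Real.rpow_add hN, ← Real.rpow_one_add' hN.le (by norm_num)]
    norm_num
  have ha := (ab_pos hb).ne'
  rw [e1, e2]
  calc _ = 1 / (9 * ab b) * 9 * (N b * N b ^ (-(2 / 3) : ℝ)) *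
        (sg0 * 3 ^ (-(1 / 3) : ℝ) * phi b * v ^ (-(2 / 3) : ℝ)) := by ring
    _ = _ := by rw [e3]; field_simp

/-- Fourier inversion modulo 3 b, and the inversion formula at every cusp A / b. -/
theorem twist_raw {θ : HF → ℂ} {tau : Eis → Eis → Eis → ℂ} (h : TH θ tau) {b : Eis} (hb : PS b)
    {v : ℝ} (hv : 0 < v) :
    tau 0 1 3 / 3 * Ph (fun a => th a * cub a b) v =
      ((sg0 * 3 ^ (-(1 / 3) : ℝ) * phi b * N b ^ (-(1 / 6) : ℝ) * v ^ (-(2 / 3) : ℝ) : ℝ) : ℂ) * G b +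
        Ph (yraw tau b) (1 / (N b / 3 * v)) := by
  have h3 : (3 : Eis) ≠ 0 := by decide
  have hN := N_pos hb.ne_zero
  obtain ⟨C0, hC0⟩ := h.isC.bound
  obtain ⟨D, hp, hD⟩ := twi_inverse hb.1
  set K := G b / (9 * (ab b : ℂ)) with hK
  set c : Eis → ℂ := fun A => K * psi 3 (-A) * conj (cub A b) with hc
  have hF : ∀ n, (if Prim n then 1 else 0) * cub n b =
      ∑ A ∈ res (3 * b), c A * psi (3 * b) (n * A) := fun n => by
    have := fourier_inv (mul_ne_zero h3 hb.ne_zero)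
      (F := fun x => (if Prim x then 1 else 0) * cub x b) (Per.of_congr fun x y hxy => by
        have h1 : (3 : Eis) ∣ x - y := (dvd_mul_right _ _).trans hxy
        rw [cub_congr ((dvd_mul_left _ _).trans hxy), show Prim x ↔ Prim y from
          ⟨fun hx => hx.of_dvd_sub (dvd_sub_comm.1 h1), fun hy => hy.of_dvd_sub h1⟩]) n
    simpa only [twi_coef hb] using this
  have h0 : ∑ A ∈ res (3 * b), c A = 0 := by
    have := hF 0
    simpa [gz_not_prim] using this.symm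
  have hw : N b * (v / 3) = N b / 3 * v := by ring
  have key : ∀ A, c A * (((sg0 * (v / 3) ^ (2 / 3 : ℝ) : ℝ) : ℂ) +
      Ph (fun r => tau 0 1 r * psi (9 * b) (r * A)) (v / 3)) =
      K * (psi 3 (-A) * cop b A * (if Ess A then 1 else 0)) *
        ((sg0 * (1 / (N b * (v / 3))) ^ (2 / 3 : ℝ) : ℝ) : ℂ) + K * psi 3 (-A) * cop b A *
        Ph (fun r => tau 1 (-A) r * psi (9 * b) (-(r * (9 * D A)))) (1 / (N b / 3 * v)) := fun A => by
    by_cases hA : IsCoprime A b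
    · rw [inv h hb.1 (dvd_mul_right 9 (D A)) (hD A hA) (by positivity), ← cub_mul_conj hb.ne_zero,
        ← hw]
      simp only [hc]
      split_ifs <;> ring
    · simp [hc, cop, hA, (cub_eq_zero hb.ne_zero).2 hA]
  have hs := Finset.sum_congr (s₁ := res (3 * b)) rfl fun A _ => key A
  simp only [mul_add, Finset.sum_add_distrib, ← Finset.sum_mul, ← Finset.mul_sum, h0, zero_mul,
    zero_add, twi_main hb] at hs
  rw [twi_Ph_sum (C := C0) _ _ (fun A r => by simpa [norm_psi] using hC0 0 1 r) (by positivity),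
    twi_Ph_sum (C := C0) _ _ (fun A r => by simpa [norm_psi] using hC0 1 (-A) r) (by positivity),
    twi_Ph_three (fun r hr => by simp [h.supp_inf hr])] at hs
  simp only [hK, twi_dual h hb D hp hD] at hs
  rw [← twi_real hb.ne_zero hv]
  have e : (fun n => ∑ A ∈ res (3 * b), c A * (tau 0 1 (3 * n) * psi (9 * b) (3 * n * A))) =
      fun n => tau 0 1 3 * (th n * cub n b) := by
    funext n
    have : ∀ A, c A * (tau 0 1 (3 * n) * psi (9 * b) (3 * n * A)) =
        tau 0 1 (3 * n) * (c A * psi (3 * b) (n * A)) := fun A => by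
      rw [show 9 * b = 3 * b * 3 by ring, mul_assoc 3 n, psi_mul_left h3]
      ring
    simp only [this, ← Finset.mul_sum, ← hF]
    by_cases hn : Prim n
    · rw [if_pos hn, h.hk.three _ _ hn]
      ring
    · simp [hn, th_of_not hn]
  rw [e, twi_Ph_mul] at hs
  push_cast at hs ⊢
  linear_combination hs

theorem yraw_zero {θ : HF → ℂ} {tau : Eis → Eis → Eis → ℂ} (h : TH θ tau) (b : Eis) :
    yraw tau b 0 = 0 := by
  simp [yraw, h.isC.zero]

theorem twi_norm_yraw (tau : Eis → Eis → Eis → ℂ) {b : Eis} (hb : PS b) (r : Eis) :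
    ‖yraw tau b r‖ ≤ (9 * ab b)⁻¹ * (∑ d ∈ dv b, if d ∣ r then N d else 0) *
      ∑ i ∈ res 3, ‖tau 1 (-i) r‖ := by
  have ha := ab_pos hb.ne_zero
  rw [yraw, norm_mul, norm_mul, norm_div, norm_G hb, norm_mul, norm_real, Real.norm_of_nonneg ha.le,
    one_div, show ‖(9 : ℂ)‖ = 9 by simp]
  gcongr
  · exact mul_nonneg (by positivity) ((norm_nonneg _).trans (norm_gauss_cop_le hb r))
  · exact norm_gauss_cop_le hb r
  · exact (norm_sum_le _ _).trans (Finset.sum_le_sum fun i _ => by simp [norm_psi])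

theorem yraw_bd {θ : HF → ℂ} {tau : Eis → Eis → Eis → ℂ} (h : TH θ tau) {b : Eis} (hb : PS b) :
    ∃ Cb : ℝ, ∀ r, ‖yraw tau b r‖ ≤ Cb * ab r := by
  obtain ⟨C0, hC0⟩ := h.isC.bound
  have ha := ab_pos hb.ne_zero
  refine ⟨(9 * ab b)⁻¹ * (∑ d ∈ dv b, N d) * ∑ i ∈ res 3, C0, fun r => ?_⟩
  refine (twi_norm_yraw tau hb r).trans ?_
  rw [mul_assoc _ _ (ab r), Finset.sum_mul _ _ (ab r)]
  gcongr with d _ i _
  · exact mul_nonneg (by positivity) (Finset.sum_nonneg fun d _ => N_nonneg d)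
  · split_ifs; exacts [le_rfl, N_nonneg d]
  · exact hC0 _ _ _

theorem yraw_sum {θ : HF → ℂ} {tau : Eis → Eis → Eis → ℂ} (h : TH θ tau) {e : ℝ} (he : 0 < e) :
    ∃ C : ℝ, 0 < C ∧ ∀ b, PS b → Summable (fun r => ‖yraw tau b r‖ * N r ^ (-(1 + e))) ∧
      ∑' r, ‖yraw tau b r‖ * N r ^ (-(1 + e)) ≤ C * N b ^ (e - 1 / 2) := by
  obtain ⟨C1, hC1, H1⟩ := twi_dvd_sum h he
  obtain ⟨C2, hC2, H2⟩ := card_dvd_le (e := e / 2) (by positivity)
  obtain ⟨C3, hC3, H3⟩ := card_dv_le (e := e / 2) (by positivity)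
  refine ⟨C1 * C2 * C3, by positivity, fun b hb => ?_⟩
  have ha := ab_pos hb.ne_zero
  have hN := N_pos hb.ne_zero
  have p : ∀ (y : Eis) (a : ℝ), 0 ≤ N y ^ a := fun y a => Real.rpow_nonneg (N_nonneg y) a
  have key : ∀ S : Finset Eis, ∑ r ∈ S, ‖yraw tau b r‖ * N r ^ (-(1 + e)) ≤
      C1 * C2 * C3 * N b ^ (e - 1 / 2) := fun S => by
    calc _ ≤ ∑ r ∈ S, (9 * ab b)⁻¹ * ∑ i ∈ res 3, ∑ d ∈ dv b,
            (if d ∣ r then N d else 0) * (‖tau 1 (-i) r‖ * N r ^ (-(1 + e))) :=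
          Finset.sum_le_sum fun r _ => by
            refine (mul_le_mul_of_nonneg_right (twi_norm_yraw tau hb r) (p _ _)).trans_eq ?_
            simp only [← Finset.sum_mul, ← Finset.mul_sum]
            ring
      _ = (9 * ab b)⁻¹ * ∑ i ∈ res 3, ∑ d ∈ dv b, ∑ r ∈ S,
            (if d ∣ r then N d else 0) * (‖tau 1 (-i) r‖ * N r ^ (-(1 + e))) := by
          rw [← Finset.mul_sum, Finset.sum_comm]
          exact congrArg _ (Finset.sum_congr rfl fun i _ => Finset.sum_comm)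
      _ ≤ (9 * ab b)⁻¹ * ∑ i ∈ res 3, ∑ d ∈ dv b, C1 * (C2 * N b ^ (e / 2)) := by
          gcongr with i _ d hd
          have hd := (mem_dv hb.ne_zero).1 hd
          refine (H1 1 (-i) d hd.1 ((ball (N b)).filter (· ∣ b)) (fun x hx => ?_) S).trans ?_
          · exact Finset.mem_filter.2 ⟨bas_mem hb.ne_zero (hx.trans hd.2), hx.trans hd.2⟩
          · gcongr
            exact H2 b hb.ne_zero
      _ = (ab b)⁻¹ * ((dv b).card * (C1 * (C2 * N b ^ (e / 2)))) := by
          simp only [Finset.sum_const, nsmul_eq_mul]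
          rw [card_res (by decide), gz_N_three]
          field_simp
      _ ≤ (ab b)⁻¹ * ((C3 * N b ^ (e / 2)) * (C1 * (C2 * N b ^ (e / 2)))) := by
          gcongr
          exact H3 b hb.ne_zero
      _ = _ := by
          rw [twi_ab, ← Real.rpow_neg hN.le, show e - 1 / 2 = -(1 / 2) + (e / 2 + e / 2) by ring,
            Real.rpow_add hN, Real.rpow_add hN]
          ring
  have n0 : ∀ r, 0 ≤ ‖yraw tau b r‖ * N r ^ (-(1 + e)) := fun r => mul_nonneg (norm_nonneg _) (p _ _)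
  exact ⟨summable_of_sum_le n0 key, Real.tsum_le_of_sum_le n0 key⟩

theorem twi_Ph_le {a : Eis → ℂ} {C : ℝ} (ha : ∀ r, ‖a r‖ ≤ C * ab r) :
    ∃ B : ℝ, 0 < B ∧ ∀ w, 0 < w → ‖Ph a w‖ ≤ B / w ^ 4 := by
  obtain ⟨K, hK, H⟩ := kap_le 4
  have hC : 0 ≤ C := by
    have := (norm_nonneg _).trans (ha 1)
    simpa [ab] using this
  have s2 := summable_N_rpow (s := 2) (by norm_num)
  have t0 : 0 ≤ ∑' c : Eis, N c ^ (-(2 : ℝ)) := tsum_nonneg fun c => Real.rpow_nonneg (N_nonneg c) _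
  refine ⟨C * K * ∑' c : Eis, N c ^ (-(2 : ℝ)) + 1, by positivity, fun w hw => ?_⟩
  refine (tsum_of_norm_bounded (s2.hasSum.mul_left (C * K / w ^ 4)) fun r => ?_).trans ?_
  · by_cases hr : r = 0
    · simp [hr, ab]
    have h1 := ab_pos hr
    have h2 := N_pos hr
    rw [norm_mul, norm_div, norm_real, norm_real, Real.norm_of_nonneg h1.le,
      Real.norm_of_nonneg (kap_nonneg (by positivity))]
    calc _ ≤ C * ab r / ab r * (K / (ab r * w) ^ 4) := by
          gcongr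
          · exact kap_nonneg (by positivity)
          · exact ha r
          · exact H _ (by positivity)
      _ = _ := by
          rw [Real.rpow_neg h2.le, Real.rpow_two, ← ab_sq]
          field_simp
  · rw [div_mul_eq_mul_div]
    gcongr
    linarith

theorem tau_three_ne {θ : HF → ℂ} {tau : Eis → Eis → Eis → ℂ} (h : TH θ tau) : tau 0 1 3 ≠ 0 := by
  intro h0
  obtain ⟨C, hC⟩ := yraw_bd h PS.one
  obtain ⟨B, hB, H⟩ := twi_Ph_le hC
  have hs := sg0_pos
  set a : ℝ := sg0 * 3 ^ (-(1 / 3) : ℝ) with ha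
  have a0 : 0 < a := by positivity
  set v : ℝ := min 1 (a / B) with hv
  have v0 : 0 < v := lt_min one_pos (by positivity)
  have v1 : v ≤ 1 := min_le_left _ _
  have v2 : B * v ≤ a := by
    rw [mul_comm, ← le_div_iff₀ hB]
    exact min_le_right _ _
  have e := twist_raw h PS.one v0
  rw [h0, zero_div, zero_mul, phi_one, N_one, G_one, Real.one_rpow, mul_one, mul_one, mul_one,
    eq_comm, add_eq_zero_iff_eq_neg] at e
  have e1 := congrArg norm e
  rw [norm_neg, norm_real, Real.norm_of_nonneg (by positivity), ← ha] at e1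
  have e2 := H (1 / (1 / 3 * v)) (by positivity)
  rw [← e1, show B / (1 / (1 / 3 * v)) ^ 4 = B * v * (v ^ 3 / 81) by field_simp; norm_num] at e2
  have e3 : 1 ≤ v ^ (-(2 / 3) : ℝ) := Real.one_le_rpow_of_pos_of_le_one_of_nonpos v0 v1 (by norm_num)
  have e4 : v ^ 3 ≤ 1 := pow_le_one₀ v0.le v1
  have e5 : B * v * (v ^ 3 / 81) ≤ a * (1 / 81) := by gcongr
  nlinarith

theorem tp_of {θ : HF → ℂ} {tau : Eis → Eis → Eis → ℂ} (h : TH θ tau) {c : ℂ}
    (hc : c * tau 0 1 3 * ((c0 ^ (-(1 / 3) : ℝ) * Real.Gamma (2 / 3) : ℝ) : ℂ) =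
      ((3 ^ (2 / 3 : ℝ) * sg0 : ℝ) : ℂ)) : TP c := by
  have ht := tau_three_ne h
  refine ⟨fun b r => 3 / tau 0 1 3 * yraw tau b r, fun b => by simp [yraw_zero h], fun b hb => ?_,
    fun e he => ?_, fun b hb v hv => ?_⟩
  · obtain ⟨C, hC⟩ := yraw_bd h hb
    refine ⟨‖3 / tau 0 1 3‖ * C, fun r => ?_⟩
    rw [norm_mul, mul_assoc]
    gcongr
    exact hC r
  · obtain ⟨C, hC, H⟩ := yraw_sum h he
    have h3 : 0 < ‖3 / tau 0 1 3‖ := norm_pos_iff.2 (div_ne_zero (by norm_num) ht)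
    refine ⟨‖3 / tau 0 1 3‖ * C, by positivity, fun b hb => ?_⟩
    simp only [norm_mul, mul_assoc, tsum_mul_left]
    exact ⟨(H b hb).1.mul_left _, mul_le_mul_of_nonneg_left (H b hb).2 h3.le⟩
  · have e := twist_raw h hb hv
    have e2 : (3 : ℝ) ^ (2 / 3 : ℝ) = 3 * 3 ^ (-(1 / 3) : ℝ) := by
      rw [show (2 / 3 : ℝ) = 1 + -(1 / 3) by norm_num, Real.rpow_add (by norm_num), Real.rpow_one]
    rw [e2] at hc
    rw [twi_Ph_mul, mainC]
    push_cast at e hc ⊢
    generalize Ph (fun a => th a * cub a b) v = X at e ⊢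
    generalize Ph (yraw tau b) (1 / (N b / 3 * v)) = Y at e ⊢
    field_simp
    linear_combination 3 * e - ((phi b : ℂ) * ((N b ^ (-(1 / 6) : ℝ) : ℝ) : ℂ) *
      ((v ^ (-(2 / 3) : ℝ) : ℝ) : ℂ) * G b) * hc

end Vale.Agent.P006
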